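import Crest.Agent.R12.Defs

/-!
# Row 12: the ring of arithmetic functions on the primary elements (definitions)

DO NOT change a definition of this file.
-/

set_option autoImplicit false

noncomputable section

namespace Crest.Agent.R12

open Crest.Agent.R17
open scoped ComplexConjugate

/-- Arithmetic functions supported on the primary elements. -/
@[ext] structure AF where
  toFun : O → ℂ
  off : ∀ n, ¬ Primary n → toFun n = 0

namespace AF

instance : CoeFun AF (fun _ => O → ℂ) := ⟨AF.toFun⟩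

theorem ext' {f g : AF} (h : ∀ n, Primary n → f n = g n) : f = g := by
  ext n
  by_cases hn : Primary n
  · exact h n hn
  · rw [f.off n hn, g.off n hn]

theorem coe_injective : Function.Injective AF.toFun := fun _ _ h => AF.ext h

instance : Zero AF := ⟨⟨0, fun _ _ => rfl⟩⟩
instance : Add AF := ⟨fun f g => ⟨f.toFun + g.toFun, fun n h => by simp [f.off n h, g.off n h]⟩⟩
instance : Neg AF := ⟨fun f => ⟨-f.toFun, fun n h => by simp [f.off n h]⟩⟩
instance : Sub AF := ⟨fun f g => ⟨f.toFun - g.toFun, fun n h => by simp [f.off n h, g.off n h]⟩⟩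
instance : SMul ℕ AF := ⟨fun c f => ⟨c • f.toFun, fun n h => by simp [f.off n h]⟩⟩
instance : SMul ℤ AF := ⟨fun c f => ⟨c • f.toFun, fun n h => by simp [f.off n h]⟩⟩
instance : SMul ℂ AF := ⟨fun c f => ⟨c • f.toFun, fun n h => by simp [f.off n h]⟩⟩

instance : AddCommGroup AF :=
  coe_injective.addCommGroup _ rfl (fun _ _ => rfl) (fun _ => rfl) (fun _ _ => rfl)
    (fun _ _ => rfl) (fun _ _ => rfl)

@[simp] theorem zero_apply (n : O) : (0 : AF) n = 0 := rfl
@[simp] theorem add_apply (f g : AF) (n : O) : (f + g) n = f n + g n := rfl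
@[simp] theorem neg_apply (f : AF) (n : O) : (-f) n = -f n := rfl
@[simp] theorem sub_apply (f g : AF) (n : O) : (f - g) n = f n - g n := rfl
@[simp] theorem smul_apply (c : ℂ) (f : AF) (n : O) : (c • f) n = c * f n := rfl

/-- The coercion as an additive map. -/
def coeAdd : AF →+ (O → ℂ) where
  toFun := AF.toFun
  map_zero' := rfl
  map_add' _ _ := rfl

instance : Module ℂ AF := coe_injective.module ℂ coeAdd (fun _ _ => rfl)

theorem sum_apply {ι : Type*} (s : Finset ι) (f : ι → AF) (n : O) :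
    (∑ i ∈ s, f i) n = ∑ i ∈ s, f i n := by
  have h := map_sum coeAdd f s
  have h2 := congrFun h n
  rw [Finset.sum_apply] at h2
  exact h2

theorem primary_div {n d : O} (hn : Primary n) (hd : d ∈ pdiv n) :
    Primary d ∧ Primary (n / d) ∧ d * (n / d) = n := by
  obtain ⟨h1, h2⟩ := (mem_pdiv hn.ne_zero).1 hd
  have h3 : d * (n / d) = n := EuclideanDomain.mul_div_cancel' h1.ne_zero h2
  exact ⟨h1, h1.of_mul (h3.symm ▸ hn), h3⟩

open Classical in
instance : One AF := ⟨⟨fun n => if n = 1 then 1 else 0, fun n h => by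
  have : n ≠ 1 := fun e => h (e ▸ primary_one)
  simp [this]⟩⟩

instance : Mul AF := ⟨fun f g => ⟨fun n => ∑ d ∈ pdiv n, f d * g (n / d), fun n h => by
  refine Finset.sum_eq_zero fun d hd => ?_
  by_cases hn : n = 0
  · subst hn
    rw [g.off (0 / d) (by rw [EuclideanDomain.zero_div]; exact h), mul_zero]
  · obtain ⟨h1, h2⟩ := (mem_pdiv hn).1 hd
    have h3 : d * (n / d) = n := EuclideanDomain.mul_div_cancel' h1.ne_zero h2
    rw [g.off (n / d) (fun h4 => h (h3 ▸ h1.mul h4)), mul_zero]⟩⟩

open Classical in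
theorem one_apply (n : O) : (1 : AF) n = if n = 1 then 1 else 0 := rfl

theorem mul_apply (f g : AF) (n : O) : (f * g) n = ∑ d ∈ pdiv n, f d * g (n / d) := rfl

theorem div_mem {n d : O} (hn : Primary n) (hd : d ∈ pdiv n) : n / d ∈ pdiv n := by
  obtain ⟨-, h2, h3⟩ := primary_div hn hd
  exact (mem_pdiv hn.ne_zero).2 ⟨h2, Dvd.intro_left d h3⟩

theorem div_div {n d : O} (hn : Primary n) (hd : d ∈ pdiv n) : n / (n / d) = d := by
  obtain ⟨-, h2, h3⟩ := primary_div hn hd
  refine (EuclideanDomain.eq_div_of_mul_eq_right h2.ne_zero ?_).symm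
  rw [mul_comm, h3]

theorem mul_comm' (f g : AF) : f * g = g * f := by
  refine ext' fun n hn => ?_
  rw [mul_apply, mul_apply]
  refine Finset.sum_nbij' (fun d => n / d) (fun d => n / d) (fun d hd => div_mem hn hd)
    (fun d hd => div_mem hn hd) (fun d hd => div_div hn hd) (fun d hd => div_div hn hd)
    fun d hd => ?_
  rw [div_div hn hd, mul_comm]

theorem one_mul' (f : AF) : 1 * f = f := by
  classical
  refine ext' fun n hn => ?_
  rw [mul_apply, Finset.sum_eq_single 1]
  · simp [one_apply]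
  · intro d _ hd; simp [one_apply, hd]
  · intro h; exact absurd ((mem_pdiv hn.ne_zero).2 ⟨primary_one, one_dvd _⟩) h

theorem mul_assoc' (f g h : AF) : f * g * h = f * (g * h) := by
  refine ext' fun n hn => ?_
  simp only [mul_apply, Finset.sum_mul, Finset.mul_sum]
  rw [Finset.sum_sigma', Finset.sum_sigma']
  refine Finset.sum_bij' (fun x _ => ⟨x.2, x.1 / x.2⟩) (fun y _ => ⟨y.1 * y.2, y.1⟩) ?_ ?_ ?_ ?_ ?_
  · rintro ⟨d, e⟩ hx
    simp only [Finset.mem_sigma] at hx ⊢
    obtain ⟨d1, d2, d3⟩ := primary_div hn hx.1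
    obtain ⟨e1, e2, e3⟩ := primary_div d1 hx.2
    have h1 : e * (d / e * (n / d)) = n := by rw [← mul_assoc, e3, d3]
    have h2 : e ∈ pdiv n := (mem_pdiv hn.ne_zero).2 ⟨e1, Dvd.intro _ h1⟩
    have h3 : n / e = d / e * (n / d) :=
      (EuclideanDomain.eq_div_of_mul_eq_right e1.ne_zero h1).symm
    refine ⟨h2, (mem_pdiv (primary_div hn h2).2.1.ne_zero).2 ⟨e2, h3 ▸ Dvd.intro _ rfl⟩⟩
  · rintro ⟨e, c⟩ hy
    simp only [Finset.mem_sigma] at hy ⊢
    obtain ⟨e1, e2, e3⟩ := primary_div hn hy.1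
    obtain ⟨c1, c2, c3⟩ := primary_div e2 hy.2
    have h1 : e * c * (n / e / c) = n := by rw [mul_assoc, c3, e3]
    exact ⟨(mem_pdiv hn.ne_zero).2 ⟨e1.mul c1, Dvd.intro _ h1⟩,
      (mem_pdiv (e1.mul c1).ne_zero).2 ⟨e1, Dvd.intro _ rfl⟩⟩
  · rintro ⟨d, e⟩ hx
    simp only [Finset.mem_sigma] at hx
    obtain ⟨d1, -, -⟩ := primary_div hn hx.1
    obtain ⟨-, -, e3⟩ := primary_div d1 hx.2
    simp only [e3]
  · rintro ⟨e, c⟩ hy
    simp only [Finset.mem_sigma] at hy
    obtain ⟨e1, -, -⟩ := primary_div hn hy.1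
    simp only [mul_div_cancel_left₀ _ e1.ne_zero]
  · rintro ⟨d, e⟩ hx
    simp only [Finset.mem_sigma] at hx
    obtain ⟨d1, d2, d3⟩ := primary_div hn hx.1
    obtain ⟨e1, e2, e3⟩ := primary_div d1 hx.2
    have h1 : e * (d / e * (n / d)) = n := by rw [← mul_assoc, e3, d3]
    have h3 : n / e = d / e * (n / d) :=
      (EuclideanDomain.eq_div_of_mul_eq_right e1.ne_zero h1).symm
    have h4 : n / e / (d / e) = n / d := by rw [h3, mul_div_cancel_left₀ _ e2.ne_zero]
    simp only [h4, mul_assoc]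

theorem mul_add' (f g h : AF) : f * (g + h) = f * g + f * h := by
  ext n
  simp only [mul_apply, add_apply, mul_add, Finset.sum_add_distrib]

instance : CommRing AF :=
  { (inferInstance : AddCommGroup AF), (inferInstance : Mul AF), (inferInstance : One AF) with
    mul_assoc := mul_assoc'
    mul_comm := mul_comm'
    one_mul := one_mul'
    mul_one := fun f => by rw [mul_comm', one_mul']
    zero_mul := fun f => by ext n; simp [mul_apply]
    mul_zero := fun f => by ext n; simp [mul_apply]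
    left_distrib := mul_add'
    right_distrib := fun f g h => by rw [mul_comm', mul_add', mul_comm' h, mul_comm' h] }

instance : Algebra ℂ AF := Algebra.ofModule
  (fun c f g => by ext n; simp [mul_apply, Finset.mul_sum, mul_assoc])
  (fun c f g => by ext n; simp [mul_apply, Finset.mul_sum, mul_left_comm])

open Classical in
/-- Restriction of a function to the primary elements. -/
def of (f : O → ℂ) : AF := ⟨fun n => if Primary n then f n else 0, fun n h => by simp [h]⟩

/-- Pointwise multiplication. -/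
def pm (f : AF) (φ : O → ℂ) : AF := ⟨fun n => f n * φ n, fun n h => by simp [f.off n h]⟩

/-- The derivation `f ↦ f log N`. -/
def D (f : AF) : AF := f.pm fun n => (Real.log (nr n) : ℂ)

theorem of_apply (f : O → ℂ) {n : O} (hn : Primary n) : of f n = f n := by simp [of, hn]
@[simp] theorem pm_apply (f : AF) (φ : O → ℂ) (n : O) : f.pm φ n = f n * φ n := rfl
@[simp] theorem D_apply (f : AF) (n : O) : f.D n = f n * (Real.log (nr n) : ℂ) := rfl

end AF

open Classical in
/-- The indicator function of the `w`-rough primary elements (`zt 0` = all primary elements). -/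
def zt (w : ℝ) : AF := AF.of fun n => if Rough w n then 1 else 0

/-- The Möbius function on the `w`-rough primary elements. -/
def muw (w : ℝ) : AF := (zt w).pm mu

open Classical in
/-- Restriction to `x ≤ N n ≤ y`. -/
def AF.cut (g : AF) (x y : ℝ) : AF := g.pm fun n => if x ≤ nr n ∧ nr n ≤ y then 1 else 0

/-- The log-Gaussian weight at scale `Y` on all primary elements. -/
def gW (Y : ℝ) : AF := AF.of fun n => Wc (nr n / Y) 0

/-- The pairing with `ff(n) v(N n / X)` over `X/4 ≤ N n ≤ 2X`. -/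
def pr (l : ℤ) (v : ℝ → ℂ) (X : ℝ) (g : AF) : ℂ :=
  ∑ n ∈ rng (X / 4) (2 * X), g n * (ff l n * v (nr n / X))

/-- `|g| ≤ k^ω` on squarefree elements. -/
def Bd (k : ℝ) (g : AF) : Prop := ∀ n, PS n → ‖g n‖ ≤ k ^ (pf n).card

/-- On squarefree elements `g` is supported on `x ≤ N n ≤ y`. -/
def Sup (g : AF) (x y : ℝ) : Prop := ∀ n, PS n → g n ≠ 0 → x ≤ nr n ∧ nr n ≤ y

/-- On squarefree elements `g` is supported on `w`-rough elements. -/
def Rgh (w : ℝ) (g : AF) : Prop := ∀ n, PS n → g n ≠ 0 → Rough w n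

/-- Equality on squarefree elements. -/
def EqPS (f g : AF) : Prop := ∀ n, PS n → f n = g n

open Classical in
/-- Regular functions: `1` or `μ` on the `w`-rough elements, times a function of the norm of
bounded variation that vanishes below `y₀`. -/
def Reg (w V y₀ : ℝ) (g : AF) : Prop :=
  ∃ (i : ℕ) (φ : ℕ → ℂ), i ≤ 1 ∧ BVn φ V ∧ (∀ m, ‖φ m‖ ≤ 1) ∧ (∀ m : ℕ, (m : ℝ) < y₀ → φ m = 0) ∧
    ∀ n, Primary n → g n = if Rough w n then mu n ^ i * φ (nm n) else 0

/-- `γ` has a long regular factor. -/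
def HasReg (w X : ℝ) (γ : AF) : Prop :=
  ∃ g γ' : AF, Reg w 10 (X ^ (1 / 60 : ℝ)) g ∧ Bd 13 γ' ∧ γ = g * γ'

end Crest.Agent.R12
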