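import Crest.Agent.R12.AFa0

/-!
# Row 12, analytic half: squarefree elements, finite ranges, the summand
-/

set_option autoImplicit false

noncomputable section

namespace Crest.Agent.R12

open Crest.Agent.R17
open scoped ComplexConjugate Topology
open Filter MeasureTheory

theorem Rough.of_dvd {w : ℝ} {n d : O} (h : Rough w n) (hn : n ≠ 0) (hd : d ∣ n) : Rough w d := fun p hp =>
  h p ((mem_pf hn).2 ⟨(BasicB.of_mem_pf hp).1, (BasicB.of_mem_pf hp).2.1,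
    (BasicB.of_mem_pf hp).2.2.trans hd⟩)
theorem Rough.mul {w : ℝ} {a b : O} (ha : Rough w a) (hb : Rough w b) (ha0 : a ≠ 0) (hb0 : b ≠ 0) :
    Rough w (a * b) := by
  classical
  intro p hp
  rw [pf_mul ha0 hb0, Finset.mem_union] at hp
  exact hp.elim (ha p) (hb p)
/-- A primary divisor `≠ 1` of a rough element is large. -/
theorem Rough.lt_of_dvd {w : ℝ} {n d : O} (h : Rough w n) (hn : n ≠ 0) (hd : Primary d)
    (hdn : d ∣ n) (h1 : d ≠ 1) : w < nr d := by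
  have hne : (pf d).Nonempty := by
    rw [Finset.nonempty_iff_ne_empty]
    intro he
    apply h1
    have := hd.eq_prod
    rwa [he, Finset.prod_empty] at this
  obtain ⟨p, hp⟩ := hne
  have h2 := h.of_dvd hn hdn p hp
  have h3 : nm p ≤ nm d := nm_le_of_dvd (BasicB.of_mem_pf hp).2.2 hd.ne_zero
  exact h2.trans_le (by exact_mod_cast h3)
theorem rough_zero (n : O) : Rough 0 n := fun _ hp => nr_pos (BasicB.of_mem_pf hp).1.ne_zero

theorem AFa_cP_pos : 0 < cP := by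
  have := Real.Gamma_pos_of_pos (show (0 : ℝ) < 2 / 3 by norm_num)
  have := Real.pi_pos
  unfold cP
  positivity

theorem AFa_norm_arg_zpow (l : ℤ) {n : O} (hn : n ≠ 0) : ‖arg n ^ l‖ = 1 := by
  rw [norm_zpow, norm_arg hn, one_zpow]

theorem AFa_ff_of (l : ℤ) {n : O} (h : PS n) :
    ff l n = arg n ^ l * (Gn n - ((cP * nr n ^ (-(1 / 6 : ℝ)) : ℝ) : ℂ)) := if_pos h

theorem ff_of_not (l : ℤ) {n : O} (h : ¬ PS n) : ff l n = 0 := if_neg h
theorem norm_ff_le (l : ℤ) (n : O) : ‖ff l n‖ ≤ 1 + cP := by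
  have hc := AFa_cP_pos
  by_cases h : PS n
  · rw [AFa_ff_of l h, norm_mul, AFa_norm_arg_zpow l h.ne_zero, one_mul]
    refine (norm_sub_le _ _).trans ?_
    have h1 : nr n ^ (-(1 / 6 : ℝ)) ≤ 1 :=
      Real.rpow_le_one_of_one_le_of_nonpos h.one_le (by norm_num)
    have h2 : 0 ≤ nr n ^ (-(1 / 6 : ℝ)) := by positivity
    rw [norm_Gn h.1 h.2, Complex.norm_real, Real.norm_of_nonneg (by positivity)]
    nlinarith
  · rw [ff_of_not l h, norm_zero]; positivity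
/-- `Gn_mul`, `tc_sqfree`, `norm_Gn`; both sides vanish if `a`, `b` are not coprime. -/
theorem ff_mul (l : ℤ) {a b : O} (ha : PS a) (hb : PS b) :
    ff l (a * b) = arg a ^ l * arg b ^ l * Gn a * (gk a b - mdl a b) := by
  by_cases h : IsCoprime a b
  · have h1 : Gn a * conj (Gn a) = 1 := by
      rw [Complex.mul_conj, Complex.normSq_eq_norm_sq, norm_Gn ha.1 ha.2]; simp
    rw [AFa_ff_of l (ha.mul hb h), gk, mdl, if_pos h, Gn_mul ha.1 hb.1 h, tc_sqfree ha.1 ha.2,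
      arg_mul, mul_zpow, nr_mul, Real.mul_rpow (by positivity) (by positivity)]
    push_cast
    linear_combination (arg a ^ l * arg b ^ l * (cP : ℂ) * ((nr a ^ (-(1 / 6 : ℝ)) : ℝ) : ℂ) *
      ((nr b ^ (-(1 / 6 : ℝ)) : ℝ) : ℂ)) * h1
  · rw [ff_of_not l (fun h' => h (PS.of_mul ha.1 hb.1 h').2.2), gk, mdl, if_neg h,
      (cub_eq_zero_iff hb.1).2 (fun h' => h h'.symm)]
    simp
theorem norm_gk_le (a : O) {b : O} (hb : PS b) : ‖gk a b‖ ≤ 1 := by
  rw [gk, norm_mul, norm_Gn hb.1 hb.2, one_mul, RCLike.norm_conj]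
  exact norm_cub_le _ _
theorem norm_tc_le (a : O) : ‖tc a‖ ≤ nr a ^ (1 / 6 : ℝ) := by
  rcases ThExact.cases a with h | ⟨m, d, hm, hs, hd, rfl⟩
  · rw [h.2, norm_zero]; positivity
  · rw [tc_eq hm hs hd, norm_mul, norm_Gn hm hs, one_mul, Complex.norm_real,
      Real.norm_of_nonneg (Real.sqrt_nonneg _), Real.sqrt_eq_rpow]
    have h0 : 0 ≤ nr d := by positivity
    have h1 : nr d ^ (1 / 2 : ℝ) = (nr d ^ 3) ^ (1 / 6 : ℝ) := by
      rw [← Real.rpow_natCast, ← Real.rpow_mul h0]; norm_num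
    rw [h1]
    refine Real.rpow_le_rpow (by positivity) ?_ (by norm_num)
    rw [nr_mul, nr_pow]
    exact le_mul_of_one_le_left (by positivity) (one_le_nr hm.ne_zero)
set_option linter.unusedVariables false in
theorem norm_mdl_le (a : O) {b : O} (hb : PS b) : ‖mdl a b‖ ≤ cP * nr b ^ (-(1 / 6 : ℝ)) := by
  have hc := AFa_cP_pos
  unfold mdl
  split_ifs
  · rw [norm_mul, RCLike.norm_conj, Complex.norm_real, Real.norm_of_nonneg (by positivity)]
    have h1 : ‖tc a‖ * nr a ^ (-(1 / 6 : ℝ)) ≤ 1 := by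
      by_cases ha : a = 0
      · rw [ha, tc_zero, norm_zero, zero_mul]; exact zero_le_one
      · refine (mul_le_mul_of_nonneg_right (norm_tc_le a) (by positivity)).trans ?_
        rw [← Real.rpow_add (nr_pos ha), add_neg_cancel, Real.rpow_zero]
    calc ‖tc a‖ * (cP * nr a ^ (-(1 / 6 : ℝ)) * nr b ^ (-(1 / 6 : ℝ)))
        = (‖tc a‖ * nr a ^ (-(1 / 6 : ℝ))) * (cP * nr b ^ (-(1 / 6 : ℝ))) := by ring
      _ ≤ _ := mul_le_of_le_one_left (by positivity) h1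
  · rw [norm_zero]; positivity
theorem norm_tw (l : ℤ) (t : ℝ) (β : O → ℂ) {b : O} (hb : b ≠ 0) : ‖tw l t β b‖ = ‖β b‖ := by
  rw [tw, norm_mul, norm_mul, AFa_norm_arg_zpow l hb, mul_one,
    Complex.norm_cpow_eq_rpow_re_of_pos (nr_pos hb)]
  simp
theorem Bil_comm (l : ℤ) (v : ℝ → ℂ) (X : ℝ) (Sa Sb : Finset O) (α β : O → ℂ) :
    Bil l v X Sa Sb α β = Bil l v X Sb Sa β α := by
  unfold Bil
  rw [Finset.sum_comm]
  refine Finset.sum_congr rfl fun b _ => Finset.sum_congr rfl fun a _ => ?_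
  rw [mul_comm a b, mul_comm (α a)]
theorem NW_nonneg {k : ℝ} (hk : 0 ≤ k) (S : Finset O) (β : O → ℂ) : 0 ≤ NW k S β := Finset.sum_nonneg fun _ _ => by positivity
theorem N2_le_NW {k : ℝ} (hk : 1 ≤ k) (S : Finset O) (β : O → ℂ) : N2 S β ≤ NW k S β := Finset.sum_le_sum fun _ _ => le_mul_of_one_le_right (by positivity) (one_le_pow₀ hk)
theorem NW_mono {k k' : ℝ} (hk : 0 ≤ k) (h : k ≤ k') (S : Finset O) (β : O → ℂ) :
    NW k S β ≤ NW k' S β := Finset.sum_le_sum fun _ _ =>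
    mul_le_mul_of_nonneg_left (pow_le_pow_left₀ hk h _) (by positivity)
theorem sq_sum_norm_le (S : Finset O) (β : O → ℂ) : (∑ b ∈ S, ‖β b‖) ^ 2 ≤ S.card * N2 S β := sq_sum_le_card_mul_sum_sq
theorem SWb.mono {l : ℤ} {S : Finset O} {β : O → ℂ} {B Z Z' Θ Θ' : ℝ} (h : SWb l S β B Z Θ)
    (hZ : Z' ≤ Z) (hΘ : Θ ≤ Θ') : SWb l S β B Z' Θ' := fun κ s h0 h1 h2 h3 h4 =>
  (h κ s h0 h1 (h2.trans hZ) h3 (h4.trans hZ)).trans hΘ
theorem BH.mono {l : ℤ} {v : ℝ → ℂ} {X θ Cb Λ₀ : ℝ} {A₀ A₀' A₁ : ℕ} (h : BH l v X θ A₀ A₁ Cb Λ₀)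
    (hX : 3 ≤ X) (hC : 0 ≤ Cb) (hA : A₀' ≤ A₀) : BH l v X θ A₀' A₁ Cb Λ₀ := by
  intro A B α β h1 h2 h3 h4 h5 h6 h7
  refine (h A B α β h1 h2 h3 h4 h5 h6 h7).trans ?_
  have hB : 0 < B := lt_of_lt_of_le (by positivity) h1
  have hA' : 0 < A := by
    by_contra hn
    have := mul_nonpos_of_nonpos_of_nonneg (not_lt.1 hn) hB.le
    linarith
  have hl : 1 ≤ Real.log X := by
    rw [Real.le_log_iff_exp_le (by linarith)]
    exact Real.exp_one_lt_three.le.trans hX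
  have h8 : Real.log X ^ A₀' ≤ Real.log X ^ A₀ := pow_le_pow_right₀ hl hA
  gcongr

end Crest.Agent.R12
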