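import Crest.Agent.R12.Defs
import Crest.Agent.R17.LS2Defs

/-!
# Row 12, cubic large sieve: definitions

Plan (Heath-Brown's cubic large sieve): `LSBasic` (duality, monotonicity), `LSTriv` (bound
`B + Q^{2+ε}`), `LSRows` (rows `u λ^j h₁ h₂² c³`), `LSPair` (Poisson for a pair of columns),
`LSSep` (separation of variables), `LSStep` (the recursive step), `LS` (induction, final form).
-/

set_option autoImplicit false

noncomputable section

namespace Crest.Agent.R12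

open Crest.Agent.R17
open scoped ComplexConjugate

/-- Large sieve bound `D` for the rows satisfying `P` and primary squarefree columns of norm
at most `N`. -/
def BndP (P : O → Prop) (N D : ℝ) : Prop :=
  ∀ (S K : Finset O) (β : O → ℂ), (∀ b ∈ S, PS b ∧ nr b ≤ N) → (∀ k ∈ K, P k) →
    ∑ k ∈ K, ‖col S β k‖ ^ 2 ≤ D * N2 S β

/-- Primary squarefree rows of norm at most `M`. -/
def Bnd (M N D : ℝ) : Prop := BndP (fun k => PS k ∧ nr k ≤ M) N D

/-- All non-zero rows of norm at most `M`. -/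
def BndA (M N D : ℝ) : Prop := BndP (fun k => k ≠ 0 ∧ nr k ≤ M) N D

/-- Primary cube-free elements `h₁ h₂²` in a box. -/
def CF (H₁ H₂ : ℝ) (k : O) : Prop :=
  ∃ h₁ h₂ : O, PS h₁ ∧ PS h₂ ∧ IsCoprime h₁ h₂ ∧ nr h₁ ≤ H₁ ∧ nr h₂ ≤ H₂ ∧ k = h₁ * h₂ ^ 2

/-- Cube-free rows in a box. -/
def PairB (N H₁ H₂ D : ℝ) : Prop := BndP (CF H₁ H₂) N D

/-- The dual coefficient of the column `n` (common primes `G`, sieved primes `E`). -/
def et (G E : Finset O) (n h : O) : ℂ :=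
  cub (LS2.cof G n) (∏ p ∈ E, p) * (gc (LS2.cof G n) 1 / (nr (LS2.cof G n) : ℂ)) *
    conj (cub (LS2.cof G n) h)

/-- One term of the dual sum. -/
def dt (M : ℝ) (G E : Finset O) (n₁ n₂ h : O) : ℂ :=
  et G E n₁ h * conj (et G E n₂ h) *
    (gw (M / LS2.nP E * nr h / (nr (LS2.cof G n₁) * nr (LS2.cof G n₂))) : ℂ)

/-- The hypothesis of the recursive step. -/
def StepH (L M N Γ : ℝ) : Prop :=
  ∀ K N' : ℝ, 1 ≤ N' → N' ≤ N → 1 ≤ K → K ≤ L * N' * N / M →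
    BndA K N' (Γ * (K ^ (1 / 3 : ℝ) * N' + (K * N') ^ (2 / 3 : ℝ)))

/-- The induction hypothesis. -/
def IndQ (X Γ Y ρ : ℝ) : Prop :=
  ∀ M N : ℝ, 1 ≤ N → N ≤ X → N ≤ Y → ρ * N ≤ M → Bnd M N (Γ * (M + (M * N) ^ (2 / 3 : ℝ)))

theorem N2_nonneg (S : Finset O) (β : O → ℂ) : 0 ≤ N2 S β :=
  Finset.sum_nonneg fun _ _ => by positivity

theorem BndP.mono {P P' : O → Prop} {N N' D D' : ℝ} (h : BndP P N D) (hP : ∀ k, P' k → P k)
    (hN : N' ≤ N) (hD : D ≤ D') : BndP P' N' D' := fun S K β hS hK =>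
  (h S K β (fun b hb => ⟨(hS b hb).1, (hS b hb).2.trans hN⟩) fun k hk => hP k (hK k hk)).trans
    (mul_le_mul_of_nonneg_right hD (N2_nonneg S β))

theorem Bnd.mono {M M' N N' D D' : ℝ} (h : Bnd M N D) (hM : M' ≤ M) (hN : N' ≤ N)
    (hD : D ≤ D') : Bnd M' N' D' :=
  BndP.mono h (fun _ hk => ⟨hk.1, hk.2.trans hM⟩) hN hD

theorem BndA.bnd {M N D : ℝ} (h : BndA M N D) : Bnd M N D :=
  BndP.mono h (fun _ hk => ⟨hk.1.1.ne_zero, hk.2⟩) le_rfl le_rfl

end Crest.Agent.R12
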