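import Crest.Agent.R12.ThDefs

/-!
# Row 12, theta half: algebra of the completed coefficients
-/

set_option autoImplicit false

noncomputable section

namespace Crest.Agent.R12

open Crest.Agent.R17
open scoped ComplexConjugate Topology
open Filter MeasureTheory

theorem ThExact.sqrt_ne {n : O} (hn : n ≠ 0) : (Real.sqrt (nr n) : ℂ) ≠ 0 :=
  Complex.ofReal_ne_zero.2 (Real.sqrt_pos.2 (nr_pos hn)).ne'
theorem ThExact.sqrt_mul (a b : O) :
    (Real.sqrt (nr (a * b)) : ℂ) = (Real.sqrt (nr a) : ℂ) * (Real.sqrt (nr b) : ℂ) := by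
  rw [nr_mul, Real.sqrt_mul (Nat.cast_nonneg _), Complex.ofReal_mul]

theorem Gn_one : Gn 1 = 1 := by simp [Gn, nr]
theorem norm_Gn {n : O} (hn : Primary n) (hs : Squarefree n) : ‖Gn n‖ = 1 := by
  rw [Gn, gc_sqfree hn hs, norm_div, norm_mul, Complex.norm_conj,
    norm_cub hn (prime_lam.coprime_iff_not_dvd.2 hn.not_lam_dvd).symm, one_mul, norm_gc hn hs,
    Complex.norm_real, Real.norm_of_nonneg (Real.sqrt_nonneg _),
    div_self (Real.sqrt_pos.2 (nr_pos hn.ne_zero)).ne']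
/-- Twisted multiplicativity. -/
theorem Gn_mul {a b : O} (ha : Primary a) (hb : Primary b) (h : IsCoprime a b) :
    Gn (a * b) = Gn a * Gn b * conj (cub b a) := by
  rw [Gn, Gn, Gn, gc_mul ha hb h, cub_recip ha hb, conj_cub, ThExact.sqrt_mul]
  ring
theorem tc_of_not {n : O} (hn : ¬ Primary n) : tc n = 0 := if_neg fun h => hn h.1
theorem tc_zero : tc 0 = 0 := tc_of_not fun h => h.ne_zero rfl
theorem tc_eq {m d : O} (hm : Primary m) (hs : Squarefree m) (hd : Primary d) :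
    tc (m * d ^ 3) = Gn m * (Real.sqrt (nr d) : ℂ) := by
  obtain ⟨h1, h2, h3⟩ := sq1_cu hm hs hd
  rw [tc, if_pos ⟨hm.mul (hd.pow 3), h3⟩, h1, h2]
theorem tc_sqfree {m : O} (hm : Primary m) (hs : Squarefree m) : tc m = Gn m := by
  simpa [nr] using tc_eq hm hs primary_one

theorem ThExact.cases (n : O) : (¬ (Primary n ∧ ∀ p ∈ pf n, vp p n % 3 ≠ 2) ∧ tc n = 0) ∨
    ∃ m d, Primary m ∧ Squarefree m ∧ Primary d ∧ n = m * d ^ 3 := by
  by_cases h : Primary n ∧ ∀ p ∈ pf n, vp p n % 3 ≠ 2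
  · obtain ⟨h1, h2, h3, h4⟩ := eq_sq1_mul_cu h.1 h.2
    exact Or.inr ⟨_, _, h2, h3, h4, h1⟩
  · exact Or.inl ⟨h, if_neg h⟩

theorem ThExact.eq_zero {a b : O} (hb : Primary b)
    (ha : ¬ (Primary a ∧ ∀ p ∈ pf a, vp p a % 3 ≠ 2)) (h : ∀ p ∈ pf a, 3 ∣ vp p b) :
    tc (a * b) = 0 := by
  refine if_neg fun h' => ha ?_
  have h1 : Primary a := hb.of_mul (mul_comm a b ▸ h'.1)
  refine ⟨h1, fun p hp => ?_⟩
  obtain ⟨h2, h3, h4⟩ := BasicB.of_mem_pf hp
  have h5 := h'.2 p ((mem_pf h'.1.ne_zero).2 ⟨h2, h3, h4.mul_right b⟩)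
  have h6 := h p hp
  rw [vp_mul h2 h1.ne_zero hb.ne_zero] at h5
  omega

theorem tc_mul_cube {n d : O} (hd : Primary d) :
    tc (n * d ^ 3) = (Real.sqrt (nr d) : ℂ) * tc n := by
  rcases ThExact.cases n with ⟨h, h0⟩ | ⟨m, e, hm, hs, he, rfl⟩
  · rw [h0, mul_zero, ThExact.eq_zero (hd.pow 3) h fun p hp => ?_]
    rw [vp_pow (BasicB.pf_sub hp).1 hd.ne_zero]
    exact dvd_mul_right _ _
  · rw [mul_assoc, ← mul_pow, tc_eq hm hs (he.mul hd), tc_eq hm hs he, ThExact.sqrt_mul]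
    ring
/-- Twisted multiplicativity of the completed coefficients. -/
theorem tc_mul {a b : O} (ha : Primary a) (hb : Primary b) (hs : Squarefree b)
    (h : IsCoprime a b) : tc (a * b) = tc a * Gn b * conj (cub b a) := by
  rcases ThExact.cases a with ⟨h', h0⟩ | ⟨m, e, hm, hs', he, rfl⟩
  · rw [h0, zero_mul, zero_mul, ThExact.eq_zero hb h' fun p hp => ?_]
    obtain ⟨h2, -, h4⟩ := BasicB.of_mem_pf hp
    rw [(vp_eq_zero_iff h2 hb.ne_zero).2 fun h5 => h2.not_isUnit (h.isUnit_of_dvd' h4 h5)]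
    exact dvd_zero _
  · have h1 := h.of_mul_left_left
    have h2 : IsCoprime b e := ((IsCoprime.pow_left_iff (by norm_num)).1 h.of_mul_left_right).symm
    rw [mul_right_comm, tc_eq (hm.mul hb) (squarefree_mul_iff.2 ⟨h1.isRelPrime, hs', hs⟩) he,
      tc_eq hm hs' he, Gn_mul hm hb h1, cub_mul_right, cub_pow_right, cub_pow_three hb h2,
      mul_one]
    ring
theorem cubeB_tc : CubeB tc 1 := by
  refine ⟨zero_le_one, tc_zero, fun ν _ => ?_⟩
  rcases ThExact.cases ν with ⟨-, h0⟩ | ⟨m, e, hm, hs, he, rfl⟩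
  · exact ⟨1, one_ne_zero, by simp, by rw [h0, norm_zero]; positivity⟩
  · refine ⟨e, he.ne_zero, dvd_mul_left _ _, ?_⟩
    rw [tc_eq hm hs he, norm_mul, norm_Gn hm hs, Complex.norm_real,
      Real.norm_of_nonneg (Real.sqrt_nonneg _)]
theorem cubeB_tm (l : ℤ) (z : O) : CubeB (tm l z) 1 := by
  refine ⟨zero_le_one, by simp [tm, tc_zero], fun ν hν => ?_⟩
  obtain ⟨D, h1, h2, h3⟩ := cubeB_tc.2.2 ν hν
  refine ⟨D, h1, h2, le_trans ?_ h3⟩
  rw [tm]
  split_ifs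
  · rw [norm_mul, norm_zpow, norm_arg hν, one_zpow, mul_one]
  · simp

theorem ThExact.term {n e : O} (he : Primary e) (h : e ^ 3 ∣ n) :
    mu e * (Real.sqrt (nr e) : ℂ) * tc (n / e ^ 3) = tc n * mu e := by
  conv_rhs => rw [← EuclideanDomain.mul_div_cancel' (he.pow 3).ne_zero h, mul_comm (e ^ 3),
    tc_mul_cube he]
  ring

theorem ThExact.cube_dvd {m d e : O} (hs : Squarefree m) (hd : d ≠ 0) (he : Primary e) :
    e ^ 3 ∣ m * d ^ 3 ↔ e ∣ d := by
  refine ⟨fun h => (he.dvd_iff_vp hd).2 fun p hp => ?_,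
    fun h => (pow_dvd_pow_of_dvd h 3).mul_left m⟩
  have hp' := (BasicB.pf_sub hp).1
  have h1 := BasicB.vp_le_of_dvd hp' (mul_ne_zero hs.ne_zero (pow_ne_zero 3 hd)) h
  have h2 := BasicB.vp_le_one hs hp'
  rw [vp_mul hp' hs.ne_zero (pow_ne_zero 3 hd), vp_pow hp' hd, vp_pow hp' he.ne_zero] at h1
  omega

open Classical in
/-- Removing the cubes. -/
theorem sqfree_eq_sum {n : O} (hn : Primary n) :
    (if Squarefree n then Gn n else 0) =
      ∑ d ∈ (pdiv n).filter (fun d => d ^ 3 ∣ n),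
        mu d * (Real.sqrt (nr d) : ℂ) * tc (n / d ^ 3) := by
  rw [Finset.sum_congr rfl fun d hd => ThExact.term
    ((mem_pdiv hn.ne_zero).1 (Finset.mem_filter.1 hd).1).1 (Finset.mem_filter.1 hd).2,
    ← Finset.mul_sum]
  rcases ThExact.cases n with ⟨-, h0⟩ | ⟨m, e, hm, hs, he, rfl⟩
  · rw [h0, zero_mul]
    split_ifs with h
    · rw [← tc_sqfree hn h, h0]
    · rfl
  have h1 : (pdiv (m * e ^ 3)).filter (fun d => d ^ 3 ∣ m * e ^ 3) = pdiv e := by
    ext d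
    rw [Finset.mem_filter, mem_pdiv hn.ne_zero, mem_pdiv he.ne_zero]
    exact ⟨fun h => ⟨h.1.1, (ThExact.cube_dvd hs he.ne_zero h.1.1).1 h.2⟩, fun h =>
      ⟨⟨h.1, (h.2.pow three_ne_zero).mul_left m⟩, (ThExact.cube_dvd hs he.ne_zero h.1).2 h.2⟩⟩
  rw [h1, sum_mu_pdiv he.ne_zero]
  by_cases h : Squarefree (m * e ^ 3)
  · have h2 : IsUnit e := h e ⟨m * e, by ring⟩
    rw [if_pos h, if_pos (BasicB.pf_unit h2), mul_one, tc_sqfree hn h]
  · rw [if_neg h, if_neg, mul_zero]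
    intro h2
    have h3 : e = 1 := by rw [he.eq_prod, h2, Finset.prod_empty]
    exact h (by simpa [h3] using hs)

theorem ThExact.coprime_iff {z k m d : O} (hz : Squarefree z) (hm : Squarefree m)
    (h : m * d ^ 3 = z * k) : IsCoprime k z ↔ IsCoprime z d := by
  constructor
  · intro hk
    refine isCoprime_of_prime_dvd (fun h' => hz.ne_zero h'.1) fun q hq h1 h2 => hq.not_isUnit ?_
    have h3 : IsCoprime q k := (hk.symm.of_isCoprime_of_dvd_left h1)
    have h4 : q * q ∣ z * k := by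
      rw [← h]
      exact (mul_dvd_mul h2 h2).trans ⟨m * d, by ring⟩
    exact hz q ((h3.mul_left h3).dvd_of_dvd_mul_right h4)
  · intro hd
    obtain ⟨m', rfl⟩ : z ∣ m := (hd.pow_right (n := 3)).dvd_of_dvd_mul_right ⟨k, h⟩
    rw [mul_assoc] at h
    rw [← mul_left_cancel₀ hz.ne_zero h]
    exact ((squarefree_mul_iff.1 hm).1.isCoprime.mul_right hd.pow_right).symm

open Classical in
/-- Exact divisors: for `z` squarefree, `1_{(a, z) = 1} tc (a z)` is a combination of marked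
coefficients (`n = a z`; the term `e` is `μ(e) √(N e) 1_{e³ ∣ n} 1_{z/e ∣ n/e³} tc (n / e³)`). -/
theorem exact_eq_sum {z n : O} (hz : Primary z) (hs : Squarefree z) (hn : Primary n) :
    (if z ∣ n ∧ IsCoprime (n / z) z then tc n else 0) =
      ∑ e ∈ pdiv z, if e ^ 3 ∣ n ∧ z / e ∣ n / e ^ 3 then
        mu e * (Real.sqrt (nr e) : ℂ) * tc (n / e ^ 3) else 0 := by
  have h1 : ∀ e ∈ pdiv z, (if e ^ 3 ∣ n ∧ z / e ∣ n / e ^ 3 then
      mu e * (Real.sqrt (nr e) : ℂ) * tc (n / e ^ 3) else 0) =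
      if e ^ 3 ∣ n ∧ z ∣ n then tc n * mu e else 0 := by
    intro e he
    obtain ⟨he1, f, rfl⟩ := (mem_pdiv hz.ne_zero).1 he
    by_cases h : e ^ 3 ∣ n
    · rw [ThExact.term he1 h]
      obtain ⟨k, rfl⟩ := h
      rw [mul_div_cancel_left₀ _ he1.ne_zero, mul_div_cancel_left₀ _ (he1.pow 3).ne_zero]
      refine if_congr (and_congr_right fun _ => ⟨fun h => ?_, fun h => ?_⟩) rfl rfl
      · exact mul_dvd_mul (dvd_pow_self e three_ne_zero) h
      · exact ((squarefree_mul_iff.1 hs).1.isCoprime.symm.pow_right (n := 3)).dvd_of_dvd_mul_left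
          ((dvd_mul_left f e).trans h)
    · rw [if_neg fun h' => h h'.1, if_neg fun h' => h h'.1]
  rw [Finset.sum_congr rfl h1]
  by_cases hzn : z ∣ n
  swap
  · simp [hzn]
  rcases ThExact.cases n with ⟨-, h0⟩ | ⟨m, d, hm, hm', hd, rfl⟩
  · simp [h0]
  have h2 := ThExact.coprime_iff hs hm' (EuclideanDomain.mul_div_cancel' hz.ne_zero hzn).symm
  have h3 : ∀ e ∈ pdiv z, (if e ^ 3 ∣ m * d ^ 3 ∧ z ∣ m * d ^ 3 then tc (m * d ^ 3) * mu e else 0) =
      if e ∣ d then tc (m * d ^ 3) * mu e else 0 := fun e he =>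
    if_congr (by
      rw [ThExact.cube_dvd hm' hd.ne_zero ((mem_pdiv hz.ne_zero).1 he).1, and_iff_left hzn]) rfl rfl
  rw [Finset.sum_congr rfl h3, ← Finset.sum_filter, ← Finset.mul_sum, sum_mu_coprime hz hd.ne_zero]
  simp [hzn, h2]

end Crest.Agent.R12
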