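import Crest.Agent.R12.AF
import Crest.Agent.R12.LSDefs
import Crest.Agent.R12.ThExact

/-!
# Row 12, analytic half: squarefree elements, finite ranges, the summand
-/

set_option autoImplicit false

noncomputable section

namespace Crest.Agent.R12

open Crest.Agent.R17
open scoped ComplexConjugate Topology
open Filter MeasureTheory

theorem mem_rng {x y : ℝ} {b : O} : b ∈ rng x y ↔ PS b ∧ x ≤ nr b ∧ nr b ≤ y := by
  classical
  rw [rng, Finset.mem_filter, mem_ball]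
  have key : PS b → (nm b ≤ ⌊y⌋₊ ↔ nr b ≤ y) := fun h =>
    Nat.le_floor_iff' (mt nm_eq_zero.1 h.1.ne_zero)
  exact ⟨fun h => ⟨h.2.1, h.2.2, (key h.2.1).1 h.1⟩, fun h => ⟨(key h.1).2 h.2.2, h.1, h.2.1⟩⟩
theorem mem_dy {B : ℝ} {b : O} : b ∈ dy B ↔ PS b ∧ B < nr b ∧ nr b ≤ 2 * B := by
  classical
  rw [dy, Finset.mem_filter, mem_ball]
  have key : PS b → (nm b ≤ ⌊2 * B⌋₊ ↔ nr b ≤ 2 * B) := fun h =>
    Nat.le_floor_iff' (mt nm_eq_zero.1 h.1.ne_zero)
  exact ⟨fun h => ⟨h.2.1, h.2.2, (key h.2.1).1 h.1⟩, fun h => ⟨(key h.1).2 h.2.2, h.1, h.2.1⟩⟩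
theorem AFa0_card {K : Finset O} {M : ℝ} (hM : 0 ≤ M) (hK : ∀ k ∈ K, k ≠ 0 ∧ nr k ≤ M) :
    (K.card : ℝ) ≤ 7 * M := by
  have h1 : K ⊆ (ball ⌊M⌋₊).erase 0 := fun k hk =>
    CountAux.mem_erase_ball.2 ⟨(hK k hk).1, Nat.le_floor (hK k hk).2⟩
  have h2 : (K.card : ℝ) ≤ (((ball ⌊M⌋₊).erase 0).card : ℝ) := by
    exact_mod_cast Finset.card_le_card h1
  have h3 := CountAux.card_erase_le ⌊M⌋₊
  have h4 := Nat.floor_le hM
  linarith
theorem card_rng_le (x : ℝ) {y : ℝ} (hy : 0 ≤ y) : ((rng x y).card : ℝ) ≤ 7 * y := by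
  exact AFa0_card hy fun k hk => ⟨(mem_rng.1 hk).1.1.ne_zero, (mem_rng.1 hk).2.2⟩
theorem card_dy_le {B : ℝ} (hB : 0 ≤ B) : ((dy B).card : ℝ) ≤ 14 * B := by
  have := AFa0_card (K := dy B) (M := 2 * B) (by linarith) fun k hk =>
    ⟨(mem_dy.1 hk).1.1.ne_zero, (mem_dy.1 hk).2.2⟩
  linarith
theorem PS.ne_zero {n : O} (h : PS n) : n ≠ 0 := h.1.ne_zero
theorem PS.one_le {n : O} (h : PS n) : 1 ≤ nr n := one_le_nr h.ne_zero
theorem ps_one : PS 1 := ⟨primary_one, squarefree_one⟩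
theorem PS.of_dvd {n d : O} (h : PS n) (hd : Primary d) (hdn : d ∣ n) : PS d := by
  exact ⟨hd, h.2.squarefree_of_dvd hdn⟩
theorem PS.of_mul {a b : O} (ha : Primary a) (hb : Primary b) (h : PS (a * b)) :
    PS a ∧ PS b ∧ IsCoprime a b := by
  exact ⟨h.of_dvd ha (dvd_mul_right a b), h.of_dvd hb (dvd_mul_left b a),
    (IsRelPrime.of_squarefree_mul h.2).isCoprime⟩
theorem PS.mul {a b : O} (ha : PS a) (hb : PS b) (h : IsCoprime a b) : PS (a * b) := by
  exact ⟨ha.1.mul hb.1, squarefree_mul_iff.2 ⟨h.isRelPrime, ha.2, hb.2⟩⟩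
theorem PS.div {n d : O} (h : PS n) (hd : d ∈ pdiv n) :
    PS d ∧ PS (n / d) ∧ IsCoprime d (n / d) ∧ d * (n / d) = n := by
  obtain ⟨h1, h2, h3⟩ := AF.primary_div h.1 hd
  obtain ⟨a1, a2, a3⟩ := PS.of_mul h1 h2 (h3.symm ▸ h)
  exact ⟨a1, a2, a3, h3⟩
theorem card_pf_mul {a b : O} (ha : a ≠ 0) (hb : b ≠ 0) (h : IsCoprime a b) :
    (pf (a * b)).card = (pf a).card + (pf b).card := by
  rw [pf_mul ha hb, Finset.card_union_of_disjoint (disjoint_pf h)]
theorem card_pf_le_of_dvd {d n : O} (hn : n ≠ 0) (h : d ∣ n) : (pf d).card ≤ (pf n).card := by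
  refine Finset.card_le_card fun p hp => ?_
  obtain ⟨h1, h2, h3⟩ := BasicB.of_mem_pf hp
  exact (mem_pf hn).2 ⟨h1, h2, h3.trans h⟩
/-- `2^{ω(n)} ≤ N n`. -/
theorem card_pf_le_log {n : O} (hn : n ≠ 0) : ((pf n).card : ℝ) ≤ 2 * Real.log (nr n) := by
  have h1 : 2 ^ (pf n).card ≤ nm n := by
    refine le_trans ?_ (nm_le_of_dvd (BasicB.prod_dvd_of_subset hn subset_rfl) hn)
    rw [nm_prod]
    exact Finset.pow_card_le_prod _ _ _ fun p hp => CountAux.two_le_nm (BasicB.pf_sub hp).1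
  have h2 : (2 : ℝ) ^ (pf n).card ≤ nr n := by exact_mod_cast h1
  have h3 := Real.log_le_log (by positivity) h2
  rw [Real.log_pow] at h3
  have h4 : (0 : ℝ) ≤ (pf n).card := Nat.cast_nonneg _
  nlinarith [Real.log_two_gt_d9]
theorem AFa0_sum_pdiv {β : Type} [AddCommMonoid β] {n : O} (h : PS n) (F : O → β) :
    ∑ d ∈ pdiv n, F d = ∑ s ∈ (pf n).powerset, F (∏ q ∈ s, q) := by
  have hn := h.ne_zero
  refine Finset.sum_nbij' pf (fun s => ∏ q ∈ s, q) (fun d hd => ?_) (fun s hs => ?_)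
    (fun d hd => ?_) (fun s hs => ?_) fun d hd => ?_
  · refine Finset.mem_powerset.2 fun p hp => ?_
    obtain ⟨h3, h4, h5⟩ := BasicB.of_mem_pf hp
    exact (mem_pf hn).2 ⟨h3, h4, h5.trans ((mem_pdiv hn).1 hd).2⟩
  · have hs' := Finset.mem_powerset.1 hs
    have h2 := squarefree_prod_primes (s := s) fun q hq => BasicB.pf_sub (hs' hq)
    exact (mem_pdiv hn).2 ⟨h2.2.1, BasicB.prod_dvd_of_subset hn hs'⟩
  · exact (h.div hd).1.1.eq_rad (h.div hd).1.2
  · exact (squarefree_prod_primes fun q hq => BasicB.pf_sub (Finset.mem_powerset.1 hs hq)).2.2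
  · exact congrArg F ((h.div hd).1.1.eq_rad (h.div hd).1.2).symm
/-- Divisors of a squarefree element are the subsets of `pf n` (binomial theorem). -/
theorem PS.sum_pdiv_pow {n : O} (h : PS n) (x y : ℝ) :
    ∑ d ∈ pdiv n, x ^ (pf d).card * y ^ (pf (n / d)).card = (x + y) ^ (pf n).card := by
  have h1 : ∀ d ∈ pdiv n, x ^ (pf d).card * y ^ (pf (n / d)).card =
      x ^ (pf d).card * y ^ ((pf n).card - (pf d).card) := by
    intro d hd
    obtain ⟨a1, a2, a3, a4⟩ := h.div hd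
    have := card_pf_mul a1.ne_zero a2.ne_zero a3
    rw [a4] at this
    rw [this, Nat.add_sub_cancel_left]
  rw [Finset.sum_congr rfl h1, AFa0_sum_pdiv h, ← Finset.sum_pow_mul_eq_add_pow]
  refine Finset.sum_congr rfl fun s hs => ?_
  rw [(squarefree_prod_primes fun q hq => BasicB.pf_sub (Finset.mem_powerset.1 hs hq)).2.2]
theorem PS.card_pdiv {n : O} (h : PS n) : ((pdiv n).card : ℝ) = 2 ^ (pf n).card := by
  have := h.sum_pdiv_pow 1 1
  simp only [one_pow, mul_one, Finset.sum_const, nsmul_eq_mul] at this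
  rw [this]; norm_num
theorem PS.sum_mu_div {n : O} (h : PS n) : ∑ d ∈ pdiv n, mu d * ((nr d)⁻¹ : ℝ) = (phi n : ℂ) := by
  rw [AFa0_sum_pdiv h, phi]
  push_cast
  simp only [sub_eq_add_neg, Finset.prod_one_add, Finset.prod_neg]
  refine Finset.sum_congr rfl fun s hs => ?_
  obtain ⟨h1, -, h2⟩ :=
    squarefree_prod_primes fun q hq => BasicB.pf_sub (Finset.mem_powerset.1 hs hq)
  rw [BasicB.mu_of_squarefree h1, h2, nm_prod]
  push_cast
  rw [Finset.prod_inv_distrib]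
theorem phi_nonneg (n : O) : 0 ≤ phi n := by
  exact Finset.prod_nonneg fun p hp =>
    sub_nonneg.2 (inv_le_one_of_one_le₀ (one_le_nr (BasicB.pf_sub hp).1.ne_zero))
theorem phi_le_one (n : O) : phi n ≤ 1 := by
  exact Finset.prod_le_one (fun p hp =>
    sub_nonneg.2 (inv_le_one_of_one_le₀ (one_le_nr (BasicB.pf_sub hp).1.ne_zero)))
    fun p _ => sub_le_self _ (by positivity)
theorem phi_mul {a b : O} (ha : a ≠ 0) (hb : b ≠ 0) (h : IsCoprime a b) :
    phi (a * b) = phi a * phi b := by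
  rw [phi, pf_mul ha hb, Finset.prod_union (disjoint_pf h), phi, phi]

end Crest.Agent.R12
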