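import Crest.Agent.R12.AFb1

/-!
# Row 12, analytic half: calculus in the ring `AF`
-/

set_option autoImplicit false

noncomputable section

namespace Crest.Agent.R12

open Crest.Agent.R17
open scoped ComplexConjugate Topology
open Filter MeasureTheory

theorem AFb_le {a b : O} (ha : PS a) (hb : PS b) : nr a ≤ nr (a * b) ∧ nr b ≤ nr (a * b) := by
  have h1 := ha.one_le
  have h2 := hb.one_le
  rw [nr_mul]
  constructor <;> nlinarith

theorem EqPS.refl (f : AF) : EqPS f f := fun _ _ => rfl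
theorem EqPS.symm {f g : AF} (h : EqPS f g) : EqPS g f := fun n hn => (h n hn).symm
theorem EqPS.trans {f g k : AF} (h : EqPS f g) (h' : EqPS g k) : EqPS f k :=
  fun n hn => (h n hn).trans (h' n hn)
theorem EqPS.mul {f f' g g' : AF} (hf : EqPS f f') (hg : EqPS g g') : EqPS (f * g) (f' * g') := by
  intro n hn
  rw [AF.mul_apply, AF.mul_apply]
  exact Finset.sum_congr rfl fun d hd => by rw [hf d (hn.div hd).1, hg _ (hn.div hd).2.1]
theorem EqPS.prod {ι : Type*} {s : Finset ι} {g g' : ι → AF} (h : ∀ i ∈ s, EqPS (g i) (g' i)) :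
    EqPS (∏ i ∈ s, g i) (∏ i ∈ s, g' i) := by
  classical
  induction s using Finset.induction_on with
  | empty => simpa using EqPS.refl 1
  | insert a s ha ih =>
    rw [Finset.prod_insert ha, Finset.prod_insert ha]
    exact (h a (Finset.mem_insert_self _ _)).mul (ih fun i hi => h i (Finset.mem_insert_of_mem hi))
theorem EqPS.pm {f g : AF} (h : EqPS f g) (φ : O → ℂ) : EqPS (f.pm φ) (g.pm φ) :=
  fun n hn => by rw [AF.pm_apply, AF.pm_apply, h n hn]

section
variable (l : ℤ) (v : ℝ → ℂ) (X : ℝ)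

theorem pr_congr {f g : AF} (h : ∀ n, PS n → X / 4 ≤ nr n → nr n ≤ 2 * X → f n = g n) :
    pr l v X f = pr l v X g :=
  Finset.sum_congr rfl fun n hn => by
    obtain ⟨h1, h2, h3⟩ := mem_rng.1 hn
    rw [h n h1 h2 h3]
/-- Only the values on squarefree elements of norm `≤ 2X` matter. -/
theorem pr_mul_congr {f f' g g' : AF} (hf : ∀ n, PS n → nr n ≤ 2 * X → f n = f' n)
    (hg : ∀ n, PS n → nr n ≤ 2 * X → g n = g' n) : pr l v X (f * g) = pr l v X (f' * g') := by
  refine pr_congr l v X fun n hn _ h2 => ?_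
  rw [AF.mul_apply, AF.mul_apply]
  refine Finset.sum_congr rfl fun d hd => ?_
  obtain ⟨d1, d2, -, d3⟩ := hn.div hd
  have h3 := AFb_le d1 d2
  rw [d3] at h3
  rw [hf d d1 (h3.1.trans h2), hg _ d2 (h3.2.trans h2)]
theorem pr_zero : pr l v X 0 = 0 := by simp [pr]
theorem pr_add (f g : AF) : pr l v X (f + g) = pr l v X f + pr l v X g := by
  simp only [pr, AF.add_apply, add_mul, Finset.sum_add_distrib]
theorem pr_sub (f g : AF) : pr l v X (f - g) = pr l v X f - pr l v X g := by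
  simp only [pr, AF.sub_apply, sub_mul, Finset.sum_sub_distrib]
theorem pr_smul (c : ℂ) (f : AF) : pr l v X (c • f) = c * pr l v X f := by
  simp only [pr, AF.smul_apply, Finset.mul_sum, mul_assoc]
theorem pr_sum {ι : Type*} (s : Finset ι) (f : ι → AF) :
    pr l v X (∑ i ∈ s, f i) = ∑ i ∈ s, pr l v X (f i) := by
  simp only [pr, AF.sum_apply, Finset.sum_mul]
  exact Finset.sum_comm
theorem pr_eq_zero_of_sup {g : AF} {x y : ℝ} (h : Sup g x y) (h' : y < X / 4 ∨ 2 * X < x) :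
    pr l v X g = 0 := by
  refine Finset.sum_eq_zero fun n hn => ?_
  obtain ⟨h1, h2, h3⟩ := mem_rng.1 hn
  have h4 : g n = 0 := by
    by_contra h5
    obtain ⟨h6, h7⟩ := h n h1 h5
    rcases h' with h' | h' <;> linarith
  rw [h4, zero_mul]
open Classical in
theorem pr_mul (α β : AF) : pr l v X (α * β) = ∑ a ∈ rng 1 (2 * X), ∑ b ∈ rng 1 (2 * X),
    if X / 4 ≤ nr (a * b) ∧ nr (a * b) ≤ 2 * X then
      α a * β b * (ff l (a * b) * v (nr (a * b) / X)) else 0 := by
  have e : ∀ a b : O, (if X / 4 ≤ nr (a * b) ∧ nr (a * b) ≤ 2 * X then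
      α a * β b * (ff l (a * b) * v (nr (a * b) / X)) else 0) =
      if a * b ∈ rng (X / 4) (2 * X) then α a * β b * (ff l (a * b) * v (nr (a * b) / X))
        else 0 := fun a b => by
    by_cases h : PS (a * b)
    · simp only [mem_rng, h, true_and]
    · simp [ff_of_not l h]
  simp only [e, pr, AF.mul_apply, Finset.sum_mul]
  rw [Finset.sum_sigma', ← Finset.sum_product', ← Finset.sum_filter]
  refine Finset.sum_bij' (fun x _ => (x.2, x.1 / x.2)) (fun y _ => ⟨y.1 * y.2, y.1⟩) ?_ ?_ ?_ ?_ ?_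
  · rintro ⟨n, d⟩ hx
    simp only [Finset.mem_sigma] at hx
    obtain ⟨h1, h2, h3⟩ := mem_rng.1 hx.1
    obtain ⟨d1, d2, -, d3⟩ := h1.div hx.2
    have h4 := AFb_le d1 d2
    rw [d3] at h4
    simp only [Finset.mem_filter, Finset.mem_product, d3]
    exact ⟨⟨mem_rng.2 ⟨d1, d1.one_le, h4.1.trans h3⟩, mem_rng.2 ⟨d2, d2.one_le, h4.2.trans h3⟩⟩,
      hx.1⟩
  · rintro ⟨a, b⟩ hy
    simp only [Finset.mem_filter, Finset.mem_product] at hy
    exact Finset.mem_sigma.2 ⟨hy.2, (mem_pdiv (mem_rng.1 hy.2).1.ne_zero).2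
      ⟨(mem_rng.1 hy.1.1).1.1, Dvd.intro _ rfl⟩⟩
  · rintro ⟨n, d⟩ hx
    simp only [Finset.mem_sigma] at hx
    simp only [((mem_rng.1 hx.1).1.div hx.2).2.2.2]
  · rintro ⟨a, b⟩ hy
    simp only [Finset.mem_filter, Finset.mem_product] at hy
    simp only [mul_div_cancel_left₀ _ (mem_rng.1 hy.1.1).1.ne_zero]
  · rintro ⟨n, d⟩ hx
    simp only [Finset.mem_sigma] at hx
    simp only [((mem_rng.1 hx.1).1.div hx.2).2.2.2]

end

end Crest.Agent.R12
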