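import Crest.Agent.R12.AFa

/-!
# Row 12, analytic half: calculus in the ring `AF`
-/

set_option autoImplicit false

noncomputable section

namespace Crest.Agent.R12

open Crest.Agent.R17
open scoped ComplexConjugate Topology
open Filter MeasureTheory

theorem AFb0_pdiv_one : pdiv 1 = {1} := by
  ext d
  rw [mem_pdiv one_ne_zero, Finset.mem_singleton]
  exact ⟨fun h => h.1.eq_one_of_isUnit (isUnit_of_dvd_one h.2),
    fun h => by subst h; exact ⟨primary_one, dvd_rfl⟩⟩

theorem AFb0_mul_apply_one (f g : AF) : (f * g) 1 = f 1 * g 1 := by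
  rw [AF.mul_apply, AFb0_pdiv_one, Finset.sum_singleton, EuclideanDomain.div_one]

theorem AF.prod_apply_one {ι : Type*} (s : Finset ι) (g : ι → AF) :
    (∏ i ∈ s, g i) 1 = ∏ i ∈ s, g i 1 := by
  classical
  induction s using Finset.induction_on with
  | empty => simp [AF.one_apply]
  | insert a s ha ih => rw [Finset.prod_insert ha, Finset.prod_insert ha, AFb0_mul_apply_one, ih]
theorem zt_apply (w : ℝ) {n : O} (hn : Primary n) :
    zt w n = by classical exact if Rough w n then 1 else 0 := by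
  rw [zt, AF.of_apply _ hn]
theorem zt_zero_apply {n : O} (hn : Primary n) : zt 0 n = 1 := by
  rw [zt_apply 0 hn, if_pos (rough_zero n)]
theorem AF.pm_add (f g : AF) (φ : O → ℂ) : (f + g).pm φ = f.pm φ + g.pm φ := by
  ext n
  simp [add_mul]
theorem AF.pm_sum {ι : Type*} (s : Finset ι) (f : ι → AF) (φ : O → ℂ) :
    (∑ i ∈ s, f i).pm φ = ∑ i ∈ s, (f i).pm φ := by
  ext n
  rw [AF.pm_apply, AF.sum_apply, AF.sum_apply, Finset.sum_mul]
  rfl
/-- Completely multiplicative pointwise factors distribute over products. -/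
theorem AF.pm_mul (f g : AF) {φ : O → ℂ} (h : ∀ a b, Primary a → Primary b → φ (a * b) = φ a * φ b) :
    (f * g).pm φ = f.pm φ * g.pm φ := by
  refine AF.ext' fun n hn => ?_
  rw [AF.pm_apply, AF.mul_apply, AF.mul_apply, Finset.sum_mul]
  refine Finset.sum_congr rfl fun d hd => ?_
  obtain ⟨h1, h2, h3⟩ := AF.primary_div hn hd
  have h4 := h d (n / d) h1 h2
  rw [h3] at h4
  rw [AF.pm_apply, AF.pm_apply, h4]
  ring
theorem AF.D_add (f g : AF) : (f + g).D = f.D + g.D := by
  exact AF.pm_add f g _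
theorem AF.D_mul (f g : AF) : (f * g).D = f.D * g + f * g.D := by
  refine AF.ext' fun n hn => ?_
  rw [AF.D_apply, AF.add_apply, AF.mul_apply, AF.mul_apply, AF.mul_apply, Finset.sum_mul,
    ← Finset.sum_add_distrib]
  refine Finset.sum_congr rfl fun d hd => ?_
  obtain ⟨h1, h2, h3⟩ := AF.primary_div hn hd
  have h4 : Real.log (nr n) = Real.log (nr d) + Real.log (nr (n / d)) := by
    rw [← Real.log_mul (nr_pos h1.ne_zero).ne' (nr_pos h2.ne_zero).ne', ← nr_mul, h3]
  rw [AF.D_apply, AF.D_apply, h4]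
  push_cast
  ring
theorem AF.D_pow (f : AF) (j : ℕ) : (f ^ (j + 1)).D = ((j + 1 : ℕ) : ℂ) • (f ^ j * f.D) := by
  induction j with
  | zero => simp
  | succ j ih =>
    rw [pow_succ f (j + 1), AF.D_mul, ih, smul_mul_assoc, Nat.cast_add (j + 1) 1, add_smul,
      Nat.cast_one, one_smul]
    congr 2
    ring

theorem Bd.mono {k k' : ℝ} {g : AF} (h : Bd k g) (hk : 0 ≤ k) (hk' : k ≤ k') : Bd k' g := by
  exact fun n hn => (h n hn).trans (pow_le_pow_left₀ hk hk' _)
theorem Bd.mul {j k : ℝ} {f g : AF} (hf : Bd j f) (hg : Bd k g) (hj : 0 ≤ j) (hk : 0 ≤ k) :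
    Bd (j + k) (f * g) := by
  intro n hn
  rw [AF.mul_apply, ← hn.sum_pdiv_pow j k]
  refine (norm_sum_le _ _).trans (Finset.sum_le_sum fun d hd => ?_)
  obtain ⟨h1, h2, -, -⟩ := hn.div hd
  rw [norm_mul]
  exact mul_le_mul (hf d h1) (hg _ h2) (norm_nonneg _) (pow_nonneg hj _)
theorem bd_one : Bd 0 1 := by
  intro n _
  rw [AF.one_apply]
  split_ifs with h
  · simp [h]
  · rw [norm_zero]; exact pow_nonneg le_rfl _
theorem Bd.prod {ι : Type*} {s : Finset ι} {g : ι → AF} (h : ∀ i ∈ s, Bd 1 (g i)) :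
    Bd s.card (∏ i ∈ s, g i) := by
  classical
  induction s using Finset.induction_on with
  | empty => simpa using bd_one
  | insert a s ha ih =>
    rw [Finset.prod_insert ha, Finset.card_insert_of_notMem ha, Nat.cast_add, Nat.cast_one,
      add_comm]
    exact (h a (Finset.mem_insert_self a s)).mul
      (ih fun i hi => h i (Finset.mem_insert_of_mem hi)) zero_le_one (Nat.cast_nonneg _)
theorem Bd.pm {k : ℝ} {g : AF} (h : Bd k g) {φ : O → ℂ} (hφ : ∀ n, PS n → ‖φ n‖ ≤ 1) :
    Bd k (g.pm φ) := by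
  intro n hn
  rw [AF.pm_apply, norm_mul]
  exact (mul_le_of_le_one_right (norm_nonneg _) (hφ n hn)).trans (h n hn)
theorem Bd.cut {k : ℝ} {g : AF} (h : Bd k g) (x y : ℝ) : Bd k (g.cut x y) := by
  refine h.pm fun n _ => ?_
  split_ifs <;> simp
theorem bd_zt (w : ℝ) : Bd 1 (zt w) := by
  intro n hn
  rw [zt_apply w hn.1, one_pow]
  split_ifs <;> simp
theorem bd_muw (w : ℝ) : Bd 1 (muw w) := by
  exact (bd_zt w).pm fun n _ => norm_mu_le n
theorem bd_gW (Y : ℝ) : Bd 1 (gW Y) := by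
  intro n hn
  rw [gW, AF.of_apply _ hn.1, one_pow]
  simpa using norm_Wc_le (nr n / Y) 0

end Crest.Agent.R12
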