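import Crest.Agent.R12.AFb0

/-!
# Row 12, analytic half: calculus in the ring `AF`
-/

set_option autoImplicit false

noncomputable section

namespace Crest.Agent.R12

open Crest.Agent.R17
open scoped ComplexConjugate Topology
open Filter MeasureTheory

theorem Sup.mono {g : AF} {x y x' y' : ℝ} (h : Sup g x y) (hx : x' ≤ x) (hy : y ≤ y') :
    Sup g x' y' := fun n hn h0 => ⟨hx.trans (h n hn h0).1, (h n hn h0).2.trans hy⟩
theorem Sup.mul {f g : AF} {x y x' y' : ℝ} (hf : Sup f x y) (hg : Sup g x' y') (hx : 0 ≤ x)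
    (hx' : 0 ≤ x') : Sup (f * g) (x * x') (y * y') := by
  intro n hn h0
  rw [AF.mul_apply] at h0
  obtain ⟨d, hd, hne⟩ := Finset.exists_ne_zero_of_sum_ne_zero h0
  obtain ⟨h1, h2, -, h4⟩ := hn.div hd
  obtain ⟨a1, a2⟩ := hf d h1 (left_ne_zero_of_mul hne)
  obtain ⟨b1, b2⟩ := hg _ h2 (right_ne_zero_of_mul hne)
  have e : nr n = nr d * nr (n / d) := by rw [← nr_mul, h4]
  rw [e]
  exact ⟨mul_le_mul a1 b1 hx' (hx.trans a1),
    mul_le_mul a2 b2 (hx'.trans b1) ((hx.trans a1).trans a2)⟩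
theorem Sup.prod {ι : Type*} {s : Finset ι} {g : ι → AF} {x y : ι → ℝ}
    (h : ∀ i ∈ s, Sup (g i) (x i) (y i)) (hx : ∀ i ∈ s, 0 ≤ x i) :
    Sup (∏ i ∈ s, g i) (∏ i ∈ s, x i) (∏ i ∈ s, y i) := by
  classical
  induction s using Finset.induction_on with
  | empty =>
    intro n _ h0
    simp only [Finset.prod_empty] at h0 ⊢
    rw [AF.one_apply] at h0
    have h1 : n = 1 := by
      by_contra hc
      exact h0 (if_neg hc)
    subst h1
    have : nr (1 : O) = 1 := by
      have h2 := nr_mul (1 : O) 1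
      rw [mul_one] at h2
      have h3 : 0 < nr (1 : O) := nr_pos one_ne_zero
      nlinarith
    rw [this]
    exact ⟨le_rfl, le_rfl⟩
  | insert a s ha ih =>
    rw [Finset.prod_insert ha, Finset.prod_insert ha, Finset.prod_insert ha]
    exact (h a (Finset.mem_insert_self _ _)).mul
      (ih (fun i hi => h i (Finset.mem_insert_of_mem hi))
        (fun i hi => hx i (Finset.mem_insert_of_mem hi)))
      (hx a (Finset.mem_insert_self _ _))
      (Finset.prod_nonneg fun i hi => hx i (Finset.mem_insert_of_mem hi))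
theorem Sup.pm {g : AF} {x y : ℝ} (h : Sup g x y) (φ : O → ℂ) : Sup (g.pm φ) x y :=
  fun n hn h0 => h n hn (left_ne_zero_of_mul (by simpa only [AF.pm_apply] using h0))
theorem sup_cut (g : AF) (x y : ℝ) : Sup (g.cut x y) x y := by
  intro n _ h0
  unfold AF.cut at h0
  rw [AF.pm_apply] at h0
  by_contra hc
  exact right_ne_zero_of_mul h0 (if_neg hc)
theorem Rgh.mul {w : ℝ} {f g : AF} (hf : Rgh w f) (hg : Rgh w g) : Rgh w (f * g) := by
  intro n hn h0
  rw [AF.mul_apply] at h0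
  obtain ⟨d, hd, hne⟩ := Finset.exists_ne_zero_of_sum_ne_zero h0
  obtain ⟨h1, h2, -, h4⟩ := hn.div hd
  have := (hf d h1 (left_ne_zero_of_mul hne)).mul (hg _ h2 (right_ne_zero_of_mul hne))
    h1.ne_zero h2.ne_zero
  rwa [h4] at this
theorem Rgh.prod {ι : Type*} {w : ℝ} {s : Finset ι} {g : ι → AF} (h : ∀ i ∈ s, Rgh w (g i)) :
    Rgh w (∏ i ∈ s, g i) := by
  classical
  induction s using Finset.induction_on with
  | empty =>
    intro n _ h0
    simp only [Finset.prod_empty] at h0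
    rw [AF.one_apply] at h0
    have h1 : n = 1 := by
      by_contra hc
      exact h0 (if_neg hc)
    subst h1
    intro p hp
    simp at hp
  | insert a s ha ih =>
    rw [Finset.prod_insert ha]
    exact (h a (Finset.mem_insert_self _ _)).mul
      (ih fun i hi => h i (Finset.mem_insert_of_mem hi))
theorem Rgh.pm {w : ℝ} {g : AF} (h : Rgh w g) (φ : O → ℂ) : Rgh w (g.pm φ) :=
  fun n hn h0 => h n hn (left_ne_zero_of_mul (by simpa only [AF.pm_apply] using h0))
theorem Reg.bd {w V y₀ : ℝ} {g : AF} (h : Reg w V y₀ g) : Bd 1 g := by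
  obtain ⟨i, φ, -, -, h1, -, h3⟩ := h
  intro n hn
  rw [h3 n hn.1, one_pow]
  split_ifs
  · rw [norm_mul, norm_pow]
    exact mul_le_one₀ (pow_le_one₀ (norm_nonneg _) (norm_mu_le n)) (norm_nonneg _) (h1 _)
  · simp
theorem Reg.rgh {w V y₀ : ℝ} {g : AF} (h : Reg w V y₀ g) : Rgh w g := by
  obtain ⟨i, φ, -, -, -, -, h3⟩ := h
  intro n hn h0
  rw [h3 n hn.1] at h0
  by_contra hc
  exact h0 (if_neg hc)
theorem Reg.mono {w V V' y₀ y₀' : ℝ} {g : AF} (h : Reg w V y₀ g) (hV : V ≤ V') (hy : y₀' ≤ y₀) :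
    Reg w V' y₀' g := by
  obtain ⟨i, φ, h0, h1, h2, h3, h4⟩ := h
  exact ⟨i, φ, h0, fun N => (h1 N).trans hV, h2, fun m hm => h3 m (hm.trans_le hy), h4⟩

end Crest.Agent.R12
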