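import Crest.Agent.R12.Defs

/-!
# Row 12, analytic half: sequences of bounded variation
-/

set_option autoImplicit false

noncomputable section

namespace Crest.Agent.R12

open Crest.Agent.R17
open scoped ComplexConjugate Topology
open Filter MeasureTheory

/-- the variation up to `N` -/
def BV_var (φ : ℕ → ℂ) (N : ℕ) : ℝ := ‖φ 0‖ + ∑ n ∈ Finset.range N, ‖φ (n + 1) - φ n‖

theorem BV_succ (φ : ℕ → ℂ) (N : ℕ) : BV_var φ (N + 1) = BV_var φ N + ‖φ (N + 1) - φ N‖ := by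
  rw [BV_var, Finset.sum_range_succ, BV_var, add_assoc]

theorem BV_zero (φ : ℕ → ℂ) : BV_var φ 0 = ‖φ 0‖ := by simp [BV_var]

theorem BV_nonneg (φ : ℕ → ℂ) (N : ℕ) : 0 ≤ BV_var φ N := by unfold BV_var; positivity

theorem BV_norm_le (φ : ℕ → ℂ) (N : ℕ) : ‖φ N‖ ≤ BV_var φ N := by
  induction N with
  | zero => rw [BV_zero]
  | succ N ih => rw [BV_succ]; linarith [norm_le_norm_sub_add (φ (N + 1)) (φ N)]

open Classical in
/-- sequences cut to a convex set -/
theorem BV_cut {P : ℕ → Prop} [DecidablePred P] (h : ∀ a b c, a ≤ b → b ≤ c → P a → P c → P b)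
    {g : ℕ → ℂ} {d : ℕ → ℝ} {V : ℝ} (hV : 0 ≤ V) (h1 : ∀ n, P n → ‖g n‖ ≤ d n ∧ d n + ‖g n‖ ≤ V)
    (h2 : ∀ n, P n → P (n + 1) → ‖g (n + 1) - g n‖ ≤ d (n + 1) - d n) :
    BVn (fun n => if P n then g n else 0) V := by
  have key : ∀ N, (P N → BV_var (fun n => if P n then g n else 0) N ≤ d N) ∧
      ((∀ k ≤ N, ¬ P k) → BV_var (fun n => if P n then g n else 0) N ≤ 0) ∧
      BV_var (fun n => if P n then g n else 0) N ≤ V := by
    intro N
    induction N with
    | zero =>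
      rw [BV_zero]
      by_cases c : P 0
      · have := h1 0 c
        simp only [if_pos c]
        exact ⟨fun _ => this.1, fun h0 => absurd c (h0 0 le_rfl),
          by linarith [norm_nonneg (g 0)]⟩
      · simp [c, hV]
    | succ N ih =>
      obtain ⟨i1, i2, i3⟩ := ih
      rw [BV_succ]
      by_cases c : P N <;> by_cases c' : P (N + 1) <;> simp only [c, c', if_true, if_false]
      · have a1 := h1 _ c'
        have a2 := h2 _ c c'
        have a3 := i1 c
        exact ⟨fun _ => by linarith, fun h0 => absurd c' (h0 _ le_rfl),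
          by linarith [norm_nonneg (g (N + 1))]⟩
      · have a1 := h1 _ c
        have a3 := i1 c
        rw [zero_sub, norm_neg]
        exact ⟨False.elim, fun h0 => absurd c (h0 _ (Nat.le_succ _)), by linarith⟩
      · have a1 := h1 _ c'
        have a3 := i2 fun k hk hP => c (h k N (N + 1) hk (Nat.le_succ _) hP c')
        rw [sub_zero]
        exact ⟨fun _ => by linarith, fun h0 => absurd c' (h0 _ le_rfl),
          by linarith [norm_nonneg (g (N + 1))]⟩
      · rw [sub_zero, norm_zero, add_zero]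
        exact ⟨False.elim, fun h0 => i2 fun k hk => h0 k (hk.trans (Nat.le_succ _)), i3⟩
  exact fun N => (key N).2.2

theorem BV_cpow_sub {a b : ℝ} (ha : 1 ≤ a) (hab : a ≤ b) {s : ℂ} (hs : s.re ≤ 1) :
    ‖(b : ℂ) ^ s - (a : ℂ) ^ s‖ ≤ ‖s‖ * (b - a) := by
  rcases eq_or_ne s 0 with rfl | h0
  · simp
  refine norm_image_sub_le_of_norm_deriv_le_segment' (f := fun x : ℝ => (x : ℂ) ^ s)
    (f' := fun x => s * (x : ℂ) ^ (s - 1)) (fun x hx => (hasDerivAt_ofReal_cpow_const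
      (by linarith [hx.1] : x ≠ 0) h0).hasDerivWithinAt) (fun x hx => ?_) b ⟨hab, le_rfl⟩
  rw [norm_mul, Complex.norm_cpow_eq_rpow_re_of_pos (by linarith [hx.1])]
  refine mul_le_of_le_one_right (norm_nonneg _)
    (Real.rpow_le_one_of_one_le_of_nonpos (ha.trans hx.1) ?_)
  simpa using hs

theorem BVn.nonneg {φ : ℕ → ℂ} {V : ℝ} (h : BVn φ V) : 0 ≤ V :=
  (BV_nonneg φ 0).trans (h 0)
theorem BVn.mono {φ : ℕ → ℂ} {V V' : ℝ} (h : BVn φ V) (hV : V ≤ V') : BVn φ V' :=
  fun N => (h N).trans hV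
theorem BVn.norm_le {φ : ℕ → ℂ} {V : ℝ} (h : BVn φ V) (n : ℕ) : ‖φ n‖ ≤ V :=
  (BV_norm_le φ n).trans (h n)
/-- `‖φ N ψ N‖`-type telescoping: prove `‖φψ‖_N ≤ ‖φ‖_N ‖ψ‖_N` by induction on `N`. -/
theorem BVn.mul {φ ψ : ℕ → ℂ} {V W : ℝ} (h : BVn φ V) (h' : BVn ψ W) :
    BVn (fun n => φ n * ψ n) (V * W) := by
  have key : ∀ N, BV_var (fun n => φ n * ψ n) N ≤ BV_var φ N * BV_var ψ N := by
    intro N
    induction N with
    | zero => simp only [BV_zero, norm_mul, le_refl]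
    | succ N ih =>
      simp only [BV_succ]
      have h1 := BV_norm_le φ N
      have h2 := BV_norm_le ψ (N + 1)
      rw [BV_succ] at h2
      have h3 : ‖φ (N + 1) * ψ (N + 1) - φ N * ψ N‖ ≤
          ‖φ (N + 1) - φ N‖ * ‖ψ (N + 1)‖ + ‖φ N‖ * ‖ψ (N + 1) - ψ N‖ := by
        rw [← norm_mul, ← norm_mul]
        refine le_of_eq_of_le (congrArg _ ?_) (norm_add_le _ _)
        ring
      have h4 := mul_le_mul_of_nonneg_left h2 (norm_nonneg (φ (N + 1) - φ N))
      have h5 := mul_le_mul_of_nonneg_right h1 (norm_nonneg (ψ (N + 1) - ψ N))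
      nlinarith
  exact fun N => (key N).trans (mul_le_mul (h N) (h' N) (BV_nonneg ψ N) h.nonneg)
theorem BVn.add {φ ψ : ℕ → ℂ} {V W : ℝ} (h : BVn φ V) (h' : BVn ψ W) :
    BVn (fun n => φ n + ψ n) (V + W) := by
  intro N
  have h1 : ∑ n ∈ Finset.range N, ‖φ (n + 1) + ψ (n + 1) - (φ n + ψ n)‖ ≤
      ∑ n ∈ Finset.range N, ‖φ (n + 1) - φ n‖ + ∑ n ∈ Finset.range N, ‖ψ (n + 1) - ψ n‖ := by
    rw [← Finset.sum_add_distrib]
    exact Finset.sum_le_sum fun n _ => by rw [add_sub_add_comm]; exact norm_add_le _ _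
  linarith [h N, h' N, norm_add_le (φ 0) (ψ 0)]
theorem BVn.sub {φ ψ : ℕ → ℂ} {V W : ℝ} (h : BVn φ V) (h' : BVn ψ W) :
    BVn (fun n => φ n - ψ n) (V + W) := by
  have h1 : BVn (fun n => -ψ n) W := fun N => by
    simpa only [norm_neg, neg_sub_neg, norm_sub_rev (ψ _) (ψ (_ + 1))] using h' N
  simpa only [sub_eq_add_neg] using h.add h1
theorem bvn_of_monotone {φ : ℕ → ℝ} (h : Monotone φ) (h0 : ∀ n, 0 ≤ φ n) (h1 : ∀ n, φ n ≤ 1) :
    BVn (fun n => (φ n : ℂ)) 1 := by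
  intro N
  have e : ∀ n, ‖(φ (n + 1) : ℂ) - φ n‖ = φ (n + 1) - φ n := fun n => by
    rw [← Complex.ofReal_sub, Complex.norm_real, Real.norm_of_nonneg (sub_nonneg.2 (h n.le_succ))]
  simp only [e, Finset.sum_range_sub, Complex.norm_real, Real.norm_of_nonneg (h0 0)]
  linarith [h1 N]
theorem bvn_of_antitone {φ : ℕ → ℝ} (h : Antitone φ) (h0 : ∀ n, 0 ≤ φ n) (h1 : ∀ n, φ n ≤ 1) :
    BVn (fun n => (φ n : ℂ)) 2 := by
  intro N
  have e : ∀ n, ‖(φ (n + 1) : ℂ) - φ n‖ = φ n - φ (n + 1) := fun n => by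
    rw [← Complex.ofReal_sub, Complex.norm_real,
      Real.norm_of_nonpos (sub_nonpos.2 (h n.le_succ)), neg_sub]
  simp only [e, Finset.sum_range_sub', Complex.norm_real, Real.norm_of_nonneg (h0 0)]
  linarith [h1 0, h0 N]
/-- Indicator functions of convex sets of integers. -/
theorem bvn_ind {P : ℕ → Prop} [DecidablePred P] (h : ∀ a b c, a ≤ b → b ≤ c → P a → P c → P b) :
    BVn (fun n => if P n then 1 else 0) 2 :=
  BV_cut h (g := fun _ => 1) (d := fun _ => 1) zero_le_two (fun _ _ => by norm_num)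
    fun _ _ _ => by simp
open Classical in
theorem bvn_log {z L : ℝ} (hL : 0 < L) (hz : Real.log z ≤ L) :
    BVn (fun n => if (n : ℝ) ≤ z then ((Real.log n / L : ℝ) : ℂ) else 0) 2 := by
  refine BV_cut (P := fun n => (n : ℝ) ≤ z) (fun a b c _ hbc _ hc => le_trans (by exact_mod_cast hbc) hc)
    (d := fun n => Real.log n / L) zero_le_two (fun n hn => ?_) fun n _ _ => ?_
  · have h0 : 0 ≤ Real.log n / L := div_nonneg (Real.log_natCast_nonneg n) hL.le
    have h1 : Real.log n / L ≤ 1 := by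
      rw [div_le_one hL]
      rcases Nat.eq_zero_or_pos n with rfl | h
      · simpa using hL.le
      · exact (Real.log_le_log (by exact_mod_cast h) hn).trans hz
    rw [Complex.norm_real, Real.norm_of_nonneg h0]
    exact ⟨le_rfl, by linarith⟩
  · rw [← Complex.ofReal_sub, Complex.norm_real, Real.norm_of_nonneg]
    rw [sub_nonneg]
    refine div_le_div_of_nonneg_right ?_ hL.le
    rcases Nat.eq_zero_or_pos n with rfl | h
    · simp
    · exact Real.log_le_log (by exact_mod_cast h) (by exact_mod_cast n.le_succ)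
open Classical in
theorem bvn_cpow {y : ℝ} (hy : 0 < y) {s : ℂ} (hs : |s.re| ≤ 1) :
    BVn (fun n => if y < n ∧ (n : ℝ) ≤ 2 * y then (((n : ℝ) / y : ℝ) : ℂ) ^ s else 0)
      (4 * (1 + ‖s‖)) := by
  refine BV_cut (P := fun n => y < n ∧ (n : ℝ) ≤ 2 * y)
    (fun a b c hab hbc ha hc => ⟨ha.1.trans_le (by exact_mod_cast hab),
      le_trans (by exact_mod_cast hbc) hc.2⟩)
    (d := fun n => 2 + ‖s‖ * (n / y - 1)) (by positivity) (fun n hn => ?_) fun n hn _ => ?_
  · have h1 : 1 ≤ (n : ℝ) / y := (one_le_div hy).2 hn.1.le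
    have h2 : (n : ℝ) / y ≤ 2 := (div_le_iff₀ hy).2 hn.2
    have h3 : ‖(((n : ℝ) / y : ℝ) : ℂ) ^ s‖ ≤ 2 := by
      rw [Complex.norm_cpow_eq_rpow_re_of_pos (by linarith)]
      exact (Real.rpow_le_self_of_one_le h1 (abs_le.1 hs).2).trans h2
    have h4 := norm_nonneg s
    constructor <;> nlinarith
  · refine (BV_cpow_sub ((one_le_div hy).2 hn.1.le)
      (div_le_div_of_nonneg_right (by exact_mod_cast n.le_succ) hy.le) (abs_le.1 hs).2).trans_eq ?_
    ring
open Classical in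
/-- Abel summation over the norm. -/
theorem BVn.abel {φ : ℕ → ℂ} {V E : ℝ} (h : BVn φ V) (P : O → Prop) (a : O → ℂ) (N : ℕ)
    (hE : ∀ x : ℕ, x ≤ N → ‖∑ n ∈ (ball x).filter P, a n‖ ≤ E) :
    ‖∑ n ∈ (ball N).filter P, a n * φ (nm n)‖ ≤ 2 * V * E := by
  have hE0 : 0 ≤ E := (norm_nonneg _).trans (hE 0 (Nat.zero_le _))
  have e1 : ∀ n ∈ (ball N).filter P, a n * φ (nm n) = φ N * a n -
      ∑ k ∈ Finset.range N, (φ (k + 1) - φ k) * if nm n ≤ k then a n else 0 := by
    intro n hn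
    have hn' := mem_ball.1 (Finset.mem_filter.1 hn).1
    have : (Finset.range N).filter (fun k => nm n ≤ k) = Finset.Ico (nm n) N := by
      ext k; simp [and_comm]
    simp only [mul_ite, mul_zero]
    rw [← Finset.sum_filter, this, ← Finset.sum_mul, Finset.sum_Ico_sub _ hn']
    ring
  have e2 : ∀ k ∈ Finset.range N, ∑ n ∈ (ball N).filter P, (if nm n ≤ k then a n else 0) =
      ∑ n ∈ (ball k).filter P, a n := by
    intro k hk
    rw [← Finset.sum_filter]
    congr 1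
    ext n
    have := Finset.mem_range.1 hk
    simp only [Finset.mem_filter, mem_ball]
    exact ⟨fun h => ⟨h.2, h.1.2⟩, fun h => ⟨⟨by omega, h.2⟩, h.1⟩⟩
  rw [Finset.sum_congr rfl e1, Finset.sum_sub_distrib, Finset.sum_comm, ← Finset.mul_sum]
  simp only [← Finset.mul_sum]
  rw [Finset.sum_congr rfl fun k hk => congrArg ((φ (k + 1) - φ k) * ·) (e2 k hk)]
  refine (norm_sub_le _ _).trans ?_
  have b1 : ‖φ N * ∑ n ∈ (ball N).filter P, a n‖ ≤ V * E := by
    rw [norm_mul]; exact mul_le_mul (h.norm_le N) (hE N le_rfl) (norm_nonneg _) h.nonneg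
  have b2 : ‖∑ k ∈ Finset.range N, (φ (k + 1) - φ k) * ∑ n ∈ (ball k).filter P, a n‖ ≤ V * E := by
    refine (norm_sum_le _ _).trans (le_trans (b := ∑ k ∈ Finset.range N, ‖φ (k + 1) - φ k‖ * E)
      (Finset.sum_le_sum fun k hk => ?_) ?_)
    · rw [norm_mul]
      exact mul_le_mul_of_nonneg_left (hE k (Finset.mem_range.1 hk).le) (norm_nonneg _)
    · rw [← Finset.sum_mul]
      exact mul_le_mul_of_nonneg_right (by linarith [h N, norm_nonneg (φ 0)]) hE0
  linarith

end Crest.Agent.R12
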