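import Crest.Agent.R12.ThS

/-!
# Row 12, theta half: the constant terms
-/

set_option autoImplicit false

noncomputable section

namespace Crest.Agent.R12

open Crest.Agent.R17
open scoped ComplexConjugate Topology
open Filter MeasureTheory

open Classical in
/-- The complete sum `∑_{d mod 9c, d ≡ 1 (3)} conj (c / d)₃`. -/
def gA (c : O) : ℂ := if c = 0 then 0 else ∑ d ∈ res (9 * c), E2.pri d * conj (cub d c)

/-- A non-trivial cube root of unity has order three. -/
theorem ThCtA_three_dvd {z : ℂ} (h3 : z ^ 3 = 1) (h1 : z ≠ 1) {j : ℕ} (h : z ^ j = 1) : 3 ∣ j := by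
  have h7 : z ^ (j % 3) = 1 := by
    rw [← Nat.mod_add_div j 3, pow_add, pow_mul, h3, one_pow, mul_one] at h
    exact h
  have h8 : j % 3 < 3 := Nat.mod_lt _ (by norm_num)
  apply Nat.dvd_of_mod_eq_zero
  generalize j % 3 = r at h7 h8
  interval_cases r
  · rfl
  · exact absurd (by simpa using h7) h1
  · exfalso
    apply h1
    calc z = z ^ 2 * z := by rw [h7, one_mul]
      _ = 1 := by rw [← pow_succ, h3]

theorem ThCtA_omC_ne : omC ≠ 1 := by
  intro h
  have := omC_mul
  rw [h] at this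
  norm_num at this

theorem ThCtA_cub_neg_om (d : O) : cub d (-om) = cub d om := by
  rw [show -om = (-1) * om by ring, cub_mul_right, cub_neg_one, one_mul]

/-- Test with `d = 1 + 3 λ` (`KubC2.cub_lam_ne`, `RecipA.om_congr`) and `d = -2` (`RecipA.cub_om`). -/
theorem cube_of_triv {u : O} (hu : IsUnit u) {j : ℕ}
    (h : ∀ d, Primary d → cub d (u * lam ^ j) = 1) : ∃ x, u * lam ^ j = x ^ 3 := by
  obtain ⟨k, -, rfl⟩ := isUnit_iff_pow.1 hu
  have hp1 : Primary (1 + 3 * lam) := ⟨lam, by ring⟩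
  have hp2 : Primary (-2 : O) := ⟨-1, by ring⟩
  have hlam : ∀ d, Primary d → cub d lam ^ 3 = 1 := fun d hd =>
    cub_pow_three hd (prime_lam.coprime_iff_not_dvd.2 hd.not_lam_dvd).symm
  have hj : 3 ∣ j := by
    have h1 := h _ hp1
    have h2 : cub (1 + 3 * lam) om = 1 := by
      rw [RecipA.om_congr hp1 primary_one ⟨1, by ring⟩, cub_one_left]
    rw [cub_mul_right, cub_pow_right, cub_pow_right, ThCtA_cub_neg_om, h2, one_pow, one_mul] at h1
    exact ThCtA_three_dvd (hlam _ hp1) (KubC2.cub_lam_ne (by simp)) h1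
  obtain ⟨j, rfl⟩ := hj
  have hk : 3 ∣ k := by
    have h1 := h _ hp2
    have h2 : cub (-2 : O) om = omC := by
      obtain ⟨t, ht, e⟩ := RecipA.cub_om hp2
      have h4 : nm (-2 : O) = 4 := by
        rw [nm_neg]
        simpa using nm_natCast 2
      have : t = 1 := by omega
      rw [e, this, pow_one]
    rw [cub_mul_right, cub_pow_right, cub_pow_right, ThCtA_cub_neg_om, h2, pow_mul, hlam _ hp2,
      one_pow, mul_one] at h1
    exact ThCtA_three_dvd RecipA.omC_cube ThCtA_omC_ne h1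
  obtain ⟨k, rfl⟩ := hk
  exact ⟨(-om) ^ k * lam ^ j, by ring⟩

theorem ThCtA_nine_ne : (9 : O) ≠ 0 := by
  rw [E2.nine_eq]; exact pow_ne_zero _ prime_lam.ne_zero

theorem ThCtA_per {c : O} (hc : c ≠ 0) (x y : O) (h : 9 * c ∣ x - y) :
    E2.pri x * conj (cub x c) = E2.pri y * conj (cub y c) := by
  have hp := E2.primary_congr (Dvd.dvd.trans ⟨3 * c, by ring⟩ h)
  unfold E2.pri
  by_cases hx : Primary x
  · rw [if_pos hx, if_pos (hp.1 hx), cub_periodic hc hx (hp.1 hx) h]
  · rw [if_neg hx, if_neg (fun h => hx (hp.2 h)), zero_mul, zero_mul]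

open Classical in
theorem ThCtA_gA {u n : O} (hu : IsUnit u) (j : ℕ) (hn : Primary n) :
    gA (u * lam ^ j * n) =
      if ∀ d, Primary d → IsCoprime d (u * lam ^ j * n) → cub d (u * lam ^ j * n) = 1
      then ((9 * nr (u * lam ^ j * n) * E2.phi n : ℝ) : ℂ) else 0 := by
  have h0 : u * lam ^ j ≠ 0 := mul_ne_zero hu.ne_zero (pow_ne_zero _ prime_lam.ne_zero)
  have hn0 := hn.ne_zero
  set c := u * lam ^ j * n with hc
  have hc0 : c ≠ 0 := mul_ne_zero h0 hn0
  have h9 := ThCtA_nine_ne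
  rw [gA, if_neg hc0]
  by_cases H : ∀ d, Primary d → IsCoprime d c → cub d c = 1
  · rw [if_pos H]
    have h1 : ∀ d, E2.pri d * conj (cub d c) = E2.pri d * E2.ind n d := by
      intro d
      unfold E2.pri E2.ind
      by_cases hd : Primary d
      · rw [if_pos hd, one_mul, one_mul]
        by_cases hcd : IsCoprime n d
        · rw [if_pos hcd, H d hd ((E2.cop_lam hu j hd).mul_right hcd.symm), map_one]
        · rw [if_neg hcd, (cub_eq_zero_iff hd).2 (fun h => hcd h.of_mul_right_right.symm), map_zero]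
      · rw [if_neg hd, zero_mul, zero_mul]
    have h2 : 9 * c = (3 * (3 * (u * lam ^ j))) * n := by rw [hc]; ring
    have h3 : IsCoprime (3 * (3 * (u * lam ^ j))) n :=
      hn.isCoprime_three.symm.mul_left
        (hn.isCoprime_three.symm.mul_left (E2.cop_lam hu j hn).symm)
    simp only [h1]
    rw [h2, E2.sum_res_mul_mul (mul_ne_zero E2.three_ne (mul_ne_zero E2.three_ne h0)) hn0 h3 _ _
      (fun x y h => E2.pri_per x y ((dvd_mul_right _ _).trans h)) (E2.ind_per n),
      E2.sum_pri (mul_ne_zero E2.three_ne h0), E2.sum_ind hn, hc, nr_mul (u * lam ^ j) n, nm_mul 3]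
    have : nm 3 = 9 := by simpa using nm_natCast 3
    rw [this]
    push_cast; ring
  · rw [if_neg H]
    push Not at H
    obtain ⟨d₀, hd₀, hc₀, hne⟩ := H
    have hcop : IsCoprime d₀ (9 * c) := by
      refine IsCoprime.mul_right ?_ hc₀
      have : (9 : O) = 3 ^ 2 := by norm_num
      rw [this]; exact hd₀.isCoprime_three.pow_right
    have h1 := sum_res_affine (mul_ne_zero h9 hc0) (fun x => E2.pri x * conj (cub x c))
      (ThCtA_per hc0) hcop 0
    have h2 : ∀ x, E2.pri (d₀ * x + 0) * conj (cub (d₀ * x + 0) c) =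
        conj (cub d₀ c) * (E2.pri x * conj (cub x c)) := by
      intro x
      rw [add_zero]
      unfold E2.pri
      by_cases hx : Primary x
      · rw [if_pos hx, if_pos (hd₀.mul hx), cub_mul_left hd₀.ne_zero hx.ne_zero, map_mul]
        ring
      · rw [if_neg hx, if_neg (fun h => hx (hd₀.of_mul h)), zero_mul, zero_mul, mul_zero]
    simp only [h2] at h1
    rw [← Finset.mul_sum] at h1
    have h3 : conj (cub d₀ c) - 1 ≠ 0 := by
      intro h
      apply hne
      have := congrArg conj (sub_eq_zero.1 h)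
      simpa using this
    have h4 : (conj (cub d₀ c) - 1) * ∑ x ∈ res (9 * c), E2.pri x * conj (cub x c) = 0 := by
      rw [sub_mul, h1, one_mul, sub_self]
    exact (mul_eq_zero.1 h4).resolve_left h3

theorem ThCtA_triv_of_cube {c x : O} (h : c = x ^ 3) (d : O) (hd : Primary d)
    (hc : IsCoprime d c) : cub d c = 1 := by
  subst h
  rw [cub_pow_right]
  exact cub_pow_three hd ((IsCoprime.pow_right_iff (by norm_num)).1 hc)

open Classical in
/-- Compare `E2.Gx_xi_zero`, `E2.triv_iff`. -/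
theorem gA_eq (c : O) :
    gA c = if c ≠ 0 ∧ ∃ x, c = x ^ 3 then ((9 * nr c * phiN c : ℝ) : ℂ) else 0 := by
  rcases eq_or_ne c 0 with rfl | hc0
  · rw [if_neg (fun h => h.1 rfl), gA, if_pos rfl]
  obtain ⟨u, j, hu, hc1⟩ := exists_eq_unit_lam_primary hc0
  have hn : Primary (∏ p ∈ pf c, p ^ vp p c) :=
    BasicB.primary_prod_pow (fun q hq => BasicB.pf_sub hq) _
  generalize ∏ p ∈ pf c, p ^ vp p c = n at hc1 hn
  subst hc1
  have hph : phiN (u * lam ^ j * n) = E2.phi n := by
    unfold phiN E2.phi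
    rw [mul_assoc, pf_unit_mul hu, pf_mul (pow_ne_zero _ prime_lam.ne_zero) hn.ne_zero,
      BasicB.pf_lam_pow, Finset.empty_union]
  rw [ThCtA_gA hu j hn, hph]
  refine if_congr ⟨fun H => ⟨hc0, ?_⟩, fun H => ?_⟩ rfl rfl
  · obtain ⟨h1, m, -, rfl⟩ := (E2.triv_iff hu j hn).1 H
    obtain ⟨x, hx⟩ := cube_of_triv hu h1
    exact ⟨x * m, by rw [hx]; ring⟩
  · obtain ⟨-, x, hx⟩ := H
    exact ThCtA_triv_of_cube hx

open Classical in
theorem Gx_LB {β : O} (h : (3 : O) ∣ β) (c : O) :
    Gx (xis (LB β)) 0 c = if (9 : O) ∣ c - β then gA c else 0 := by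
  have hG : Gx (xis (LB β)) 0 c =
      if c = 0 then 0 else ∑ d ∈ res (9 * c), xis (LB β) c d * eq (0 * d) (9 * c) := rfl
  rw [hG]
  rcases eq_or_ne c 0 with rfl | hc0
  · rw [if_pos rfl, gA, if_pos rfl, ite_self]
  have hx : ∀ d, xis (LB β) c d * eq (0 * d) (9 * c) =
      if (9 : O) ∣ c - β then E2.pri d * conj (cub d c) else 0 := by
    intro d
    have e : xis (LB β) c d = xi (c - d * β) d := by
      simp [xis, LB]
    have e2 : xi (c - d * β) d =
      if (9 : O) ∣ c - d * β ∧ Primary d then conj (cub d (c - d * β)) else 0 := rfl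
    rw [zero_mul, eq_zero_left, mul_one, e, e2]
    unfold E2.pri
    by_cases hd : Primary d
    · have h9 : (9 : O) ∣ (c - β) - (c - d * β) := by
        obtain ⟨b, rfl⟩ := h
        obtain ⟨t, ht⟩ := hd
        exact ⟨t * b, by linear_combination (3 * b) * ht⟩
      have hiff : (9 : O) ∣ c - d * β ↔ (9 : O) ∣ c - β := by
        constructor
        · intro h1
          have := dvd_add h9 h1
          rwa [sub_add_cancel] at this
        · intro h1
          have := dvd_sub h1 h9
          rwa [sub_sub_cancel] at this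
      have hc : cub d (c - d * β) = cub d c :=
        cub_congr ((rad_dvd d).trans ⟨-β, by ring⟩)
      rw [if_pos hd, one_mul, hc]
      by_cases h1 : (9 : O) ∣ c - β
      · rw [if_pos h1, if_pos ⟨hiff.2 h1, hd⟩]
      · rw [if_neg h1, if_neg (fun h2 => h1 (hiff.1 h2.1))]
    · rw [if_neg (fun h2 => hd h2.2), if_neg hd, zero_mul, ite_self]
  rw [if_neg hc0, gA, if_neg hc0]
  simp only [hx]
  split_ifs
  · rfl
  · exact Finset.sum_const_zero

theorem ThCtA_gA_primary {c : O} (hc : Primary c) : gA c = 9 * conj (gc c 0) := by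
  have hc0 := hc.ne_zero
  have h1 : ∀ d, E2.pri d * conj (cub d c) = E2.pri d * conj (cub c d) := by
    intro d
    unfold E2.pri
    by_cases hd : Primary d
    · rw [cub_recip hd hc]
    · rw [if_neg hd, zero_mul, zero_mul]
  have h2 : (9 : O) * c = (3 * 3) * c := by norm_num
  have h3 : IsCoprime ((3 : O) * 3) c := hc.isCoprime_three.symm.mul_left hc.isCoprime_three.symm
  have h4 : nm 3 = 9 := by simpa using nm_natCast 3
  rw [gA, if_neg hc0]
  simp only [h1]
  rw [h2, E2.sum_res_mul_mul (mul_ne_zero E2.three_ne E2.three_ne) hc0 h3 _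
    (fun d => conj (cub c d)) (fun x y h => E2.pri_per x y ((dvd_mul_right _ _).trans h))
    (fun x y h => by rw [cub_congr ((rad_dvd c).trans h)]), E2.sum_pri E2.three_ne, h4, gc, map_sum]
  simp only [zero_mul, eq_zero_left, mul_one]
  norm_num

theorem ThCtA_nine_gc {c : O} (hc : Primary c) : cub c 9 * gc c 0 = gc c 0 := by
  have h3 : IsCoprime (9 : O) c := by
    have : (9 : O) = 3 ^ 2 := by norm_num
    rw [this]; exact hc.isCoprime_three.symm.pow_left
  have h1 := sum_res_affine hc.ne_zero (cub c) (fun x y h => cub_congr ((rad_dvd c).trans h)) h3 0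
  simp only [gc, zero_mul, eq_zero_left, mul_one]
  simp only [add_zero, cub_mul_right] at h1
  rw [Finset.mul_sum, h1]

open Classical in
theorem Gx_SS_zero (c : O) : Gx (xis SS) 0 c = if Primary c then gA c / 9 else 0 := by
  rw [Gx_SS]
  split_ifs with hc
  · rw [ThCtA_nine_gc hc, ThCtA_gA_primary hc]
    ring
  · rfl

/-- `TAE1.ph_eq`. -/
theorem Gx_SS_zero_conv : Gx (xis SS) 0 = conv3 mu cubeN := by
  classical
  funext n
  rw [Gx_SS_zero, conv3]
  by_cases H : ∃ m, Primary m ∧ n = m ^ 3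
  · obtain ⟨m, hm, rfl⟩ := H
    have hm0 := hm.ne_zero
    rw [if_pos (hm.pow 3), gA_eq, if_pos ⟨pow_ne_zero _ hm0, m, rfl⟩,
      tsum_eq_sum (s := pdiv m) (fun d hd => by
        rw [if_neg]
        rintro ⟨h1, h2⟩
        exact hd ((mem_pdiv hm0).2 ⟨h1, (UniqueFactorizationMonoid.pow_dvd_pow_iff_dvd (by norm_num)).1 h2⟩))]
    have hph : phiN (m ^ 3) = ∑ d ∈ pdiv m, (mu d).re * (nr d)⁻¹ := by
      rw [← TAE1.ph_eq hm0]
      exact E2.phi_cube m
    have hterm : ∀ d ∈ pdiv m, (if Primary d ∧ d ^ 3 ∣ m ^ 3 then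
        mu d * ((nr d ^ 2 : ℝ) : ℂ) * cubeN (m ^ 3 / d ^ 3) else 0) =
        (nr (m ^ 3) : ℂ) * (((mu d).re * (nr d)⁻¹ : ℝ) : ℂ) := by
      intro d hd
      obtain ⟨h1, e, rfl⟩ := (mem_pdiv hm0).1 hd
      have hd0 := h1.ne_zero
      have he : Primary e := h1.of_mul hm
      have h2 : (d * e) ^ 3 / d ^ 3 = e ^ 3 := by
        rw [mul_pow, mul_div_cancel_left₀ _ (pow_ne_zero _ hd0)]
      rw [if_pos ⟨h1, pow_dvd_pow_of_dvd (dvd_mul_right _ _) 3⟩, h2, cubeN, if_pos ⟨e, he, rfl⟩,
        Complex.ofReal_mul, TAE1.mu_re, nr_pow, nr_pow, nr_mul]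
      have : ((nm d : ℕ) : ℂ) ≠ 0 := by
        have := nr_pos hd0
        exact_mod_cast this.ne'
      push_cast
      field_simp
    rw [Finset.sum_congr rfl hterm, ← Finset.mul_sum, hph]
    push_cast
    ring
  · have h1 : (if Primary n then gA n / 9 else 0) = 0 := by
      split_ifs with hn
      · rw [gA_eq, if_neg, zero_div]
        rintro ⟨-, x, hx⟩
        have := (E2.triv_iff isUnit_one 0 hn).1 (by
          rw [pow_zero, one_mul, one_mul]
          exact ThCtA_triv_of_cube hx)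
        exact H this.2
      · rfl
    rw [h1]
    symm
    refine (tsum_congr fun d => ?_).trans tsum_zero
    split_ifs with hd
    · obtain ⟨h2, t, rfl⟩ := hd
      rw [mul_div_cancel_left₀ _ (pow_ne_zero _ h2.ne_zero), cubeN, if_neg, mul_zero]
      rintro ⟨e, he, rfl⟩
      exact H ⟨d * e, h2.mul he, by ring⟩
    · rfl

end Crest.Agent.R12
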