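import Crest.Agent.R12.ThDefs

/-!
# Row 12, theta half: angular modes (finite averages over roots of unity)
-/

set_option autoImplicit false

noncomputable section

namespace Crest.Agent.R12

open Crest.Agent.R17
open scoped ComplexConjugate Topology
open Filter MeasureTheory

/-- The `l`-th angular mode of `F`, computed with the powers of `ζ`. -/
def modeAvg (ζ : ℂ) (N : ℕ) (l : ℤ) (F : ℂ → ℂ) : ℂ :=
  (N : ℂ)⁻¹ * ∑ j ∈ Finset.range N, (ζ ^ j) ^ (-l) * F (ζ ^ j)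

theorem norm_Pl (l : ℤ) (z : ℂ) : ‖Pl l z‖ = ‖z‖ ^ l.natAbs := by
  rw [Pl, norm_mul, norm_pow, norm_pow, Complex.norm_conj, ← pow_add, Int.toNat_add_toNat_neg_eq_natAbs]
theorem Pl_mul (l : ℤ) (z w : ℂ) : Pl l (z * w) = Pl l z * Pl l w := by
  simp only [Pl, map_mul, mul_pow]; ring
theorem Pl_zero_left (z : ℂ) : Pl 0 z = 1 := by simp [Pl]
theorem Pl_zero_right (l : ℤ) : Pl l 0 = if l = 0 then 1 else 0 := by
  rw [Pl, map_zero, ← pow_add, Int.toNat_add_toNat_neg_eq_natAbs]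
  split_ifs with h
  · simp [h]
  · exact zero_pow (Int.natAbs_ne_zero.2 h)
theorem Pl_ofReal (l : ℤ) (x : ℝ) : Pl l x = (x : ℂ) ^ l.natAbs := by
  rw [Pl, Complex.conj_ofReal, ← pow_add, Int.toNat_add_toNat_neg_eq_natAbs]
theorem Pl_conj (l : ℤ) (z : ℂ) : Pl l (conj z) = Pl (-l) z := by
  rw [Pl, Pl, Complex.conj_conj, neg_neg, mul_comm]
theorem Pl_inv (l : ℤ) (z : ℂ) : Pl l z⁻¹ = (Pl l z)⁻¹ := by
  rw [Pl, Pl, map_inv₀, inv_pow, inv_pow, mul_inv]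
theorem continuous_Pl (l : ℤ) : Continuous (Pl l) :=
  (continuous_id.pow _).mul (Complex.continuous_conj.pow _)

theorem ThMode_Pl_unit {w : ℂ} (hw : ‖w‖ = 1) (l : ℤ) : Pl l w = w ^ l := by
  have h0 : w ≠ 0 := fun h => by simp [h] at hw
  rw [Pl, ← Complex.inv_eq_conj hw, inv_pow, ← zpow_natCast, ← zpow_natCast, ← zpow_neg,
    ← zpow_add₀ h0, ← sub_eq_add_neg, Int.toNat_sub_toNat_neg]

theorem Pl_ι {n : O} (hn : n ≠ 0) (l : ℤ) :
    Pl l (ι n) = arg n ^ l * ((nr n ^ ((l.natAbs : ℝ) / 2) : ℝ) : ℂ) := by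
  have h1 : (0 : ℝ) < ‖ι n‖ := by rw [norm_ι]; exact Real.sqrt_pos.2 (nr_pos hn)
  have h2 : ι n = arg n * (‖ι n‖ : ℝ) := by
    rw [arg, div_mul_cancel₀ _ (Complex.ofReal_ne_zero.2 h1.ne')]
  have h3 : nr n ^ ((l.natAbs : ℝ) / 2) = ‖ι n‖ ^ l.natAbs := by
    rw [norm_ι, Real.sqrt_eq_rpow, ← Real.rpow_natCast, ← Real.rpow_mul (nr_pos hn).le]
    congr 1; ring
  rw [h3, Complex.ofReal_pow, ← Pl_ofReal, ← ThMode_Pl_unit (norm_arg hn), ← Pl_mul, ← h2]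
theorem norm_arg_zpow_le (n : O) (l : ℤ) : ‖arg n ^ l‖ ≤ 1 := by
  rcases eq_or_ne n 0 with rfl | hn
  · rcases eq_or_ne l 0 with rfl | hl
    · simp
    · simp [arg, zero_zpow l hl]
  · rw [norm_zpow, norm_arg hn, one_zpow]

theorem ThMode_geom {ζ : ℂ} {N : ℕ} (hζ : IsPrimitiveRoot ζ N) {e : ℤ} (he : |e| < N) :
    ∑ j ∈ Finset.range N, (ζ ^ j) ^ e = if e = 0 then (N : ℂ) else 0 := by
  split_ifs with h
  · simp [h]
  · have h1 : ζ ^ e ≠ 1 := fun h1 =>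
      h (Int.eq_zero_of_abs_lt_dvd ((hζ.zpow_eq_one_iff_dvd e).1 h1) he)
    have h2 : ∀ j : ℕ, (ζ ^ j) ^ e = (ζ ^ e) ^ j := fun j => by
      rw [← zpow_natCast, ← zpow_natCast, ← zpow_mul, ← zpow_mul, mul_comm]
    simp only [h2]
    rw [geom_sum_eq h1, ← h2, hζ.pow_eq_one, one_zpow, sub_self, zero_div]

theorem ThMode_pow {l : ℤ} {ζ : ℂ} (hζ : IsPrimitiveRoot ζ (2 * l.natAbs + 1)) (a b : ℂ) {k : ℕ}
    (hk : k ≤ l.natAbs) :
    ∑ j ∈ Finset.range (2 * l.natAbs + 1), (ζ ^ j) ^ (-l) * (a * ζ ^ j + b * (ζ ^ j)⁻¹) ^ k =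
      if k = l.natAbs then ((2 * l.natAbs + 1 : ℕ) : ℂ) * (a ^ l.toNat * b ^ (-l).toNat) else 0 := by
  have h0 : ζ ≠ 0 := hζ.ne_zero (by omega)
  have h1 : ∀ j : ℕ, (ζ ^ j) ^ (-l) * (a * ζ ^ j + b * (ζ ^ j)⁻¹) ^ k =
      ∑ i ∈ Finset.range (k + 1), a ^ i * b ^ (k - i) * (k.choose i : ℂ) *
        (ζ ^ j) ^ ((i : ℤ) - ((k - i : ℕ) : ℤ) - l) := by
    intro j
    rw [add_pow, Finset.mul_sum]
    refine Finset.sum_congr rfl fun i _ => ?_
    have hj : ζ ^ j ≠ 0 := pow_ne_zero _ h0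
    rw [zpow_sub₀ hj, zpow_sub₀ hj, zpow_natCast, zpow_natCast, zpow_neg, mul_pow, mul_pow, inv_pow]
    ring
  simp only [h1]
  rw [Finset.sum_comm]
  have h2 : ∀ i ∈ Finset.range (k + 1), ∑ j ∈ Finset.range (2 * l.natAbs + 1),
      a ^ i * b ^ (k - i) * (k.choose i : ℂ) * (ζ ^ j) ^ ((i : ℤ) - ((k - i : ℕ) : ℤ) - l) =
      if k = l.natAbs ∧ i = l.toNat then
        ((2 * l.natAbs + 1 : ℕ) : ℂ) * (a ^ l.toNat * b ^ (-l).toNat) else 0 := by
    intro i hi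
    have hi := Finset.mem_range.1 hi
    rw [← Finset.mul_sum, ThMode_geom hζ (by rw [abs_lt]; constructor <;> omega)]
    by_cases h : k = l.natAbs ∧ i = l.toNat
    · obtain ⟨rfl, rfl⟩ := h
      have e1 : l.natAbs - l.toNat = (-l).toNat := by omega
      have e2 : l.natAbs.choose l.toNat = 1 := by
        rcases le_total 0 l with hl | hl
        · rw [show l.toNat = l.natAbs by omega, Nat.choose_self]
        · rw [show l.toNat = 0 by omega, Nat.choose_zero_right]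
      rw [if_pos (by omega), if_pos ⟨rfl, rfl⟩, e1, e2]
      push_cast; ring
    · rw [if_neg (by omega), if_neg h, mul_zero]
  rw [Finset.sum_congr rfl h2]
  split_ifs with h
  · simp only [h, true_and]
    rw [Finset.sum_ite_eq' (Finset.range (l.natAbs + 1)) l.toNat,
      if_pos (Finset.mem_range.2 (by omega))]
  · simp [h]

theorem ThMode_norm_le {ζ : ℂ} {N : ℕ} (hN : 0 < N) (hζ : IsPrimitiveRoot ζ N) (l : ℤ)
    {F : ℂ → ℂ} {B : ℝ} (hF : ∀ w : ℂ, ‖w‖ = 1 → ‖F w‖ ≤ B) : ‖modeAvg ζ N l F‖ ≤ B := by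
  have h1 : ‖ζ‖ = 1 := hζ.norm'_eq_one hN.ne'
  have hN' : (0 : ℝ) < N := by exact_mod_cast hN
  rw [modeAvg, norm_mul, norm_inv, Complex.norm_natCast, inv_mul_le_iff₀ hN']
  refine (norm_sum_le _ _).trans ?_
  calc _ ≤ (Finset.range N).card • B := by
        refine Finset.sum_le_card_nsmul _ _ _ fun j _ => ?_
        have h2 : ‖ζ ^ j‖ = 1 := by rw [norm_pow, h1, one_pow]
        rw [norm_mul, norm_zpow, h2, one_zpow, one_mul]
        exact hF _ h2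
    _ = _ := by rw [Finset.card_range, nsmul_eq_mul]

/-- Taylor expansion to order `m = |l|`; the monomial `a^i b^{k-i} ζ^{j (2i - k)}`, `k ≤ m`, has
`l`-th mode zero unless `k = m`, `i = l⁺`. -/
theorem mode_exp {l : ℤ} {ζ : ℂ} (hζ : IsPrimitiveRoot ζ (2 * l.natAbs + 1)) (a b : ℂ) :
    ‖modeAvg ζ (2 * l.natAbs + 1) l (fun w => Complex.exp (a * w + b * w⁻¹)) -
        a ^ l.toNat * b ^ (-l).toNat / (l.natAbs.factorial : ℂ)‖ ≤
      (‖a‖ + ‖b‖) ^ (l.natAbs + 1) * Real.exp (‖a‖ + ‖b‖) := by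
  have hN : ((2 * l.natAbs + 1 : ℕ) : ℂ) ≠ 0 := Nat.cast_ne_zero.2 (by omega)
  have h1 : a ^ l.toNat * b ^ (-l).toNat / (l.natAbs.factorial : ℂ) =
      modeAvg ζ (2 * l.natAbs + 1) l (fun w => ∑ k ∈ Finset.range (l.natAbs + 1),
        (a * w + b * w⁻¹) ^ k / (k.factorial : ℂ)) := by
    rw [modeAvg]
    simp only [Finset.mul_sum, ← mul_div_assoc]
    rw [Finset.sum_comm]
    simp only [← Finset.sum_div, ← Finset.mul_sum]
    rw [Finset.sum_eq_single l.natAbs]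
    · rw [ThMode_pow hζ a b le_rfl, if_pos rfl, inv_mul_cancel_left₀ hN]
    · intro k hk hne
      rw [ThMode_pow hζ a b (by have := Finset.mem_range.1 hk; omega), if_neg hne]
      simp
    · intro h; exact absurd (Finset.mem_range.2 (by omega)) h
  have h2 : ∀ F G : ℂ → ℂ, modeAvg ζ (2 * l.natAbs + 1) l F - modeAvg ζ (2 * l.natAbs + 1) l G =
      modeAvg ζ (2 * l.natAbs + 1) l (fun w => F w - G w) := by
    intro F G
    simp only [modeAvg, mul_sub, Finset.sum_sub_distrib]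
  rw [h1, h2]
  refine ThMode_norm_le (by omega) hζ l fun w hw => ?_
  have h3 : ‖a * w + b * w⁻¹‖ ≤ ‖a‖ + ‖b‖ := by
    refine (norm_add_le _ _).trans (le_of_eq ?_)
    rw [norm_mul, norm_mul, norm_inv, hw]; simp
  refine (Complex.norm_exp_sub_sum_le_norm_mul_exp _ _).trans ?_
  gcongr

/-- The unimodular case: `eC (v w) = exp (c v w - c conj v w⁻¹)` for `|w| = 1`, `c = 2π/√3`. -/
theorem mode_eC (l : ℤ) : ∃ C : ℝ, 0 < C ∧ ∀ ζ : ℂ, IsPrimitiveRoot ζ (2 * l.natAbs + 1) →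
    ∀ v : ℂ, ‖modeAvg ζ (2 * l.natAbs + 1) l (fun w => eC (v * w))‖ ≤ C * ‖v‖ ^ l.natAbs ∧
      ‖modeAvg ζ (2 * l.natAbs + 1) l (fun w => eC (v * w)) -
        (LBB.cc : ℂ) ^ l.natAbs * (-1) ^ (-l).toNat / (l.natAbs.factorial : ℂ) * Pl l v‖ ≤
        C * ‖v‖ ^ (l.natAbs + 1) := by
  have hc := LBB.cc_pos
  set c := LBB.cc with hcdef
  set m := l.natAbs with hm
  set K : ℝ := (2 * c) ^ (m + 1) * Real.exp (2 * c) with hK
  have hK0 : 0 < K := by positivity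
  have hcm : 0 < c ^ m := by positivity
  refine ⟨K + c ^ m + 1, by positivity, fun ζ hζ v => ?_⟩
  have h1 : ‖ζ‖ = 1 := hζ.norm'_eq_one (by omega)
  have hmain : ‖(c : ℂ) ^ m * (-1) ^ (-l).toNat / (m.factorial : ℂ) * Pl l v‖ ≤
      c ^ m * ‖v‖ ^ m := by
    rw [norm_mul, norm_Pl, norm_div, norm_mul, norm_pow, norm_pow, Complex.norm_real,
      Real.norm_of_nonneg hc.le, norm_neg, norm_one, one_pow, mul_one, Complex.norm_natCast]
    refine mul_le_mul_of_nonneg_right (div_le_self hcm.le ?_) (by positivity)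
    exact_mod_cast Nat.one_le_iff_ne_zero.2 (Nat.factorial_ne_zero m)
  have htriv : ‖modeAvg ζ (2 * m + 1) l (fun w => eC (v * w))‖ ≤ 1 :=
    ThMode_norm_le (by omega) hζ l fun w _ => (norm_eC _).le
  have hv0 := norm_nonneg v
  have hp : 0 ≤ ‖v‖ ^ m := by positivity
  rcases le_total ‖v‖ 1 with hv | hv
  · have e1 : modeAvg ζ (2 * m + 1) l (fun w => eC (v * w)) = modeAvg ζ (2 * m + 1) l
        (fun w => Complex.exp ((c * v) * w + (-(c * conj v)) * w⁻¹)) := by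
      unfold modeAvg
      congr 1
      refine Finset.sum_congr rfl fun j _ => ?_
      have h2 : ‖ζ ^ j‖ = 1 := by rw [norm_pow, h1, one_pow]
      congr 1
      beta_reduce
      rw [eC, Complex.inv_eq_conj h2]
      congr 1
      have h3 := Complex.sub_conj (v * ζ ^ j)
      rw [map_mul] at h3
      have h4 : (c : ℂ) * v * ζ ^ j + -(c * conj v) * conj (ζ ^ j)
          = c * (v * ζ ^ j - conj v * conj (ζ ^ j)) := by ring
      rw [h4, h3, hcdef, LBB.cc]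
      push_cast; ring
    have e2 : (c : ℂ) ^ m * (-1) ^ (-l).toNat / (m.factorial : ℂ) * Pl l v =
        (c * v) ^ l.toNat * (-(c * conj v)) ^ (-l).toNat / (m.factorial : ℂ) := by
      have : (c : ℂ) ^ m = c ^ l.toNat * c ^ (-l).toNat := by
        rw [← pow_add, Int.toNat_add_toNat_neg_eq_natAbs]
      rw [this, Pl, neg_eq_neg_one_mul (c * conj v : ℂ)]
      simp only [mul_pow]; ring
    have h5 := mode_exp hζ (c * v) (-(c * conj v))
    rw [← hm, ← e1, ← e2] at h5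
    have e3 : ‖(c : ℂ) * v‖ + ‖-((c : ℂ) * conj v)‖ = 2 * c * ‖v‖ := by
      rw [norm_neg, norm_mul, norm_mul, Complex.norm_conj, Complex.norm_real,
        Real.norm_of_nonneg hc.le]; ring
    rw [e3] at h5
    have h6 : (2 * c * ‖v‖) ^ (m + 1) * Real.exp (2 * c * ‖v‖) ≤ K * ‖v‖ ^ (m + 1) := by
      rw [mul_pow (2 * c), hK, mul_right_comm]
      have : 2 * c * ‖v‖ ≤ 2 * c := mul_le_of_le_one_right (by positivity) hv
      gcongr
    have h7 : ‖v‖ ^ (m + 1) ≤ ‖v‖ ^ m := by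
      rw [pow_succ]; exact mul_le_of_le_one_right hp hv
    have h8 : 0 ≤ ‖v‖ ^ (m + 1) := by positivity
    constructor
    · have := norm_le_norm_sub_add (modeAvg ζ (2 * m + 1) l (fun w => eC (v * w)))
        ((c : ℂ) ^ m * (-1) ^ (-l).toNat / (m.factorial : ℂ) * Pl l v)
      nlinarith [mul_le_mul_of_nonneg_left h7 hK0.le]
    · nlinarith [mul_nonneg hcm.le h8]
  · have h7 : 1 ≤ ‖v‖ ^ m := one_le_pow₀ hv
    have h8 : ‖v‖ ^ m ≤ ‖v‖ ^ (m + 1) := by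
      rw [pow_succ]; exact le_mul_of_one_le_right hp hv
    constructor
    · nlinarith [mul_nonneg hK0.le hp, mul_nonneg hcm.le hp]
    · refine (norm_sub_le _ _).trans ?_
      nlinarith [mul_nonneg hK0.le (hp.trans h8), mul_le_mul_of_nonneg_left h8 hcm.le]

end Crest.Agent.R12
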