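import Crest.Agent.R12.ChrDefs
import Crest.Agent.R12.ThCtA
import Crest.Agent.R12.ThMode

/-!
# Row 12, Siegel–Walfisz block: the row characters
-/

set_option autoImplicit false

noncomputable section

namespace Crest.Agent.R12

open Crest.Agent.R17
open scoped ComplexConjugate Topology
open Filter MeasureTheory

theorem xi_of_primary {n : O} (hn : Primary n) (l : ℤ) (ka : O) :
    xi l ka n = cub n ka * arg n ^ l := if_pos hn
theorem xi_of_not {n : O} (hn : ¬ Primary n) (l : ℤ) (ka : O) : xi l ka n = 0 := if_neg hn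
theorem xi_zero (l : ℤ) (ka : O) : xi l ka 0 = 0 :=
  xi_of_not (fun h => h.ne_zero rfl) l ka
theorem xi_one (l : ℤ) (ka : O) : xi l ka 1 = 1 := by
  rw [xi_of_primary primary_one, cub_one_left]
  simp [arg]
theorem xi_eq (l : ℤ) (ka n : O) : xi l ka n = xi 0 ka n * arg n ^ l := by
  by_cases hn : Primary n
  · rw [xi_of_primary hn, xi_of_primary hn, zpow_zero, mul_one]
  · rw [xi_of_not hn, xi_of_not hn, zero_mul]
theorem xi_mul (l : ℤ) (ka : O) {m : O} (hm : Primary m) (n : O) :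
    xi l ka (m * n) = xi l ka m * xi l ka n := by
  by_cases hn : Primary n
  · rw [xi_of_primary hn, xi_of_primary hm, xi_of_primary (hm.mul hn),
      cub_mul_left hm.ne_zero hn.ne_zero, arg_mul, mul_zpow]
    ring
  · rw [xi_of_not hn, xi_of_not fun h => hn (hm.of_mul h), mul_zero]
theorem xi_mul_row (l : ℤ) (k k' n : O) : xi l (k * k') n = xi l k n * cub n k' := by
  by_cases hn : Primary n
  · rw [xi_of_primary hn, xi_of_primary hn, cub_mul_right]
    ring
  · rw [xi_of_not hn, xi_of_not hn, zero_mul]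
theorem norm_xi_le (l : ℤ) (ka n : O) : ‖xi l ka n‖ ≤ 1 := by
  by_cases hn : Primary n
  · rw [xi_of_primary hn, norm_mul]
    exact mul_le_one₀ (norm_cub_le _ _) (norm_nonneg _) (norm_arg_zpow_le _ _)
  · rw [xi_of_not hn, norm_zero]; exact zero_le_one
theorem norm_xi (l : ℤ) (ka n : O) : xi l ka n = 0 ∨ ‖xi l ka n‖ = 1 := by
  by_cases hn : Primary n
  · rw [xi_of_primary hn]
    by_cases hc : IsCoprime n ka
    · right
      rw [norm_mul, norm_cub hn hc, norm_zpow, norm_arg hn.ne_zero, one_zpow, one_mul]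
    · left
      rw [(cub_eq_zero_iff hn).2 hc, zero_mul]
  · exact Or.inl (xi_of_not hn l ka)
theorem xi_sq (l : ℤ) (ka n : O) : xi l ka n ^ 2 = xi (2 * l) (ka ^ 2) n := by
  by_cases hn : Primary n
  · rw [xi_of_primary hn, xi_of_primary hn, cub_pow_right, mul_pow, mul_comm 2 l, zpow_mul]
    norm_cast
  · rw [xi_of_not hn, xi_of_not hn, zero_pow two_ne_zero]
theorem conj_xi (l : ℤ) (ka n : O) : conj (xi l ka n) = xi (-l) (ka ^ 2) n := by
  by_cases hn : Primary n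
  · rw [xi_of_primary hn, xi_of_primary hn, cub_pow_right, map_mul, conj_cub, map_zpow₀,
      ← Complex.inv_eq_conj (norm_arg hn.ne_zero), inv_zpow']
  · rw [xi_of_not hn, xi_of_not hn, map_zero]
theorem polyB_xi (l : ℤ) (ka : O) : PolyB (xi l ka) 1 0 :=
  ⟨xi_zero l ka, fun n => by simpa using norm_xi_le l ka n⟩
theorem polyB_mu_xi (i : ℕ) (l : ℤ) (ka : O) : PolyB (fun n => mu n ^ i * xi l ka n) 1 0 := by
  refine ⟨by simp [xi_zero], fun n => ?_⟩
  rw [Real.rpow_zero, mul_one, norm_mul, norm_pow]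
  exact mul_le_one₀ (pow_le_one₀ (norm_nonneg _) (norm_mu_le n)) (norm_nonneg _) (norm_xi_le _ _ _)
theorem PolyB.sixth {b : O → ℂ} {H : ℝ} (h : PolyB b H 0) : PolyB b H (1 / 6) := by
  refine ⟨h.1, fun n => ?_⟩
  rcases eq_or_ne n 0 with rfl | hn
  · rw [h.1, norm_zero]
    exact mul_nonneg (WeightB.H_nonneg h) (by positivity)
  · exact (h.2 n).trans (mul_le_mul_of_nonneg_left
      (Real.rpow_le_rpow_of_exponent_le (one_le_nr hn) (by norm_num)) (WeightB.H_nonneg h))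

/-- `cub_congr9`. -/
theorem xi_per {ka : O} (h : ka ≠ 0) (x y : O) (hxy : 9 * rad ka ∣ x - y) :
    xi 0 ka x = xi 0 ka y := by
  have h9 : (9 : O) ∣ x - y := (dvd_mul_right _ _).trans hxy
  have hp := E2.primary_congr (Dvd.dvd.trans ⟨3, by norm_num⟩ h9)
  by_cases hx : Primary x
  · rw [xi_of_primary hx, xi_of_primary (hp.1 hx), zpow_zero, zpow_zero,
      cub_congr9 h hx (hp.1 hx) h9 ((dvd_mul_left _ _).trans hxy)]
  · rw [xi_of_not hx, xi_of_not fun h => hx (hp.2 h)]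
theorem xi_per' {ka : O} (h : ka ≠ 0) (x y : O) (hxy : 9 * ka ∣ x - y) :
    xi 0 ka x = xi 0 ka y :=
  xi_per h x y ((mul_dvd_mul_left 9 (rad_dvd ka)).trans hxy)

theorem Cube.mul {a b : O} (ha : Cube a) (hb : Cube b) : Cube (a * b) := by
  obtain ⟨x, rfl⟩ := ha
  obtain ⟨y, rfl⟩ := hb
  exact ⟨x * y, by ring⟩
theorem cube_pow_three (a : O) : Cube (a ^ 3) := ⟨a, rfl⟩
/-- `O` is a unique factorisation domain. -/
theorem cube_mul_cube_iff {a m : O} (hm : m ≠ 0) : Cube (a * m ^ 3) ↔ Cube a := by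
  refine ⟨fun ⟨x, hx⟩ => ?_, fun h => h.mul (cube_pow_three m)⟩
  obtain ⟨y, rfl⟩ : m ∣ x := (UniqueFactorizationMonoid.pow_dvd_pow_iff_dvd (n := 3)
    (by norm_num)).1 ⟨a, by rw [← hx, mul_comm]⟩
  exact ⟨y, mul_right_cancel₀ (pow_ne_zero 3 hm) (by rw [hx]; ring)⟩
theorem Cube.of_sq {a : O} (h : Cube (a ^ 2)) : Cube a := by
  rcases eq_or_ne a 0 with rfl | ha
  · exact ⟨0, by simp⟩
  · refine (cube_mul_cube_iff ha).1 ?_
    rw [show a * a ^ 3 = a ^ 2 * a ^ 2 by ring]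
    exact h.mul h

/-- `gA_eq`. -/
theorem sum_xi_eq_zero' {ka : O} (h : ka ≠ 0) (hc : ¬ Cube ka) :
    ∑ x ∈ res (9 * ka), xi 0 ka x = 0 := by
  have h1 := gA_eq ka
  rw [if_neg fun h' => hc h'.2, gA, if_neg h] at h1
  have h2 := congrArg conj h1
  rw [map_sum, map_zero] at h2
  rw [← h2]
  refine Finset.sum_congr rfl fun x _ => ?_
  unfold E2.pri
  by_cases hx : Primary x
  · rw [xi_of_primary hx, if_pos hx]; simp
  · rw [xi_of_not hx, if_neg hx]; simp
/-- `E2.sum_res_of_period`. -/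
theorem sum_xi_eq_zero {ka : O} (h : ka ≠ 0) (hc : ¬ Cube ka) :
    ∑ x ∈ res (9 * rad ka), xi 0 ka x = 0 := by
  obtain ⟨c, hc'⟩ := rad_dvd ka
  have hc0 : c ≠ 0 := fun h0 => h (by rw [hc', h0, mul_zero])
  have h9 : (9 : O) ≠ 0 := by
    rw [show (9 : O) = 3 * 3 by norm_num]; exact mul_ne_zero E2.three_ne E2.three_ne
  have h1 := E2.sum_res_of_period (mul_ne_zero h9 (primary_rad ka).ne_zero) hc0 (xi 0 ka)
    (xi_per h)
  rw [mul_assoc, ← hc', sum_xi_eq_zero' h hc] at h1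
  refine (mul_eq_zero.1 h1.symm).resolve_left ?_
  exact_mod_cast fun h0 => hc0 (nm_eq_zero.1 h0)
theorem avg_xi {ka : O} (h : ka ≠ 0) (hc : ¬ Cube ka) : LBB.avg (9 * rad ka) (xi 0 ka) = 0 := by
  rw [LBB.avg, sum_xi_eq_zero h hc, zero_div]
theorem avg_xi' {ka : O} (h : ka ≠ 0) (hc : ¬ Cube ka) : LBB.avg (9 * ka) (xi 0 ka) = 0 := by
  rw [LBB.avg, sum_xi_eq_zero' h hc, zero_div]

theorem cm_xi (l : ℤ) (ka : O) {s : ℂ} (hs : 1 < s.re) :
    LBA.CM fun n => xi l ka n * (nr n : ℂ) ^ (-s) where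
  zero n hn := by rw [xi_of_not hn, zero_mul]
  one := by simp [xi_one, nr]
  mul m n hm _ := by
    rw [xi_mul l ka hm, nr_mul, Complex.ofReal_mul,
      Complex.mul_cpow_ofReal_nonneg (Nat.cast_nonneg _) (Nat.cast_nonneg _)]
    ring
  summable := by
    refine Summable.of_nonneg_of_le (fun _ => norm_nonneg _) (fun n => ?_) (summable_nr_rpow hs)
    rcases eq_or_ne n 0 with rfl | hn
    · rw [xi_zero, zero_mul, norm_zero]; positivity
    · rw [norm_mul, Complex.norm_cpow_eq_rpow_re_of_pos (nr_pos hn), Complex.neg_re]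
      exact mul_le_of_le_one_left (by positivity) (norm_xi_le _ _ _)
theorem Dser_mul_mu (l : ℤ) (ka : O) {s : ℂ} (hs : 1 < s.re) :
    Dser (xi l ka) s * Dser (fun n => mu n * xi l ka n) s = 1 := by
  have h := (cm_xi l ka hs).conv
  simp only [← mul_assoc] at h
  exact h

end Crest.Agent.R12
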