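import Crest.Agent.R12.ThDefs

/-!
# Row 12, Siegel–Walfisz block: definitions
-/

set_option autoImplicit false

noncomputable section

namespace Crest.Agent.R12

open Crest.Agent.R17
open scoped ComplexConjugate Topology
open Filter MeasureTheory

open Classical in
/-- The cubic row character with an angular twist. -/
def xi (l : ℤ) (ka n : O) : ℂ := if Primary n then cub n ka * arg n ^ l else 0

/-- Cubes. -/
def Cube (k : O) : Prop := ∃ m, k = m ^ 3

/-- Elements without small primary prime factors. -/
def Rough (w : ℝ) (n : O) : Prop := ∀ p ∈ pf n, w < nr p

/-- The roughness parameter. -/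
def wX (th X : ℝ) : ℝ := Real.exp (Real.log X ^ th)

end Crest.Agent.R12
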