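import Crest.Agent.R12.Defs

/-!
# Row 12, analytic half: the classification of the configurations
-/

set_option autoImplicit false

noncomputable section

namespace Crest.Agent.R12

open Crest.Agent.R17
open scoped ComplexConjugate Topology
open Filter MeasureTheory

theorem CmbA_col {ι : Type} [Fintype ι] [DecidableEq ι] {x : ι → ℝ} (hx : ∀ i, 0 ≤ x i) {b : ℝ}
    (G G' : Finset ι) (h : ∑ i ∈ G, x i ≤ b) (h' : ∑ i ∈ G', x i ≤ b)
    (h'' : ∑ i ∈ (G ∪ G')ᶜ, x i ≤ b) :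
    ∃ c : ι → Fin 3, ∀ a : Fin 3, ∑ i ∈ Finset.univ.filter (fun i => c i = a), x i ≤ b := by
  refine ⟨fun i => if i ∈ G then 1 else if i ∈ G' then 2 else 0, fun a => ?_⟩
  have key : ∀ K : Finset ι, ∑ i ∈ K, x i ≤ b →
      (∀ i, (if i ∈ G then 1 else if i ∈ G' then 2 else 0 : Fin 3) = a → i ∈ K) →
      ∑ i ∈ Finset.univ.filter
        (fun i => (if i ∈ G then 1 else if i ∈ G' then 2 else 0 : Fin 3) = a), x i ≤ b :=
    fun K hK hK' => (Finset.sum_le_sum_of_subset_of_nonneg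
      (fun i hi => hK' i (Finset.mem_filter.1 hi).2) fun i _ _ => hx i).trans hK
  fin_cases a
  · refine key _ h'' fun i hi => ?_
    split_ifs at hi with h1 h2
    · exact absurd hi (by decide)
    · exact absurd hi (by decide)
    · simp [h1, h2]
  · refine key _ h fun i hi => ?_
    split_ifs at hi with h1 h2
    · exact h1
    · exact absurd hi (by decide)
    · exact absurd hi (by decide)
  · refine key _ h' fun i hi => ?_
    split_ifs at hi with h1 h2
    · exact absurd hi (by decide)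
    · exact h2
    · exact absurd hi (by decide)

theorem CmbA_small {ι : Type} [DecidableEq ι] {x : ι → ℝ}
    (H : ∀ I : Finset ι, ∑ i ∈ I, x i < 1 / 3 + 1 / 10000 ∨ 1 / 2 - 1 / 10000 < ∑ i ∈ I, x i)
    {I : Finset ι} (hI : ∑ i ∈ I, x i < 1 / 3 + 1 / 10000) (J : Finset ι)
    (hJ : ∀ i ∈ J, x i ≤ 3 / 20) : ∑ i ∈ J ∪ I, x i < 1 / 3 + 1 / 10000 := by
  induction J using Finset.induction_on with
  | empty => simpa using hI
  | insert a J _ ih =>
    have h1 := ih fun i hi => hJ i (Finset.mem_insert_of_mem hi)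
    have h2 := hJ a (Finset.mem_insert_self _ _)
    rw [Finset.insert_union]
    refine (H _).resolve_right (not_lt.2 ?_)
    by_cases ha : a ∈ J ∪ I
    · rw [Finset.insert_eq_of_mem ha]
      linarith
    · rw [Finset.sum_insert ha]
      linarith

theorem CmbA_sub {ι : Type} (L : Finset ι) :
    ∃ G ⊆ L, G.card ≤ 2 ∧ (G.card = 2 ∨ G.card = L.card) := by
  obtain ⟨G, h1, h2⟩ := Finset.exists_subset_card_eq (min_le_right 2 L.card)
  exact ⟨G, h1, by omega, by omega⟩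

/-- If no subset sum lies in `[1/3 + η, 1/2 - η]` (`η = 10⁻⁴`), then (by complementation) every
subset sum lies in `C₀ = [0, 1/3 + η)`, `C₁ = (1/2 - η, 1/2 + 2η)` or `C₂ = (2/3 - 2η, ∞)`, and adding
a small variable (`≤ 1/6 - 2η`) does not change the component.  The large variables lie in `Sm`
and there are at most six of them; order them decreasingly and pair them off. -/
theorem classify {ι : Type} [Fintype ι] [DecidableEq ι] (Sm : Finset ι) (x : ι → ℝ)
    (hx : ∀ i, 0 ≤ x i) (hs : ∀ i, i ∉ Sm → x i ≤ 3 / 20) (h1 : |∑ i, x i - 1| ≤ 1 / 20000) :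
    (∃ I : Finset ι, 1 / 3 + 1 / 10000 ≤ ∑ i ∈ I, x i ∧ ∑ i ∈ I, x i ≤ 1 / 2 - 1 / 10000) ∨
    (∃ i ∈ Sm, 2 / 3 - 2 / 10000 ≤ x i) ∨
    (∃ i ∈ Sm, |x i - 1 / 2| ≤ 2 / 10000) ∨
    (∃ i ∈ Sm, ∃ i' ∈ Sm, i ≠ i' ∧ |x i + x i' - 1 / 2| ≤ 2 / 10000) ∨
    ∃ c : ι → Fin 3, ∀ a : Fin 3,
      ∑ i ∈ Finset.univ.filter (fun i => c i = a), x i ≤ 1 / 3 + 2 / 10000 := by
  classical
  by_contra hcon
  simp only [not_or, not_exists, not_and, not_le] at hcon
  obtain ⟨c1, c2, c3, c4, c5⟩ := hcon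
  obtain ⟨s1, s2⟩ := abs_le.1 h1
  have H0 : ∀ I : Finset ι, ∑ i ∈ I, x i < 1 / 3 + 1 / 10000 ∨ 1 / 2 - 1 / 10000 < ∑ i ∈ I, x i :=
    fun I => (lt_or_ge _ _).imp_right (c1 I)
  have H1 : ∀ I : Finset ι, 1 / 2 - 1 / 10000 < ∑ i ∈ I, x i →
      2 / 10000 < |∑ i ∈ I, x i - 1 / 2| → 2 / 3 - 3 / 20000 < ∑ i ∈ I, x i := fun I h2 h3 => by
    have h4 := Finset.sum_add_sum_compl I x
    rcases lt_abs.1 h3 with h3 | h3 <;> rcases H0 Iᶜ with h5 | h5 <;> linarith
  set L : Finset ι := Finset.univ.filter fun i => 3 / 20 < x i with hL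
  have hLS : ∀ i ∈ L, i ∈ Sm := fun i hi => by
    by_contra h2
    exact absurd (hs i h2) (not_le.2 (Finset.mem_filter.1 hi).2)
  have hcard : L.card ≤ 6 := by
    have h2 := Finset.card_nsmul_le_sum L x (3 / 20) fun i hi => (Finset.mem_filter.1 hi).2.le
    have h3 : ∑ i ∈ L, x i ≤ ∑ i, x i :=
      Finset.sum_le_sum_of_subset_of_nonneg (Finset.subset_univ _) fun i _ _ => hx i
    rw [nsmul_eq_mul] at h2
    have h4 : (L.card : ℝ) < (7 : ℕ) := by push_cast; linarith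
    exact Nat.lt_succ_iff.1 (Nat.cast_lt.1 h4)
  have one : ∀ i ∈ L, x i < 1 / 3 + 1 / 10000 := fun i hi => by
    have h2 := H0 {i}
    have h3 := H1 {i}
    rw [Finset.sum_singleton] at h2 h3
    refine h2.resolve_right fun h4 => ?_
    linarith [h3 h4 (c3 i (hLS i hi)), c2 i (hLS i hi)]
  have two : ∀ i ∈ L, ∀ j ∈ L, i ≠ j → x i + x j < 1 / 3 + 1 / 10000 := fun i hi j hj hij => by
    have h2 := H0 {i, j}
    have h3 := H1 {i, j}
    have h4 := Finset.sum_add_sum_compl {i, j} x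
    rw [Finset.sum_pair hij] at h2 h3 h4
    refine h2.resolve_right fun h5 => ?_
    have h6 := h3 h5 (c4 i (hLS i hi) j (hLS j hj) hij)
    obtain ⟨c, hc⟩ := CmbA_col hx (b := 1 / 3 + 2 / 10000) {i} {j}
      (by rw [Finset.sum_singleton]; linarith [one i hi])
      (by rw [Finset.sum_singleton]; linarith [one j hj])
      (by rw [← Finset.insert_eq]; linarith)
    exact c5 c hc
  have le2 : ∀ G ⊆ L, G.card ≤ 2 → ∑ i ∈ G, x i < 1 / 3 + 1 / 10000 := fun G hG h2 => by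
    rcases (show G.card = 0 ∨ G.card = 1 ∨ G.card = 2 by omega) with h3 | h3 | h3
    · rw [Finset.card_eq_zero.1 h3, Finset.sum_empty]
      norm_num
    · obtain ⟨i, rfl⟩ := Finset.card_eq_one.1 h3
      rw [Finset.sum_singleton]
      exact one i (hG (Finset.mem_singleton_self _))
    · obtain ⟨i, j, hij, rfl⟩ := Finset.card_eq_two.1 h3
      rw [Finset.sum_pair hij]
      exact two i (hG (by simp)) j (hG (by simp)) hij
  obtain ⟨G, g1, g2, g3⟩ := CmbA_sub L
  obtain ⟨G', g4, g5, g6⟩ := CmbA_sub (L \ G)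
  have k1 := Finset.card_sdiff_add_card_eq_card g1
  have k2 := Finset.card_sdiff_add_card_eq_card g4
  have h2 := CmbA_small H0 (le2 ((L \ G) \ G')
    (Finset.sdiff_subset.trans Finset.sdiff_subset) (by omega)) Lᶜ fun i hi => by
      simpa [hL] using hi
  obtain ⟨c, hc⟩ := CmbA_col hx (b := 1 / 3 + 2 / 10000) G G' (by linarith [le2 G g1 g2])
    (by linarith [le2 G' (g4.trans Finset.sdiff_subset) g5])
    ((Finset.sum_le_sum_of_subset_of_nonneg (t := Lᶜ ∪ ((L \ G) \ G')) (fun i hi => by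
      simp only [Finset.mem_compl, Finset.mem_union, Finset.mem_sdiff] at hi ⊢
      tauto) fun i _ _ => hx i).trans (by linarith))
  exact c5 c hc

end Crest.Agent.R12
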