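import Crest.Agent.R12.CmbB0

/-!
# Row 12, analytic half: dyadic decomposition and perturbation
-/

set_option autoImplicit false

noncomputable section

namespace Crest.Agent.R12

open Crest.Agent.R17
open scoped ComplexConjugate Topology
open Filter MeasureTheory

theorem CmbB_abs {k : ℝ} {g : AF} (h : Bd k g) : Bd |k| g := fun n hn =>
  (h n hn).trans ((le_abs_self _).trans_eq (abs_pow _ _))

theorem CmbB_split {F : O → ℂ} {G : O → ℝ} (S : Finset O) (hG : Summable G) (h0 : ∀ n, 0 ≤ G n)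
    (h : ∀ n, n ∉ S → ‖F n‖ ≤ G n) : ‖∑' n, F n - ∑ n ∈ S, F n‖ ≤ ∑' n, G n := by
  classical
  have h1 : ∀ n, ‖if n ∈ S then 0 else F n‖ ≤ G n := fun n => by
    split_ifs with hn
    · simpa using h0 n
    · exact h n hn
  have h2 : HasSum (fun n => if n ∈ S then F n else 0) (∑ n ∈ S, F n) := by
    have := hasSum_sum_of_ne_finset_zero (L := SummationFilter.unconditional O)
      (f := fun n => if n ∈ S then F n else 0) (s := S) fun n hn => if_neg hn
    rwa [Finset.sum_congr rfl fun n hn => if_pos hn] at this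
  have h3 := h2.add (hG.of_norm_bounded h1).hasSum
  have h4 : (fun n => (if n ∈ S then F n else 0) + if n ∈ S then 0 else F n) = F := by
    funext n
    split_ifs <;> simp
  rw [h4] at h3
  rw [h3.tsum_eq, add_sub_cancel_left]
  exact tsum_of_norm_bounded hG.hasSum h1

open Classical in
theorem CmbB_tail_summable {v : ℝ → ℂ} {X : ℝ} (h : Summable fun n : O => nr n * ‖v (nr n / X)‖) :
    Summable fun n : O => if nr n < X / 4 ∨ 2 * X < nr n then nr n * ‖v (nr n / X)‖ else 0 :=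
  Summable.of_nonneg_of_le (fun n => by split_ifs <;> positivity)
    (fun n => by split_ifs <;> first | exact le_rfl | positivity) h

theorem CmbB_rpow {X : ℝ} (hX : 0 < X) : X ^ (-10 : ℝ) = (X ^ 10)⁻¹ := by
  rw [Real.rpow_neg hX.le, show (10 : ℝ) = (10 : ℕ) by norm_num, Real.rpow_natCast]

theorem pr_perturb (l : ℤ) (k : ℝ) : ∃ C : ℝ, 0 < C ∧ ∀ (X η : ℝ) (v : ℝ → ℂ) (α g g' : AF),
    1 ≤ X → 0 ≤ η → (∀ y, 0 < y → ‖v y‖ ≤ 1) → Bd k α →
    (∀ n, PS n → nr n ≤ 2 * X → ‖g n - g' n‖ ≤ η) →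
    ‖pr l v X (α * g) - pr l v X (α * g')‖ ≤ C * X ^ 2 * η := by
  obtain ⟨C, hC, h⟩ := pow_card_pf_le one_pos (|k| + 1)
  have hc := AFa_cP_pos
  refine ⟨28 * C * (1 + cP), by positivity, fun X η v α g g' hX hη hv hα hg => ?_⟩
  rw [← pr_sub, ← mul_sub, pr]
  have hb : ∀ n ∈ rng (X / 4) (2 * X),
      ‖(α * (g - g')) n * (ff l n * v (nr n / X))‖ ≤ C * (2 * X) * η * (1 + cP) := by
    intro n hn
    obtain ⟨h1, -, h3⟩ := mem_rng.1 hn
    have h4 : ‖(α * (g - g')) n‖ ≤ C * (2 * X) * η := by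
      rw [AF.mul_apply]
      refine (norm_sum_le_of_le _ (n := fun d => |k| ^ (pf d).card * 1 ^ (pf (n / d)).card * η)
        fun d hd => ?_).trans ?_
      · obtain ⟨d1, d2, -, d3⟩ := h1.div hd
        have h5 := (AFb_le d1 d2).2
        rw [d3] at h5
        rw [norm_mul, one_pow, mul_one]
        exact mul_le_mul (CmbB_abs hα d d1) (hg _ d2 (h5.trans h3)) (norm_nonneg _)
          (by positivity)
      · rw [← Finset.sum_mul, h1.sum_pdiv_pow]
        refine mul_le_mul_of_nonneg_right ((h n h1.ne_zero).trans ?_) hη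
        rw [Real.rpow_one]
        exact mul_le_mul_of_nonneg_left h3 hC.le
    rw [norm_mul, norm_mul]
    refine mul_le_mul h4 ?_ (by positivity) (by positivity)
    exact (mul_le_mul (norm_ff_le l n) (hv _ (div_pos (nr_pos h1.ne_zero) (by linarith)))
      (norm_nonneg _) (by positivity)).trans_eq (mul_one _)
  refine (norm_sum_le_of_le _ hb).trans ?_
  rw [Finset.sum_const, nsmul_eq_mul]
  exact (mul_le_mul_of_nonneg_right (card_rng_le _ (by linarith)) (by positivity)).trans_eq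
    (by ring)

theorem pr_prod_perturb (l : ℤ) : ∃ C : ℝ, 0 < C ∧ ∀ (X η : ℝ) (v : ℝ → ℂ) (ι : Type)
    (s : Finset ι) (α : AF) (g g' : ι → AF), 1 ≤ X → 0 ≤ η → (∀ y, 0 < y → ‖v y‖ ≤ 1) →
    s.card ≤ 14 → Bd 14 α → (∀ i ∈ s, Bd 1 (g i) ∧ Bd 1 (g' i) ∧
      ∀ n, PS n → nr n ≤ 2 * X → ‖g i n - g' i n‖ ≤ η) →
    ‖pr l v X (α * ∏ i ∈ s, g i) - pr l v X (α * ∏ i ∈ s, g' i)‖ ≤ C * X ^ 2 * η := by
  classical
  obtain ⟨C, hC, h⟩ := pr_perturb l 28
  refine ⟨14 * C, by positivity, fun X η v ι s α g g' hX hη hv hs hα hg => ?_⟩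
  have key : ∀ s : Finset ι, s.card ≤ 14 → (∀ i ∈ s, Bd 1 (g i) ∧ Bd 1 (g' i) ∧
      ∀ n, PS n → nr n ≤ 2 * X → ‖g i n - g' i n‖ ≤ η) → ∀ α : AF, Bd (28 - s.card) α →
      ‖pr l v X (α * ∏ i ∈ s, g i) - pr l v X (α * ∏ i ∈ s, g' i)‖ ≤
        s.card * (C * X ^ 2 * η) := by
    intro s
    induction s using Finset.induction_on with
    | empty => intro _ _ α _; simp
    | insert i s hi ih =>
      intro hs hg α hα
      rw [Finset.card_insert_of_notMem hi] at hs hα ⊢
      have hs' : (s.card : ℝ) + 1 ≤ 14 := by exact_mod_cast hs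
      have h0 : (0 : ℝ) ≤ s.card := Nat.cast_nonneg _
      push_cast at hα ⊢
      have hgs := fun j hj => hg j (Finset.mem_insert_of_mem hj)
      obtain ⟨-, b2, b3⟩ := hg i (Finset.mem_insert_self _ _)
      have a1 := h X η v (α * ∏ j ∈ s, g j) (g i) (g' i) hX hη hv
        ((hα.mul (Bd.prod fun j hj => (hgs j hj).1) (by linarith) h0).mono (by linarith)
          (by linarith)) b3
      have a2 := ih (by omega) hgs (α * g' i)
        ((hα.mul b2 (by linarith) zero_le_one).mono (by linarith) (by linarith))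
      rw [Finset.prod_insert hi, Finset.prod_insert hi, ← mul_assoc, ← mul_assoc,
        mul_right_comm α (g i)]
      rw [mul_right_comm α _ (g' i)] at a1
      exact (norm_sub_le_norm_sub_add_norm_sub _ _ _).trans ((add_le_add a1 a2).trans_eq (by ring))
  have hs' : (s.card : ℝ) ≤ 14 := by exact_mod_cast hs
  exact (key s hs hg α (hα.mono (by norm_num) (by linarith))).trans
    ((mul_le_mul_of_nonneg_right hs' (by positivity)).trans_eq (by ring))

/-- `vmw_apply`, `Adm.tail_le`. -/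
theorem psum_eq (l : ℤ) : ∃ X₀ : ℝ, ∀ X ≥ X₀, ∀ (v : ℝ → ℂ) (Φ : ℂ → ℂ) (T T₁ w : ℝ),
    Adm v Φ T T₁ → Real.log X ^ 2 ≤ T → w < X / 4 → ‖PSum l v X - pr l v X (vmw w)‖ ≤ 1 := by
  classical
  obtain ⟨X₀, h⟩ := Adm.tail_le
  have hc := AFa_cP_pos
  refine ⟨max X₀ (1 + cP), fun X hX v Φ T T₁ w hv hT hw => ?_⟩
  obtain ⟨-, h1, h2⟩ := h X ((le_max_left _ _).trans hX) v Φ T T₁ hv hT
  have hX1 : 1 + cP ≤ X := (le_max_right _ _).trans hX
  have e : pr l v X (vmw w) = ∑ n ∈ rng (X / 4) (2 * X),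
      if Prime n then ff l n * (Real.log (nr n) : ℂ) * v (nr n / X) else 0 := by
    refine Finset.sum_congr rfl fun n hn => ?_
    obtain ⟨a1, a2, -⟩ := mem_rng.1 hn
    rw [vmw_apply w a1]
    by_cases hp : Prime n
    · rw [if_pos ⟨hp, hw.trans_le a2⟩, if_pos hp]; ring
    · rw [if_neg fun h => hp h.1, if_neg hp, zero_mul]
  rw [e, PSum]
  refine (CmbB_split _ ((CmbB_tail_summable h1).mul_left (1 + cP))
    (fun n => by split_ifs <;> positivity) fun n hn => ?_).trans ?_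
  · by_cases hp : PS n
    swap
    · rw [ff_of_not l hp, zero_mul, zero_mul, ite_self, norm_zero]
      split_ifs <;> positivity
    have ht : nr n < X / 4 ∨ 2 * X < nr n := by
      by_contra ht
      push Not at ht
      exact hn (mem_rng.2 ⟨hp, ht⟩)
    rw [if_pos ht]
    split_ifs
    · rw [norm_mul, norm_mul, mul_assoc, Complex.norm_real,
        Real.norm_of_nonneg (Real.log_nonneg hp.one_le)]
      exact mul_le_mul (norm_ff_le l n) (mul_le_mul_of_nonneg_right
        (Real.log_le_self (Nat.cast_nonneg _)) (norm_nonneg _))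
        (mul_nonneg (Real.log_nonneg hp.one_le) (norm_nonneg _)) (by positivity)
    · rw [norm_zero]; positivity
  · rw [tsum_mul_left]
    refine (mul_le_mul_of_nonneg_left h2 (by positivity)).trans ?_
    rw [CmbB_rpow (by linarith), ← div_eq_mul_inv, div_le_one (pow_pos (by linarith) _)]
    exact hX1.trans (le_self_pow₀ (by linarith) (by norm_num))

/-- Type I sums in the ring `AF`: `∑_r ρ(r) ∑_c ψ(c) F(r c)` with the truncation removed. -/
theorem pr_typeI (l : ℤ) (k : ℝ) : ∃ X₀ : ℝ, ∀ X ≥ X₀, ∀ (v : ℝ → ℂ) (Φ : ℂ → ℂ) (T T₁ R : ℝ)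
    (ρ : AF) (ψ : O → ℂ), Adm v Φ T T₁ → Real.log X ^ 2 ≤ T → Bd k ρ → Sup ρ 1 R → R ≤ X →
    (∀ c, c ≠ 0 → ‖ψ c‖ ≤ X) →
    ‖pr l v X (ρ * (zt 0).pm ψ) -
      ∑ r ∈ rng 1 R, ρ r * ∑' c : O, ψ c * (ff l (r * c) * v (nr (r * c) / X))‖ ≤ 1 / X := by
  classical
  obtain ⟨X₀, h⟩ := Adm.tail_le
  obtain ⟨C, hC, hk⟩ := pow_card_pf_le one_pos k
  have hc := AFa_cP_pos
  refine ⟨max X₀ (max 1 (7 * C * (1 + cP))), fun X hX v Φ T T₁ R ρ ψ hv hT hρ hS hR hψ => ?_⟩
  obtain ⟨-, h1, h2⟩ := h X ((le_max_left _ _).trans hX) v Φ T T₁ hv hT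
  have hX1 : 1 ≤ X := (le_max_left _ _).trans ((le_max_right _ _).trans hX)
  have hX2 : 7 * C * (1 + cP) ≤ X := (le_max_right _ _).trans ((le_max_right _ _).trans hX)
  have hX0 : 0 < X := by linarith
  have h3 := CmbB_tail_summable h1
  set G : O → ℝ := fun n => if nr n < X / 4 ∨ 2 * X < nr n then nr n * ‖v (nr n / X)‖ else 0
    with hG
  have hG0 : ∀ n, 0 ≤ G n := fun n => by simp only [hG]; split_ifs <;> positivity
  have hsub : ∀ Y, R ≤ Y → rng 1 R ⊆ rng 1 Y := fun Y hY r hr =>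
    mem_rng.2 ⟨(mem_rng.1 hr).1, (mem_rng.1 hr).2.1, (mem_rng.1 hr).2.2.trans hY⟩
  have e : pr l v X (ρ * (zt 0).pm ψ) = ∑ r ∈ rng 1 R, ρ r *
      ∑ c ∈ (rng 1 (2 * X)).filter (fun c => X / 4 ≤ nr (r * c) ∧ nr (r * c) ≤ 2 * X),
        ψ c * (ff l (r * c) * v (nr (r * c) / X)) := by
    rw [pr_mul, ← Finset.sum_subset (hsub (2 * X) (by linarith))]
    · refine Finset.sum_congr rfl fun r _ => ?_
      rw [Finset.mul_sum, Finset.sum_filter]
      refine Finset.sum_congr rfl fun c hc => ?_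
      rw [AF.pm_apply, zt_zero_apply (mem_rng.1 hc).1.1, one_mul, mul_assoc]
    · intro r hr hr'
      have : ρ r = 0 := by_contra fun h0 =>
        hr' (mem_rng.2 ⟨(mem_rng.1 hr).1, hS r (mem_rng.1 hr).1 h0⟩)
      simp [this]
  rw [e, ← Finset.sum_sub_distrib]
  refine (norm_sum_le_of_le _ (n := fun _ => C * X * (X * (1 + cP) * (X ^ 10)⁻¹))
    fun r hr => ?_).trans ?_
  · obtain ⟨r1, -, r3⟩ := mem_rng.1 hr
    have hinj : Function.Injective fun c : O => r * c := mul_right_injective₀ r1.ne_zero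
    rw [← mul_sub, norm_mul, norm_sub_rev]
    refine mul_le_mul ((hρ r r1).trans ((hk r r1.ne_zero).trans ?_)) ?_ (norm_nonneg _)
      (by positivity)
    · rw [Real.rpow_one]
      exact mul_le_mul_of_nonneg_left (r3.trans hR) hC.le
    refine (CmbB_split (G := fun c => X * (1 + cP) * G (r * c)) _
      ((h3.comp_injective hinj).mul_left _) (fun c => mul_nonneg (by positivity) (hG0 _))
      fun c hc' => ?_).trans ?_
    · by_cases hp : PS (r * c)
      swap
      · rw [ff_of_not l hp, zero_mul, mul_zero, norm_zero]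
        exact mul_nonneg (by positivity) (hG0 _)
      have c1 : PS c := (PS.of_mul r1.1 (r1.1.of_mul hp.1) hp).2.1
      have ht : nr (r * c) < X / 4 ∨ 2 * X < nr (r * c) := by
        by_contra ht
        push Not at ht
        exact hc' (Finset.mem_filter.2
          ⟨mem_rng.2 ⟨c1, c1.one_le, (AFb_le r1 c1).2.trans ht.2⟩, ht⟩)
      simp only [hG]
      rw [if_pos ht, norm_mul, norm_mul, mul_assoc]
      exact mul_le_mul (hψ c c1.ne_zero) (mul_le_mul (norm_ff_le l _)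
        (le_mul_of_one_le_left (norm_nonneg _) hp.one_le) (norm_nonneg _) (by positivity))
        (by positivity) hX0.le
    · rw [tsum_mul_left, ← CmbB_rpow hX0]
      exact mul_le_mul_of_nonneg_left ((tsum_comp_le_tsum_of_inj h3 hG0 hinj).trans h2)
        (by positivity)
  · rw [Finset.sum_const, nsmul_eq_mul]
    have a1 : ((rng 1 R).card : ℝ) ≤ 7 * X :=
      (Nat.cast_le.2 (Finset.card_le_card (hsub X hR))).trans (card_rng_le 1 hX0.le)
    calc _ ≤ 7 * X * (C * X * (X * (1 + cP) * (X ^ 10)⁻¹)) :=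
          mul_le_mul_of_nonneg_right a1 (by positivity)
      _ = 7 * C * (1 + cP) / X ^ 6 * (1 / X) := by field_simp
      _ ≤ 1 * (1 / X) := by
          refine mul_le_mul_of_nonneg_right ?_ (by positivity)
          rw [div_le_one (by positivity)]
          exact hX2.trans (le_self_pow₀ hX1 (by norm_num))
      _ = 1 / X := one_mul _

end Crest.Agent.R12
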