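import Crest.Agent.R12.HB1

/-!
# Row 12, analytic half: the identities of Heath-Brown and Vaughan
-/

set_option autoImplicit false

noncomputable section

namespace Crest.Agent.R12

open Crest.Agent.R17
open scoped ComplexConjugate Topology
open Filter MeasureTheory

open Classical in
theorem HB_cut_apply (g : AF) (x y : ℝ) (n : O) :
    g.cut x y n = if x ≤ nr n ∧ nr n ≤ y then g n else 0 := by
  simp [AF.cut]

theorem HB_sup_one {g : AF} {x y : ℝ} (h : Sup g x y) : Sup g 1 y :=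
  fun n hn h0 => ⟨hn.one_le, (h n hn h0).2⟩

theorem HB_bd_norm {g : AF} {c : ℝ} (hc : 0 < c) (h : ∀ n, PS n → ‖g n‖ ≤ c) :
    Bd 1 (((c : ℂ))⁻¹ • g) := by
  intro n hn
  rw [one_pow, AF.smul_apply, norm_mul, norm_inv, Complex.norm_real, Real.norm_of_nonneg hc.le,
    inv_mul_le_iff₀ hc, mul_one]
  exact h n hn

theorem HB_smul_inv (g : AF) {c : ℝ} (hc : 0 < c) : (c : ℂ) • (((c : ℂ))⁻¹ • g) = g := by
  rw [smul_smul, mul_inv_cancel₀ (by exact_mod_cast hc.ne'), one_smul]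

theorem HB_norm_vmw {n : O} (hn : PS n) : ‖vmw 0 n‖ ≤ Real.log (nr n) := by
  have := Real.log_nonneg hn.one_le
  rw [vmw_apply 0 hn]
  split_ifs
  · rw [Complex.norm_real, Real.norm_of_nonneg this]
  · simpa using this

theorem HB_sub_cut_apply (g : AF) (y : ℝ) (n : O) :
    (g - g.cut 0 y) n = if nr n ≤ y then 0 else g n := by
  have : (0 : ℝ) ≤ nr n := by positivity
  rw [AF.sub_apply, HB_cut_apply]
  by_cases h : nr n ≤ y <;> simp [h, this]

theorem HB_bd_sub_cut {k : ℝ} {g : AF} (h : Bd k g) (y : ℝ) : Bd k (g - g.cut 0 y) := by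
  intro n hn
  rw [HB_sub_cut_apply]
  split_ifs
  · exact le_trans (by simp) (h n hn)
  · exact h n hn

theorem HB_lt_of_sub_cut {g : AF} {y : ℝ} {n : O} (h : (g - g.cut 0 y) n ≠ 0) :
    y < nr n ∧ g n ≠ 0 := by
  rw [HB_sub_cut_apply] at h
  split_ifs at h with h1
  · exact absurd rfl h
  · exact ⟨not_le.1 h1, h⟩

/-- **Vaughan's identity** `Λ = Λ_≤ + μ_≤ Dζ - μ_≤ Λ_≤ ζ + μ_> Λ_> ζ` (`ζ = zt 0`);
`μ_≤ Dζ = D (μ_≤ ζ) - (D μ_≤) ζ`; `μ_≤ Λ_≤` is cut at `U`; in the last term cut `μ_>` at `2X/U`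
and `Λ_> ζ` at `2X` (`pr_mul_congr`, `pr_congr`). -/
theorem vaughan_bound (l : ℤ) {v : ℝ → ℂ} {X U E : ℝ} (hX : 3 ≤ X) (hU : 1 ≤ U) (hUX : U < X / 4)
    (hU3 : U ^ 3 ≤ 2 * X)
    (h₁ : ∀ s₀ : ℂ, ‖s₀‖ ≤ 1 → ∀ ρ : AF, Bd 2 ρ → Sup ρ 1 U →
      ‖pr l (fun y => v y * (y : ℂ) ^ s₀) X (ρ * zt 0)‖ ≤ E)
    (h₂ : ∀ α β : AF, Bd 2 α → Bd 2 β → Sup α U (2 * X / U) → ‖pr l v X (α * β)‖ ≤ E) :
    ‖pr l v X (vmw 0)‖ ≤ 20 * Real.log X * E := by
  have hX0 : 0 < X := by linarith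
  have hU0 : 0 < U := by linarith
  set L : ℝ := Real.log X with hL
  have hL1 : 1 ≤ L := by
    rw [hL, Real.le_log_iff_exp_le hX0]
    linarith [Real.exp_one_lt_d9]
  have hL0 : 0 < L := by linarith
  have hlog : ∀ n, PS n → nr n ≤ U → Real.log (nr n) ≤ L := fun n hn h =>
    Real.log_le_log (one_pos.trans_le hn.one_le) (by linarith)
  have hnL : ‖(L : ℂ)‖ = L := by rw [Complex.norm_real, Real.norm_of_nonneg hL0.le]
  have h₀ : ∀ ρ : AF, Bd 2 ρ → Sup ρ 1 U → ‖pr l v X (ρ * zt 0)‖ ≤ E := fun ρ h1 h2 => by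
    simpa using h₁ 0 (by simp) ρ h1 h2
  have hE : 0 ≤ E := (norm_nonneg _).trans
    (h₀ 0 (fun n _ => by simp) fun n _ h => absurd rfl h)
  set M : AF := (muw 0).cut 0 U with hM
  set A : AF := (vmw 0).cut 0 U with hA
  have hMb : Bd 1 M := (bd_muw 0).cut _ _
  have hMs : Sup M 1 U := HB_sup_one (sup_cut _ _ _)
  have hid : vmw 0 = A + ((M * zt 0).D - M.D * zt 0) - M * A * zt 0 +
      (muw 0 - M) * zt 0 * (vmw 0 - A) := by
    rw [AF.D_mul]
    linear_combination (A - vmw 0) * zt_mul_muw 0 + M * zt_mul_vmw 0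
  -- term 1
  have t1 : pr l v X A = 0 := pr_eq_zero_of_sup l v X (sup_cut _ _ _) (Or.inl hUX)
  -- term 2
  have t2 : ‖pr l v X (M * zt 0).D‖ ≤ (L + 1) * E :=
    norm_pr_D_le l (by linarith) _ fun s₀ hs => h₁ s₀ hs M (hMb.mono zero_le_one one_le_two) hMs
  have t3 : ‖pr l v X (M.D * zt 0)‖ ≤ L * E := by
    have hb : Bd 1 (((L : ℂ))⁻¹ • M.D) := HB_bd_norm hL0 fun n hn => by
      by_cases h0 : M n = 0
      · simp [h0, hL0.le]
      have h1 := hMb n hn
      rw [one_pow] at h1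
      have h2 := Real.log_nonneg hn.one_le
      rw [AF.D_apply, norm_mul, Complex.norm_real, Real.norm_of_nonneg h2]
      calc _ ≤ 1 * L := mul_le_mul h1 (hlog n hn (hMs n hn h0).2) h2 zero_le_one
        _ = L := one_mul _
    rw [← HB_smul_inv M.D hL0, smul_mul_assoc, pr_smul, norm_mul, hnL]
    refine mul_le_mul_of_nonneg_left (h₀ _ (hb.mono zero_le_one one_le_two) fun n hn h => ?_) hL0.le
    refine hMs n hn fun h0 => h ?_
    simp [h0]
  -- term 3
  have t4 : ‖pr l v X (M * A * zt 0)‖ ≤ L * (E + E) := by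
    have hb : Bd 1 (((L : ℂ))⁻¹ • A) := HB_bd_norm hL0 fun n hn => by
      rw [hA, HB_cut_apply]
      split_ifs with h
      · exact (HB_norm_vmw hn).trans (hlog n hn h.2)
      · simpa using hL0.le
    have hs : Sup (((L : ℂ))⁻¹ • A) 1 U := fun n hn h =>
      HB_sup_one (sup_cut (vmw 0) 0 U) n hn fun h0 => h (by rw [AF.smul_apply, hA, h0, mul_zero])
    set ρ : AF := M * (((L : ℂ))⁻¹ • A) with hρ
    have hρb : Bd 2 ρ := by
      have := hMb.mul hb zero_le_one zero_le_one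
      rwa [one_add_one_eq_two] at this
    have hρs : Sup ρ (1 * 1) (U * U) := hMs.mul hs zero_le_one zero_le_one
    have e : M * A * zt 0 = (L : ℂ) • (ρ.cut 0 U * zt 0 + (ρ - ρ.cut 0 U) * zt 0) := by
      rw [← add_mul, add_sub_cancel, hρ, ← smul_mul_assoc, ← mul_smul_comm, HB_smul_inv A hL0]
    rw [e, pr_smul, norm_mul, hnL, pr_add]
    refine mul_le_mul_of_nonneg_left ((norm_add_le _ _).trans (add_le_add
      (h₀ _ (hρb.cut _ _) (HB_sup_one (sup_cut _ _ _)))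
      (h₂ _ _ (HB_bd_sub_cut hρb U) ((bd_zt 0).mono zero_le_one one_le_two)
        fun n hn h => ?_))) hL0.le
    obtain ⟨h1, h2⟩ := HB_lt_of_sub_cut h
    refine ⟨h1.le, (hρs n hn h2).2.trans ?_⟩
    rw [le_div_iff₀ hU0]
    linarith [show U * U * U = U ^ 3 by ring]
  -- term 4
  have t5 : ‖pr l v X ((muw 0 - M) * zt 0 * (vmw 0 - A))‖ ≤ 2 * L * E := by
    have hL2 : 0 < 2 * L := by linarith
    set A' : AF := (((2 * L : ℝ) : ℂ))⁻¹ • (vmw 0 - A).cut 0 (2 * X) with hA'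
    have hb : Bd 1 A' := HB_bd_norm hL2 fun n hn => by
      rw [HB_cut_apply, hA, HB_sub_cut_apply]
      split_ifs with h h'
      · simpa using hL0.le
      · refine (HB_norm_vmw hn).trans ((Real.log_le_log (one_pos.trans_le hn.one_le) h.2).trans ?_)
        rw [Real.log_mul two_ne_zero hX0.ne']
        have := Real.log_le_log two_pos (show 2 ≤ X by linarith)
        linarith
      · simpa using hL0.le
    have hβ : Bd 2 (A' * zt 0) := by
      have := hb.mul (bd_zt 0) zero_le_one zero_le_one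
      rwa [one_add_one_eq_two] at this
    have hβs : ∀ e, PS e → (A' * zt 0) e ≠ 0 → U ≤ nr e := by
      intro e he h
      rw [AF.mul_apply] at h
      obtain ⟨c, hc, h1⟩ := Finset.exists_ne_zero_of_sum_ne_zero h
      obtain ⟨-, h2, -, h3⟩ := he.div hc
      have h4 : (vmw 0 - A) c ≠ 0 := fun h0 => h1 (by
        rw [hA', AF.smul_apply, HB_cut_apply, h0]; simp)
      have h5 := (HB_lt_of_sub_cut h4).1
      rw [← h3, nr_mul]
      exact h5.le.trans (le_mul_of_one_le_right (by positivity) h2.one_le)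
    have e1 : pr l v X ((muw 0 - M) * zt 0 * (vmw 0 - A)) =
        pr l v X ((muw 0 - M) * zt 0 * (vmw 0 - A).cut 0 (2 * X)) :=
      pr_mul_congr l v X (fun _ _ _ => rfl) fun n _ h => by
        rw [HB_cut_apply, if_pos ⟨by positivity, h⟩]
    have e2 : (muw 0 - M) * zt 0 * (vmw 0 - A).cut 0 (2 * X) =
        ((2 * L : ℝ) : ℂ) • ((muw 0 - M) * (A' * zt 0)) := by
      rw [← mul_smul_comm, ← smul_mul_assoc, hA', HB_smul_inv _ hL2]
      ring
    have e3 : pr l v X ((muw 0 - M) * (A' * zt 0)) =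
        pr l v X ((muw 0 - M).cut U (2 * X / U) * (A' * zt 0)) := by
      refine pr_congr l v X fun n hn _ h => ?_
      rw [AF.mul_apply, AF.mul_apply]
      refine Finset.sum_congr rfl fun d hd => ?_
      obtain ⟨h1, h2, -, h3⟩ := hn.div hd
      by_cases h4 : (A' * zt 0) (n / d) = 0
      · rw [h4, mul_zero, mul_zero]
      by_cases h5 : (muw 0 - M) d = 0
      · simp [HB_cut_apply (muw 0 - M), h5]
      have h6 : nr d ≤ 2 * X / U := by
        rw [le_div_iff₀ hU0]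
        calc nr d * U ≤ nr d * nr (n / d) :=
              mul_le_mul_of_nonneg_left (hβs _ h2 h4) (by positivity)
          _ = nr n := by rw [← nr_mul, h3]
          _ ≤ _ := h
      rw [HB_cut_apply (muw 0 - M), if_pos ⟨(HB_lt_of_sub_cut h5).1.le, h6⟩]
    rw [e1, e2, pr_smul, e3, norm_mul, Complex.norm_real, Real.norm_of_nonneg hL2.le]
    exact mul_le_mul_of_nonneg_left (h₂ _ _
      (((HB_bd_sub_cut (bd_muw 0) U).mono zero_le_one one_le_two).cut _ _) hβ (sup_cut _ _ _))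
      hL2.le
  rw [hid, pr_add, pr_sub, pr_add, pr_sub, t1, zero_add]
  refine (norm_add_le _ _).trans ((add_le_add ((norm_sub_le _ _).trans
    (add_le_add ((norm_sub_le _ _).trans (add_le_add t2 t3)) t4)) t5).trans ?_)
  nlinarith [mul_nonneg (sub_nonneg.2 hL1) hE]

end Crest.Agent.R12
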