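import Crest.Agent.R12.WtA1

/-!
# Row 12, analytic half: admissible weights
-/

set_option autoImplicit false

noncomputable section

namespace Crest.Agent.R12

open Crest.Agent.R17
open scoped ComplexConjugate Topology
open Filter MeasureTheory

theorem WtA_norm_cpow {y : ℝ} (hy : 0 < y) (t : ℝ) : ‖(y : ℂ) ^ (-(t * Complex.I))‖ = 1 := by
  rw [Complex.norm_cpow_eq_rpow_re_of_pos hy]
  simp

theorem WtA_nonneg {Ψ : ℝ → ℂ} {P : ℝ} (h : ∀ t : ℝ, ‖Ψ t‖ ≤ P * Real.exp (-t ^ 2 / 4)) :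
    0 ≤ P := by
  simpa using (norm_nonneg _).trans (h 0)

theorem WtA_integrable_gauss : Integrable fun t : ℝ => Real.exp (-t ^ 2 / 4) := by
  refine (integrable_exp_neg_mul_sq (b := 1 / 4) (by norm_num)).congr
    (Eventually.of_forall fun t => ?_)
  simp only
  congr 1
  ring

theorem WtA_integrable {Ψ : ℝ → ℂ} {P : ℝ} (hc : Continuous Ψ)
    (h : ∀ t : ℝ, ‖Ψ t‖ ≤ P * Real.exp (-t ^ 2 / 4)) {y : ℝ} (hy : 0 < y) :
    Integrable fun t : ℝ => Ψ t * (y : ℂ) ^ (-(t * Complex.I)) := by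
  refine (WtA_integrable_gauss.const_mul P).mono' ?_ (Eventually.of_forall fun t => ?_)
  · refine (hc.mul ?_).aestronglyMeasurable
    simp_rw [WA.cpow_eq hy]
    fun_prop
  · rw [norm_mul, WtA_norm_cpow hy, mul_one]
    exact h t

theorem WtA_norm_const : ‖(1 / (2 * Real.pi) : ℂ)‖ = 1 / (2 * Real.pi) := by
  rw [show (1 / (2 * Real.pi) : ℂ) = ((1 / (2 * Real.pi) : ℝ) : ℂ) by push_cast; rfl,
    Complex.norm_real, Real.norm_of_nonneg (by positivity)]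

theorem WtA_key : ∃ C : ℝ, 0 < C ∧ ∀ (Ψ G : ℝ → ℂ) (P E : ℝ),
    (∀ t : ℝ, ‖Ψ t‖ ≤ P * Real.exp (-t ^ 2 / 4)) → 0 ≤ E →
    (∀ t : ℝ, ‖G t‖ ≤ E * ((1 + |t|) * Real.exp |t|)) →
    ‖(1 / (2 * Real.pi) : ℂ) * ∫ t : ℝ, Ψ t * G t‖ ≤ C * P * E := by
  refine ⟨Real.exp 8 * Real.sqrt (Real.pi / (1 / 8)), by positivity, fun Ψ G P E h hE hG => ?_⟩
  have hP := WtA_nonneg h
  have h1 : ‖∫ t : ℝ, Ψ t * G t‖ ≤
      ∫ t : ℝ, P * E * Real.exp 8 * Real.exp (-(1 / 8) * t ^ 2) := by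
    refine norm_integral_le_of_norm_le
      ((integrable_exp_neg_mul_sq (b := 1 / 8) (by norm_num)).const_mul _)
      (Eventually.of_forall fun t => ?_)
    have h2 : Real.exp (-t ^ 2 / 4) * ((1 + |t|) * Real.exp |t|) ≤
        Real.exp 8 * Real.exp (-(1 / 8) * t ^ 2) := by
      calc _ ≤ Real.exp (-t ^ 2 / 4) * (Real.exp |t| * Real.exp |t|) := by
            gcongr
            linarith [Real.add_one_le_exp |t|]
        _ ≤ _ := by
            rw [← Real.exp_add, ← Real.exp_add, ← Real.exp_add, Real.exp_le_exp, ← sq_abs t]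
            nlinarith [sq_nonneg (|t| - 8)]
    rw [norm_mul]
    calc _ ≤ P * Real.exp (-t ^ 2 / 4) * (E * ((1 + |t|) * Real.exp |t|)) :=
          mul_le_mul (h t) (hG t) (norm_nonneg _) (by positivity)
      _ = P * E * (Real.exp (-t ^ 2 / 4) * ((1 + |t|) * Real.exp |t|)) := by ring
      _ ≤ P * E * (Real.exp 8 * Real.exp (-(1 / 8) * t ^ 2)) := by gcongr
      _ = _ := by ring
  rw [integral_const_mul, integral_gaussian] at h1
  have h3 : 1 / (2 * Real.pi) ≤ 1 := by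
    rw [div_le_one (by positivity)]
    linarith [Real.pi_gt_three]
  rw [norm_mul, WtA_norm_const]
  calc _ ≤ 1 * (P * E * Real.exp 8 * Real.sqrt (Real.pi / (1 / 8))) :=
        mul_le_mul h3 h1 (norm_nonneg _) zero_le_one
    _ = _ := by ring

/-- **Mellin separation** of a weight with Gaussian Mellin transform. -/
theorem GM.sum_le : ∃ C : ℝ, 0 < C ∧ ∀ (ψ : ℝ → ℂ) (P E : ℝ) (ι : Type) (S : Finset ι)
    (c : ι → ℂ) (y : ι → ℝ), GM ψ P → (∀ i ∈ S, 0 < y i) → 0 ≤ E →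
    (∀ t : ℝ, ‖∑ i ∈ S, c i * (y i : ℂ) ^ (-(t * Complex.I))‖ ≤ E * ((1 + |t|) * Real.exp |t|)) →
    ‖∑ i ∈ S, c i * ψ (y i)‖ ≤ C * P * E := by
  obtain ⟨C, hC, h⟩ := WtA_key
  refine ⟨C, hC, fun ψ P E ι S c y ⟨Ψ, hc, hΨ, hψ⟩ hy hE hG => ?_⟩
  refine le_of_eq_of_le (congrArg norm ?_) (h Ψ _ P E hΨ hE hG)
  simp_rw [Finset.mul_sum, mul_left_comm (Ψ _)]
  rw [integral_finsetSum _ fun i hi => (WtA_integrable hc hΨ (hy i hi)).const_mul _,
    Finset.mul_sum]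
  refine Finset.sum_congr rfl fun i hi => ?_
  rw [integral_const_mul, hψ _ (hy i hi), mul_left_comm]

theorem GM.tsum_le : ∃ C : ℝ, 0 < C ∧ ∀ (ψ : ℝ → ℂ) (P E : ℝ) (c : O → ℂ) (y : O → ℝ),
    GM ψ P → (Summable fun n => ‖c n‖) → (∀ n, c n ≠ 0 → 0 < y n) → 0 ≤ E →
    (∀ t : ℝ, ‖∑' n, c n * (y n : ℂ) ^ (-(t * Complex.I))‖ ≤ E * ((1 + |t|) * Real.exp |t|)) →
    ‖∑' n, c n * ψ (y n)‖ ≤ C * P * E := by
  obtain ⟨C, hC, h⟩ := WtA_key
  refine ⟨C, hC, fun ψ P E c y ⟨Ψ, hc, hΨ, hψ⟩ hs hy hE hG => ?_⟩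
  refine le_of_eq_of_le (congrArg norm ?_) (h Ψ _ P E hΨ hE hG)
  simp_rw [← tsum_mul_left, mul_left_comm (Ψ _)]
  have h1 : ∀ n, Integrable fun t : ℝ => c n * (Ψ t * (y n : ℂ) ^ (-(t * Complex.I))) := fun n => by
    by_cases hn : c n = 0
    · simp [hn]
    · exact (WtA_integrable hc hΨ (hy n hn)).const_mul _
  have h2 : ∀ n, ∫ t : ℝ, ‖c n * (Ψ t * (y n : ℂ) ^ (-(t * Complex.I)))‖ =
      ‖c n‖ * ∫ t : ℝ, ‖Ψ t‖ := fun n => by
    by_cases hn : c n = 0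
    · simp [hn]
    · simp_rw [norm_mul, WtA_norm_cpow (hy n hn), mul_one]
      exact integral_const_mul _ _
  rw [← (hasSum_integral_of_summable_integral_norm h1
    (by simp_rw [h2]; exact hs.mul_right _)).tsum_eq, ← tsum_mul_left]
  refine tsum_congr fun n => ?_
  by_cases hn : c n = 0
  · simp [hn]
  · rw [integral_const_mul, hψ _ (hy n hn), mul_left_comm]

theorem GM.norm_le {ψ : ℝ → ℂ} {P y : ℝ} (h : GM ψ P) (hy : 0 < y) : ‖ψ y‖ ≤ P := by
  obtain ⟨Ψ, -, hΨ, hψ⟩ := h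
  have hP := WtA_nonneg hΨ
  have h1 : ‖∫ t : ℝ, Ψ t * (y : ℂ) ^ (-(t * Complex.I))‖ ≤
      ∫ t : ℝ, P * Real.exp (-(1 / 4) * t ^ 2) := by
    refine norm_integral_le_of_norm_le
      ((integrable_exp_neg_mul_sq (b := 1 / 4) (by norm_num)).const_mul _)
      (Eventually.of_forall fun t => ?_)
    rw [norm_mul, WtA_norm_cpow hy, mul_one, show -(1 / 4) * t ^ 2 = -t ^ 2 / 4 by ring]
    exact hΨ t
  rw [integral_const_mul, integral_gaussian] at h1
  have h2 : Real.sqrt (Real.pi / (1 / 4)) ≤ 2 * Real.pi := by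
    rw [Real.sqrt_le_iff]
    refine ⟨by positivity, ?_⟩
    nlinarith [Real.pi_gt_three]
  rw [hψ y hy, norm_mul, WtA_norm_const, one_div, inv_mul_le_iff₀ (by positivity)]
  exact h1.trans (by rw [mul_comm]; exact mul_le_mul_of_nonneg_right h2 hP)

theorem WtA_half_le {y : ℝ} (hy : 0 < y) (h : y < 1 / 4 ∨ 2 < y) : 1 / 2 ≤ |Real.log y| := by
  have h2 := Real.log_two_gt_d9
  rcases h with h | h
  · have h3 : Real.log y ≤ Real.log 2⁻¹ := Real.log_le_log hy (by linarith)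
    rw [Real.log_inv] at h3
    linarith [neg_abs_le (Real.log y)]
  · linarith [Real.log_le_log two_pos h.le, le_abs_self (Real.log y)]

theorem WtA_tail_cube {v : ℝ → ℂ} {Φ : ℂ → ℂ} {T T₁ y : ℝ} (h : Adm v Φ T T₁) (hT : 3 ≤ T)
    (hy : 0 < y) (hy' : y < 1 / 4 ∨ 2 < y) : ‖v y‖ ≤ Real.exp (-(T - 3) / 2) * (y ^ 3)⁻¹ := by
  refine (h.tail y hy hy').trans ?_
  have e : (y ^ 3)⁻¹ = Real.exp (-(3 * Real.log y)) := by
    rw [Real.exp_neg, show 3 * Real.log y = ((3 : ℕ) : ℝ) * Real.log y by norm_num,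
      Real.exp_nat_mul, Real.exp_log hy]
  rw [e, ← Real.exp_add, Real.exp_le_exp]
  nlinarith [mul_le_mul_of_nonneg_left (WtA_half_le hy hy') (sub_nonneg.2 hT),
    le_abs_self (Real.log y)]

open Classical in
/-- The weight is negligible outside `[X/4, 2X]` (`exp (-T |log y|) ≤ 2^{-T/2} min(y, 1/y)^3`). -/
theorem Adm.tail_le : ∃ X₀ : ℝ, ∀ X ≥ X₀, ∀ (v : ℝ → ℂ) (Φ : ℂ → ℂ) (T T₁ : ℝ), Adm v Φ T T₁ →
    Real.log X ^ 2 ≤ T →
    (∀ y : ℝ, 0 < y → y < 1 / 4 ∨ 2 < y → ‖v y‖ ≤ X ^ (-20 : ℝ)) ∧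
    (Summable fun n : O => nr n * ‖v (nr n / X)‖) ∧
      ∑' n : O, (if nr n < X / 4 ∨ 2 * X < nr n then nr n * ‖v (nr n / X)‖ else 0) ≤
        X ^ (-10 : ℝ) := by
  have hZ := summable_nr_rpow one_lt_two
  set Z : ℝ := ∑' n : O, nr n ^ (-2 : ℝ) with hZd
  refine ⟨Real.exp (max 40 Z), fun X hX v Φ T T₁ h hT => ?_⟩
  have hX0 : 0 < X := (Real.exp_pos _).trans_le hX
  have hL : max 40 Z ≤ Real.log X := (Real.le_log_iff_exp_le hX0).2 hX
  have hL1 : 40 ≤ Real.log X := (le_max_left _ _).trans hL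
  have hL2 : Z ≤ Real.log X := (le_max_right _ _).trans hL
  have hT1 : 40 * Real.log X ≤ T := by nlinarith
  have hT3 : 3 ≤ T := by linarith
  have key : ∀ (n : O) (K : ℝ), 0 ≤ K → (n ≠ 0 → ‖v (nr n / X)‖ ≤ K * ((nr n / X) ^ 3)⁻¹) →
      nr n * ‖v (nr n / X)‖ ≤ K * X ^ 3 * nr n ^ (-2 : ℝ) := by
    intro n K hK hn
    by_cases h0 : n = 0
    · have : nr n = 0 := by rw [h0]; exact_mod_cast nm_eq_zero.2 rfl
      rw [this, zero_mul]
      positivity
    · have hn0 := nr_pos h0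
      refine (mul_le_mul_of_nonneg_left (hn h0) hn0.le).trans_eq ?_
      rw [Real.rpow_neg hn0.le, Real.rpow_two]
      field_simp
  refine ⟨fun y hy hy' => (h.tail y hy hy').trans ?_, ?_, ?_⟩
  · rw [Real.rpow_def_of_pos hX0, Real.exp_le_exp]
    nlinarith [mul_le_mul_of_nonneg_left (WtA_half_le hy hy') (show 0 ≤ T by linarith)]
  · refine Summable.of_nonneg_of_le (fun n => by positivity)
      (fun n => key n 8 (by norm_num) fun h0 => ?_) (hZ.mul_left _)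
    have hy : 0 < nr n / X := div_pos (nr_pos h0) hX0
    generalize nr n / X = y at hy
    rcases le_or_gt y 2 with h2 | h2
    · refine (h.norm_le_one hy).trans ?_
      rw [← div_eq_mul_inv, one_le_div (by positivity)]
      exact (pow_le_pow_left₀ hy.le h2 3).trans (by norm_num)
    · refine (WtA_tail_cube h hT3 hy (Or.inr h2)).trans
        (mul_le_mul_of_nonneg_right ?_ (by positivity))
      exact (Real.exp_le_one_iff.2 (by linarith)).trans (by norm_num)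
  · have hb : ∀ n : O, (if nr n < X / 4 ∨ 2 * X < nr n then nr n * ‖v (nr n / X)‖ else 0) ≤
        Real.exp (-(T - 3) / 2) * X ^ 3 * nr n ^ (-2 : ℝ) := fun n => by
      split_ifs with hn
      · refine key n _ (Real.exp_pos _).le fun h0 =>
          WtA_tail_cube h hT3 (div_pos (nr_pos h0) hX0) ?_
        rw [div_lt_iff₀ hX0, lt_div_iff₀ hX0]
        exact hn.imp (fun a => by linarith) id
      · positivity
    refine ((Summable.of_nonneg_of_le (fun n => by split_ifs <;> positivity) hb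
      (hZ.mul_left _)).tsum_le_tsum hb (hZ.mul_left _)).trans ?_
    rw [tsum_mul_left, ← hZd]
    have h1 : Z ≤ Real.exp (Real.log X) := by linarith [Real.add_one_le_exp (Real.log X)]
    have h2 : X ^ 3 = Real.exp (3 * Real.log X) := by
      rw [show 3 * Real.log X = ((3 : ℕ) : ℝ) * Real.log X by norm_num, Real.exp_nat_mul,
        Real.exp_log hX0]
    refine (mul_le_mul_of_nonneg_left h1 (by positivity)).trans ?_
    rw [h2, Real.rpow_def_of_pos hX0, ← Real.exp_add, ← Real.exp_add, Real.exp_le_exp]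
    linarith

end Crest.Agent.R12
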