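import Crest.Agent.R12.AFb
import Crest.Agent.R12.WtA
import Crest.Agent.R12.HB

/-!
# Row 12, analytic half: dyadic decomposition and perturbation
-/

set_option autoImplicit false

noncomputable section

namespace Crest.Agent.R12

open Crest.Agent.R17
open scoped ComplexConjugate Topology
open Filter MeasureTheory

/-- The number of dyadic blocks `dy (2^j / 2)` needed below `2X`. -/
def nB (X : ℝ) : ℕ := Nat.clog 2 ⌈2 * X⌉₊ + 1

theorem CmbB0_one_le_log {X : ℝ} (hX : 3 ≤ X) : 1 ≤ Real.log X := by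
  rw [Real.le_log_iff_exp_le (by linarith)]
  have := Real.exp_one_lt_d9
  linarith

theorem nB_le {X : ℝ} (hX : 3 ≤ X) : (nB X : ℝ) ≤ 6 * Real.log X := by
  have hl := CmbB0_one_le_log hX
  have hm1 : 1 < ⌈2 * X⌉₊ := by
    rw [Nat.lt_ceil]; push_cast; linarith
  have hm2 : (⌈2 * X⌉₊ : ℝ) < 2 * X + 1 := Nat.ceil_lt_add_one (by linarith)
  have h1 := Nat.pow_pred_clog_lt_self (b := 2) one_lt_two hm1
  have hc : 0 < Nat.clog 2 ⌈2 * X⌉₊ := Nat.clog_pos one_lt_two hm1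
  set c := Nat.clog 2 ⌈2 * X⌉₊ with hcd
  have h2 : (2 : ℝ) ^ (c - 1) ≤ X ^ 2 := by
    have h3 : ((2 ^ c.pred : ℕ) : ℝ) < (⌈2 * X⌉₊ : ℝ) := by exact_mod_cast h1
    rw [Nat.pred_eq_sub_one] at h3
    push_cast at h3
    nlinarith
  have h4 := Real.log_le_log (by positivity) h2
  rw [Real.log_pow, Real.log_pow, Nat.cast_sub hc] at h4
  have h5 := Real.log_two_gt_d9
  have h6 : (1 : ℝ) ≤ c := by exact_mod_cast hc
  have h7 : ((c : ℝ) - 1) * (1 / 2) ≤ ((c : ℝ) - 1) * Real.log 2 :=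
    mul_le_mul_of_nonneg_left (by linarith) (by linarith)
  rw [nB, ← hcd]
  push_cast at h4 ⊢
  linarith

theorem CmbB0_mem_dy {n : O} (hn : PS n) : n ∈ dy (2 ^ Nat.clog 2 (nm n) / 2) := by
  have h1 : 1 ≤ nr n := hn.one_le
  have hnr : nr n = (nm n : ℝ) := rfl
  refine mem_dy.2 ⟨hn, ?_, ?_⟩
  · rcases Nat.eq_zero_or_pos (Nat.clog 2 (nm n)) with h | h
    · rw [h]; linarith
    · have h2 : 1 < nm n := by
        by_contra h3
        have := Nat.clog_of_right_le_one (not_lt.1 h3) 2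
        omega
      have h3 := Nat.pow_pred_clog_lt_self (b := 2) one_lt_two h2
      obtain ⟨c, hc⟩ : ∃ c, Nat.clog 2 (nm n) = c + 1 := ⟨_, (Nat.succ_pred_eq_of_pos h).symm⟩
      rw [hc, Nat.pred_succ] at h3
      have h4 : ((2 ^ c : ℕ) : ℝ) < (nm n : ℝ) := by exact_mod_cast h3
      push_cast at h4
      rw [hc, pow_succ, hnr]
      linarith
  · have h2 := Nat.le_pow_clog (b := 2) one_lt_two (nm n)
    have h3 : (nm n : ℝ) ≤ ((2 ^ Nat.clog 2 (nm n) : ℕ) : ℝ) := by exact_mod_cast h2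
    push_cast at h3
    rw [hnr]
    linarith

theorem CmbB0_disj {i j : ℕ} (h : i < j) : Disjoint (dy (2 ^ i / 2)) (dy (2 ^ j / 2)) := by
  refine Finset.disjoint_left.2 fun n h1 h2 => ?_
  have h3 := (mem_dy.1 h1).2.2
  have h4 := (mem_dy.1 h2).2.1
  have h5 : (2 : ℝ) ^ (i + 1) ≤ 2 ^ j := pow_le_pow_right₀ one_le_two h
  rw [pow_succ] at h5
  linarith

theorem sum_rng_eq_dy {X : ℝ} (hX : 3 ≤ X) (f : O → ℂ) (hf : ∀ n, 2 * X < nr n → f n = 0) :
    ∑ n ∈ rng 1 (2 * X), f n = ∑ j ∈ Finset.range (nB X), ∑ n ∈ dy (2 ^ j / 2), f n := by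
  classical
  rw [← Finset.sum_biUnion]
  · refine Finset.sum_subset (fun n hn => ?_) fun n hn hn' => ?_
    · obtain ⟨h1, -, h3⟩ := mem_rng.1 hn
      refine Finset.mem_biUnion.2 ⟨Nat.clog 2 (nm n), ?_, CmbB0_mem_dy h1⟩
      rw [Finset.mem_range, nB, Nat.lt_succ_iff]
      refine Nat.clog_mono_right 2 ?_
      have h4 : (nm n : ℝ) ≤ (⌈2 * X⌉₊ : ℝ) := le_trans h3 (Nat.le_ceil _)
      exact_mod_cast h4
    · obtain ⟨j, -, hj⟩ := Finset.mem_biUnion.1 hn
      have h1 := (mem_dy.1 hj).1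
      refine hf n (not_le.1 fun h => hn' (mem_rng.2 ⟨h1, h1.one_le, h⟩))
  · intro i _ j _ hij
    rcases lt_or_gt_of_ne hij with h | h
    · exact CmbB0_disj h
    · exact (CmbB0_disj h).symm

open Classical in
theorem CmbB0_card_six {X B : ℝ} (hX : 0 < X) (hB : 0 < B) (s : Finset ℕ) :
    (s.filter fun i => X / 16 ≤ 2 ^ i / 2 * B ∧ 2 ^ i / 2 * B ≤ 2 * X).card ≤ 6 := by
  set t := s.filter fun i => X / 16 ≤ 2 ^ i / 2 * B ∧ 2 ^ i / 2 * B ≤ 2 * X with ht
  rcases t.eq_empty_or_nonempty with h | h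
  · rw [h]; simp
  have h0 := (Finset.mem_filter.1 (t.min'_mem h)).2.1
  have hsub : t ⊆ Finset.Icc (t.min' h) (t.min' h + 5) := fun i hi => by
    refine Finset.mem_Icc.2 ⟨t.min'_le i hi, ?_⟩
    by_contra hlt
    have h1 : (2 : ℝ) ^ (t.min' h + 6) ≤ 2 ^ i := pow_le_pow_right₀ one_le_two (by omega)
    have h2 := (Finset.mem_filter.1 hi).2.2
    rw [pow_add] at h1
    have h3 : 2 ^ t.min' h * 2 ^ 6 / 2 * B ≤ 2 ^ i / 2 * B := by gcongr
    norm_num at h3
    linarith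
  have := Finset.card_le_card hsub
  rw [Nat.card_Icc] at this
  omega

open Classical in
/-- One block. -/
theorem CmbB0_block (l : ℤ) (v : ℝ → ℂ) {X A B C δ : ℝ} (hX : 0 < X) (hA : 0 < A) (hB : 0 < B)
    (hC : 0 ≤ C) (hδ : 0 ≤ δ) (α β : O → ℂ) (hα : ∀ n, PS n → ‖α n‖ ≤ C * nr n)
    (hβ : ∀ n, PS n → ‖β n‖ ≤ C * nr n)
    (hv : ∀ y : ℝ, 0 < y → y < 1 / 4 ∨ 2 < y → ‖v y‖ ≤ δ) :
    ‖∑ a ∈ dy A, ∑ b ∈ dy B, (if X / 4 ≤ nr (a * b) ∧ nr (a * b) ≤ 2 * X then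
      α a * β b * (ff l (a * b) * v (nr (a * b) / X)) else 0)‖ ≤
      if X / 16 ≤ A * B ∧ A * B ≤ 2 * X then
        ‖Bil l v X (dy A) (dy B) α β‖ + 3136 * X ^ 2 * C ^ 2 * (1 + cP) * δ else 0 := by
  have hc := AFa_cP_pos
  have hab : ∀ a ∈ dy A, ∀ b ∈ dy B, A * B < nr (a * b) ∧ nr (a * b) ≤ 4 * (A * B) := by
    intro a ha b hb
    obtain ⟨-, a1, a2⟩ := mem_dy.1 ha
    obtain ⟨-, b1, b2⟩ := mem_dy.1 hb
    rw [nr_mul]
    refine ⟨mul_lt_mul'' a1 b1 hA.le hB.le, ?_⟩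
    have := mul_le_mul a2 b2 (by linarith) (by linarith)
    linarith
  split_ifs with h
  · have e : ∑ a ∈ dy A, ∑ b ∈ dy B, (if X / 4 ≤ nr (a * b) ∧ nr (a * b) ≤ 2 * X then
        α a * β b * (ff l (a * b) * v (nr (a * b) / X)) else 0) =
        Bil l v X (dy A) (dy B) α β - ∑ a ∈ dy A, ∑ b ∈ dy B,
          (if X / 4 ≤ nr (a * b) ∧ nr (a * b) ≤ 2 * X then 0 else
            α a * β b * (ff l (a * b) * v (nr (a * b) / X))) := by
      rw [Bil, ← Finset.sum_sub_distrib]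
      refine Finset.sum_congr rfl fun a _ => ?_
      rw [← Finset.sum_sub_distrib]
      refine Finset.sum_congr rfl fun b _ => ?_
      split_ifs <;> simp
    rw [e]
    refine (norm_sub_le _ _).trans (add_le_add_right ?_ _)
    have hM : 0 ≤ C ^ 2 * (8 * X) * (1 + cP) * δ := by positivity
    have key : ∀ a ∈ dy A, ∀ b ∈ dy B,
        ‖(if X / 4 ≤ nr (a * b) ∧ nr (a * b) ≤ 2 * X then 0 else
          α a * β b * (ff l (a * b) * v (nr (a * b) / X)))‖ ≤ C ^ 2 * (8 * X) * (1 + cP) * δ := by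
      intro a ha b hb
      split_ifs with h1
      · simpa using hM
      have pa := (mem_dy.1 ha).1
      have pb := (mem_dy.1 hb).1
      have a0 := pa.one_le
      have b0 := pb.one_le
      have h2 := hab a ha b hb
      have h3 : ‖v (nr (a * b) / X)‖ ≤ δ := by
        refine hv _ (div_pos (lt_trans (mul_pos hA hB) h2.1) hX) ?_
        rcases not_and_or.1 h1 with h4 | h4
        · left; rw [div_lt_iff₀ hX]; linarith
        · right; rw [lt_div_iff₀ hX]; linarith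
      have h4 : ‖α a‖ * ‖β b‖ ≤ C ^ 2 * (8 * X) := by
        calc ‖α a‖ * ‖β b‖ ≤ (C * nr a) * (C * nr b) :=
              mul_le_mul (hα a pa) (hβ b pb) (norm_nonneg _) (by positivity)
          _ = C ^ 2 * nr (a * b) := by rw [nr_mul]; ring
          _ ≤ C ^ 2 * (8 * X) := mul_le_mul_of_nonneg_left (by linarith [h.2]) (by positivity)
      rw [norm_mul, norm_mul, norm_mul, mul_assoc (C ^ 2 * (8 * X))]
      exact mul_le_mul h4 (mul_le_mul (norm_ff_le l _) h3 (norm_nonneg _) (by positivity))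
        (by positivity) (by positivity)
    have hcA := card_dy_le hA.le
    have hcB := card_dy_le hB.le
    calc _ ≤ ∑ a ∈ dy A, ∑ b ∈ dy B, C ^ 2 * (8 * X) * (1 + cP) * δ :=
          norm_sum_le_of_le _ fun a ha => norm_sum_le_of_le _ fun b hb => key a ha b hb
      _ = ((dy A).card * (dy B).card : ℝ) * (C ^ 2 * (8 * X) * (1 + cP) * δ) := by
          simp only [Finset.sum_const, nsmul_eq_mul]; ring
      _ ≤ (392 * X) * (C ^ 2 * (8 * X) * (1 + cP) * δ) := by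
          refine mul_le_mul_of_nonneg_right ?_ hM
          have := mul_le_mul hcA hcB (Nat.cast_nonneg _) (by positivity)
          linarith [h.2]
      _ = _ := by ring
  · refine le_of_eq (norm_eq_zero.2 (Finset.sum_eq_zero fun a ha => Finset.sum_eq_zero fun b hb => ?_))
    refine if_neg fun h1 => h ?_
    have h2 := hab a ha b hb
    constructor <;> linarith [h1.1, h1.2, h2.1, h2.2]

/-- `pr_mul`; blocks with `A B ∉ [X/16, 2X]` are empty, in the others the truncation is removed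
with `Adm.tail_le`; for each `j` at most six `i` are left. -/
theorem pr_dyadic (l : ℤ) (k : ℝ) : ∃ X₀ : ℝ, ∀ X ≥ X₀, ∀ (v : ℝ → ℂ) (Φ : ℂ → ℂ) (T T₁ : ℝ)
    (α β : AF) (E : ℕ → ℝ), Adm v Φ T T₁ → Real.log X ^ 2 ≤ T → Bd k α → Bd k β → (∀ j, 0 ≤ E j) →
    (∀ (j : ℕ) (A : ℝ), X / 16 ≤ A * (2 ^ j / 2) → A * (2 ^ j / 2) ≤ 2 * X →
      ‖Bil l v X (dy A) (dy (2 ^ j / 2)) α β‖ ≤ E j) →
    ‖pr l v X (α * β)‖ ≤ 6 * ∑ j ∈ Finset.range (nB X), E j + 1 := by
  classical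
  obtain ⟨X₁, hX₁⟩ := Adm.tail_le
  obtain ⟨C, hC, hCk⟩ := pow_card_pf_le one_pos k
  have hc := AFa_cP_pos
  set K : ℝ := 36 * (3136 * C ^ 2 * (1 + cP)) with hK
  refine ⟨max X₁ (max 3 K), fun X hX v Φ T T₁ α β E hA hT hα hβ hE hB => ?_⟩
  simp only [ge_iff_le, max_le_iff] at hX
  obtain ⟨x1, x3, xK⟩ := hX
  have hX0 : 0 < X := by linarith
  have hv := (hX₁ X x1 v Φ T T₁ hA hT).1
  have hα' : ∀ n, PS n → ‖α n‖ ≤ C * nr n := fun n hn => by
    simpa using (hα n hn).trans (hCk n hn.ne_zero)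
  have hβ' : ∀ n, PS n → ‖β n‖ ≤ C * nr n := fun n hn => by
    simpa using (hβ n hn).trans (hCk n hn.ne_zero)
  set F : O → O → ℂ := fun a b => if X / 4 ≤ nr (a * b) ∧ nr (a * b) ≤ 2 * X then
      α a * β b * (ff l (a * b) * v (nr (a * b) / X)) else 0 with hF
  have e : pr l v X (α * β) = ∑ j ∈ Finset.range (nB X), ∑ i ∈ Finset.range (nB X),
      ∑ a ∈ dy (2 ^ i / 2), ∑ b ∈ dy (2 ^ j / 2), F a b := by
    calc pr l v X (α * β) = ∑ a ∈ rng 1 (2 * X), ∑ b ∈ rng 1 (2 * X), F a b := pr_mul l v X α β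
      _ = ∑ a ∈ rng 1 (2 * X), ∑ j ∈ Finset.range (nB X), ∑ b ∈ dy (2 ^ j / 2), F a b := by
          refine Finset.sum_congr rfl fun a ha => sum_rng_eq_dy x3 _ fun b hb => if_neg fun h => ?_
          have h1 := (mem_rng.1 ha).2.1
          have h2 := h.2
          rw [nr_mul] at h2
          nlinarith
      _ = ∑ j ∈ Finset.range (nB X), ∑ a ∈ rng 1 (2 * X), ∑ b ∈ dy (2 ^ j / 2), F a b :=
          Finset.sum_comm
      _ = _ := by
          refine Finset.sum_congr rfl fun j _ => sum_rng_eq_dy x3 _ fun a ha => ?_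
          refine Finset.sum_eq_zero fun b hb => if_neg fun h => ?_
          have h1 := (mem_dy.1 hb).1.one_le
          have h2 := h.2
          rw [nr_mul] at h2
          nlinarith
  set δ : ℝ := 3136 * X ^ 2 * C ^ 2 * (1 + cP) * X ^ (-20 : ℝ) with hδ
  have hδ0 : 0 ≤ δ := by positivity
  have hj : ∀ j ∈ Finset.range (nB X), ‖∑ i ∈ Finset.range (nB X),
      ∑ a ∈ dy (2 ^ i / 2), ∑ b ∈ dy (2 ^ j / 2), F a b‖ ≤ 6 * (E j + δ) := by
    intro j _
    have hBj : (0 : ℝ) < 2 ^ j / 2 := by positivity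
    calc _ ≤ ∑ i ∈ Finset.range (nB X), (if X / 16 ≤ 2 ^ i / 2 * (2 ^ j / 2) ∧
            2 ^ i / 2 * (2 ^ j / 2) ≤ 2 * X then E j + δ else 0) := by
          refine norm_sum_le_of_le _ fun i _ => ?_
          refine (CmbB0_block l v hX0 (by positivity) hBj hC.le (by positivity) α β hα' hβ'
            hv).trans ?_
          split_ifs with h
          · exact add_le_add_left (hB j _ h.1 h.2) _
          · exact le_rfl
      _ = (((Finset.range (nB X)).filter fun i => X / 16 ≤ 2 ^ i / 2 * (2 ^ j / 2) ∧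
            2 ^ i / 2 * (2 ^ j / 2) ≤ 2 * X).card : ℝ) * (E j + δ) := by
          rw [← Finset.sum_filter, Finset.sum_const, nsmul_eq_mul]
      _ ≤ 6 * (E j + δ) := by
          refine mul_le_mul_of_nonneg_right ?_ (add_nonneg (hE j) hδ0)
          exact_mod_cast CmbB0_card_six hX0 hBj (Finset.range (nB X))
  have hfin : 6 * ((nB X : ℝ) * δ) ≤ 1 := by
    have h1 := nB_le x3
    have h2 : Real.log X ≤ X := (Real.log_le_sub_one_of_pos hX0).trans (by linarith)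
    have h3 : X ^ (-20 : ℝ) ≤ (X ^ 4)⁻¹ := by
      rw [← Real.rpow_natCast, ← Real.rpow_neg hX0.le]
      exact Real.rpow_le_rpow_of_exponent_le (by linarith) (by norm_num)
    have h4 : δ ≤ 3136 * X ^ 2 * C ^ 2 * (1 + cP) * (X ^ 4)⁻¹ :=
      mul_le_mul_of_nonneg_left h3 (by positivity)
    calc 6 * ((nB X : ℝ) * δ) ≤ 6 * ((6 * X) * (3136 * X ^ 2 * C ^ 2 * (1 + cP) * (X ^ 4)⁻¹)) :=
          mul_le_mul_of_nonneg_left (mul_le_mul (by linarith) h4 hδ0 (by positivity)) (by norm_num)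
      _ = K / X := by rw [hK]; field_simp; ring
      _ ≤ 1 := (div_le_one hX0).2 xK
  rw [e]
  refine (norm_sum_le_of_le _ hj).trans ?_
  rw [← Finset.mul_sum, Finset.sum_add_distrib, Finset.sum_const, Finset.card_range, nsmul_eq_mul]
  linarith

end Crest.Agent.R12
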