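import Crest.Agent.R12.Mom1

/-!
# Row 12, analytic half: divisor moments
-/

set_option autoImplicit false

noncomputable section

namespace Crest.Agent.R12

open Crest.Agent.R17
open scoped ComplexConjugate Topology
open Filter MeasureTheory

theorem Mom_ev (C : ℝ) (J : ℕ) {c δ : ℝ} (hc : 0 < c) (hδ : 0 < δ) :
    ∀ᶠ X in atTop, C * Real.log X ^ J ≤ Real.exp (c * Real.log X ^ δ) := by
  refine Real.tendsto_log_atTop.eventually
    (p := fun L => C * L ^ J ≤ Real.exp (c * L ^ δ)) ?_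
  filter_upwards [(isLittleO_log_rpow_atTop hδ).def (show 0 < c / (J + 1) by positivity),
    eventually_ge_atTop C, eventually_gt_atTop 0] with L h1 h2 h3
  rw [Real.norm_of_nonneg (Real.rpow_nonneg h3.le δ), div_mul_eq_mul_div,
    le_div_iff₀ (by positivity)] at h1
  calc C * L ^ J ≤ L ^ (J + 1) := by rw [pow_succ']; gcongr
    _ = Real.exp (Real.log L * (J + 1 : ℕ)) := by
      rw [Real.exp_mul, Real.exp_log h3, Real.rpow_natCast]
    _ ≤ _ := by
      push_cast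
      exact Real.exp_le_exp.2 (le_trans (by gcongr; exact le_abs_self _) h1)

open Classical in
theorem Mom_split {k : ℝ} (hk : 0 ≤ k) (P : O → Prop) [DecidablePred P]
    (hP : ∀ d, P d → Primary d) (y : ℝ) :
    ∑ b ∈ (rng 1 y).filter (fun b => ∃ d, d ∣ b ∧ P d), k ^ (pf b).card ≤
      ∑ d ∈ (rng 1 y).filter P, k ^ (pf d).card * ∑ m ∈ rng 1 (y / nr d), k ^ (pf m).card := by
  simp only [Finset.mul_sum]
  rw [Finset.sum_sigma']
  refine le_trans ?_ (Finset.sum_le_sum_of_subset_of_nonneg (Finset.filter_subset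
    (fun p => (pf (p.1 * p.2)).card = (pf p.1).card + (pf p.2).card) _) fun _ _ _ => by positivity)
  refine le_trans ?_ (Finset.sum_congr rfl (f := fun p : (_ : O) × O => k ^ (pf (p.1 * p.2)).card)
    fun p hp => by rw [(Finset.mem_filter.1 hp).2, pow_add]).le
  refine le_trans (Finset.sum_le_sum_of_subset_of_nonneg (fun b hb => ?_) fun _ _ _ =>
    pow_nonneg hk _) (Finset.sum_image_le_of_nonneg (g := fun p : (_ : O) × O => p.1 * p.2)
    (f := fun b => k ^ (pf b).card) fun _ _ => pow_nonneg hk _)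
  obtain ⟨h1, d, h2, h3⟩ := Finset.mem_filter.1 hb
  obtain ⟨h1, -, h4⟩ := mem_rng.1 h1
  obtain ⟨h5, h6, h7, h8⟩ := h1.div ((mem_pdiv h1.ne_zero).2 ⟨hP d h3, h2⟩)
  have h9 : nr d * nr (b / d) = nr b := by rw [← nr_mul, h8]
  refine Finset.mem_image.2 ⟨⟨d, b / d⟩, Finset.mem_filter.2 ⟨Finset.mem_sigma.2
    ⟨Finset.mem_filter.2 ⟨mem_rng.2 ⟨h5, h5.one_le, ?_⟩, h3⟩, mem_rng.2 ⟨h6, h6.one_le, ?_⟩⟩,
    card_pf_mul h5.ne_zero h6.ne_zero h7⟩, h8⟩
  · nlinarith [h5.one_le, h6.one_le]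
  · rw [le_div_iff₀' (nr_pos h5.ne_zero), h9]
    exact h4

theorem Mom_amgm {a t N : ℝ} (ht : 0 < t) (hN : 0 < N) :
    a / N ≤ t⁻¹ * (a ^ 2 / N) + t * N⁻¹ := by
  field_simp
  nlinarith [sq_nonneg (a - t), sq_nonneg (a + t)]

theorem Mom_fin {C C' y t L : ℝ} {J J' A : ℕ} (hC : 0 ≤ C) (hC' : 0 ≤ C') (hy : 0 ≤ y) (ht : 0 < t)
    (hL : 1 ≤ L) (h : C * C' * 2 ^ (J + J' + A) * L ^ (J + J' + A) ≤ t) :
    C * y * (2 * L) ^ J * (t⁻¹ * (C' * (2 * L) ^ J')) ≤ y / L ^ A := by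
  rw [le_div_iff₀ (by positivity)]
  calc _ ≤ C * y * (2 * L) ^ J * (t⁻¹ * (C' * (2 * L) ^ J')) * (2 * L) ^ A := by
        gcongr
        linarith
    _ = y * (C * C' * 2 ^ (J + J' + A) * L ^ (J + J' + A) / t) := by
        simp only [mul_pow]
        ring
    _ ≤ y := mul_le_of_le_one_right hy ((div_le_one ht).2 h)

open Classical in
/-- Elements with a large smooth divisor are sparse (Cauchy–Schwarz, `mom_crude`, `rankin_smo`). -/
theorem mom_sparse (k : ℝ) (A : ℕ) {θ κ : ℝ} (h0 : 0 < θ) (h1 : θ < 1) (hκ : 0 < κ) :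
    ∃ X₀ : ℝ, ∀ X ≥ X₀, ∀ y : ℝ, 0 ≤ y → y ≤ 4 * X →
      ∑ b ∈ (rng 1 y).filter (fun b => ∃ d, d ∣ b ∧ Smo (wX θ X) d ∧ X ^ κ ≤ nr d),
        |k| ^ (pf b).card ≤ y / Real.log X ^ A := by
  obtain ⟨C₁, J₁, hC₁, c1⟩ := mom_crude k
  obtain ⟨C₂, J₂, hC₂, c2⟩ := mom_crude (k ^ 2)
  obtain ⟨C₃, J₃, hC₃, c3⟩ := rankin_smo
  refine eventually_atTop.1 ?_
  filter_upwards [Mom_ev (C₁ * (C₂ + C₃) * 2 ^ (J₁ + (J₂ + J₃) + A)) (J₁ + (J₂ + J₃) + A)
    (half_pos hκ) (sub_pos.2 h1), Mom_ev 8 0 one_pos h0, eventually_ge_atTop 4,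
    Real.tendsto_log_atTop.eventually_ge_atTop 1] with X e1 e2 e3 e4 y hy hy'
  rw [pow_zero, mul_one, one_mul] at e2
  obtain ⟨L, hL⟩ : ∃ L, Real.log X = L := ⟨_, rfl⟩
  have hR : Real.log (4 * X) ≤ 2 * L := by
    rw [Real.log_mul (by norm_num) (by positivity), ← hL]
    linarith [Real.log_le_log (by norm_num) e3]
  have hR0 : 0 ≤ Real.log (4 * X) := Real.log_nonneg (by linarith)
  have h2 := c3 (wX θ X) (X ^ κ) ((rng 1 y).filter fun d => Smo (wX θ X) d ∧ X ^ κ ≤ nr d) e2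
    (Real.one_le_rpow (by linarith) hκ.le) fun d hd => (Finset.mem_filter.1 hd).2
  refine (Mom_split (abs_nonneg k) _ (fun d hd => hd.1.1) y).trans ?_
  have h3 := (c2 (4 * X) y (by linarith) hy hy').2
  have hw : Real.log (wX θ X) = L ^ θ := by rw [wX, Real.log_exp, hL]
  rw [Real.log_rpow (by linarith), hw, hL] at h2
  rw [hL] at e1 e4 ⊢
  obtain ⟨t, ht⟩ : ∃ t, Real.exp (κ / 2 * L ^ (1 - θ)) = t := ⟨_, rfl⟩
  have ht0 : 0 < t := ht ▸ Real.exp_pos _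
  have h4 : Real.exp (-(κ * L / L ^ θ)) = (t ^ 2)⁻¹ := by
    rw [← ht, ← Real.exp_nat_mul, ← Real.exp_neg, Real.rpow_sub (by linarith), Real.rpow_one]
    congr 1
    push_cast
    ring
  have h5 : L ^ θ ≤ 2 * L := by
    linarith [(Real.rpow_le_rpow_of_exponent_le e4 h1.le).trans_eq (Real.rpow_one L)]
  have h6 : 1 ≤ 2 * L := by linarith
  rw [h4] at h2
  rw [ht] at e1
  generalize hD : (rng 1 y).filter (fun d => Smo (wX θ X) d ∧ X ^ κ ≤ nr d) = D at h2 ⊢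
  have hD' : D ⊆ rng 1 y := hD ▸ Finset.filter_subset _ _
  have h7 : ∑ d ∈ D, |k| ^ (pf d).card / nr d ≤ t⁻¹ * ((C₂ + C₃) * (2 * L) ^ (J₂ + J₃)) := by
    calc _ ≤ ∑ d ∈ D, (t⁻¹ * (|k ^ 2| ^ (pf d).card / nr d) + t * (nr d)⁻¹) := by
          refine Finset.sum_le_sum fun d hd => ?_
          rw [abs_pow, ← pow_mul, pow_mul']
          exact Mom_amgm ht0 (nr_pos (mem_rng.1 (hD' hd)).1.ne_zero)
      _ ≤ t⁻¹ * (C₂ * (2 * L) ^ (J₂ + J₃)) + t * (C₃ * (2 * L) ^ (J₂ + J₃) * (t ^ 2)⁻¹) := by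
          rw [Finset.sum_add_distrib, ← Finset.mul_sum, ← Finset.mul_sum]
          gcongr
          · refine le_trans (Finset.sum_le_sum_of_subset_of_nonneg hD' fun _ _ _ => by positivity)
              (h3.trans ?_)
            gcongr
            exact (pow_le_pow_left₀ hR0 hR _).trans (pow_le_pow_right₀ h6 (by omega))
          · refine h2.trans ?_
            gcongr
            exact (pow_le_pow_left₀ (by positivity) h5 _).trans (pow_le_pow_right₀ h6 (by omega))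
      _ = _ := by field_simp
  calc ∑ d ∈ D, |k| ^ (pf d).card * ∑ m ∈ rng 1 (y / nr d), |k| ^ (pf m).card
      ≤ ∑ d ∈ D, C₁ * y * (2 * L) ^ J₁ * (|k| ^ (pf d).card / nr d) := by
        refine Finset.sum_le_sum fun d hd => ?_
        have h8 := (mem_rng.1 (hD' hd)).1.one_le
        refine (mul_le_mul_of_nonneg_left (c1 (4 * X) (y / nr d) (by linarith) (by positivity)
          ((div_le_self hy h8).trans hy')).1 (by positivity)).trans ?_
        rw [show C₁ * y * (2 * L) ^ J₁ * (|k| ^ (pf d).card / nr d) =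
          |k| ^ (pf d).card * (C₁ * (y / nr d) * (2 * L) ^ J₁) by ring]
        gcongr
    _ ≤ C₁ * y * (2 * L) ^ J₁ * (t⁻¹ * ((C₂ + C₃) * (2 * L) ^ (J₂ + J₃))) := by
        rw [← Finset.mul_sum]
        gcongr
    _ ≤ _ := Mom_fin hC₁.le (by positivity) hy ht0 e4 e1

theorem Mom_card_dvd {q : O} (hq : q ≠ 0) {y : ℝ} (hy : 0 ≤ y) (T : Finset O)
    (hT : ∀ n ∈ T, n ≠ 0 ∧ q ∣ n ∧ nr n ≤ y) : (T.card : ℝ) ≤ 7 * (y / nr q) := by
  classical
  have h1 : T ⊆ ((ball ⌊y / nr q⌋₊).erase 0).image (q * ·) := fun n hn => by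
    obtain ⟨h1, ⟨m, rfl⟩, h2⟩ := hT n hn
    refine Finset.mem_image_of_mem _ (Finset.mem_erase.2 ⟨right_ne_zero_of_mul h1,
      mem_ball.2 (Nat.le_floor ?_)⟩)
    rwa [le_div_iff₀' (nr_pos hq), ← nr_mul]
  have h2 := (Finset.card_le_card h1).trans Finset.card_image_le
  rw [Finset.card_erase_of_mem (mem_ball.2 (by simp [nm]))] at h2
  have h3 : T.card ≤ 7 * ⌊y / nr q⌋₊ := by
    have := card_ball_le ⌊y / nr q⌋₊
    omega
  calc (T.card : ℝ) ≤ (7 * ⌊y / nr q⌋₊ : ℕ) := by exact_mod_cast h3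
    _ ≤ _ := by
      push_cast
      gcongr
      exact Nat.floor_le (by positivity)

open Classical in
/-- Rough elements that are not squarefree or not coprime to `b`. -/
theorem card_bad_le : ∃ C : ℝ, 0 < C ∧ ∀ (w y : ℝ) (b : O) (S : Finset O), 1 ≤ w → 0 ≤ y →
    b ≠ 0 → (∀ n ∈ S, Primary n ∧ Rough w n ∧ nr n ≤ y ∧ (¬ Squarefree n ∨ ¬ IsCoprime n b)) →
    (S.card : ℝ) ≤ C * y * (1 + (pf b).card) / w := by
  obtain ⟨C, hC, h⟩ := sum_nr_rpow_tail (σ := 2) one_lt_two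
  refine ⟨7 * (C + 1), by positivity, fun w y b S hw hy hb hS => ?_⟩
  have h1 : S ⊆ (S.biUnion pf).biUnion (fun p => S.filter (p ^ 2 ∣ ·)) ∪
      ((pf b).filter fun p => w < nr p).biUnion fun p => S.filter (p ∣ ·) := fun n hn => by
    obtain ⟨h1, h2, -, h3 | h3⟩ := hS n hn
    · rw [h1.squarefree_iff] at h3
      push Not at h3
      obtain ⟨p, hp, h3⟩ := h3
      have h4 := BasicB.vp_ne_zero hp
      exact Finset.mem_union_left _ (Finset.mem_biUnion.2 ⟨p, Finset.mem_biUnion.2 ⟨n, hn, hp⟩,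
        Finset.mem_filter.2 ⟨hn, (pow_dvd_iff_le_vp (BasicB.pf_sub hp).1 h1.ne_zero).2 (by omega)⟩⟩)
    · obtain ⟨p, hp, hp'⟩ := Finset.not_disjoint_iff.1 (mt (isCoprime_of_disjoint_pf h1 hb) h3)
      exact Finset.mem_union_right _ (Finset.mem_biUnion.2 ⟨p, Finset.mem_filter.2 ⟨hp', h2 p hp⟩,
        Finset.mem_filter.2 ⟨hn, (BasicB.of_mem_pf hp).2.2⟩⟩)
  have h2 := (Finset.card_le_card h1).trans ((Finset.card_union_le _ _).trans
    (add_le_add Finset.card_biUnion_le Finset.card_biUnion_le))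
  have h3 : ∀ q, q ≠ 0 → ((S.filter (q ∣ ·)).card : ℝ) ≤ 7 * (y / nr q) := fun q hq =>
    Mom_card_dvd hq hy _ fun n hn => by
      obtain ⟨h3, h4⟩ := Finset.mem_filter.1 hn
      exact ⟨(hS n h3).1.ne_zero, h4, (hS n h3).2.2.1⟩
  have h4 := h w (S.biUnion pf) hw fun p hp => by
    obtain ⟨n, hn, hp⟩ := Finset.mem_biUnion.1 hp
    exact ((hS n hn).2.1 p hp).le
  have h5 : ∑ p ∈ S.biUnion pf, ((S.filter (p ^ 2 ∣ ·)).card : ℝ) ≤ 7 * y * (C * w⁻¹) := by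
    rw [show (1 : ℝ) - 2 = -1 by norm_num, Real.rpow_neg_one] at h4
    refine le_trans ?_ (mul_le_mul_of_nonneg_left h4 (by positivity))
    rw [Finset.mul_sum]
    refine Finset.sum_le_sum fun p hp => ?_
    obtain ⟨n, -, hp⟩ := Finset.mem_biUnion.1 hp
    refine (h3 _ (pow_ne_zero 2 (BasicB.pf_sub hp).1.ne_zero)).trans_eq ?_
    rw [nr_pow, Real.rpow_neg (by positivity), Real.rpow_two, div_eq_mul_inv, mul_assoc]
  have h6 : ∑ p ∈ (pf b).filter fun p => w < nr p, ((S.filter (p ∣ ·)).card : ℝ) ≤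
      (pf b).card * (7 * (y / w)) := by
    refine (Finset.sum_le_card_nsmul _ _ (7 * (y / w)) fun p hp => ?_).trans ?_
    · obtain ⟨h6, h7⟩ := Finset.mem_filter.1 hp
      exact (h3 _ (BasicB.pf_sub h6).1.ne_zero).trans (by gcongr)
    · rw [nsmul_eq_mul]
      gcongr
      exact Finset.filter_subset _ _
  have h7 : (S.card : ℝ) ≤ 7 * y * (C * w⁻¹) + (pf b).card * (7 * (y / w)) :=
    le_trans (by exact_mod_cast h2) (add_le_add h5 h6)
  have h8 : 0 ≤ y / w := by positivity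
  have h9 : 0 ≤ C * (pf b).card * (y / w) := by positivity
  refine h7.trans ?_
  rw [show 7 * (C + 1) * y * (1 + (pf b).card) / w = 7 * y * (C * w⁻¹) +
    (pf b).card * (7 * (y / w)) + 7 * (y / w + C * (pf b).card * (y / w)) by ring]
  linarith

/-- The sieving level is larger than every power of `log X` and smaller than every power of `X`. -/
theorem wX_ev {θ κ : ℝ} (h0 : 0 < θ) (h1 : θ < 1) (hκ : 0 < κ) (A : ℕ) :
    ∃ X₀ : ℝ, ∀ X ≥ X₀, Real.log X ^ A ≤ wX θ X ∧ wX θ X ≤ X ^ κ ∧ 8 ≤ wX θ X := by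
  refine eventually_atTop.1 ?_
  filter_upwards [Mom_ev 1 A one_pos h0, Mom_ev 8 0 one_pos h0, eventually_gt_atTop 1,
    ((tendsto_rpow_neg_atTop (sub_pos.2 h1)).comp Real.tendsto_log_atTop).eventually_le_const hκ]
    with X e1 e2 e3 e4
  refine ⟨by simpa [wX] using e1, ?_, by simpa [wX] using e2⟩
  have h2 := Real.log_pos e3
  rw [wX, Real.rpow_def_of_pos (x := X) (by linarith), Real.exp_le_exp,
    show θ = 1 + -(1 - θ) by ring, Real.rpow_add h2, Real.rpow_one]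
  exact mul_le_mul_of_nonneg_left e4 h2.le

end Crest.Agent.R12
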