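import Crest.Agent.R12.SW341

/-!
# Row 12, Siegel–Walfisz block: smooth and rough elements
-/

set_option autoImplicit false

noncomputable section

namespace Crest.Agent.R12

open Crest.Agent.R17
open scoped ComplexConjugate Topology
open Filter MeasureTheory

/-- Primary elements composed of small primes. -/
def Smo (w : ℝ) (n : O) : Prop := Primary n ∧ ∀ p ∈ pf n, nr p ≤ w

theorem SWRough_split (w : ℝ) {n : O} (hn : Primary n) :
    ∃ s r : O, Smo w s ∧ Primary r ∧ Rough w r ∧ n = s * r := by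
  refine Primary.induction (P := fun n => ∃ s r : O, Smo w s ∧ Primary r ∧ Rough w r ∧ n = s * r)
    ⟨1, 1, ⟨primary_one, by simp⟩, primary_one, by simp [Rough], by simp⟩
    (fun p n hp hp' _ ih => ?_) hn
  · obtain ⟨s, r, hs, hr, hr', rfl⟩ := ih
    rcases le_or_gt (nr p) w with h | h
    · refine ⟨p * s, r, ⟨hp'.mul hs.1, fun q hq => ?_⟩, hr, hr', by ring⟩
      rw [pf_mul hp.ne_zero hs.1.ne_zero, pf_prime hp hp', Finset.mem_union,
        Finset.mem_singleton] at hq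
      rcases hq with rfl | hq
      exacts [h, hs.2 q hq]
    · refine ⟨s, p * r, hs, hp'.mul hr, fun q hq => ?_, by ring⟩
      rw [pf_mul hp.ne_zero hr.ne_zero, pf_prime hp hp', Finset.mem_union,
        Finset.mem_singleton] at hq
      rcases hq with rfl | hq
      exacts [h, hr' q hq]

theorem SWRough_cop {w : ℝ} {s r : O} (hs : Smo w s) (hr : Primary r) (hr' : Rough w r) :
    IsCoprime s r :=
  isCoprime_of_disjoint_pf hs.1 hr.ne_zero
    (Finset.disjoint_left.2 fun p h1 h2 => absurd (hs.2 p h1) (not_le.2 (hr' p h2)))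

theorem SWRough_smo_dvd {w : ℝ} {s d : O} (hs : Smo w s) (hd : Primary d) (h : d ∣ s) : Smo w d :=
  ⟨hd, fun p hp => hs.2 p ((mem_pf hs.1.ne_zero).2
    ⟨(BasicB.of_mem_pf hp).1, (BasicB.of_mem_pf hp).2.1, (BasicB.of_mem_pf hp).2.2.trans h⟩)⟩

theorem SWRough_refl {s : O} (hs : Primary s) (g : O → ℂ) :
    ∑ d ∈ pdiv s, g (s / d) = ∑ d ∈ pdiv s, g d := by
  have key : ∀ d ∈ pdiv s, s / d ∈ pdiv s ∧ s / (s / d) = d := by
    intro d hd
    obtain ⟨h1, e, rfl⟩ := (mem_pdiv hs.ne_zero).1 hd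
    have he := h1.of_mul hs
    rw [mul_div_cancel_left₀ e h1.ne_zero, mul_div_cancel_right₀ d he.ne_zero]
    exact ⟨(mem_pdiv hs.ne_zero).2 ⟨he, dvd_mul_left e d⟩, rfl⟩
  exact Finset.sum_nbij' (s / ·) (s / ·) (fun d hd => (key d hd).1) (fun d hd => (key d hd).1)
    (fun d hd => (key d hd).2) (fun d hd => (key d hd).2) fun _ _ => rfl

theorem SWRough_inv_le {x : ℝ} (h0 : 0 ≤ x) (h1 : x ≤ 1 / 2) : (1 - x)⁻¹ ≤ Real.exp (2 * x) := by
  refine le_trans ?_ (Real.add_one_le_exp _)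
  rw [inv_le_iff_one_le_mul₀ (by linarith)]
  nlinarith

open Classical in
/-- The two convolution identities: `1_rough = (μ 1_smooth) * 1`, `μ 1_rough = 1_smooth * μ`. -/
theorem rough_eq_sum (w : ℝ) {i : ℕ} (hi : i ≤ 1) {n : O} (hn : Primary n) :
    (if Rough w n then mu n ^ i else 0) =
      ∑ d ∈ (pdiv n).filter (Smo w), mu d ^ (1 - i) * mu (n / d) ^ i := by
  obtain ⟨s, r, hs, hr, hr', rfl⟩ := SWRough_split w hn
  have e1 : (pdiv (s * r)).filter (Smo w) = pdiv s := by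
    ext d
    rw [Finset.mem_filter, mem_pdiv hn.ne_zero, mem_pdiv hs.1.ne_zero]
    exact ⟨fun h => ⟨h.1.1, (SWRough_cop h.2 hr hr').dvd_of_dvd_mul_right h.1.2⟩,
      fun h => ⟨⟨h.1, h.2.mul_right r⟩, SWRough_smo_dvd hs h.1 h.2⟩⟩
  have e2 : Rough w (s * r) ↔ pf s = ∅ := by
    rw [Rough, pf_mul hs.1.ne_zero hr.ne_zero]
    refine ⟨fun h => Finset.eq_empty_of_forall_notMem fun p hp =>
      absurd (hs.2 p hp) (not_le.2 (h p (Finset.mem_union_left _ hp))), fun h => ?_⟩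
    rwa [h, Finset.empty_union]
  rw [e1]
  obtain rfl | rfl : i = 0 ∨ i = 1 := by omega
  · simp only [pow_zero, mul_one, tsub_zero, pow_one, sum_mu_pdiv hs.1.ne_zero, e2]
  · have e3 : ∀ d ∈ pdiv s, mu d ^ (1 - 1) * mu (s * r / d) ^ 1 = mu (s / d) * mu r := by
      intro d hd
      obtain ⟨h1, e, rfl⟩ := (mem_pdiv hs.1.ne_zero).1 hd
      have he := h1.of_mul hs.1
      rw [mul_div_cancel_left₀ e h1.ne_zero, mul_assoc, mul_div_cancel_left₀ _ h1.ne_zero,
        mu_mul he hr (SWRough_cop hs hr hr').of_mul_left_right]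
      simp
    rw [Finset.sum_congr rfl e3, ← Finset.sum_mul, SWRough_refl hs.1, sum_mu_pdiv hs.1.ne_zero,
      pow_one]
    by_cases h : pf s = ∅
    · have h1 : s = 1 := by rw [hs.1.eq_prod, h, Finset.prod_empty]
      rw [if_pos (e2.2 h), if_pos h, h1, one_mul, one_mul]
    · rw [if_neg fun h' => h (e2.1 h'), if_neg h, zero_mul]

open Classical in
/-- Summed form, for a completely multiplicative function on primary elements. -/
theorem sum_rough_eq (w : ℝ) {i : ℕ} (hi : i ≤ 1) {f : O → ℂ} (h0 : ∀ n, ¬ Primary n → f n = 0)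
    (hf : ∀ m n, Primary m → f (m * n) = f m * f n) {x : ℝ} (hx : 0 ≤ x) :
    ∑ n ∈ (ball ⌊x⌋₊).filter (Rough w), mu n ^ i * f n =
      ∑ d ∈ (ball ⌊x⌋₊).filter (Smo w), mu d ^ (1 - i) * f d *
        ∑ m ∈ ball ⌊x / nr d⌋₊, mu m ^ i * f m := by
  have e1 : ∑ n ∈ (ball ⌊x⌋₊).filter (Rough w), mu n ^ i * f n =
      ∑ n ∈ (ball ⌊x⌋₊).filter Primary, ∑ d ∈ (pdiv n).filter (Smo w),
        mu d ^ (1 - i) * mu (n / d) ^ i * f n := by
    rw [Finset.sum_filter, Finset.sum_filter]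
    refine Finset.sum_congr rfl fun n _ => ?_
    by_cases hn : Primary n
    · rw [if_pos hn, ← Finset.sum_mul, ← rough_eq_sum w hi hn, ite_mul, zero_mul]
    · rw [if_neg hn, h0 n hn, mul_zero, ite_self]
  have e2 : ∀ d ∈ (ball ⌊x⌋₊).filter (Smo w), mu d ^ (1 - i) * f d *
      ∑ m ∈ ball ⌊x / nr d⌋₊, mu m ^ i * f m =
      ∑ m ∈ (ball ⌊x / nr d⌋₊).filter Primary, mu d ^ (1 - i) * mu m ^ i * f (d * m) := by
    intro d hd
    rw [Finset.mul_sum, Finset.sum_filter]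
    refine Finset.sum_congr rfl fun m _ => ?_
    by_cases hm : Primary m
    · rw [if_pos hm, hf d m (Finset.mem_filter.1 hd).2.1]
      ring
    · rw [if_neg hm, h0 m hm, mul_zero, mul_zero]
  have e3 : ∀ d m : O, Primary d → (m ∈ ball ⌊x / nr d⌋₊ ↔ d * m ∈ ball ⌊x⌋₊) := by
    intro d m hd
    have h1 := nr_pos hd.ne_zero
    rw [mem_ball, mem_ball, Nat.le_floor_iff (by positivity), Nat.le_floor_iff hx,
      le_div_iff₀ h1, nm_mul, Nat.cast_mul, mul_comm]
  rw [e1, Finset.sum_congr rfl e2, Finset.sum_sigma', Finset.sum_sigma']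
  symm
  refine Finset.sum_nbij' (fun q => ⟨q.1 * q.2, q.1⟩) (fun q => ⟨q.2, q.1 / q.2⟩) ?_ ?_ ?_ ?_ ?_
  · rintro ⟨d, m⟩ h
    simp only [Finset.mem_sigma, Finset.mem_filter] at h ⊢
    obtain ⟨⟨-, h2⟩, h3, h4⟩ := h
    exact ⟨⟨(e3 d m h2.1).1 h3, h2.1.mul h4⟩,
      (mem_pdiv (h2.1.mul h4).ne_zero).2 ⟨h2.1, dvd_mul_right d m⟩, h2⟩
  · rintro ⟨n, d⟩ h
    simp only [Finset.mem_sigma, Finset.mem_filter] at h ⊢
    obtain ⟨⟨h1, h2⟩, h3, h4⟩ := h
    obtain ⟨-, m, rfl⟩ := (mem_pdiv h2.ne_zero).1 h3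
    rw [mul_div_cancel_left₀ m h4.1.ne_zero]
    exact ⟨⟨mem_ball.2 ((nm_le_of_dvd (dvd_mul_right d m) h2.ne_zero).trans (mem_ball.1 h1)), h4⟩,
      (e3 d m h4.1).2 h1, h4.1.of_mul h2⟩
  · rintro ⟨d, m⟩ h
    simp only [Finset.mem_sigma, Finset.mem_filter] at h
    simp only [mul_div_cancel_left₀ m h.1.2.1.ne_zero]
  · rintro ⟨n, d⟩ h
    simp only [Finset.mem_sigma, Finset.mem_filter] at h
    obtain ⟨⟨-, h2⟩, h3, h4⟩ := h
    obtain ⟨-, m, rfl⟩ := (mem_pdiv h2.ne_zero).1 h3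
    simp only [mul_div_cancel_left₀ m h4.1.ne_zero]
  · rintro ⟨d, m⟩ h
    simp only [Finset.mem_sigma, Finset.mem_filter] at h
    simp only [mul_div_cancel_left₀ m h.1.2.1.ne_zero]

/-- Euler product (compare `CountAux.euler`). -/
theorem sum_smo_le_prod {σ : ℝ} (hσ : 0 < σ) (P S : Finset O) (hP : ∀ p ∈ P, Prime p ∧ Primary p)
    (hS : ∀ n ∈ S, Primary n ∧ pf n ⊆ P) :
    ∑ n ∈ S, nr n ^ (-σ) ≤ ∏ p ∈ P, (1 - nr p ^ (-σ))⁻¹ := by
  classical
  have key : ∀ P : Finset O, (∀ p ∈ P, 2 ≤ nm p) → ∀ S : Finset O,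
      (∀ j ∈ S, ∃ e : O → ℕ, j = ∏ p ∈ P, p ^ e p) →
        ∑ j ∈ S, nr j ^ (-σ) ≤ ∏ p ∈ P, (1 - nr p ^ (-σ))⁻¹ := by
    intro P hP
    induction P using Finset.induction_on with
    | empty =>
      intro S hS
      refine (Finset.sum_le_sum_of_subset_of_nonneg (t := {1}) (fun j hj => ?_)
        fun _ _ _ => by positivity).trans_eq (by simp [nr])
      obtain ⟨e, h⟩ := hS j hj
      simpa using h
    | insert q P hq ih =>
      intro S hS
      choose! e he using hS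
      have h1 := ih (fun p hp => hP p (Finset.mem_insert_of_mem hp))
        (S.image fun j => ∏ p ∈ P, p ^ e j p) fun j hj => by
          obtain ⟨j, -, rfl⟩ := Finset.mem_image.1 hj
          exact ⟨_, rfl⟩
      have h4 : (2 : ℝ) ≤ nr q := by exact_mod_cast hP q (Finset.mem_insert_self q P)
      have h2 : nr q ^ (-σ) < 1 := Real.rpow_lt_one_of_one_lt_of_neg (by linarith) (by linarith)
      have h3 : ∑ k ∈ Finset.range (S.sup (e · q) + 1), (nr q ^ (-σ)) ^ k ≤ (1 - nr q ^ (-σ))⁻¹ := by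
        rw [← tsum_geometric_of_lt_one (by positivity) h2]
        exact (summable_geometric_of_lt_one (by positivity) h2).sum_le_tsum _
          fun _ _ => by positivity
      refine (CountAux.sum_le_prod (Finset.range (S.sup (e · q) + 1))
        (S.image fun j => ∏ p ∈ P, p ^ e j p) (fun k j => q ^ k * j)
        (fun j hj => ⟨e j q, Finset.mem_range.2 (Nat.lt_succ_of_le
          (Finset.le_sup (f := (e · q)) hj)), _, Finset.mem_image_of_mem _ hj, ?_⟩) _
          fun _ => by positivity).trans ?_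
      · conv_lhs => rw [he j hj, Finset.prod_insert hq]
      · simp only [CountAux.nr_mul_rpow (q ^ _), CountAux.nr_pow_rpow, mul_comm (_ : ℝ) (-σ),
          Real.rpow_mul_natCast (Nat.cast_nonneg (nm q))]
        rw [← Finset.sum_mul_sum, Finset.prod_insert hq]
        exact mul_le_mul h3 h1 (Finset.sum_nonneg fun _ _ => by positivity)
          ((Finset.sum_nonneg fun _ _ => by positivity).trans h3)
  refine key P (fun p hp => CountAux.two_le_nm (hP p hp).1) S fun n hn => ⟨fun p => vp p n, ?_⟩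
  obtain ⟨h1, h2⟩ := hS n hn
  refine h1.eq_prod.trans (Finset.prod_subset h2 fun p hp hp' => ?_)
  rw [not_not.1 (mt (BasicB.mem_pf_iff h1.ne_zero (hP p hp).1 (hP p hp).2).2 hp'), pow_zero]

/-- **Rankin's trick** with `ε = 1 / log w` (`(1 - x)⁻¹ ≤ exp (2x)` for `x ≤ 1/2`,
`sum_inv_primes_le`). -/
theorem rankin_smo : ∃ (C : ℝ) (J : ℕ), 0 < C ∧ ∀ (w D : ℝ) (S : Finset O), 8 ≤ w → 1 ≤ D →
    (∀ n ∈ S, Smo w n ∧ D ≤ nr n) →
    ∑ n ∈ S, (nr n)⁻¹ ≤ C * Real.log w ^ J * Real.exp (-(Real.log D / Real.log w)) := by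
  classical
  obtain ⟨C, hC, h⟩ := sum_inv_primes_le
  refine ⟨Real.exp (6 * C), ⌈6 * C⌉₊, Real.exp_pos _, fun w D S hw hD hS => ?_⟩
  have hl : 2 ≤ Real.log w := by
    have h1 : Real.log 8 ≤ Real.log w := Real.log_le_log (by norm_num) hw
    rw [show (8 : ℝ) = 2 ^ 3 by norm_num, Real.log_pow] at h1
    have := Real.log_two_gt_d9
    push_cast at h1
    linarith
  have hl0 : 0 < Real.log w := by linarith
  set ε := 1 / Real.log w with hε
  have hε0 : 0 < ε := by positivity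
  have hε1 : ε ≤ 1 / 2 := one_div_le_one_div_of_le two_pos hl
  set P := S.biUnion pf with hPdef
  have hP : ∀ p ∈ P, Prime p ∧ Primary p ∧ nr p ≤ w := fun p hp => by
    obtain ⟨n, hn, hp⟩ := Finset.mem_biUnion.1 hp
    exact ⟨(BasicB.pf_sub hp).1, (BasicB.pf_sub hp).2, (hS n hn).1.2 p hp⟩
  have a1 := sum_smo_le_prod (σ := 1 - ε) (by linarith) P S (fun p hp => ⟨(hP p hp).1, (hP p hp).2.1⟩)
    fun n hn => ⟨(hS n hn).1.1, Finset.subset_biUnion_of_mem pf hn⟩
  have a2 : ∏ p ∈ P, (1 - nr p ^ (-(1 - ε)))⁻¹ ≤ Real.exp (6 * ∑ p ∈ P, (nr p)⁻¹) := by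
    rw [Finset.mul_sum, Real.exp_sum]
    have b : ∀ p ∈ P, nr p ^ (-(1 - ε)) ≤ 1 / 2 ∧ nr p ^ (-(1 - ε)) ≤ 3 * (nr p)⁻¹ := by
      intro p hp
      obtain ⟨h1, h2, h3⟩ := hP p hp
      have h4 : (4 : ℝ) ≤ nr p := by
        have c1 := CountAux.two_le_nm h1
        have c2 := nm_prime_mod h1 h2
        have c3 : 4 ≤ nm p := by omega
        exact_mod_cast c3
      constructor
      · calc nr p ^ (-(1 - ε)) ≤ (4 : ℝ) ^ (-(1 - ε)) :=
              Real.rpow_le_rpow_of_nonpos (by norm_num) h4 (by linarith)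
          _ ≤ (4 : ℝ) ^ (-(1 / 2) : ℝ) := Real.rpow_le_rpow_of_exponent_le (by norm_num) (by linarith)
          _ = 1 / 2 := by
              rw [show (4 : ℝ) = 2 ^ (2 : ℝ) by norm_num, ← Real.rpow_mul zero_le_two]
              norm_num
      · rw [neg_sub, sub_eq_add_neg, Real.rpow_add (by linarith), Real.rpow_neg_one]
        refine mul_le_mul_of_nonneg_right ?_ (by positivity)
        calc nr p ^ ε ≤ w ^ ε := Real.rpow_le_rpow (by linarith) h3 hε0.le
          _ = Real.exp 1 := by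
              rw [Real.rpow_def_of_pos (by linarith), hε, mul_one_div_cancel hl0.ne']
          _ ≤ 3 := Real.exp_one_lt_d9.le.trans (by norm_num)
    refine Finset.prod_le_prod (fun p hp => inv_nonneg.2 (by linarith [(b p hp).1])) fun p hp => ?_
    refine (SWRough_inv_le (by positivity) (b p hp).1).trans (Real.exp_le_exp.2 ?_)
    linarith [(b p hp).2]
  have a3 : Real.exp (6 * ∑ p ∈ P, (nr p)⁻¹) ≤ Real.exp (6 * C) * Real.log w ^ ⌈6 * C⌉₊ := by
    have b := h w P (by linarith) hP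
    calc _ ≤ Real.exp (6 * C + Real.log (Real.log w) * (6 * C)) := Real.exp_le_exp.2 (by linarith)
      _ = Real.exp (6 * C) * Real.log w ^ (6 * C) := by
          rw [Real.exp_add, Real.rpow_def_of_pos hl0]
      _ ≤ _ := by
          rw [← Real.rpow_natCast]
          exact mul_le_mul_of_nonneg_left
            (Real.rpow_le_rpow_of_exponent_le (by linarith) (Nat.le_ceil _)) (Real.exp_pos _).le
  have a4 : ∑ n ∈ S, (nr n)⁻¹ ≤
      (∑ n ∈ S, nr n ^ (-(1 - ε))) * Real.exp (-(Real.log D / Real.log w)) := by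
    rw [Finset.sum_mul]
    refine Finset.sum_le_sum fun n hn => ?_
    have h1 := (hS n hn).2
    have h2 : 0 < nr n := by linarith
    have h3 : nr n ^ (-ε) ≤ Real.exp (-(Real.log D / Real.log w)) := by
      refine (Real.rpow_le_rpow_of_nonpos (by linarith) h1 (by linarith)).trans_eq ?_
      rw [Real.rpow_def_of_pos (by linarith), hε]
      congr 1
      ring
    calc (nr n)⁻¹ = nr n ^ (-(1 - ε)) * nr n ^ (-ε) := by
          rw [← Real.rpow_add h2, ← Real.rpow_neg_one]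
          congr 1
          ring
      _ ≤ _ := by gcongr
  exact a4.trans (mul_le_mul_of_nonneg_right (a1.trans (a2.trans a3)) (Real.exp_pos _).le)

end Crest.Agent.R12
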