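import Crest.Agent.R12.SWUns
import Crest.Agent.R12.SWRough

/-!
# Row 12, Siegel–Walfisz block: the final estimate
-/

set_option autoImplicit false

noncomputable section

namespace Crest.Agent.R12

open Crest.Agent.R17
open scoped ComplexConjugate Topology
open Filter MeasureTheory

private theorem SW_triv (l : ℤ) (i : ℕ) (ka : O) {y : ℝ} (hy : 1 ≤ y) :
    ‖∑ m ∈ ball ⌊y⌋₊, mu m ^ i * xi l ka m‖ ≤ 8 * y := by
  have h1 : ((ball ⌊y⌋₊).card : ℝ) ≤ 7 * (⌊y⌋₊ : ℝ) + 1 := by exact_mod_cast card_ball_le ⌊y⌋₊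
  have h2 := Nat.floor_le (zero_le_one.trans hy)
  calc _ ≤ ∑ m ∈ ball ⌊y⌋₊, (1 : ℝ) := by
        refine (norm_sum_le _ _).trans (Finset.sum_le_sum fun m _ => ?_)
        rw [norm_mul, norm_pow]
        exact mul_le_one₀ (pow_le_one₀ (norm_nonneg _) (norm_mu_le m)) (norm_nonneg _)
          (norm_xi_le l ka m)
    _ ≤ _ := by rw [Finset.sum_const, nsmul_eq_mul, mul_one]; linarith

private theorem SW_ev {th c : ℝ} (h0 : 0 < th) (h1 : th < 1) (hc : 0 < c) (J : ℕ) :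
    ∀ᶠ X : ℝ in atTop, 1 ≤ Real.log X ∧ 8 ≤ wX th X ∧
      Real.log X ^ J * Real.exp (-(c * Real.log X / Real.log X ^ th)) ≤ 1 := by
  have a1 : Tendsto (fun L : ℝ => Real.exp (L ^ th)) atTop atTop :=
    Real.tendsto_exp_atTop.comp (tendsto_rpow_atTop h0)
  have a2 := (tendsto_rpow_mul_exp_neg_mul_atTop_nhds_zero (J / (1 - th)) c hc).comp
    (tendsto_rpow_atTop (by linarith : 0 < 1 - th))
  have a3 : ∀ᶠ L : ℝ in atTop, 1 ≤ L ∧ 8 ≤ Real.exp (L ^ th) ∧
      L ^ J * Real.exp (-(c * L / L ^ th)) ≤ 1 := by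
    filter_upwards [eventually_ge_atTop 1, a1.eventually_ge_atTop 8,
      a2.eventually (ge_mem_nhds one_pos)] with L b1 b2 b3
    refine ⟨b1, b2, le_of_eq_of_le ?_ b3⟩
    have hL : 0 < L := by linarith
    have : (1 - th) ≠ 0 := by linarith
    simp only [Function.comp]
    rw [← Real.rpow_mul hL.le, mul_div_cancel₀ _ this, Real.rpow_natCast, Real.rpow_sub hL,
      Real.rpow_one]
    congr 2; ring
  exact Real.tendsto_log_atTop.eventually a3

open Classical in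
/-- **Siegel–Walfisz for rough elements.**  If `x ≤ X^{de/2}` the bound is trivial.  Otherwise
`sum_rough_eq`; `N d ≤ D = X^{de/4}`: `SW_sharp` (with `A + 1` and `de/8`) and `sum_inv_nr_le`;
`N d > D`: trivial bound and `rankin_smo`. -/
theorem SW_rough (l : ℤ) (A : ℕ) {th de : ℝ} (h0 : 0 < th) (h1 : th < 1) (hde : 0 < de) :
    ∃ C X0 : ℝ, 0 < C ∧ ∀ X ≥ X0, ∀ (i : ℕ) (ka : O) (x : ℝ), i ≤ 1 → ka ≠ 0 → ¬ Cube ka →
      nr ka ≤ Real.log X ^ A → 0 ≤ x → x ≤ 2 * X →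
      ‖∑ n ∈ (ball ⌊x⌋₊).filter (Rough (wX th X)), mu n ^ i * xi l ka n‖ ≤
        C * (x + X ^ de) / Real.log X ^ A := by
  obtain ⟨C, X1, hC, hS⟩ := SW_sharp l A (A + 1) (half_pos hde)
  obtain ⟨Cs, hCs, hs⟩ := sum_inv_nr_le
  obtain ⟨Cr, J, hCr, hr⟩ := rankin_smo
  obtain ⟨X2, hX2⟩ := eventually_atTop.1
    ((SW_ev h0 h1 (half_pos hde) (J + A)).and (eventually_ge_atTop 1))
  refine ⟨C * (4 * Cs) + 8 * Cr, max X1 X2, by positivity,
    fun X hX i ka x hi hka hcu hn hx0 hx => ?_⟩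
  obtain ⟨⟨hL, hw, hev⟩, hX1⟩ := hX2 X (le_of_max_le_right hX)
  set L := Real.log X with hLdef
  have hL0 : 0 < L := by linarith
  have hX0 : 0 < X := by linarith
  set D := X ^ (de / 2) with hD
  have hD1 : 1 ≤ D := Real.one_le_rpow hX1 (by positivity)
  have hDD : D * D = X ^ de := by rw [hD, ← Real.rpow_add hX0, add_halves]
  have hXd : 0 < X ^ de := by positivity
  rw [sum_rough_eq _ hi (fun n hn => xi_of_not hn l ka) (fun m n hm => xi_mul l ka hm n) hx0]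
  set S := (ball ⌊x⌋₊).filter (Smo (wX th X)) with hSdef
  have hmem : ∀ d ∈ S, Smo (wX th X) d ∧ 1 ≤ nr d ∧ nr d ≤ x := fun d hd => by
    obtain ⟨a1, a2⟩ := Finset.mem_filter.1 hd
    refine ⟨a2, one_le_nr a2.1.ne_zero, ?_⟩
    rw [mem_ball, Nat.le_floor_iff hx0] at a1
    exact a1
  have t0 : ∀ d ∈ S, ‖mu d ^ (1 - i) * xi l ka d * ∑ m ∈ ball ⌊x / nr d⌋₊, mu m ^ i * xi l ka m‖ ≤
      C * (x + X ^ de) / L ^ (A + 1) * (nr d)⁻¹ + if D ≤ nr d then 8 * x * (nr d)⁻¹ else 0 := by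
    intro d hd
    obtain ⟨-, a1, a2⟩ := hmem d hd
    have a0 : 0 < nr d := by linarith
    have b1 : ‖mu d ^ (1 - i) * xi l ka d‖ ≤ 1 := by
      rw [norm_mul, norm_pow]
      exact mul_le_one₀ (pow_le_one₀ (norm_nonneg _) (norm_mu_le d)) (norm_nonneg _)
        (norm_xi_le l ka d)
    rw [norm_mul]
    refine (mul_le_of_le_one_left (norm_nonneg _) b1).trans ?_
    split_ifs with h
    · refine (SW_triv l i ka ((one_le_div a0).2 a2)).trans ?_
      rw [div_eq_mul_inv, ← mul_assoc]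
      exact le_add_of_nonneg_left (by positivity)
    · refine (hS X (le_of_max_le_left hX) i ka (x / nr d) hi hka hcu hn (by positivity)
        ((div_le_self hx0 a1).trans hx)).trans ?_
      have b2 : D ≤ X ^ de / nr d := by
        rw [le_div_iff₀ a0, ← hDD]
        exact mul_le_mul_of_nonneg_left (not_le.1 h).le (by linarith)
      calc C * (x / nr d + D) / L ^ (A + 1) ≤ C * (x / nr d + X ^ de / nr d) / L ^ (A + 1) := by
            gcongr
        _ = _ := by ring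
  have t1 : ∑ d ∈ S, (nr d)⁻¹ ≤ 4 * Cs * L := by
    have b1 : S ⊆ (ball ⌊x⌋₊).erase 0 := fun d hd =>
      Finset.mem_erase.2 ⟨(hmem d hd).1.1.ne_zero, (Finset.mem_filter.1 hd).1⟩
    have b2 : Real.log ((⌊x⌋₊ : ℝ) + 1) ≤ 2 + L := by
      have c1 := Nat.floor_le hx0
      have c2 : Real.log 3 ≤ 2 := by
        have := Real.log_le_sub_one_of_pos (by norm_num : (0 : ℝ) < 3); linarith
      calc _ ≤ Real.log (3 * X) := Real.log_le_log (by positivity) (by linarith)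
        _ ≤ _ := by rw [Real.log_mul (by norm_num) hX0.ne']; linarith
    calc _ ≤ ∑ d ∈ (ball ⌊x⌋₊).erase 0, (nr d)⁻¹ :=
          Finset.sum_le_sum_of_subset_of_nonneg b1 fun _ _ _ => by positivity
      _ ≤ Cs * (1 + Real.log ((⌊x⌋₊ : ℝ) + 1)) := hs _
      _ ≤ Cs * (4 * L) := by gcongr; linarith
      _ = _ := by ring
  have t2 : ∑ d ∈ S.filter (fun d => D ≤ nr d), (nr d)⁻¹ ≤ Cr / L ^ A := by
    refine (hr _ D _ hw hD1 fun n hn => ⟨(hmem n (Finset.mem_filter.1 hn).1).1,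
      (Finset.mem_filter.1 hn).2⟩).trans ?_
    rw [wX, Real.log_exp, hD, Real.log_rpow hX0, ← hLdef, le_div_iff₀ (by positivity)]
    have b1 : L ^ th ≤ L := by
      simpa using Real.rpow_le_rpow_of_exponent_le hL h1.le
    calc _ ≤ Cr * L ^ J * Real.exp (-(de / 2 * L / L ^ th)) * L ^ A := by gcongr
      _ = Cr * (L ^ (J + A) * Real.exp (-(de / 2 * L / L ^ th))) := by ring
      _ ≤ Cr * 1 := by gcongr
      _ = _ := mul_one _
  refine ((norm_sum_le _ _).trans (Finset.sum_le_sum t0)).trans ?_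
  rw [Finset.sum_add_distrib, ← Finset.sum_filter, ← Finset.mul_sum, ← Finset.mul_sum]
  calc _ ≤ C * (x + X ^ de) / L ^ (A + 1) * (4 * Cs * L) + 8 * (x + X ^ de) * (Cr / L ^ A) := by
        gcongr; linarith
    _ = _ := by field_simp; ring

end Crest.Agent.R12
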