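import Crest.Agent.R12.AFb
import Crest.Agent.R12.BV
import Crest.Agent.R12.Mom
import Crest.Agent.R12.SW

/-!
# Row 12, analytic half: the Siegel–Walfisz condition for products
-/

set_option autoImplicit false

noncomputable section

namespace Crest.Agent.R12

open Crest.Agent.R17
open scoped ComplexConjugate Topology
open Filter MeasureTheory

open Classical in
theorem CmbC_conv (B : ℝ) (F : O → O → ℂ) :
    ∑ b ∈ dy B, ∑ d ∈ pdiv b, F d (b / d) = ∑ d ∈ rng 1 (2 * B),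
      ∑ n ∈ (ball ⌊2 * (B / nr d)⌋₊).filter (fun n => Primary n ∧ d * n ∈ dy B), F d n := by
  rw [Finset.sum_sigma', Finset.sum_sigma']
  refine Finset.sum_bij' (fun x _ => ⟨x.2, x.1 / x.2⟩) (fun y _ => ⟨y.1 * y.2, y.1⟩) ?_ ?_ ?_ ?_ ?_
  · rintro ⟨b, d⟩ hx
    simp only [Finset.mem_sigma] at hx ⊢
    obtain ⟨b1, b2, b3⟩ := mem_dy.1 hx.1
    obtain ⟨d1, d2, -, d4⟩ := b1.div hx.2
    have e : nr d * nr (b / d) = nr b := by rw [← nr_mul, d4]
    have p1 := d1.one_le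
    have p2 := d2.one_le
    refine ⟨mem_rng.2 ⟨d1, p1, by nlinarith⟩, Finset.mem_filter.2 ⟨mem_ball.2 ?_, d2.1, ?_⟩⟩
    · refine Nat.le_floor ?_
      change nr (b / d) ≤ _
      rw [← mul_div_assoc, le_div_iff₀ (by linarith)]
      linarith
    · rw [d4]
      exact hx.1
  · rintro ⟨d, n⟩ hy
    simp only [Finset.mem_sigma, Finset.mem_filter] at hy ⊢
    exact ⟨hy.2.2.2, (mem_pdiv (mem_dy.1 hy.2.2.2).1.ne_zero).2
      ⟨(mem_rng.1 hy.1).1.1, dvd_mul_right _ _⟩⟩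
  · rintro ⟨b, d⟩ hx
    simp only [Finset.mem_sigma] at hx
    obtain ⟨-, -, -, d4⟩ := (mem_dy.1 hx.1).1.div hx.2
    simp only [d4]
  · rintro ⟨d, n⟩ hy
    simp only [Finset.mem_sigma] at hy
    simp only [mul_div_cancel_left₀ _ (mem_rng.1 hy.1).1.ne_zero]
  · rintro ⟨b, d⟩ _
    rfl

theorem CmbC_cpow {t : ℝ} (h1 : 1 ≤ t) (h2 : t ≤ 2) {s : ℂ} (hs : |s.re| ≤ 1) :
    ‖(t : ℂ) ^ s‖ ≤ 2 := by
  rw [Complex.norm_cpow_eq_rpow_re_of_pos (by linarith)]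
  calc t ^ s.re ≤ t ^ (1 : ℝ) := Real.rpow_le_rpow_of_exponent_le h1 (abs_le.1 hs).2
    _ ≤ 2 := by rwa [Real.rpow_one]

open Classical in
/-- removing the conditions `n` squarefree, `(n, d) = 1` -/
theorem CmbC_remove (l : ℤ) (κ : O) {w B : ℝ} (hB : 0 < B) {s : ℂ} (hs : |s.re| ≤ 1) {d : O}
    (hd : PS d) {g : AF} {i : ℕ} {φ : ℕ → ℂ} (hφ : ∀ m, ‖φ m‖ ≤ 1)
    (hg : ∀ n, Primary n → g n = if Rough w n then mu n ^ i * φ (nm n) else 0) :
    ‖∑ n ∈ (ball ⌊2 * (B / nr d)⌋₊).filter (fun n => Primary n ∧ d * n ∈ dy B),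
        g n * xi l κ n * ((nr n / (B / nr d) : ℝ) : ℂ) ^ s -
      ∑ n ∈ (ball ⌊2 * (B / nr d)⌋₊).filter (Rough w), mu n ^ i * xi l κ n * (φ (nm n) *
        if B / nr d < nm n ∧ (nm n : ℝ) ≤ 2 * (B / nr d) then
          (((nm n : ℝ) / (B / nr d) : ℝ) : ℂ) ^ s else 0)‖ ≤
      2 * ((ball ⌊2 * (B / nr d)⌋₊).filter fun n =>
        Primary n ∧ Rough w n ∧ (¬ Squarefree n ∨ ¬ IsCoprime n d)).card := by
  have pd := nr_pos hd.ne_zero
  have hy : 0 < B / nr d := div_pos hB pd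
  have hiff : ∀ n : O, (B < nr (d * n) ∧ nr (d * n) ≤ 2 * B) ↔
      (B / nr d < nm n ∧ (nm n : ℝ) ≤ 2 * (B / nr d)) := fun n => by
    rw [nr_mul, div_lt_iff₀ pd, ← mul_div_assoc, le_div_iff₀ pd, mul_comm (nr d)]
  rw [Finset.sum_filter, Finset.sum_filter, ← Finset.sum_sub_distrib, Finset.card_filter,
    Nat.cast_sum, Finset.mul_sum]
  refine (norm_sum_le _ _).trans (Finset.sum_le_sum fun n _ => ?_)
  by_cases h1 : Primary n
  swap
  · simp [h1, xi_of_not h1]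
  by_cases h2 : Rough w n
  swap
  · simp [h2, hg n h1]
  rw [if_pos h2, hg n h1, if_pos h2]
  by_cases h3 : d * n ∈ dy B
  · rw [if_pos ⟨h1, h3⟩, if_pos ((hiff n).1 (mem_dy.1 h3).2)]
    rw [show mu n ^ i * φ (nm n) * xi l κ n * ((nr n / (B / nr d) : ℝ) : ℂ) ^ s -
      mu n ^ i * xi l κ n * (φ (nm n) * ((nr n / (B / nr d) : ℝ) : ℂ) ^ s) = 0 by ring, norm_zero]
    positivity
  rw [if_neg fun h => h3 h.2, zero_sub, norm_neg]
  by_cases h4 : B / nr d < nm n ∧ (nm n : ℝ) ≤ 2 * (B / nr d)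
  swap
  · rw [if_neg h4, mul_zero, mul_zero, norm_zero]
    positivity
  have h5 : ¬ Squarefree n ∨ ¬ IsCoprime n d := by
    by_contra h
    rw [not_or, not_not, not_not] at h
    exact h3 (mem_dy.2 ⟨hd.mul ⟨h1, h.1⟩ h.2.symm, (hiff n).2 h4⟩)
  rw [if_pos h4, if_pos ⟨h1, h2, h5⟩, norm_mul, norm_mul, norm_mul, norm_pow, Nat.cast_one, mul_one]
  have a1 : ‖mu n‖ ^ i * ‖xi l κ n‖ ≤ 1 :=
    mul_le_one₀ (pow_le_one₀ (norm_nonneg _) (norm_mu_le n)) (norm_nonneg _) (norm_xi_le _ _ _)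
  have a2 := CmbC_cpow ((one_le_div hy).2 h4.1.le) ((div_le_iff₀ hy).2 h4.2) hs
  have a3 := mul_le_mul (hφ (nm n)) a2 (norm_nonneg _) zero_le_one
  have a4 := mul_le_mul a1 a3 (by positivity) zero_le_one
  linarith

open Classical in
/-- the complete inner sum -/
theorem CmbC_full {w y y₀ V E : ℝ} (hy : 0 < y) (hE0 : 0 ≤ E) {s : ℂ} (hs : |s.re| ≤ 1)
    {φ : ℕ → ℂ} (hφ : BVn φ V) (h0 : ∀ m : ℕ, (m : ℝ) < y₀ → φ m = 0) (a : O → ℂ)
    (hE : y₀ ≤ 2 * y → ∀ x : ℕ, (x : ℝ) ≤ 2 * y → ‖∑ n ∈ (ball x).filter (Rough w), a n‖ ≤ E) :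
    ‖∑ n ∈ (ball ⌊2 * y⌋₊).filter (Rough w), a n * (φ (nm n) *
        if y < nm n ∧ (nm n : ℝ) ≤ 2 * y then (((nm n : ℝ) / y : ℝ) : ℂ) ^ s else 0)‖ ≤
      2 * (V * (4 * (1 + ‖s‖))) * E := by
  rcases le_or_gt y₀ (2 * y) with h | h
  · exact (hφ.mul (bvn_cpow hy hs)).abel (Rough w) a _ fun x hx =>
      hE h x ((Nat.le_floor_iff (by linarith)).1 hx)
  · rw [Finset.sum_eq_zero, norm_zero]
    · have := hφ.nonneg
      positivity
    · intro n _
      split_ifs with h1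
      · rw [h0 _ (h1.2.trans_lt h), zero_mul, mul_zero]
      · rw [mul_zero, mul_zero]

/-- `∑_{b'} γ'(b') ξ(b') ∑_{n : n b' ∈ dy B} g(n) ξ(n) (N(n b') / B)^s`; remove the conditions
`n` squarefree, `(n, b') = 1` (`card_bad_le`, `wX_ev`); `BVn.abel`, `bvn_cpow`, `SW_rough` with
`de = 1/70`; the inner sum is empty unless `2B / N b' ≥ X^{1/60}`; `mom_crude`. -/
theorem sw_beta (l : ℤ) (A₁ : ℕ) {θ : ℝ} (h0 : 0 < θ) (h1 : θ < 1) : ∃ X₀ : ℝ, ∀ X ≥ X₀,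
    ∀ (γ : AF) (B : ℝ), HasReg (wX θ X) X γ → 1 ≤ B → B ≤ X →
    SWb l (dy B) γ B (Real.log X ^ A₁) (B / Real.log X ^ A₁) := by
  classical
  obtain ⟨C₃, J, hC₃, hmom⟩ := mom_crude 26
  obtain ⟨C₂, hC₂, hbad⟩ := card_bad_le
  obtain ⟨C₁, X₁, hC₁, hSW⟩ := SW_rough l (2 * A₁ + J + 1) h0 h1 (de := 1 / 70) (by norm_num)
  obtain ⟨X₂, hw⟩ := wX_ev h0 h1 one_pos (2 * A₁ + J + 1)
  set K := 960 * C₁ + 4 * C₂ with hK
  have hK0 : 0 < K := by positivity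
  refine ⟨max (max X₁ X₂) (max 2 (Real.exp (K * C₃ * 2 ^ J + 1))), fun X hX γ B hγ hB1 hBX => ?_⟩
  simp only [ge_iff_le, max_le_iff] at hX
  obtain ⟨⟨x1, x2⟩, x3, x4⟩ := hX
  obtain ⟨w1, -, w3⟩ := hw X x2
  have hL : K * C₃ * 2 ^ J + 1 ≤ Real.log X := (Real.le_log_iff_exp_le (by linarith)).2 x4
  set L := Real.log X with hLdef
  have hL1 : 1 ≤ L := by
    have : 0 ≤ K * C₃ * 2 ^ J := by positivity
    linarith
  have hLA : 1 ≤ L ^ A₁ := one_le_pow₀ hL1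
  have hB0 : 0 < B := by linarith
  obtain ⟨g, γ', ⟨i, φ, hi, hφV, hφ1, hφ0, hg⟩, hγ', rfl⟩ := hγ
  intro κ s k1 k2 k3 s1 s2
  have hs : 1 + ‖s‖ ≤ 3 * L ^ A₁ := by
    have := Complex.norm_le_abs_re_add_abs_im s
    linarith
  -- the inner sum
  have inner : ∀ d ∈ rng 1 (2 * B),
      ‖∑ n ∈ (ball ⌊2 * (B / nr d)⌋₊).filter (fun n => Primary n ∧ d * n ∈ dy B),
        g n * xi l κ n * ((nr n / (B / nr d) : ℝ) : ℂ) ^ s‖ ≤
      K * (B / nr d) * 2 ^ (pf d).card * (L ^ A₁ / L ^ (2 * A₁ + J + 1)) := fun d hd => by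
    obtain ⟨d1, d2, -⟩ := mem_rng.1 hd
    have hy : 0 < B / nr d := div_pos hB0 (by linarith)
    have hyB : B / nr d ≤ B := div_le_self hB0.le d2
    have r1 := CmbC_remove l κ hB0 s1 d1 hφ1 hg
    have r2 := hbad (wX θ X) (2 * (B / nr d)) d ((ball ⌊2 * (B / nr d)⌋₊).filter fun n =>
        Primary n ∧ Rough (wX θ X) n ∧ (¬ Squarefree n ∨ ¬ IsCoprime n d)) (by linarith)
      (by linarith) d1.ne_zero fun n hn => by
        obtain ⟨n1, n2, n3, n4⟩ := Finset.mem_filter.1 hn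
        exact ⟨n2, n3, (Nat.le_floor_iff (by linarith)).1 (mem_ball.1 n1), n4⟩
    have r3 := CmbC_full (w := wX θ X) (E := 4 * C₁ * (B / nr d) / L ^ (2 * A₁ + J + 1)) hy
      (by positivity) s1 hφV hφ0 (fun n => mu n ^ i * xi l κ n) fun hy0 x hx => by
        have := hSW X x1 i κ x hi k1 k2 (k3.trans (pow_le_pow_right₀ hL1 (by omega)))
          (Nat.cast_nonneg _) (by linarith)
        rw [Nat.floor_natCast] at this
        refine this.trans (div_le_div_of_nonneg_right ?_ (by positivity))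
        have h70 : X ^ (1 / 70 : ℝ) ≤ X ^ (1 / 60 : ℝ) :=
          Real.rpow_le_rpow_of_exponent_le (by linarith) (by norm_num)
        nlinarith
    have r4 := norm_le_norm_sub_add
      (∑ n ∈ (ball ⌊2 * (B / nr d)⌋₊).filter (fun n => Primary n ∧ d * n ∈ dy B),
        g n * xi l κ n * ((nr n / (B / nr d) : ℝ) : ℂ) ^ s)
      (∑ n ∈ (ball ⌊2 * (B / nr d)⌋₊).filter (Rough (wX θ X)), mu n ^ i * xi l κ n * (φ (nm n) *
        if B / nr d < nm n ∧ (nm n : ℝ) ≤ 2 * (B / nr d) then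
          (((nm n : ℝ) / (B / nr d) : ℝ) : ℂ) ^ s else 0))
    have t1 : (1 : ℝ) + (pf d).card ≤ 2 ^ (pf d).card := by
      have := one_add_mul_le_pow (a := (1 : ℝ)) (by norm_num) (pf d).card
      norm_num at this
      linarith
    have t2 : (1 : ℝ) ≤ 2 ^ (pf d).card := one_le_pow₀ one_le_two
    have hP : 0 < L ^ (2 * A₁ + J + 1) := by positivity
    have u1 : C₂ * (2 * (B / nr d)) * (1 + (pf d).card) / wX θ X ≤
        C₂ * (2 * (B / nr d)) * 2 ^ (pf d).card * (L ^ A₁ / L ^ (2 * A₁ + J + 1)) := by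
      rw [← mul_div_assoc _ (L ^ A₁)]
      refine div_le_div₀ (by positivity) ?_ hP w1
      refine (mul_le_mul_of_nonneg_left t1 (by positivity)).trans
        (le_mul_of_one_le_right (by positivity) hLA)
    have u2 : 2 * (10 * (4 * (1 + ‖s‖))) * (4 * C₁ * (B / nr d) / L ^ (2 * A₁ + J + 1)) ≤
        960 * C₁ * (B / nr d) * 2 ^ (pf d).card * (L ^ A₁ / L ^ (2 * A₁ + J + 1)) := by
      calc _ ≤ 2 * (10 * (4 * (3 * L ^ A₁))) * (4 * C₁ * (B / nr d) / L ^ (2 * A₁ + J + 1)) := by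
            gcongr
        _ = 960 * C₁ * (B / nr d) * 1 * (L ^ A₁ / L ^ (2 * A₁ + J + 1)) := by ring
        _ ≤ _ := by gcongr
    rw [hK]
    linarith
  have e1 : ∑ b ∈ dy B, (g * γ') b * xi l κ b * ((nr b / B : ℝ) : ℂ) ^ s =
      ∑ d ∈ rng 1 (2 * B), γ' d * xi l κ d *
        ∑ n ∈ (ball ⌊2 * (B / nr d)⌋₊).filter (fun n => Primary n ∧ d * n ∈ dy B),
          g n * xi l κ n * ((nr n / (B / nr d) : ℝ) : ℂ) ^ s := by
    simp only [Finset.mul_sum]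
    rw [← CmbC_conv B fun d n => γ' d * xi l κ d *
      (g n * xi l κ n * ((nr n / (B / nr d) : ℝ) : ℂ) ^ s)]
    refine Finset.sum_congr rfl fun b hb => ?_
    rw [mul_comm g γ', AF.mul_apply, Finset.sum_mul, Finset.sum_mul]
    refine Finset.sum_congr rfl fun d hd => ?_
    obtain ⟨d1, -, -, d4⟩ := (mem_dy.1 hb).1.div hd
    have e2 : xi l κ b = xi l κ d * xi l κ (b / d) := by rw [← xi_mul l κ d1.1, d4]
    have e3 : nr b / B = nr (b / d) / (B / nr d) := by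
      rw [div_div_eq_mul_div, mul_comm, ← nr_mul, d4]
    rw [e2, e3]
    ring
  rw [e1]
  have hm := (hmom (2 * X) (2 * B) (by linarith) (by linarith) (by linarith)).2
  have hlog : Real.log (2 * X) ≤ 2 * L := by
    rw [Real.log_mul two_ne_zero (by linarith)]
    have := Real.log_le_log two_pos x3
    linarith
  have hlog0 : 0 ≤ Real.log (2 * X) := Real.log_nonneg (by linarith)
  calc _ ≤ ∑ d ∈ rng 1 (2 * B), K * B * (L ^ A₁ / L ^ (2 * A₁ + J + 1)) *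
        (|(26 : ℝ)| ^ (pf d).card / nr d) := by
        refine (norm_sum_le _ _).trans (Finset.sum_le_sum fun d hd => ?_)
        rw [norm_mul, norm_mul]
        have a1 : ‖γ' d‖ * ‖xi l κ d‖ ≤ 13 ^ (pf d).card :=
          (mul_le_of_le_one_right (norm_nonneg _) (norm_xi_le _ _ _)).trans
            (hγ' d (mem_rng.1 hd).1)
        refine (mul_le_mul a1 (inner d hd) (norm_nonneg _) (by positivity)).trans (le_of_eq ?_)
        rw [abs_of_pos (by norm_num : (0 : ℝ) < 26), show (26 : ℝ) = 13 * 2 by norm_num, mul_pow]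
        ring
    _ ≤ K * B * (L ^ A₁ / L ^ (2 * A₁ + J + 1)) * (C₃ * (2 * L) ^ J) := by
        rw [← Finset.mul_sum]
        refine mul_le_mul_of_nonneg_left (hm.trans ?_) (by positivity)
        gcongr
    _ = B / L ^ A₁ * (K * C₃ * 2 ^ J / L) := by
        rw [mul_pow]
        field_simp
        ring
    _ ≤ B / L ^ A₁ := by
        refine mul_le_of_le_one_right (by positivity) ?_
        rw [div_le_one (by linarith)]
        linarith

end Crest.Agent.R12
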