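import Crest.Agent.R12.CmbD0

/-!
# Row 12, analytic half: splitting smooth divisors
-/

set_option autoImplicit false

noncomputable section

namespace Crest.Agent.R12

open Crest.Agent.R17
open scoped ComplexConjugate Topology
open Filter MeasureTheory

/-- the upper segments -/
def CmbD_H (rk : O → ℕ) (w Y : ℝ) (u : ℕ) (d : O) : Prop :=
  Smo w d ∧ (∃ p ∈ pf d, rk p = u ∧ nr d ≤ Y * nr p) ∧ (∀ q ∈ pf d, u ≤ rk q) ∧ Y < nr d

/-- the lower segments -/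
def CmbD_T (rk : O → ℕ) (w D : ℝ) (v : ℕ) (d : O) : Prop :=
  Smo w d ∧ D < nr d ∧ (∃ p ∈ pf d, rk p = v) ∧ ∀ q ∈ pf d, rk q ≤ v

theorem CmbD_H_uniq {rk : O → ℕ} {w Y : ℝ} {u u' : ℕ} {d : O} (h : CmbD_H rk w Y u d)
    (h' : CmbD_H rk w Y u' d) : u = u' := by
  obtain ⟨-, ⟨p, hp, rfl, -⟩, h1, -⟩ := h
  obtain ⟨-, ⟨p', hp', rfl, -⟩, h2, -⟩ := h'
  exact le_antisymm (h1 p' hp') (h2 p hp)

theorem CmbD_T_uniq {rk : O → ℕ} {w D : ℝ} {v v' : ℕ} {d : O} (h : CmbD_T rk w D v d)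
    (h' : CmbD_T rk w D v' d) : v = v' := by
  obtain ⟨-, -, ⟨p, hp, rfl⟩, h1⟩ := h
  obtain ⟨-, -, ⟨p', hp', rfl⟩, h2⟩ := h'
  exact le_antisymm (h2 p hp) (h1 p' hp')

theorem CmbD_nr {d : O} (h : PS d) : nr d = LS2.nP (pf d) := by
  rw [← LS2.nr_prod]
  exact congrArg nr (h.1.eq_rad h.2).symm

theorem CmbD_pf {d e : O} (h : PS d) (he : e ∈ pdiv d) {q : O} :
    q ∈ pf d ↔ q ∈ pf e ∨ q ∈ pf (d / e) := by
  obtain ⟨h1, h2, -, h4⟩ := h.div he
  conv_lhs => rw [← h4, pf_mul h1.ne_zero h2.ne_zero, Finset.mem_union]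

theorem CmbD_seg {rk : O → ℕ} {w Y D : ℝ} {u v : ℕ} {d e : O} (h : PS d) (he : e ∈ pdiv d)
    (hv : v < u) (hH : CmbD_H rk w Y u e) (hT : CmbD_T rk w D v (d / e)) {q : O} :
    q ∈ pf e ↔ q ∈ pf d ∧ u ≤ rk q := by
  rw [CmbD_pf h he]
  refine ⟨fun hq => ⟨Or.inl hq, hH.2.2.1 q hq⟩, fun hq => hq.1.resolve_right fun h1 => ?_⟩
  have := hT.2.2.2 q h1
  omega

theorem CmbD_not_lt {rk : O → ℕ} {w Y D : ℝ} {u v u' v' : ℕ} {d e e' : O} (h : PS d)
    (he : e ∈ pdiv d) (hv : v < u) (hH : CmbD_H rk w Y u e) (hT : CmbD_T rk w D v (d / e))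
    (he' : e' ∈ pdiv d) (hv' : v' < u') (hH' : CmbD_H rk w Y u' e')
    (hT' : CmbD_T rk w D v' (d / e')) : ¬ u < u' := by
  classical
  intro hlt
  obtain ⟨p, hp, hpu, hpY⟩ := hH.2.1
  have h1 : insert p (pf e') ⊆ pf e := by
    refine Finset.insert_subset hp fun q hq => ?_
    have := (CmbD_seg h he' hv' hH' hT').1 hq
    exact (CmbD_seg h he hv hH hT).2 ⟨this.1, hlt.le.trans this.2⟩
  have h2 : p ∉ pf e' := fun hq => by
    have := hH'.2.2.1 p hq
    omega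
  have h3 := LS2.nP_mono h1 (LS2.ne_zero_of_subset_pf subset_rfl)
  have h4 : LS2.nP (insert p (pf e')) = nr p * LS2.nP (pf e') := Finset.prod_insert h2
  rw [h4, ← CmbD_nr (h.div he).1, ← CmbD_nr (h.div he').1] at h3
  have h5 := nr_pos (BasicB.pf_sub hp).1.ne_zero
  have h6 := hH'.2.2.2
  nlinarith

theorem CmbD_uniq {rk : O → ℕ} {w Y D : ℝ} {u v u' v' : ℕ} {d e e' : O} (h : PS d)
    (he : e ∈ pdiv d) (hv : v < u) (hH : CmbD_H rk w Y u e) (hT : CmbD_T rk w D v (d / e))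
    (he' : e' ∈ pdiv d) (hv' : v' < u') (hH' : CmbD_H rk w Y u' e')
    (hT' : CmbD_T rk w D v' (d / e')) : u = u' ∧ v = v' ∧ e = e' := by
  obtain rfl : u = u' := le_antisymm (not_lt.1 (CmbD_not_lt h he' hv' hH' hT' he hv hH hT))
    (not_lt.1 (CmbD_not_lt h he hv hH hT he' hv' hH' hT'))
  have h1 : pf e = pf e' := Finset.ext fun q =>
    (CmbD_seg h he hv hH hT).trans (CmbD_seg h he' hv' hH' hT').symm
  obtain rfl : e = e' := by
    have h2 := (h.div he).1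
    have h3 := (h.div he').1
    rw [← h2.1.eq_rad h2.2, ← h3.1.eq_rad h3.2]
    unfold rad
    rw [h1]
  exact ⟨rfl, CmbD_T_uniq hT hT', rfl⟩

theorem CmbD_exists {rk : O → ℕ} (hrk : Function.Injective rk) {w Y D : ℝ} (hw : 2 ≤ w)
    (hY : 1 ≤ Y) (hD : 1 ≤ D) {d : O} (h : PS d) (hs : Smo w d) (hd : Y * w * D < nr d) :
    ∃ p ∈ pf d, ∃ v < rk p, ∃ e ∈ pdiv d, CmbD_H rk w Y (rk p) e ∧ CmbD_T rk w D v (d / e) := by
  classical
  have hne : ∀ {x : O}, PS x → 1 < nr x → (pf x).Nonempty := fun {x} hx h1 => by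
    rw [Finset.nonempty_iff_ne_empty]
    intro h0
    rw [CmbD_nr hx, h0, LS2.nP_empty] at h1
    exact lt_irrefl _ h1
  have hYd : Y < nr d := by nlinarith [mul_le_mul hw hD zero_le_one (by linarith)]
  obtain ⟨p₀, hp₀, hmin⟩ := (pf d).exists_min_image rk (hne h (hY.trans_lt hYd))
  obtain ⟨p, hp, hmax⟩ := ((pf d).filter fun p =>
    Y < LS2.nP ((pf d).filter fun q => rk p ≤ rk q)).exists_max_image rk
    ⟨p₀, Finset.mem_filter.2 ⟨hp₀, by rwa [Finset.filter_true_of_mem hmin, ← CmbD_nr h]⟩⟩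
  obtain ⟨hp, hpY⟩ := Finset.mem_filter.1 hp
  have h1 : LS2.nP ((pf d).filter fun q => rk p < rk q) ≤ Y := by
    rcases ((pf d).filter fun q => rk p < rk q).eq_empty_or_nonempty with h0 | h0
    · rwa [h0, LS2.nP_empty]
    · obtain ⟨p', hp', hmin'⟩ := Finset.exists_min_image _ rk h0
      obtain ⟨hp', hlt⟩ := Finset.mem_filter.1 hp'
      have h2 : ((pf d).filter fun q => rk p < rk q) = (pf d).filter fun q => rk p' ≤ rk q :=
        Finset.filter_congr fun q hq =>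
          ⟨fun h3 => hmin' q (Finset.mem_filter.2 ⟨hq, h3⟩), fun h3 => hlt.trans_le h3⟩
      rw [h2]
      by_contra h3
      exact absurd (hmax p' (Finset.mem_filter.2 ⟨hp', not_le.1 h3⟩)) (not_le.2 hlt)
  set s := (pf d).filter fun q => rk p ≤ rk q with hs'
  have hsub : s ⊆ pf d := Finset.filter_subset _ _
  have h2 : s = insert p ((pf d).filter fun q => rk p < rk q) := by
    ext q
    rw [hs', Finset.mem_insert, Finset.mem_filter, Finset.mem_filter]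
    constructor
    · rintro ⟨h3, h4⟩
      rcases h4.eq_or_lt with h5 | h5
      · exact Or.inl (hrk h5).symm
      · exact Or.inr ⟨h3, h5⟩
    · rintro (rfl | ⟨h3, h4⟩)
      · exact ⟨hp, le_rfl⟩
      · exact ⟨h3, h4.le⟩
  have hp0 := nr_pos (BasicB.pf_sub hp).1.ne_zero
  have h3 : LS2.nP s ≤ Y * nr p := by
    have h4 : LS2.nP (insert p ((pf d).filter fun q => rk p < rk q)) =
        nr p * LS2.nP ((pf d).filter fun q => rk p < rk q) :=
      Finset.prod_insert fun h5 => lt_irrefl _ (Finset.mem_filter.1 h5).2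
    rw [h2, h4, mul_comm]
    exact mul_le_mul_of_nonneg_right h1 hp0.le
  obtain ⟨-, e2, e3⟩ := squarefree_prod_primes (s := s) fun q hq => BasicB.pf_sub (hsub hq)
  have e4 : ∏ q ∈ s, q ∈ pdiv d :=
    (mem_pdiv h.ne_zero).2 ⟨e2, BasicB.prod_dvd_of_subset h.ne_zero hsub⟩
  have e5 := LS2.nr_prod s
  generalize ∏ q ∈ s, q = e at e2 e3 e4 e5
  obtain ⟨d1, d2, d3, d4⟩ := h.div e4
  have h4 : D < nr (d / e) := by
    have h5 := congrArg nr d4
    rw [nr_mul, e5] at h5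
    have h6 : LS2.nP s ≤ Y * w := h3.trans (mul_le_mul_of_nonneg_left (hs.2 p hp) (by linarith))
    by_contra h7
    have h8 := mul_le_mul h6 (not_lt.1 h7) (Nat.cast_nonneg _) (by positivity)
    linarith
  obtain ⟨p', hp', hmax'⟩ := (pf (d / e)).exists_max_image rk (hne d2 (hD.trans_lt h4))
  refine ⟨p, hp, rk p', ?_, e, e4, ⟨SWRough_smo_dvd hs e2 (Dvd.intro _ d4), ⟨p, ?_, rfl, ?_⟩,
    fun q hq => ?_, ?_⟩, SWRough_smo_dvd hs d2.1 (Dvd.intro_left _ d4), h4, ⟨p', hp', rfl⟩, hmax'⟩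
  · by_contra h5
    refine Finset.disjoint_left.1 (disjoint_pf d3) ?_ hp'
    rw [e3]
    exact Finset.mem_filter.2 ⟨(CmbD_pf h e4).2 (Or.inr hp'), not_lt.1 h5⟩
  · rw [e3]
    exact Finset.mem_filter.2 ⟨hp, le_rfl⟩
  · rwa [e5]
  · rw [e3] at hq
    exact (Finset.mem_filter.1 hq).2
  · rwa [e5]

open Classical in
theorem CmbD_sum_le (A : Finset ℕ) (P : ℕ → Prop) (hP : ∀ u u', P u → P u' → u = u') {c : ℂ}
    (hc : ‖c‖ ≤ 1) : ∑ u ∈ A, ‖if P u then c else 0‖ ≤ 1 := by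
  by_cases h : ∃ u ∈ A, P u
  · obtain ⟨u, hu, h⟩ := h
    rwa [Finset.sum_eq_single_of_mem u hu fun u' _ hne => by
      rw [if_neg fun h' => hne (hP _ _ h' h), norm_zero], if_pos h]
  · rw [Finset.sum_eq_zero fun u hu => by rw [if_neg fun h' => h ⟨u, hu, h'⟩, norm_zero]]
    exact zero_le_one

open Classical in
theorem CmbD_sum3 (A : Finset ℕ) (S : Finset O) (G : ℕ → ℕ → O → Prop)
    (hG : ∀ u v u' v', ∀ e ∈ S, ∀ e' ∈ S, v < u → G u v e → v' < u' → G u' v' e' →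
      u = u' ∧ v = v' ∧ e = e') (c : ℂ) :
    (∑ u ∈ A, ∑ v ∈ Finset.range u, ∑ e ∈ S, if G u v e then c else 0) =
      if ∃ u ∈ A, ∃ v < u, ∃ e ∈ S, G u v e then c else 0 := by
  split_ifs with h
  · obtain ⟨u, hu, v, hv, e, he, h⟩ := h
    rw [Finset.sum_eq_single_of_mem u hu fun u' _ hne => Finset.sum_eq_zero fun v' hv' =>
        Finset.sum_eq_zero fun e' he' => if_neg fun h' =>
          hne (hG _ _ _ _ _ he' _ he (Finset.mem_range.1 hv') h' hv h).1,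
      Finset.sum_eq_single_of_mem v (Finset.mem_range.2 hv) fun v' hv' hne =>
        Finset.sum_eq_zero fun e' he' => if_neg fun h' =>
          hne (hG _ _ _ _ _ he' _ he (Finset.mem_range.1 hv') h' hv h).2.1,
      Finset.sum_eq_single_of_mem e he fun e' he' hne => if_neg fun h' =>
        hne (hG _ _ _ _ _ he' _ he hv h' hv h).2.2, if_pos h]
  · exact Finset.sum_eq_zero fun u hu => Finset.sum_eq_zero fun v hv =>
      Finset.sum_eq_zero fun e he => if_neg fun h' =>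
        h ⟨u, hu, v, Finset.mem_range.1 hv, e, he, h'⟩

theorem CmbD_n {w : ℝ} (hw : 2 ≤ w) :
    ∃ n : ℕ, (n : ℝ) ≤ 12 / Real.log 2 * Real.log w ∧ 100 * (w + 1) ^ 2 < 2 ^ n := by
  obtain ⟨n, h1, h2⟩ := exists_nat_pow_near (x := 100 * (w + 1) ^ 2) (y := (2 : ℝ))
    (by nlinarith) one_lt_two
  refine ⟨n + 1, ?_, h2⟩
  have h3 : 100 * (w + 1) ^ 2 ≤ w ^ 11 := by
    have h4 : (2 : ℝ) ^ 7 ≤ w ^ 7 := pow_le_pow_left₀ zero_le_two hw 7
    have h5 : (w + 1) ^ 2 ≤ (w ^ 2) ^ 2 := pow_le_pow_left₀ (by linarith) (by nlinarith) 2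
    calc 100 * (w + 1) ^ 2 ≤ w ^ 7 * (w ^ 2) ^ 2 :=
          mul_le_mul (by linarith) h5 (by positivity) (by positivity)
      _ = w ^ 11 := by ring
  have h4 := Real.log_le_log (by positivity) (h1.trans h3)
  rw [Real.log_pow, Real.log_pow] at h4
  have h5 := Real.log_le_log two_pos hw
  have h6 : 0 < Real.log 2 := Real.log_pos one_lt_two
  rw [div_mul_eq_mul_div, le_div_iff₀ h6]
  push_cast at h4 ⊢
  linarith

open Classical in
/-- `1_rough = (μ 1_smooth) * 1` (`rough_eq_sum`).  Order the primes by `rk`.  `h u` = `μ` on the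
smooth squarefree `d₁` whose prime `p` of least rank has rank `u`, with `N(d₁/p) ≤ Y₁ < N d₁`;
`t v` = `μ` on the smooth `d₂` with `N d₂ > D₂` whose prime of largest rank has rank `v`.  A smooth
squarefree `d` has at most one factorisation `d₁ d₂` with `v < u`, and exactly one if
`N d > Y₁ w D₂`; `lam = μ 1_smooth - ∑ h u * t v`. -/
theorem exists_split : ∃ C : ℝ, 0 < C ∧ ∀ w Y₁ D₂ : ℝ, 2 ≤ w → 1 ≤ Y₁ → 1 ≤ D₂ →
    ∃ (n : ℕ) (lam : AF) (h t : ℕ → AF), (n : ℝ) ≤ C * Real.log w ∧ Bd 3 lam ∧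
      Sup lam 1 (Y₁ * w * D₂) ∧ (∀ u, Sup (h u) Y₁ (Y₁ * w)) ∧
      (∀ d, PS d → ∑ u ∈ Finset.range (2 ^ n), ‖h u d‖ ≤ 1) ∧
      (∀ d, PS d → ∑ v ∈ Finset.range (2 ^ n), ‖t v d‖ ≤ if Smo w d ∧ D₂ ≤ nr d then 1 else 0) ∧
      EqPS (zt w)
        ((lam + ∑ u ∈ Finset.range (2 ^ n), ∑ v ∈ Finset.range u, h u * t v) * zt 0) := by
  obtain ⟨rk, hrk, hrk'⟩ := exists_rank
  refine ⟨12 / Real.log 2, div_pos (by norm_num) (Real.log_pos one_lt_two),
    fun w Y D hw hY hD => ?_⟩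
  obtain ⟨n, hn1, hn2⟩ := CmbD_n hw
  set h : ℕ → AF := fun u => AF.of fun d => if CmbD_H rk w Y u d then mu d else 0 with hh
  set t : ℕ → AF := fun v => AF.of fun d => if CmbD_T rk w D v d then mu d else 0 with ht
  set ms : AF := AF.of fun d => if Smo w d then mu d else 0 with hms
  have eh : ∀ u d, Primary d → h u d = if CmbD_H rk w Y u d then mu d else 0 :=
    fun u d hd => AF.of_apply _ hd
  have et : ∀ v d, Primary d → t v d = if CmbD_T rk w D v d then mu d else 0 :=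
    fun v d hd => AF.of_apply _ hd
  have em : ∀ d, Primary d → ms d = if Smo w d then mu d else 0 := fun d hd => AF.of_apply _ hd
  have key : ∀ d, PS d → (∑ u ∈ Finset.range (2 ^ n), ∑ v ∈ Finset.range u, h u * t v) d =
      if ∃ u ∈ Finset.range (2 ^ n), ∃ v < u, ∃ e ∈ pdiv d,
        CmbD_H rk w Y u e ∧ CmbD_T rk w D v (d / e) then mu d else 0 := by
    intro d hd
    refine Eq.trans ?_ ((CmbD_sum3 (Finset.range (2 ^ n)) (pdiv d)
      (fun u v e => CmbD_H rk w Y u e ∧ CmbD_T rk w D v (d / e))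
      (fun u v u' v' e he e' he' hv hG hv' hG' =>
        CmbD_uniq hd he hv hG.1 hG.2 he' hv' hG'.1 hG'.2) (mu d)).trans (by congr))
    rw [AF.sum_apply]
    refine Finset.sum_congr rfl fun u _ => ?_
    rw [AF.sum_apply]
    refine Finset.sum_congr rfl fun v _ => ?_
    rw [AF.mul_apply]
    refine Finset.sum_congr rfl fun e he => ?_
    obtain ⟨d1, d2, d3, d4⟩ := hd.div he
    rw [eh u e d1.1, et v _ d2.1]
    by_cases h1 : CmbD_H rk w Y u e
    · by_cases h2 : CmbD_T rk w D v (d / e)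
      · rw [if_pos h1, if_pos h2, if_pos ⟨h1, h2⟩, ← mu_mul d1.1 d2.1 d3, d4]
      · rw [if_neg h2, mul_zero, if_neg fun h => h2 h.2]
    · rw [if_neg h1, zero_mul, if_neg fun h => h1 h.1]
  have hsm : ∀ d, PS d → (∃ u ∈ Finset.range (2 ^ n), ∃ v < u, ∃ e ∈ pdiv d,
      CmbD_H rk w Y u e ∧ CmbD_T rk w D v (d / e)) → Smo w d := by
    rintro d hd ⟨u, -, v, -, e, he, h1, h2⟩
    exact ⟨hd.1, fun q hq => ((CmbD_pf hd he).1 hq).elim (h1.1.2 q) (h2.1.2 q)⟩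
  refine ⟨n, ms - ∑ u ∈ Finset.range (2 ^ n), ∑ v ∈ Finset.range u, h u * t v, h, t, hn1,
    fun d hd => ?_, fun d hd h0 => ⟨hd.one_le, ?_⟩, fun u d hd h0 => ?_, fun d hd => ?_,
    fun d hd => ?_, fun d hd => ?_⟩
  · refine le_trans ?_ (one_le_pow₀ (by norm_num))
    rw [AF.sub_apply, key d hd, em d hd.1]
    split_ifs with h1 h2 h2
    · rw [sub_self, norm_zero]
      exact zero_le_one
    · rw [sub_zero]
      exact norm_mu_le d
    · exact absurd (hsm d hd h2) h1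
    · rw [sub_self, norm_zero]
      exact zero_le_one
  · by_contra h1
    apply h0
    rw [AF.sub_apply, key d hd, em d hd.1]
    by_cases h2 : Smo w d
    · obtain ⟨p, hp, h3⟩ := CmbD_exists hrk hw hY hD hd h2 (not_le.1 h1)
      have h4 : (nr p + 1) ^ 2 ≤ (w + 1) ^ 2 :=
        pow_le_pow_left₀ (by positivity) (by linarith [h2.2 p hp]) 2
      have h5 : (rk p : ℝ) < 2 ^ n := by linarith [hrk' p]
      rw [if_pos h2, if_pos ⟨rk p, Finset.mem_range.2 (by exact_mod_cast h5), h3⟩, sub_self]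
    · rw [if_neg h2, if_neg fun h3 => h2 (hsm d hd h3), sub_self]
  · rw [eh u d hd.1] at h0
    obtain ⟨h1, ⟨p, hp, -, h2⟩, -, h3⟩ : CmbD_H rk w Y u d := by
      by_contra h1
      exact h0 (if_neg h1)
    exact ⟨h3.le, h2.trans (mul_le_mul_of_nonneg_left (h1.2 p hp) (by linarith))⟩
  · rw [Finset.sum_congr rfl fun u _ => congrArg norm (eh u d hd.1)]
    exact CmbD_sum_le _ _ (fun _ _ => CmbD_H_uniq) (norm_mu_le d)
  · rw [Finset.sum_congr rfl fun v _ => congrArg norm (et v d hd.1)]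
    split_ifs with h1
    · exact CmbD_sum_le _ _ (fun _ _ => CmbD_T_uniq) (norm_mu_le d)
    · exact (Finset.sum_eq_zero fun v _ => by
        rw [if_neg fun h2 => h1 ⟨h2.1, h2.2.1.le⟩, norm_zero]).le
  · rw [sub_add_cancel, AF.mul_apply, zt_apply w hd.1]
    have h1 := rough_eq_sum w (i := 0) zero_le_one hd.1
    rw [pow_zero, Finset.sum_filter] at h1
    refine h1.trans (Finset.sum_congr rfl fun e he => ?_)
    obtain ⟨d1, d2, -⟩ := AF.primary_div hd.1 he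
    rw [em e d1, zt_zero_apply d2, mul_one, pow_zero, mul_one, Nat.sub_zero, pow_one]

end Crest.Agent.R12
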