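import Crest.Agent.R12.AFb
import Crest.Agent.R12.SWRough

/-!
# Row 12, analytic half: splitting smooth divisors
-/

set_option autoImplicit false

noncomputable section

namespace Crest.Agent.R12

open Crest.Agent.R17
open scoped ComplexConjugate Topology
open Filter MeasureTheory

theorem CmbD0_cs {A₁ A₂ B₁ B₂ A B : ℝ} (a1 : 0 ≤ A₁) (a2 : 0 ≤ A₂) (b1 : 0 ≤ B₁) (b2 : 0 ≤ B₂)
    (hA : A₁ + A₂ ≤ A) (hB : B₁ + B₂ ≤ B) :
    Real.sqrt A₁ * Real.sqrt B₁ + Real.sqrt A₂ * Real.sqrt B₂ ≤ Real.sqrt A * Real.sqrt B := by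
  rw [← Real.sqrt_mul (by linarith : 0 ≤ A)]
  refine Real.le_sqrt_of_sq_le (le_trans ?_ (mul_le_mul hA hB (by linarith) (by linarith)))
  have h1 := Real.sq_sqrt a1
  have h2 := Real.sq_sqrt a2
  have h3 := Real.sq_sqrt b1
  have h4 := Real.sq_sqrt b2
  generalize Real.sqrt A₁ = x₁ at h1 ⊢
  generalize Real.sqrt A₂ = x₂ at h2 ⊢
  generalize Real.sqrt B₁ = y₁ at h3 ⊢
  generalize Real.sqrt B₂ = y₂ at h4 ⊢
  subst h1 h2 h3 h4
  nlinarith [sq_nonneg (x₁ * y₂ - x₂ * y₁)]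

theorem CmbD0_halves (S : Finset O) (w : O → ℝ) (hw : ∀ a, 0 ≤ w a) (α : ℕ → O → ℂ) (N : ℕ) :
    ∑ a ∈ S, (∑ u ∈ Finset.range N, ‖α u a‖) ^ 2 * w a +
        ∑ a ∈ S, (∑ u ∈ Finset.range N, ‖α (N + u) a‖) ^ 2 * w a ≤
      ∑ a ∈ S, (∑ u ∈ Finset.range (N + N), ‖α u a‖) ^ 2 * w a := by
  rw [← Finset.sum_add_distrib]
  refine Finset.sum_le_sum fun a _ => ?_
  rw [Finset.sum_range_add, ← add_mul]
  refine mul_le_mul_of_nonneg_right ?_ (hw a)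
  have h1 : 0 ≤ ∑ u ∈ Finset.range N, ‖α u a‖ := Finset.sum_nonneg fun _ _ => norm_nonneg _
  have h2 : 0 ≤ ∑ u ∈ Finset.range N, ‖α (N + u) a‖ := Finset.sum_nonneg fun _ _ => norm_nonneg _
  nlinarith [mul_nonneg h1 h2]

theorem CmbD0_nn (S : Finset O) (w : O → ℝ) (hw : ∀ a, 0 ≤ w a) (f : O → ℝ) :
    0 ≤ ∑ a ∈ S, f a ^ 2 * w a :=
  Finset.sum_nonneg fun a _ => mul_nonneg (sq_nonneg _) (hw a)

theorem CmbD0_tri (S : Finset O) (w : O → ℝ) (hw : ∀ a, 0 ≤ w a) (α : ℕ → O → ℂ) (N : ℕ) :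
    ∑ a ∈ S, ‖∑ u ∈ Finset.range N, α u a‖ ^ 2 * w a ≤
      ∑ a ∈ S, (∑ u ∈ Finset.range N, ‖α u a‖) ^ 2 * w a :=
  Finset.sum_le_sum fun a _ => mul_le_mul_of_nonneg_right
    (pow_le_pow_left₀ (norm_nonneg _) (norm_sum_le _ _) 2) (hw a)

theorem CmbD0_cross (Sa Sb : Finset O) (K : O → O → ℂ) (α β : ℕ → O → ℂ) (N : ℕ) :
    ∑ u ∈ Finset.range N, ∑ v ∈ Finset.range N, ∑ a ∈ Sa, ∑ b ∈ Sb, α u a * β v b * K a b =
      ∑ a ∈ Sa, ∑ b ∈ Sb,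
        (∑ u ∈ Finset.range N, α u a) * (∑ v ∈ Finset.range N, β v b) * K a b := by
  simp only [Finset.sum_mul_sum]
  simp only [Finset.sum_mul]
  exact (Finset.sum_congr rfl fun u _ => Finset.sum_comm_cycle.symm).trans
    (Finset.sum_comm.trans (Finset.sum_congr rfl fun a _ => Finset.sum_comm))

/-- `v < u` iff for exactly one `j < n`: `u / 2^{j+1} = v / 2^{j+1}`, bit `j` of `u` is `1` and bit
`j` of `v` is `0`; for each `j` apply the hypothesis to the blocks and use Cauchy–Schwarz. -/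
theorem ord_sep (Sa Sb : Finset O) (K : O → O → ℂ) (wa wb : O → ℝ) {M : ℝ} (hM : 0 ≤ M)
    (ha : ∀ a, 0 ≤ wa a) (hb : ∀ b, 0 ≤ wb b)
    (h : ∀ α β : O → ℂ, ‖∑ a ∈ Sa, ∑ b ∈ Sb, α a * β b * K a b‖ ≤
      M * Real.sqrt (∑ a ∈ Sa, ‖α a‖ ^ 2 * wa a) * Real.sqrt (∑ b ∈ Sb, ‖β b‖ ^ 2 * wb b))
    (n : ℕ) (α β : ℕ → O → ℂ) :
    ‖∑ u ∈ Finset.range (2 ^ n), ∑ v ∈ Finset.range u, ∑ a ∈ Sa, ∑ b ∈ Sb, α u a * β v b * K a b‖ ≤
      n * M * Real.sqrt (∑ a ∈ Sa, (∑ u ∈ Finset.range (2 ^ n), ‖α u a‖) ^ 2 * wa a) *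
        Real.sqrt (∑ b ∈ Sb, (∑ v ∈ Finset.range (2 ^ n), ‖β v b‖) ^ 2 * wb b) := by
  induction n generalizing α β with
  | zero => simp
  | succ n ih =>
    rw [pow_succ, mul_two]
    have i1 := ih α β
    have i2 := ih (fun u => α (2 ^ n + u)) (fun v => β (2 ^ n + v))
    generalize 2 ^ n = N at i1 i2 ⊢
    have hA := CmbD0_halves Sa wa ha α N
    have hB := CmbD0_halves Sb wb hb β N
    have a1 := CmbD0_nn Sa wa ha fun a => ∑ u ∈ Finset.range N, ‖α u a‖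
    have a2 := CmbD0_nn Sa wa ha fun a => ∑ u ∈ Finset.range N, ‖α (N + u) a‖
    have b1 := CmbD0_nn Sb wb hb fun b => ∑ u ∈ Finset.range N, ‖β u b‖
    have b2 := CmbD0_nn Sb wb hb fun b => ∑ u ∈ Finset.range N, ‖β (N + u) b‖
    have c := CmbD0_cs a1 a2 b1 b2 hA hB
    have i3 := h (fun a => ∑ u ∈ Finset.range N, α (N + u) a) fun b => ∑ v ∈ Finset.range N, β v b
    rw [← CmbD0_cross Sa Sb K (fun u => α (N + u)) β N] at i3
    have s1 := Real.sqrt_le_sqrt ((CmbD0_tri Sa wa ha (fun u => α (N + u)) N).trans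
      ((le_add_of_nonneg_left a1).trans hA))
    have s2 := Real.sqrt_le_sqrt ((CmbD0_tri Sb wb hb β N).trans
      ((le_add_of_nonneg_right b2).trans hB))
    have i4 := i3.trans (mul_le_mul (mul_le_mul_of_nonneg_left s1 hM) s2 (Real.sqrt_nonneg _)
      (mul_nonneg hM (Real.sqrt_nonneg _)))
    have c' := mul_le_mul_of_nonneg_left c (mul_nonneg (Nat.cast_nonneg n) hM)
    rw [Finset.sum_range_add (fun u => ∑ v ∈ Finset.range u, ∑ a ∈ Sa, ∑ b ∈ Sb,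
      α u a * β v b * K a b)]
    simp only [Finset.sum_range_add (fun v => ∑ a ∈ Sa, ∑ b ∈ Sb, _ * β v b * K a b) N,
      Finset.sum_add_distrib]
    refine (norm_add_le _ _).trans ((add_le_add_right (norm_add_le _ _) _).trans ?_)
    push_cast
    linarith

theorem exists_rank : ∃ rk : O → ℕ, Function.Injective rk ∧ ∀ z, (rk z : ℝ) < 100 * (nr z + 1) ^ 2 := by
  obtain ⟨e, e1, e2⟩ : ∃ e : ℤ → ℕ, Function.Injective e ∧ ∀ a, (e a : ℤ) ≤ 2 * |a| := by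
    refine ⟨fun a => if 0 ≤ a then (2 * a).toNat else (-2 * a - 1).toNat, fun a b hab => ?_,
      fun a => ?_⟩
    · dsimp only at hab
      split_ifs at hab <;> omega
    · rw [Int.abs_eq_natAbs]
      dsimp only
      split_ifs <;> omega
  refine ⟨fun z => Nat.pair (e z.re) (e z.im), fun z w hzw => ?_, fun z => ?_⟩
  · obtain ⟨h1, h2⟩ := Nat.pair_eq_pair.1 hzw
    exact QuadraticAlgebra.ext (e1 h1) (e1 h2)
  · have h1 := nm_cast z
    have h2 : (e z.re : ℤ) ≤ 10 * nm z := by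
      nlinarith [e2 z.re, Int.le_self_sq |z.re|, sq_abs z.re, sq_nonneg (z.re - 2 * z.im)]
    have h3 : (e z.im : ℤ) ≤ 10 * nm z := by
      nlinarith [e2 z.im, Int.le_self_sq |z.im|, sq_abs z.im, sq_nonneg (2 * z.re - z.im)]
    have h4 : max (e z.re) (e z.im) + 1 ≤ 10 * (nm z + 1) := by omega
    have h5 := (Nat.pair_lt_max_add_one_sq (e z.re) (e z.im)).trans_le (Nat.pow_le_pow_left h4 2)
    have h6 : ((Nat.pair (e z.re) (e z.im) : ℕ) : ℝ) < ((10 * (nm z + 1)) ^ 2 : ℕ) :=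
      Nat.cast_lt.2 h5
    push_cast at h6
    linarith

end Crest.Agent.R12
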