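import Crest.Agent.R12.CmbE0

/-!
# Row 12, analytic half: opening the roughness of a smooth variable
-/

set_option autoImplicit false

noncomputable section

namespace Crest.Agent.R12

open Crest.Agent.R17
open scoped ComplexConjugate Topology
open Filter MeasureTheory

open Classical in
theorem CmbE_sum_mul {Q : O → Prop} (hQ : ∀ m n, m ∣ n → Q m → Q n) {i j : ℝ} (hi : 0 ≤ i)
    (hj : 0 ≤ j) {f : AF} {g : ℕ → AF} {s : Finset ℕ} (hf : Bd j f)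
    (hg : ∀ m, PS m → ∑ u ∈ s, ‖g u m‖ ≤ if Q m then i ^ (pf m).card else 0) {n : O} (hn : PS n) :
    ∑ u ∈ s, ‖(f * g u) n‖ ≤ if Q n then (j + i) ^ (pf n).card else 0 := by
  have h1 : ∑ u ∈ s, ‖(f * g u) n‖ ≤ ∑ d ∈ pdiv n, ‖f d‖ * ∑ u ∈ s, ‖g u (n / d)‖ := by
    simp only [Finset.mul_sum]
    rw [Finset.sum_comm]
    refine Finset.sum_le_sum fun u _ => ?_
    rw [AF.mul_apply]
    exact (norm_sum_le _ _).trans (Finset.sum_le_sum fun d _ => norm_mul_le _ _)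
  refine h1.trans ?_
  split_ifs with h
  · rw [← hn.sum_pdiv_pow]
    refine Finset.sum_le_sum fun d hd => ?_
    obtain ⟨a1, a2, -, -⟩ := hn.div hd
    refine mul_le_mul (hf d a1) ((hg _ a2).trans ?_) (by positivity) (by positivity)
    split_ifs
    · exact le_rfl
    · positivity
  · refine Finset.sum_nonpos fun d hd => ?_
    obtain ⟨-, a2, -, a4⟩ := hn.div hd
    refine mul_nonpos_of_nonneg_of_nonpos (norm_nonneg _) ((hg _ a2).trans ?_)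
    rw [if_neg fun h' => h (hQ _ _ (Dvd.intro_left d a4) h')]

theorem CmbE_bd_abs {k : ℝ} {g : AF} (h : Bd k g) : Bd |k| g := fun n hn =>
  (h n hn).trans ((le_abs_self _).trans_eq (abs_pow _ _))

open Classical in
theorem CmbE_pr (l : ℤ) (v : ℝ → ℂ) (X : ℝ) (ρ G : AF) (φ : ℝ → ℂ) :
    pr l v X (ρ * G.pm fun n => φ (nr n)) = ∑ x ∈ rng 1 (2 * X) ×ˢ rng 1 (2 * X),
      (if X / 4 ≤ nr (x.1 * x.2) ∧ nr (x.1 * x.2) ≤ 2 * X then
        ρ x.1 * G x.2 * (ff l (x.1 * x.2) * v (nr (x.1 * x.2) / X)) else 0) * φ (nr x.2) := by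
  rw [pr_mul, Finset.sum_product]
  refine Finset.sum_congr rfl fun a _ => Finset.sum_congr rfl fun b _ => ?_
  split_ifs
  · rw [AF.pm_apply]
    ring
  · simp

theorem CmbE_cpow_mul (s : ℂ) (a b : O) :
    ((nr (a * b) : ℝ) : ℂ) ^ s = ((nr a : ℝ) : ℂ) ^ s * ((nr b : ℝ) : ℂ) ^ s := by
  rw [nr_mul, Complex.ofReal_mul, Complex.mul_cpow_ofReal_nonneg (Nat.cast_nonneg _)
    (Nat.cast_nonneg _)]

/-- **Tail lemma.**  `exists_split` with `D₂ = X^κ`; separate `ψ` by `GM.sum_le` (the factor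
`N^{-it}` is completely multiplicative, `AF.pm_mul`); `pr_ord_le` with `α u = ρ₁ (h u) N^{-it}`,
`β u = ρ₂ (t u * zt 0) N^{-it}`. -/
theorem tail_lemma (l : ℤ) (k : ℝ) {θ κ : ℝ} (h0 : 0 < θ) (h1 : θ < 1) (hκ : 0 < κ) :
    ∃ X₀ : ℝ, ∀ X ≥ X₀, ∀ Y₁ : ℝ, 1 ≤ Y₁ → ∃ lam : AF, Bd 3 lam ∧
      Sup lam 1 (Y₁ * wX θ X * X ^ κ) ∧ ∀ (v ψ : ℝ → ℂ) (Φ : ℂ → ℂ) (T T₁ P R₁ R₂ : ℝ) (ρ₁ ρ₂ : AF),
      Adm v Φ T T₁ → Real.log X ^ 2 ≤ T → T ≤ X → GM ψ P → P ≤ Real.log X ^ 2 → Bd k ρ₁ →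
      Bd k ρ₂ → 0 ≤ R₁ → Sup ρ₁ R₁ R₂ → RII X (R₁ * Y₁) (R₂ * (Y₁ * wX θ X)) →
      ‖pr l v X (ρ₁ * ρ₂ * (zt (wX θ X)).pm fun n => ψ (nr n)) -
        pr l v X (ρ₁ * ρ₂ * (lam * zt 0).pm fun n => ψ (nr n))‖ ≤
        X ^ (5 / 6 : ℝ) / Real.log X ^ 3 := by
  classical
  obtain ⟨C₁, hC₁, H₁⟩ := exists_split
  obtain ⟨C₂, hC₂, H₂⟩ := GM.sum_le
  obtain ⟨X₁, H₃⟩ := pr_ord_le l (|k| + 2) 6 h0 h1 hκ
  refine ⟨max X₁ (Real.exp (max 1 (max C₁ C₂))), fun X hX Y₁ hY => ?_⟩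
  have hX1 := (le_max_left _ _).trans hX
  have hX2 := (le_max_right _ _).trans hX
  have hX0 : 0 < X := (Real.exp_pos _).trans_le hX2
  have hL := (Real.le_log_iff_exp_le hX0).2 hX2
  simp only [max_le_iff] at hL
  obtain ⟨hL1, hLC₁, hLC₂⟩ := hL
  have hXone : 1 ≤ X := ((Real.log_pos_iff hX0.le).1 (by linarith)).le
  have hw : 2 ≤ wX θ X := by
    have := Real.add_one_le_exp (Real.log X ^ θ)
    have := Real.one_le_rpow hL1 h0.le
    unfold wX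
    linarith
  obtain ⟨n, lam, h, t, hn, b1, b2, b3, b4, b5, b6⟩ :=
    H₁ (wX θ X) Y₁ (X ^ κ) hw hY (Real.one_le_rpow hXone hκ.le)
  have hn' : (n : ℝ) ≤ Real.log X ^ 2 := by
    rw [wX, Real.log_exp] at hn
    have := Real.rpow_le_self_of_one_le hL1 h1.le
    nlinarith
  refine ⟨lam, b1, b2, fun v ψ Φ T T₁ P R₁ R₂ ρ₁ ρ₂ hv hT hT' hψ hP r1 r2 hR r3 r4 => ?_⟩
  set G := ∑ u ∈ Finset.range (2 ^ n), ∑ u' ∈ Finset.range u, h u * (zt 0 * t u') with hG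
  have e1 : (lam + ∑ u ∈ Finset.range (2 ^ n), ∑ v ∈ Finset.range u, h u * t v) * zt 0 =
      lam * zt 0 + G := by
    rw [add_mul, hG, Finset.sum_mul]
    congr 1
    refine Finset.sum_congr rfl fun u _ => ?_
    rw [Finset.sum_mul]
    exact Finset.sum_congr rfl fun u' _ => by ring
  have e2 : pr l v X (ρ₁ * ρ₂ * (zt (wX θ X)).pm fun n => ψ (nr n)) -
      pr l v X (ρ₁ * ρ₂ * (lam * zt 0).pm fun n => ψ (nr n)) =
      pr l v X (ρ₁ * ρ₂ * G.pm fun n => ψ (nr n)) := by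
    rw [e1] at b6
    rw [pr_congr l v X fun m hm _ _ => (EqPS.refl (ρ₁ * ρ₂)).mul (b6.pm fun n => ψ (nr n)) m hm,
      AF.pm_add, mul_add, pr_add, add_sub_cancel_left]
  have hL0 : 0 < Real.log X := by linarith
  rw [e2, CmbE_pr]
  refine (H₂ ψ P (X ^ (5 / 6 : ℝ) / Real.log X ^ 6) (O × O) _ _ (fun x => nr x.2) hψ
    (fun x hx => nr_pos (mem_rng.1 (Finset.mem_product.1 hx).2).1.ne_zero) (by positivity)
    fun τ => ?_).trans ?_
  · rw [← CmbE_pr l v X (ρ₁ * ρ₂) G fun y => (y : ℂ) ^ (-(τ * Complex.I))]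
    set φ : O → ℂ := fun n => ((nr n : ℝ) : ℂ) ^ (-(τ * Complex.I)) with hφ
    have hφ1 : ∀ m, PS m → ‖φ m‖ = 1 := fun m hm => WtA_norm_cpow (nr_pos hm.ne_zero) τ
    have e3 : ρ₁ * ρ₂ * G.pm φ = ∑ u ∈ Finset.range (2 ^ n), ∑ u' ∈ Finset.range u,
        (ρ₁ * (h u).pm φ) * (ρ₂ * (zt 0 * t u').pm φ) := by
      rw [hG, AF.pm_sum, Finset.mul_sum]
      refine Finset.sum_congr rfl fun u _ => ?_
      rw [AF.pm_sum, Finset.mul_sum]
      refine Finset.sum_congr rfl fun u' _ => ?_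
      rw [AF.pm_mul _ _ fun a b _ _ => CmbE_cpow_mul _ a b]
      ring
    rw [e3]
    refine (H₃ X hX1 v Φ T T₁ _ _ n (fun u => ρ₁ * (h u).pm φ) (fun u => ρ₂ * (zt 0 * t u).pm φ)
      hv hT hT' hn' r4 (fun u => r3.mul ((b3 u).pm φ) hR (by linarith)) (fun a ha => ?_)
      fun b hb => ?_).trans (le_mul_of_one_le_right (by positivity) ?_)
    · have := CmbE_sum_mul (Q := fun _ => True) (fun _ _ _ _ => trivial) zero_le_two (abs_nonneg k)
        (g := fun u => (h u).pm φ) (s := Finset.range (2 ^ n)) (CmbE_bd_abs r1) (fun m hm => by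
          simp only [AF.pm_apply, norm_mul, hφ1 m hm, mul_one, if_true]
          exact (b4 m hm).trans (one_le_pow₀ one_le_two)) ha
      simpa using this
    · have hQ : ∀ m n : O, m ∣ n → (∃ d, d ∣ m ∧ Smo (wX θ X) d ∧ X ^ κ ≤ nr d) →
          ∃ d, d ∣ n ∧ Smo (wX θ X) d ∧ X ^ κ ≤ nr d :=
        fun m n hmn ⟨d, hd, hd'⟩ => ⟨d, hd.trans hmn, hd'⟩
      refine CmbE_sum_mul hQ zero_le_two (abs_nonneg k) (g := fun u => (zt 0 * t u).pm φ)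
        (CmbE_bd_abs r2) (fun m hm => ?_) hb
      simp only [AF.pm_apply, norm_mul, hφ1 m hm, mul_one]
      rw [show (2 : ℝ) = 1 + 1 by norm_num]
      refine CmbE_sum_mul hQ zero_le_one zero_le_one (bd_zt 0) (fun d hd => (b5 d hd).trans ?_) hm
      by_cases hd' : Smo (wX θ X) d ∧ X ^ κ ≤ nr d
      · rw [if_pos hd', if_pos ⟨d, dvd_rfl, hd'⟩, one_pow]
      · rw [if_neg hd']
        positivity
    · exact one_le_mul_of_one_le_of_one_le (by linarith [abs_nonneg τ])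
        (Real.one_le_exp (abs_nonneg τ))
  · calc C₂ * P * (X ^ (5 / 6 : ℝ) / Real.log X ^ 6)
        ≤ Real.log X * Real.log X ^ 2 * (X ^ (5 / 6 : ℝ) / Real.log X ^ 6) := by
          refine mul_le_mul_of_nonneg_right ?_ (by positivity)
          exact (mul_le_mul_of_nonneg_left hP hC₂.le).trans
            (mul_le_mul_of_nonneg_right hLC₂ (by positivity))
      _ = _ := by field_simp

end Crest.Agent.R12
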