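import Crest.Agent.R12.DspH1

/-!
# Row 12, analytic half: the bilinear estimates of type II
-/

set_option autoImplicit false

noncomputable section

namespace Crest.Agent.R12

open Crest.Agent.R17
open scoped ComplexConjugate Topology
open Filter MeasureTheory

theorem DspH_ev (n : ℕ) {κ : ℝ} (hκ : 0 < κ) :
    ∃ X₀ : ℝ, ∀ X ≥ X₀, 9 ≤ X ∧ 2 ≤ Real.log X ∧ Real.log X ^ n ≤ X ^ κ := by
  have h := (isLittleO_log_rpow_rpow_atTop (n : ℝ) hκ).bound one_pos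
  obtain ⟨X₀, hX⟩ := eventually_atTop.1 (h.and ((eventually_ge_atTop 9).and
    (Real.tendsto_log_atTop.eventually_ge_atTop 2)))
  refine ⟨X₀, fun X hX' => ?_⟩
  obtain ⟨h1, h2, h3⟩ := hX X hX'
  refine ⟨h2, h3, ?_⟩
  rw [one_mul, Real.rpow_natCast, Real.norm_of_nonneg (by positivity),
    Real.norm_of_nonneg (by positivity)] at h1
  exact h1

theorem DspH_pow {A : ℝ} (hA : 0 ≤ A) (r : ℝ) (n : ℕ) : (A ^ r) ^ n = A ^ (r * n) := by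
  rw [← Real.rpow_natCast, ← Real.rpow_mul hA]

/-- Sixth roots. -/
theorem DspH_root {A : ℝ} (hA : 0 < A) : ∃ a : ℝ, 0 < a ∧ A = a ^ 6 ∧ A ^ (1 / 6 : ℝ) = a ∧
    A ^ (1 / 3 : ℝ) = a ^ 2 ∧ A ^ (1 / 2 : ℝ) = a ^ 3 ∧ A ^ (5 / 6 : ℝ) = a ^ 5 := by
  refine ⟨A ^ (1 / 6 : ℝ), by positivity, ?_, rfl, ?_, ?_, ?_⟩ <;>
    rw [DspH_pow hA.le] <;> norm_num

theorem DspH_NW : ∃ (K : ℝ) (J : ℕ), 0 < K ∧ ∀ (X B : ℝ) (β : O → ℂ), 3 ≤ X → 0 < B → 2 * B ≤ X →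
    (∀ b ∈ dy B, ‖β b‖ ≤ 14 ^ (pf b).card) →
    Real.sqrt (NW 8 (dy B) β) ≤ K * B ^ (1 / 2 : ℝ) * Real.log X ^ J := by
  obtain ⟨C, J, hC, h⟩ := mom_crude 1568
  refine ⟨Real.sqrt (2 * C), J, by positivity, fun X B β hX hB hBX hβ => ?_⟩
  have hL : 1 ≤ Real.log X := by
    rw [Real.le_log_iff_exp_le (by linarith)]
    exact Real.exp_one_lt_three.le.trans hX
  have h1 := (h X (2 * B) hX (by linarith) hBX).1
  have h2 : NW 8 (dy B) β ≤ ∑ b ∈ rng 1 (2 * B), |(1568 : ℝ)| ^ (pf b).card := by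
    refine le_trans (Finset.sum_le_sum fun b hb => ?_) (Finset.sum_le_sum_of_subset_of_nonneg
      (s := dy B) (fun b hb => mem_rng.2 ⟨(mem_dy.1 hb).1, (mem_dy.1 hb).1.one_le,
        (mem_dy.1 hb).2.2⟩) fun _ _ _ => by positivity)
    have h3 := pow_le_pow_left₀ (norm_nonneg _) (hβ b hb) 2
    calc ‖β b‖ ^ 2 * 8 ^ (pf b).card ≤ (14 ^ (pf b).card) ^ 2 * 8 ^ (pf b).card :=
          mul_le_mul_of_nonneg_right h3 (by positivity)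
      _ = |(1568 : ℝ)| ^ (pf b).card := by
          rw [abs_of_pos (by norm_num), ← pow_mul, mul_comm _ 2, pow_mul, ← mul_pow]
          norm_num
  have h4 : Real.log X ^ J ≤ (Real.log X ^ J) ^ 2 :=
    le_self_pow₀ (one_le_pow₀ hL) two_ne_zero
  rw [Real.sqrt_le_left (by positivity), mul_pow, mul_pow, Real.sq_sqrt (by positivity),
    DspH_pow hB.le]
  norm_num
  refine (h2.trans h1).trans ?_
  have h5 : 0 ≤ C * (2 * B) := by positivity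
  nlinarith [mul_le_mul_of_nonneg_left h4 h5]

theorem DspH_alg (J A₀ : ℕ) {L η a b K N S t₁ t₂ t₃ t₄ : ℝ} (hL : 0 < L) (hη : 0 < η) (ha : 0 < a)
    (hb : 0 < b) (hK : 0 < K) (hN : 0 ≤ N) (hS : 0 ≤ S) (h₂ : 0 ≤ t₂)
    (hNb : N ≤ K * b ^ 3 * L ^ J) (hη3 : L ^ (J + A₀) ≤ η) (hab : η ^ 2 * b ≤ a)
    (hS' : a ^ 3 * N ≤ S) (ht₁ : t₁ ≤ a ^ 3 / L ^ 7) (ht₂ : t₂ ≤ (L ^ (J + 5 + A₀))⁻¹)
    (ht₃ : t₃ ≤ a) (ht₄ : t₄ ≤ 1) :
    N * (L ^ 5 * (t₁ + a ^ 2 * b ^ 2 * t₂) + η * (b ^ 3 * t₃ + a * b ^ 3 * t₄)) ≤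
      (1 + 5 * K) * ((L ^ 2)⁻¹ * S + a ^ 2 * b ^ 5 / L ^ A₀) := by
  set M := a ^ 2 * b ^ 5 / L ^ A₀ with hM
  have hM0 : 0 ≤ M := by positivity
  have e1 : N * (L ^ 5 * t₁) ≤ (L ^ 2)⁻¹ * S := by
    calc N * (L ^ 5 * t₁) ≤ N * (L ^ 5 * (a ^ 3 / L ^ 7)) := by gcongr
      _ = (L ^ 2)⁻¹ * (a ^ 3 * N) := by field_simp
      _ ≤ _ := by gcongr
  have e2 : N * (L ^ 5 * (a ^ 2 * b ^ 2 * t₂)) ≤ K * M := by
    calc N * (L ^ 5 * (a ^ 2 * b ^ 2 * t₂))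
        ≤ (K * b ^ 3 * L ^ J) * (L ^ 5 * (a ^ 2 * b ^ 2 * (L ^ (J + 5 + A₀))⁻¹)) := by gcongr
      _ = K * M := by rw [hM]; field_simp; ring
  have e4 : N * (η * (a * b ^ 3)) ≤ K * M := by
    calc N * (η * (a * b ^ 3)) ≤ (K * b ^ 3 * L ^ J) * (η * (a * b ^ 3)) := by gcongr
      _ = K * (b ^ 5 * a * (L ^ (J + A₀) * η * b) / L ^ A₀) := by field_simp; ring
      _ ≤ K * (b ^ 5 * a * (η * η * b) / L ^ A₀) := by gcongr
      _ ≤ K * (b ^ 5 * a * a / L ^ A₀) := by rw [← sq η]; gcongr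
      _ = _ := by rw [hM]; ring
  have e3 : N * (η * (b ^ 3 * t₃)) ≤ K * M := by
    refine le_trans ?_ e4
    rw [mul_comm a]
    gcongr
  have e6 : N * (η * (a * b ^ 3 * t₄)) ≤ K * M :=
    le_trans (mul_le_mul_of_nonneg_left (mul_le_mul_of_nonneg_left
      (mul_le_of_le_one_right (by positivity) ht₄) hη.le) hN) e4
  have e7 : 0 ≤ (L ^ 2)⁻¹ * S := by positivity
  have h1 : 0 ≤ K * ((L ^ 2)⁻¹ * S) := by positivity
  have h2 : 0 ≤ K * M := by positivity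
  calc _ = N * (L ^ 5 * t₁) + N * (L ^ 5 * (a ^ 2 * b ^ 2 * t₂)) + N * (η * (b ^ 3 * t₃)) +
        N * (η * (a * b ^ 3 * t₄)) := by ring
    _ ≤ (L ^ 2)⁻¹ * S + K * M + K * M + K * M := by gcongr
    _ ≤ _ := by linarith

theorem DspH_alg2 {L η a b x : ℝ} (hL : 1 ≤ L) (hη0 : 0 < η) (ha : 1 ≤ a) (hb0 : 0 < b)
    (hx0 : 0 < x) (hAB : a ^ 6 * b ^ 6 ≤ 2 * x ^ 6) (hB1 : x ^ 2 ≤ b ^ 6)
    (hη : η ^ 3 * b ^ 6 ≤ 8 * x ^ 3) :
    L * (a ^ 3 + a ^ 2 * b ^ 2) + η * (b ^ 3 + a * b ^ 3) ≤ 14 * L * x ^ 2 := by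
  have ha0 : 0 < a := by linarith
  have hx6 : 0 < x ^ 6 := by positivity
  have h1 : a * b ≤ 2 * x := by
    refine le_of_pow_le_pow_left₀ (n := 6) (by norm_num) (by positivity) ?_
    rw [mul_pow, mul_pow]
    linarith
  have h2 : x ≤ b ^ 3 := by
    refine le_of_pow_le_pow_left₀ (n := 2) (by norm_num) (by positivity) ?_
    rw [← pow_mul]
    exact hB1
  have h3 : a ^ 3 * b ^ 3 ≤ 2 * x ^ 3 := by
    refine le_of_pow_le_pow_left₀ (n := 2) (by norm_num) (by positivity) ?_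
    calc (a ^ 3 * b ^ 3) ^ 2 = a ^ 6 * b ^ 6 := by ring
      _ ≤ 4 * x ^ 6 := by linarith
      _ = _ := by ring
  have h4 : a ^ 3 ≤ 2 * x ^ 2 := by
    refine le_of_mul_le_mul_right ?_ hx0
    calc a ^ 3 * x ≤ a ^ 3 * b ^ 3 := by gcongr
      _ ≤ 2 * x ^ 3 := h3
      _ = _ := by ring
  have h5 : η * b ^ 2 ≤ 2 * x := by
    refine le_of_pow_le_pow_left₀ (n := 3) (by norm_num) (by positivity) ?_
    calc (η * b ^ 2) ^ 3 = η ^ 3 * b ^ 6 := by ring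
      _ ≤ 8 * x ^ 3 := hη
      _ = _ := by ring
  have h6 : a ^ 2 * b ^ 2 ≤ 4 * x ^ 2 := by
    calc a ^ 2 * b ^ 2 = (a * b) ^ 2 := by ring
      _ ≤ (2 * x) ^ 2 := by gcongr
      _ = _ := by ring
  have h7 : η * (a * b ^ 3) ≤ 4 * x ^ 2 := by
    calc η * (a * b ^ 3) = (a * b) * (η * b ^ 2) := by ring
      _ ≤ (2 * x) * (2 * x) := by gcongr
      _ = _ := by ring
  have h8 : η * b ^ 3 ≤ 4 * x ^ 2 :=
    le_trans (mul_le_mul_of_nonneg_left (le_mul_of_one_le_left (by positivity) ha) hη0.le) h7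
  have e1 : L * (a ^ 3 + a ^ 2 * b ^ 2) ≤ L * (6 * x ^ 2) :=
    mul_le_mul_of_nonneg_left (by linarith) (by positivity)
  have e2 : 8 * x ^ 2 ≤ L * (8 * x ^ 2) := le_mul_of_one_le_left (by positivity) hL
  linarith

/-- **Intermediate `T`**: `propW`, `mom_crude`. -/
theorem propBb (l : ℤ) (θ : ℝ) (A₀ : ℕ) : ∃ (c : ℕ) (Cb X₀ : ℝ), 0 < Cb ∧ ∀ X ≥ X₀,
    ∀ (v : ℝ → ℂ) (Φ : ℂ → ℂ) (T : ℝ), Adm v Φ T (T / 2) → Real.log X ^ c ≤ T →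
    T ≤ X ^ (1 / 100 : ℝ) → BH l v X θ A₀ 0 Cb ((Real.log X ^ 2)⁻¹) := by
  obtain ⟨C, hC, hW⟩ := propW l (ε := 1 / 200000) (by norm_num)
  obtain ⟨K, J, hK, hN⟩ := DspH_NW
  obtain ⟨X₀, hX₀⟩ := DspH_ev (J + A₀ + 1) (κ := 1 / 200000) (by norm_num)
  refine ⟨3 * (J + 5 + A₀) + 1, C * (1 + 5 * K), X₀, by positivity,
    fun X hX v Φ T hadm hT1 hT2 A B α β hB1 hB2 hAB1 hAB2 _ hβ _ => ?_⟩
  obtain ⟨hX9, hL, hη⟩ := hX₀ X hX
  have hX0 : 0 < X := by linarith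
  have hX1 : 1 ≤ X := by linarith
  set L := Real.log X with hLdef
  set η := X ^ (1 / 200000 : ℝ) with hηdef
  have hL0 : 0 < L := by linarith
  have hL1 : 1 ≤ L := by linarith
  have hη0 : 0 < η := by positivity
  have hη2 : 2 ≤ η := hL.trans ((le_self_pow₀ hL1 (by omega)).trans hη)
  have hη3 : L ^ (J + A₀) ≤ η := (pow_le_pow_right₀ hL1 (by omega)).trans hη
  have hB1' : 1 ≤ B := (Real.one_le_rpow hX1 (by norm_num)).trans hB1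
  have hB0 : 0 < B := by linarith
  have hA0 : 0 < A := by
    by_contra hn
    have := mul_nonpos_of_nonpos_of_nonneg (not_lt.1 hn) hB0.le
    linarith
  have hBB : B ^ 2 * η ^ 20 ≤ X := by
    have h1 : B ^ 2 ≤ (X ^ (1 / 2 - 1 / 20000 : ℝ)) ^ 2 := pow_le_pow_left₀ hB0.le hB2 2
    calc B ^ 2 * η ^ 20 ≤ (X ^ (1 / 2 - 1 / 20000 : ℝ)) ^ 2 * η ^ 20 :=
          mul_le_mul_of_nonneg_right h1 (by positivity)
      _ = X := by
          rw [hηdef, DspH_pow hX0.le, DspH_pow hX0.le, ← Real.rpow_add hX0]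
          norm_num
  have hBη : B * η ^ 20 ≤ 16 * A := by
    refine le_of_mul_le_mul_left ?_ hB0
    nlinarith
  have hη20 : (2 : ℝ) ^ 8 ≤ η ^ 8 := pow_le_pow_left₀ (by norm_num) hη2 8
  have hη12 : (1 : ℝ) ≤ η ^ 12 := one_le_pow₀ (by linarith)
  have hBη' : B * η ^ 12 ≤ A := by
    have h1 : B * η ^ 12 * 2 ^ 8 ≤ B * η ^ 12 * η ^ 8 :=
      mul_le_mul_of_nonneg_left hη20 (by positivity)
    have h2 : B * η ^ 12 * η ^ 8 = B * η ^ 20 := by ring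
    have h3 : 0 ≤ B * η ^ 12 := by positivity
    linarith
  have hBA : B ≤ A := (le_mul_of_one_le_right hB0.le hη12).trans hBη'
  have h2B : 2 * B ≤ X := by
    have h1 : 2 ≤ η ^ 20 := hη2.trans (le_self_pow₀ (by linarith) (by norm_num))
    have h2 : B ≤ B ^ 2 := le_self_pow₀ hB1' two_ne_zero
    nlinarith
  have hT0 : 1 ≤ T / 2 := hadm.one_le
  have hT3 : L ^ (3 * (J + 5 + A₀)) ≤ T / 2 := by
    rw [pow_succ] at hT1
    have : 0 < L ^ (3 * (J + 5 + A₀)) := by positivity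
    nlinarith
  have hTX : T ≤ X := hT2.trans (Real.rpow_le_self_of_one_le hX1 (by norm_num))
  have hTB : (T / 2) ^ 2 ≤ B := by
    have h1 : (T / 2) ^ 2 ≤ (X ^ (1 / 100 : ℝ)) ^ 2 :=
      pow_le_pow_left₀ (by linarith) (by linarith) 2
    rw [DspH_pow hX0.le] at h1
    exact h1.trans ((Real.rpow_le_rpow_of_exponent_le hX1 (by norm_num)).trans hB1)
  have hT4 : (T / 2) ^ (1 / 4 : ℝ) ≤ A ^ (1 / 6 : ℝ) := by
    have h1 : (T / 2) ^ (1 / 4 : ℝ) ≤ ((T / 2) ^ 2) ^ (1 / 6 : ℝ) := by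
      rw [← Real.rpow_natCast, ← Real.rpow_mul (by linarith)]
      exact Real.rpow_le_rpow_of_exponent_le hT0 (by norm_num)
    exact h1.trans (Real.rpow_le_rpow (by positivity) (hTB.trans hBA) (by norm_num))
  have hT5 : (T / 2) ^ (-(1 / 12 : ℝ)) ≤ 1 := Real.rpow_le_one_of_one_le_of_nonpos hT0 (by norm_num)
  have hT6 : (T / 2) ^ (-(1 / 3 : ℝ)) ≤ (L ^ (J + 5 + A₀))⁻¹ := by
    rw [Real.rpow_neg (by linarith)]
    refine inv_anti₀ (by positivity) ?_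
    have h1 := Real.rpow_le_rpow (by positivity) hT3 (show (0 : ℝ) ≤ 1 / 3 by norm_num)
    rwa [mul_comm 3, pow_mul, ← Real.rpow_natCast (L ^ (J + 5 + A₀)) 3,
      ← Real.rpow_mul (by positivity), show ((3 : ℕ) : ℝ) * (1 / 3) = 1 by norm_num,
      Real.rpow_one] at h1
  have hT7 : (A / (T / 2)) ^ (1 / 2 : ℝ) ≤ A ^ (1 / 2 : ℝ) / L ^ 7 := by
    have h1 : (L ^ 7) ^ 2 ≤ T / 2 := by
      rw [← pow_mul]
      exact (pow_le_pow_right₀ hL1 (by omega)).trans hT3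
    rw [Real.div_rpow hA0.le (by linarith)]
    refine div_le_div_of_nonneg_left (by positivity) (by positivity) ?_
    rw [← Real.sqrt_eq_rpow]
    exact Real.le_sqrt_of_sq_le h1
  have hNb := hN X B β (by linarith) hB0 h2B hβ
  have hS : A ^ (1 / 2 : ℝ) * Real.sqrt (NW 8 (dy B) β) ≤
      Real.sqrt ((A + A ^ (3 / 4 : ℝ) * B ^ (1 / 2 : ℝ)) * NW 8 (dy B) β) := by
    rw [← Real.sqrt_eq_rpow, ← Real.sqrt_mul hA0.le]
    refine Real.sqrt_le_sqrt (mul_le_mul_of_nonneg_right ?_ (NW_nonneg (by norm_num) _ _))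
    exact le_add_of_nonneg_right (by positivity)
  refine (hW X A B T (T / 2) v Φ α β (by linarith) hadm hTX hB1' hBA hAB2 hTB).trans ?_
  rw [Real.mul_rpow hA0.le hB0.le]
  set S := Real.sqrt ((A + A ^ (3 / 4 : ℝ) * B ^ (1 / 2 : ℝ)) * NW 8 (dy B) β) with hSdef
  have hS0 : 0 ≤ S := Real.sqrt_nonneg _
  have hN0 : 0 ≤ Real.sqrt (NW 8 (dy B) β) := Real.sqrt_nonneg _
  clear_value S
  generalize Real.sqrt (NW 8 (dy B) β) = N at *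
  obtain ⟨a, ha0, ha6, ha1, ha2, ha3, -⟩ := DspH_root hA0
  obtain ⟨b, hb0, hb6, -, hb2, hb3, hb5⟩ := DspH_root hB0
  rw [ha1] at hT4
  rw [ha3] at hT7 hS
  rw [hb3] at hNb
  rw [ha1, ha2, hb2, hb3, hb5]
  have hab : η ^ 2 * b ≤ a := by
    refine le_of_pow_le_pow_left₀ (n := 6) (by norm_num) ha0.le ?_
    rw [← ha6, mul_pow, ← hb6, ← pow_mul, mul_comm]
    exact hBη'
  have e8 := DspH_alg J A₀ hL0 hη0 ha0 hb0 hK hN0 hS0 (Real.rpow_nonneg (by linarith) _) hNb hη3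
    hab hS hT7 hT6 hT4 hT5
  rw [mul_assoc (C * _) N, mul_right_comm C (1 + 5 * K), mul_assoc (C * _) (1 + 5 * K)]
  exact mul_le_mul_of_nonneg_left e8 (mul_nonneg hC.le (Real.sqrt_nonneg _))

theorem DspH_U (l : ℤ) : ∃ C X₀ : ℝ, 0 < C ∧ ∀ X ≥ X₀, ∀ (v : ℝ → ℂ) (Φ : ℂ → ℂ) (T T₁ A B : ℝ)
    (α β : O → ℂ), Adm v Φ T T₁ → T ≤ X → A * B ≤ 2 * X → B ≤ A →
    X ^ (1 / 3 : ℝ) ≤ B → B ≤ 4 * X ^ (1 / 2 - 1 / 20000 : ℝ) →
    ‖Bil l v X (dy A) (dy B) α β‖ ≤ C * Real.log X ^ 5 * X ^ (1 / 3 : ℝ) *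
      Real.sqrt (NW 8 (dy A) α) * Real.sqrt (NW 8 (dy B) β) := by
  obtain ⟨C, hC, hW⟩ := propW l (ε := 1 / 60000) (by norm_num)
  refine ⟨C * 14, 3, by positivity, fun X hX v Φ T T₁ A B α β hadm hTX hAB hBA hB1 hB2 => ?_⟩
  have hX0 : 0 < X := by linarith
  have hX1 : 1 ≤ X := by linarith
  have hL : 1 ≤ Real.log X := by
    rw [Real.le_log_iff_exp_le hX0]
    exact Real.exp_one_lt_three.le.trans hX
  have hL5 : 1 ≤ Real.log X ^ 5 := one_le_pow₀ hL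
  have hB1' : 1 ≤ B := (Real.one_le_rpow hX1 (by norm_num)).trans hB1
  have hB0 : 0 < B := by linarith
  have hA0 : 0 < A := by linarith
  refine (hW X A B T 1 v Φ α β hX (hadm.mono le_rfl hadm.one_le) hTX hB1' hBA hAB
    (by rw [one_pow]; exact hB1')).trans ?_
  simp only [div_one, Real.one_rpow, mul_one]
  rw [Real.mul_rpow hA0.le hB0.le]
  have hA1 : 1 ≤ A ^ (1 / 6 : ℝ) := Real.one_le_rpow (by linarith) (by norm_num)
  have hη : (X ^ (1 / 60000 : ℝ)) ^ 3 * B ≤ 8 * X ^ (1 / 2 : ℝ) := by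
    calc (X ^ (1 / 60000 : ℝ)) ^ 3 * B
        ≤ (X ^ (1 / 60000 : ℝ)) ^ 3 * (4 * X ^ (1 / 2 - 1 / 20000 : ℝ)) := by gcongr
      _ = 4 * X ^ (1 / 2 : ℝ) := by
          rw [DspH_pow hX0.le, mul_left_comm, ← Real.rpow_add hX0]
          norm_num
      _ ≤ _ := by gcongr; norm_num
  have hη0 : 0 < X ^ (1 / 60000 : ℝ) := by positivity
  generalize X ^ (1 / 60000 : ℝ) = η at *
  obtain ⟨a, ha0, ha6, ha1, ha2, ha3, -⟩ := DspH_root hA0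
  obtain ⟨b, hb0, hb6, -, hb2, hb3, -⟩ := DspH_root hB0
  obtain ⟨x, hx0, hx6, -, hx2, hx3, -⟩ := DspH_root hX0
  rw [hx2] at hB1
  rw [hx3] at hη
  rw [ha1] at hA1
  rw [ha1, ha2, ha3, hb2, hb3, hx2]
  have h9 := DspH_alg2 hL5 hη0 hA1 hb0 hx0 (by rw [← ha6, ← hb6, ← hx6]; exact hAB)
    (by rw [← hb6]; exact hB1) (by rw [← hb6]; exact hη)
  have h10 : Real.sqrt (N2 (dy A) α) ≤ Real.sqrt (NW 8 (dy A) α) :=
    Real.sqrt_le_sqrt (N2_le_NW (by norm_num) _ _)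
  calc _ ≤ C * Real.sqrt (NW 8 (dy A) α) * Real.sqrt (NW 8 (dy B) β) *
        (14 * Real.log X ^ 5 * x ^ 2) :=
        mul_le_mul (mul_le_mul_of_nonneg_right (mul_le_mul_of_nonneg_left h10 hC.le)
          (Real.sqrt_nonneg _)) h9 (by positivity) (by positivity)
    _ = _ := by ring

/-- **Arbitrary coefficients** (`propW` with `T₁ = 1`, `Bil_comm`). -/
theorem propU (l : ℤ) : ∃ C X₀ : ℝ, 0 < C ∧ ∀ X ≥ X₀, ∀ (v : ℝ → ℂ) (Φ : ℂ → ℂ) (T T₁ A B : ℝ)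
    (α β : O → ℂ), Adm v Φ T T₁ → T ≤ X → A * B ≤ 2 * X → X / 16 ≤ A * B →
    X ^ (1 / 3 : ℝ) ≤ min A B → min A B ≤ 4 * X ^ (1 / 2 - 1 / 20000 : ℝ) →
    ‖Bil l v X (dy A) (dy B) α β‖ ≤ C * Real.log X ^ 5 * X ^ (1 / 3 : ℝ) *
      Real.sqrt (NW 8 (dy A) α) * Real.sqrt (NW 8 (dy B) β) := by
  obtain ⟨C, X₀, hC, h⟩ := DspH_U l
  refine ⟨C, X₀, hC, fun X hX v Φ T T₁ A B α β hadm hTX hAB _ h1 h2 => ?_⟩
  rcases le_total B A with hBA | hBA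
  · rw [min_eq_right hBA] at h1 h2
    exact h X hX v Φ T T₁ A B α β hadm hTX hAB hBA h1 h2
  · rw [min_eq_left hBA] at h1 h2
    rw [Bil_comm, mul_right_comm]
    exact h X hX v Φ T T₁ B A β α hadm hTX (by rw [mul_comm]; exact hAB) hBA h1 h2

end Crest.Agent.R12
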