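import Crest.Agent.R12.CmbB
import Crest.Agent.R12.CmbD
import Crest.Agent.R12.DspH
import Crest.Agent.R12.Mom

/-!
# Row 12, analytic half: opening the roughness of a smooth variable
-/

set_option autoImplicit false

noncomputable section

namespace Crest.Agent.R12

open Crest.Agent.R17
open scoped ComplexConjugate Topology
open Filter MeasureTheory

/-- The two type II ranges. -/
def RII (X x y : ℝ) : Prop :=
  (X ^ (1 / 3 + 1 / 20000 : ℝ) ≤ x ∧ y ≤ X ^ (1 / 2 - 1 / 20000 : ℝ)) ∨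
    (X ^ (1 / 2 + 1 / 20000 : ℝ) ≤ x ∧ y ≤ X ^ (2 / 3 - 1 / 20000 : ℝ))

theorem CmbE0_geom {X x y A B : ℝ} (hX : 1 ≤ X) (hw : 16 ≤ X ^ (1 / 20000 : ℝ)) (h : RII X x y)
    (hA : 0 < A) (h1 : x ≤ 2 * A) (h2 : A ≤ y) (h3 : X / 16 ≤ A * B) (h4 : A * B ≤ 2 * X) :
    X ^ (1 / 3 : ℝ) ≤ min A B ∧ min A B ≤ 4 * X ^ (1 / 2 - 1 / 20000 : ℝ) ∧ 2 * A ≤ 4 * X ∧
      2 * B ≤ 4 * X := by
  have hX0 : 0 < X := one_pos.trans_le hX
  have ht : 1 ≤ X ^ (1 / 3 : ℝ) := Real.one_le_rpow hX (by norm_num)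
  have e1 : X ^ (1 / 3 + 1 / 20000 : ℝ) = X ^ (1 / 3 : ℝ) * X ^ (1 / 20000 : ℝ) :=
    Real.rpow_add hX0 _ _
  have e2 : X ^ (2 / 3 - 1 / 20000 : ℝ) * X ^ (1 / 3 + 1 / 20000 : ℝ) = X := by
    rw [← Real.rpow_add hX0]; norm_num
  have e3 : X ^ (1 / 2 - 1 / 20000 : ℝ) * X ^ (1 / 2 + 1 / 20000 : ℝ) = X := by
    rw [← Real.rpow_add hX0]; norm_num
  have a1 : X ^ (1 / 3 + 1 / 20000 : ℝ) ≤ 2 * A := by
    rcases h with h | h
    · exact h.1.trans h1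
    · exact (Real.rpow_le_rpow_of_exponent_le hX (by norm_num)).trans (h.1.trans h1)
  have a2 : A ≤ X ^ (2 / 3 - 1 / 20000 : ℝ) := by
    rcases h with h | h
    · exact (h2.trans h.2).trans (Real.rpow_le_rpow_of_exponent_le hX (by norm_num))
    · exact h2.trans h.2
  have a3 : 16 * X ^ (1 / 3 : ℝ) ≤ X ^ (1 / 3 + 1 / 20000 : ℝ) := by
    rw [e1, mul_comm]
    exact mul_le_mul_of_nonneg_left hw (by positivity)
  have a4 : X ^ (1 / 3 : ℝ) ≤ A := by linarith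
  have a5 : X ^ (1 / 3 : ℝ) ≤ B := by
    refine le_of_mul_le_mul_left ?_ hA
    have := mul_le_mul a2 a3 (by positivity) (by positivity)
    linarith
  have a6 : A ≤ X := a2.trans ((Real.rpow_le_rpow_of_exponent_le hX (by norm_num)).trans_eq
    (Real.rpow_one X))
  have a7 : B ≤ 2 * X := le_trans (le_mul_of_one_le_left (by linarith) (ht.trans a4)) h4
  refine ⟨le_min a4 a5, ?_, by linarith, by linarith⟩
  have hs : 0 < X ^ (1 / 2 - 1 / 20000 : ℝ) := by positivity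
  rcases h with h | h
  · exact (min_le_left _ _).trans ((h2.trans h.2).trans (by linarith))
  · refine (min_le_right _ _).trans
      (le_of_mul_le_mul_right ?_ (show 0 < X ^ (1 / 2 + 1 / 20000 : ℝ) by positivity))
    have := mul_le_mul_of_nonneg_left (h.1.trans h1) (show 0 ≤ B by linarith)
    rw [mul_assoc, e3]
    linarith

theorem CmbE0_dy_sub (B : ℝ) : dy B ⊆ rng 1 (2 * B) := fun _ hb =>
  mem_rng.2 ⟨(mem_dy.1 hb).1, (mem_dy.1 hb).1.one_le, (mem_dy.1 hb).2.2⟩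

theorem CmbE0_c_le (N : ℕ) (f g : ℕ → ℂ) :
    ‖∑ u ∈ Finset.range N, ∑ u' ∈ Finset.range u, f u * g u'‖ ≤
      (∑ u ∈ Finset.range N, ‖f u‖) * ∑ u ∈ Finset.range N, ‖g u‖ := by
  rw [Finset.sum_mul]
  refine (norm_sum_le _ _).trans (Finset.sum_le_sum fun u hu => ?_)
  rw [← Finset.mul_sum, norm_mul]
  refine mul_le_mul_of_nonneg_left ((norm_sum_le _ _).trans ?_) (norm_nonneg _)
  exact Finset.sum_le_sum_of_subset_of_nonneg
    (Finset.range_mono (Finset.mem_range.1 hu).le) fun _ _ _ => norm_nonneg _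

theorem CmbE0_comm (S S' : Finset O) (U : Finset ℕ) (V : ℕ → Finset ℕ) (f : O → O → ℕ → ℕ → ℂ) :
    ∑ a ∈ S, ∑ b ∈ S', ∑ u ∈ U, ∑ u' ∈ V u, f a b u u' =
      ∑ u ∈ U, ∑ u' ∈ V u, ∑ a ∈ S, ∑ b ∈ S', f a b u u' := by
  rw [Finset.sum_congr rfl fun a _ => Finset.sum_comm, Finset.sum_comm]
  refine Finset.sum_congr rfl fun u _ => ?_
  rw [Finset.sum_congr rfl fun a _ => Finset.sum_comm, Finset.sum_comm]

theorem CmbE0_sq {s k : ℝ} {m : ℕ} (h0 : 0 ≤ s) (h : s ≤ k ^ m) :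
    s ^ 2 * 8 ^ m ≤ |8 * k ^ 2| ^ m := by
  rw [abs_of_nonneg (by positivity), mul_pow, mul_comm, ← pow_mul, mul_comm 2 m, pow_mul]
  exact mul_le_mul_of_nonneg_left (pow_le_pow_left₀ h0 h 2) (by positivity)

theorem CmbE0_mom (k : ℝ) : ∃ (C : ℝ) (J : ℕ), 0 < C ∧ ∀ X A : ℝ, 4 ≤ X → 0 ≤ A →
    2 * A ≤ 4 * X → ∑ a ∈ dy A, |k| ^ (pf a).card ≤ C * A * Real.log X ^ J := by
  obtain ⟨C, J, hC, h⟩ := mom_crude k
  refine ⟨C * 2 * 2 ^ J, J, by positivity, fun X A hX hA hA' => ?_⟩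
  refine (Finset.sum_le_sum_of_subset_of_nonneg (CmbE0_dy_sub A) fun _ _ _ => by positivity).trans
    ((h (4 * X) (2 * A) (by linarith) (by linarith) hA').1.trans ?_)
  have h1 : Real.log (4 * X) ≤ 2 * Real.log X := by
    rw [Real.log_mul (by norm_num) (by linarith)]
    linarith [Real.log_le_log (by norm_num) hX]
  have h2 := pow_le_pow_left₀ (Real.log_nonneg (by linarith)) h1 J
  rw [mul_pow] at h2
  exact (mul_le_mul_of_nonneg_left h2 (by positivity)).trans_eq (by ring)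

open Classical in
/-- The complete block. -/
theorem CmbE0_full (l : ℤ) (k : ℝ) (A₀ : ℕ) {θ κ : ℝ} (h0 : 0 < θ) (h1 : θ < 1) (hκ : 0 < κ) :
    ∃ X₀ : ℝ, ∀ X ≥ X₀, ∀ (v : ℝ → ℂ) (Φ : ℂ → ℂ) (T T₁ A B : ℝ) (n : ℕ) (α β : ℕ → O → ℂ),
    Adm v Φ T T₁ → T ≤ X → (n : ℝ) ≤ Real.log X ^ 2 → 0 ≤ A → 0 ≤ B → A * B ≤ 2 * X →
    X / 16 ≤ A * B → X ^ (1 / 3 : ℝ) ≤ min A B → min A B ≤ 4 * X ^ (1 / 2 - 1 / 20000 : ℝ) →
    2 * A ≤ 4 * X → 2 * B ≤ 4 * X →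
    (∀ a, PS a → ∑ u ∈ Finset.range (2 ^ n), ‖α u a‖ ≤ k ^ (pf a).card) →
    (∀ b, PS b → ∑ u ∈ Finset.range (2 ^ n), ‖β u b‖ ≤
      if ∃ d, d ∣ b ∧ Smo (wX θ X) d ∧ X ^ κ ≤ nr d then k ^ (pf b).card else 0) →
    ‖∑ u ∈ Finset.range (2 ^ n), ∑ u' ∈ Finset.range u, ∑ a ∈ dy A, ∑ b ∈ dy B,
      α u a * β u' b * (ff l (a * b) * v (nr (a * b) / X))‖ ≤
      X ^ (5 / 6 : ℝ) / (72 * Real.log X ^ A₀) := by
  obtain ⟨C, X₁, hC, hU⟩ := propU l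
  obtain ⟨C₁, J, hC₁, hM⟩ := CmbE0_mom (8 * k ^ 2)
  obtain ⟨X₂, hS⟩ := mom_sparse (8 * k ^ 2) (J + 2 * (A₀ + 8)) h0 h1 hκ
  refine ⟨max (max X₁ X₂) (max 4 (Real.exp (72 * C * Real.sqrt (4 * C₁)))),
    fun X hX v Φ T T₁ A B n α β hv hT hn hA hB h2 h3 h4 h5 h6 h7 hα hβ => ?_⟩
  simp only [ge_iff_le, max_le_iff] at hX
  obtain ⟨⟨hX1, hX2⟩, hX4, hX5⟩ := hX
  have hX0 : 0 < X := by linarith
  have hL : 72 * C * Real.sqrt (4 * C₁) ≤ Real.log X := (Real.le_log_iff_exp_le hX0).2 hX5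
  have hL0 : 0 < Real.log X := Real.log_pos (by linarith)
  set L := Real.log X with hLd
  refine (ord_sep (dy A) (dy B) (fun a b => ff l (a * b) * v (nr (a * b) / X))
    (fun a => 8 ^ (pf a).card) (fun a => 8 ^ (pf a).card)
    (M := C * L ^ 5 * X ^ (1 / 3 : ℝ)) (by positivity) (fun _ => by positivity)
    (fun _ => by positivity) (fun α β => hU X hX1 v Φ T T₁ A B α β hv hT h2 h3 h4 h5)
    n α β).trans ?_
  have s1 : ∑ a ∈ dy A, (∑ u ∈ Finset.range (2 ^ n), ‖α u a‖) ^ 2 * 8 ^ (pf a).card ≤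
      C₁ * A * L ^ J :=
    (Finset.sum_le_sum fun a ha => CmbE0_sq (by positivity) (hα a (mem_dy.1 ha).1)).trans
      (hM X A hX4 hA h6)
  have s2 : ∑ b ∈ dy B, (∑ u ∈ Finset.range (2 ^ n), ‖β u b‖) ^ 2 * 8 ^ (pf b).card ≤
      2 * B / L ^ (J + 2 * (A₀ + 8)) := by
    refine le_trans ?_ (hS X hX2 (2 * B) (by linarith) h7)
    rw [Finset.sum_filter]
    refine le_trans (Finset.sum_le_sum fun b hb => ?_)
      (Finset.sum_le_sum_of_subset_of_nonneg (CmbE0_dy_sub B) fun _ _ _ => by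
        split_ifs <;> positivity)
    have h8 := hβ b (mem_dy.1 hb).1
    split_ifs at h8 ⊢
    · exact CmbE0_sq (by positivity) h8
    · rw [le_antisymm h8 (by positivity)]
      simp
  have s3 : Real.sqrt (∑ a ∈ dy A, (∑ u ∈ Finset.range (2 ^ n), ‖α u a‖) ^ 2 * 8 ^ (pf a).card) *
      Real.sqrt (∑ b ∈ dy B, (∑ u ∈ Finset.range (2 ^ n), ‖β u b‖) ^ 2 * 8 ^ (pf b).card) ≤
      Real.sqrt (4 * C₁) * X ^ (1 / 2 : ℝ) / L ^ (A₀ + 8) := by
    rw [← Real.sqrt_mul (by positivity)]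
    refine Real.sqrt_le_iff.2 ⟨by positivity, (mul_le_mul s1 s2 (by positivity)
      (by positivity)).trans ?_⟩
    rw [div_pow, mul_pow, Real.sq_sqrt (by positivity), ← Real.sqrt_eq_rpow, Real.sq_sqrt hX0.le,
      pow_add L J, ← pow_mul, mul_comm (A₀ + 8) 2]
    have e : C₁ * A * L ^ J * (2 * B / (L ^ J * L ^ (2 * (A₀ + 8)))) =
        2 * C₁ * (A * B) / L ^ (2 * (A₀ + 8)) := by field_simp
    rw [e]
    refine div_le_div_of_nonneg_right ?_ (by positivity)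
    nlinarith
  rw [mul_assoc]
  refine (mul_le_mul (mul_le_mul_of_nonneg_right hn (by positivity)) s3 (by positivity)
    (by positivity)).trans ?_
  have e : X ^ (5 / 6 : ℝ) = X ^ (1 / 3 : ℝ) * X ^ (1 / 2 : ℝ) := by
    rw [← Real.rpow_add hX0]; norm_num
  have e' : L ^ 2 * (C * L ^ 5 * X ^ (1 / 3 : ℝ)) *
      (Real.sqrt (4 * C₁) * X ^ (1 / 2 : ℝ) / L ^ (A₀ + 8)) =
      X ^ (1 / 3 : ℝ) * X ^ (1 / 2 : ℝ) / (72 * L ^ A₀) * (72 * C * Real.sqrt (4 * C₁) / L) := by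
    rw [pow_add]
    field_simp
  rw [e, e']
  exact mul_le_of_le_one_right (by positivity) ((div_le_one hL0).2 hL)

open Classical in
/-- The truncation costs nothing. -/
theorem CmbE0_err (l : ℤ) (k : ℝ) (A₀ : ℕ) :
    ∃ X₀ : ℝ, ∀ X ≥ X₀, ∀ (v : ℝ → ℂ) (Φ : ℂ → ℂ) (T T₁ A B : ℝ) (c : O → O → ℂ),
    Adm v Φ T T₁ → Real.log X ^ 2 ≤ T → 0 ≤ A → 0 ≤ B → 2 * A ≤ 4 * X → 2 * B ≤ 4 * X →
    (∀ a b, PS a → PS b → ‖c a b‖ ≤ |k| ^ (pf a).card * |k| ^ (pf b).card) →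
    ‖(∑ a ∈ dy A, ∑ b ∈ dy B, if X / 4 ≤ nr (a * b) ∧ nr (a * b) ≤ 2 * X then
        c a b * (ff l (a * b) * v (nr (a * b) / X)) else 0) -
      ∑ a ∈ dy A, ∑ b ∈ dy B, c a b * (ff l (a * b) * v (nr (a * b) / X))‖ ≤
      X ^ (5 / 6 : ℝ) / (72 * Real.log X ^ A₀) := by
  obtain ⟨X₁, hT⟩ := Adm.tail_le
  obtain ⟨C, J, hC, hM⟩ := CmbE0_mom k
  have hc := AFa_cP_pos
  obtain ⟨X₂, hX₂⟩ := eventually_atTop.1 ((Real.isLittleO_pow_log_id_atTop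
    (n := 2 * J + A₀)).bound (c := (72 * (4 * C ^ 2 * (1 + cP)))⁻¹) (by positivity))
  refine ⟨max (max X₁ X₂) 4, fun X hX v Φ T T₁ A B c hv hT' hA hB h6 h7 hc' => ?_⟩
  simp only [ge_iff_le, max_le_iff] at hX
  obtain ⟨⟨hX1, hX2⟩, hX4⟩ := hX
  have hX0 : 0 < X := by linarith
  have hL0 : 0 < Real.log X := Real.log_pos (by linarith)
  have hE := hX₂ X hX2
  rw [id, Real.norm_of_nonneg (by positivity), Real.norm_of_nonneg hX0.le,
    le_inv_mul_iff₀ (by positivity)] at hE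
  set L := Real.log X with hLd
  have h1 : ∀ a ∈ dy A, ∀ b ∈ dy B, ‖(if X / 4 ≤ nr (a * b) ∧ nr (a * b) ≤ 2 * X then
      c a b * (ff l (a * b) * v (nr (a * b) / X)) else 0) -
      c a b * (ff l (a * b) * v (nr (a * b) / X))‖ ≤
      |k| ^ (pf a).card * |k| ^ (pf b).card * ((1 + cP) * X ^ (-20 : ℝ)) := by
    intro a ha b hb
    have ha' := (mem_dy.1 ha).1
    have hb' := (mem_dy.1 hb).1
    split_ifs with hR
    · rw [sub_self, norm_zero]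
      positivity
    · rw [zero_sub, norm_neg, norm_mul, norm_mul]
      refine mul_le_mul (hc' a b ha' hb') (mul_le_mul (norm_ff_le _ _)
        ((hT X hX1 v Φ T T₁ hv hT').1 _ (div_pos (nr_pos (mul_ne_zero ha'.ne_zero hb'.ne_zero)) hX0)
          ?_) (norm_nonneg _) (by positivity)) (by positivity) (by positivity)
      rw [div_lt_iff₀ hX0, lt_div_iff₀ hX0]
      rw [not_and_or, not_le, not_le] at hR
      exact hR.imp (fun h => by linarith) id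
  rw [← Finset.sum_sub_distrib]
  refine (norm_sum_le _ _).trans ((Finset.sum_le_sum fun a ha => ?_).trans
    (b := ∑ a ∈ dy A, ∑ b ∈ dy B,
      |k| ^ (pf a).card * |k| ^ (pf b).card * ((1 + cP) * X ^ (-20 : ℝ))) ?_)
  · rw [← Finset.sum_sub_distrib]
    exact (norm_sum_le _ _).trans (Finset.sum_le_sum fun b hb => h1 a ha b hb)
  simp only [← Finset.sum_mul, ← Finset.mul_sum]
  have s1 : ∑ a ∈ dy A, |k| ^ (pf a).card ≤ C * (2 * X) * L ^ J :=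
    (hM X A hX4 hA h6).trans (by gcongr; linarith)
  have s2 : ∑ a ∈ dy B, |k| ^ (pf a).card ≤ C * (2 * X) * L ^ J :=
    (hM X B hX4 hB h7).trans (by gcongr; linarith)
  refine (mul_le_mul_of_nonneg_right (mul_le_mul s1 s2 (by positivity) (by positivity))
    (by positivity)).trans ?_
  rw [le_div_iff₀ (by positivity)]
  have h2 : X ^ 3 * X ^ (-20 : ℝ) ≤ X ^ (5 / 6 : ℝ) := by
    rw [← Real.rpow_natCast, ← Real.rpow_add hX0]
    exact Real.rpow_le_rpow_of_exponent_le (by linarith) (by norm_num)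
  refine le_trans ?_ h2
  have h3 := mul_le_mul_of_nonneg_right hE (show 0 ≤ X ^ 2 * X ^ (-20 : ℝ) by positivity)
  refine le_of_eq_of_le (by ring) (h3.trans_eq (by ring))

open Classical in
/-- One dyadic block. -/
theorem CmbE0_block (l : ℤ) (k : ℝ) (A₀ : ℕ) {θ κ : ℝ} (h0 : 0 < θ) (h1 : θ < 1) (hκ : 0 < κ) :
    ∃ X₀ : ℝ, ∀ X ≥ X₀, ∀ (v : ℝ → ℂ) (Φ : ℂ → ℂ) (T T₁ x y : ℝ) (n : ℕ) (α β : ℕ → AF),
    Adm v Φ T T₁ → Real.log X ^ 2 ≤ T → T ≤ X → (n : ℝ) ≤ Real.log X ^ 2 → RII X x y →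
    (∀ u, Sup (α u) x y) → (∀ a, PS a → ∑ u ∈ Finset.range (2 ^ n), ‖α u a‖ ≤ k ^ (pf a).card) →
    (∀ b, PS b → ∑ u ∈ Finset.range (2 ^ n), ‖β u b‖ ≤
      if ∃ d, d ∣ b ∧ Smo (wX θ X) d ∧ X ^ κ ≤ nr d then k ^ (pf b).card else 0) →
    ∀ A B : ℝ, 0 < A → 0 < B →
    ‖∑ a ∈ dy A, ∑ b ∈ dy B, if X / 4 ≤ nr (a * b) ∧ nr (a * b) ≤ 2 * X then
      (∑ u ∈ Finset.range (2 ^ n), ∑ u' ∈ Finset.range u, α u a * β u' b) *
        (ff l (a * b) * v (nr (a * b) / X)) else 0‖ ≤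
      X ^ (5 / 6 : ℝ) / (36 * Real.log X ^ A₀) := by
  obtain ⟨X₁, hF⟩ := CmbE0_full l k A₀ h0 h1 hκ
  obtain ⟨X₂, hE⟩ := CmbE0_err l k A₀
  obtain ⟨X₃, hW⟩ := eventually_atTop.1
    ((tendsto_rpow_atTop (y := 1 / 20000) (by norm_num)).eventually_ge_atTop 16)
  refine ⟨max (max X₁ X₂) (max X₃ 4),
    fun X hX v Φ T T₁ x y n α β hv hT hT' hn hR hs hα hβ A B hA hB => ?_⟩
  simp only [ge_iff_le, max_le_iff] at hX
  obtain ⟨⟨hX1, hX2⟩, hX3, hX4⟩ := hX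
  have hX0 : 0 < X := by linarith
  have hL0 : 0 < Real.log X := Real.log_pos (by linarith)
  by_cases hne : ∃ a ∈ dy A, ∃ b ∈ dy B, (X / 4 ≤ nr (a * b) ∧ nr (a * b) ≤ 2 * X) ∧
      ∃ u, α u a ≠ 0
  swap
  · rw [Finset.sum_eq_zero fun a ha => Finset.sum_eq_zero fun b hb => ?_, norm_zero]
    · positivity
    split_ifs with h2
    · rw [Finset.sum_eq_zero fun u _ => Finset.sum_eq_zero fun u' _ => ?_, zero_mul]
      by_contra h3
      exact hne ⟨a, ha, b, hb, h2, u, left_ne_zero_of_mul h3⟩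
    · rfl
  obtain ⟨a, ha, b, hb, h2, u, hu⟩ := hne
  obtain ⟨ha1, ha2, ha3⟩ := mem_dy.1 ha
  obtain ⟨hb1, hb2, hb3⟩ := mem_dy.1 hb
  obtain ⟨hx, hy⟩ := hs u a ha1 hu
  rw [nr_mul] at h2
  have h3 : X / 16 ≤ A * B := by
    have := mul_le_mul ha3 hb3 (hB.trans hb2).le (by positivity)
    linarith [h2.1]
  have h4 : A * B ≤ 2 * X := (mul_le_mul ha2.le hb2.le hB.le (hA.trans ha2).le).trans h2.2
  obtain ⟨g1, g2, g3, g4⟩ := CmbE0_geom (by linarith) (hW X hX3) hR hA (hx.trans ha3)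
    (ha2.le.trans hy) h3 h4
  have f1 := hF X hX1 v Φ T T₁ A B n (fun u => α u) (fun u => β u) hv hT' hn hA.le hB.le h4 h3 g1
    g2 g3 g4 hα hβ
  have hk : ∀ m : ℕ, k ^ m ≤ |k| ^ m := fun m => (le_abs_self _).trans_eq (abs_pow k m)
  have f2 := hE X hX2 v Φ T T₁ A B
    (fun a b => ∑ u ∈ Finset.range (2 ^ n), ∑ u' ∈ Finset.range u, α u a * β u' b) hv hT hA.le
    hB.le g3 g4 fun a b ha hb => (CmbE0_c_le _ _ _).trans (mul_le_mul ((hα a ha).trans (hk _))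
      ((hβ b hb).trans (by split_ifs; exacts [hk _, by positivity])) (by positivity)
      (by positivity))
  have e : ∑ a ∈ dy A, ∑ b ∈ dy B,
      (∑ u ∈ Finset.range (2 ^ n), ∑ u' ∈ Finset.range u, α u a * β u' b) *
        (ff l (a * b) * v (nr (a * b) / X)) =
      ∑ u ∈ Finset.range (2 ^ n), ∑ u' ∈ Finset.range u, ∑ a ∈ dy A, ∑ b ∈ dy B,
        α u a * β u' b * (ff l (a * b) * v (nr (a * b) / X)) := by
    simp only [Finset.sum_mul]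
    exact CmbE0_comm _ _ _ _ _
  rw [e] at f2
  refine (norm_le_norm_sub_add _ _).trans ((add_le_add f2 f1).trans_eq ?_)
  field_simp
  norm_num

open Classical in
/-- The ordered bilinear sum with a sparse second factor: dyadic decomposition as in `pr_dyadic`
(apply `pr_mul` to each term), `ord_sep` with `propU`, `mom_crude`, `mom_sparse`. -/
theorem pr_ord_le (l : ℤ) (k : ℝ) (A : ℕ) {θ κ : ℝ} (h0 : 0 < θ) (h1 : θ < 1) (hκ : 0 < κ) :
    ∃ X₀ : ℝ, ∀ X ≥ X₀, ∀ (v : ℝ → ℂ) (Φ : ℂ → ℂ) (T T₁ x y : ℝ) (n : ℕ) (α β : ℕ → AF),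
    Adm v Φ T T₁ → Real.log X ^ 2 ≤ T → T ≤ X → (n : ℝ) ≤ Real.log X ^ 2 → RII X x y →
    (∀ u, Sup (α u) x y) → (∀ a, PS a → ∑ u ∈ Finset.range (2 ^ n), ‖α u a‖ ≤ k ^ (pf a).card) →
    (∀ b, PS b → ∑ u ∈ Finset.range (2 ^ n), ‖β u b‖ ≤
      if ∃ d, d ∣ b ∧ Smo (wX θ X) d ∧ X ^ κ ≤ nr d then k ^ (pf b).card else 0) →
    ‖pr l v X (∑ u ∈ Finset.range (2 ^ n), ∑ u' ∈ Finset.range u, α u * β u')‖ ≤
      X ^ (5 / 6 : ℝ) / Real.log X ^ A := by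
  obtain ⟨X₁, hB⟩ := CmbE0_block l k (A + 2) h0 h1 hκ
  refine ⟨max X₁ 4, fun X hX v Φ T T₁ x y n α β hv hT hT' hn hR hs hα hβ => ?_⟩
  simp only [ge_iff_le, max_le_iff] at hX
  obtain ⟨hX1, hX4⟩ := hX
  have hX3 : 3 ≤ X := by linarith
  have hL0 : 0 < Real.log X := Real.log_pos (by linarith)
  have hb := hB X hX1 v Φ T T₁ x y n α β hv hT hT' hn hR hs hα hβ
  set F : O → O → ℂ := fun a b => if X / 4 ≤ nr (a * b) ∧ nr (a * b) ≤ 2 * X then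
    (∑ u ∈ Finset.range (2 ^ n), ∑ u' ∈ Finset.range u, α u a * β u' b) *
      (ff l (a * b) * v (nr (a * b) / X)) else 0 with hF
  have e1 : pr l v X (∑ u ∈ Finset.range (2 ^ n), ∑ u' ∈ Finset.range u, α u * β u') =
      ∑ a ∈ rng 1 (2 * X), ∑ b ∈ rng 1 (2 * X), F a b := by
    simp only [pr_sum, pr_mul]
    rw [← CmbE0_comm]
    refine Finset.sum_congr rfl fun a _ => Finset.sum_congr rfl fun b _ => ?_
    simp only [hF]
    split_ifs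
    · simp only [Finset.sum_mul]
    · simp only [Finset.sum_const_zero]
  have z : ∀ a b : O, 2 * X < nr (a * b) → F a b = 0 := fun a b h =>
    if_neg fun h' => absurd h'.2 (not_le.2 h)
  have e2 : ∑ a ∈ rng 1 (2 * X), ∑ b ∈ rng 1 (2 * X), F a b = ∑ i ∈ Finset.range (nB X),
      ∑ j ∈ Finset.range (nB X), ∑ a ∈ dy (2 ^ i / 2), ∑ b ∈ dy (2 ^ j / 2), F a b := by
    rw [sum_rng_eq_dy hX3 _ fun a ha => Finset.sum_eq_zero fun b hb => z a b (by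
      rw [nr_mul]
      exact ha.trans_le (le_mul_of_one_le_right (by linarith) (mem_rng.1 hb).2.1))]
    refine Finset.sum_congr rfl fun i _ => ?_
    rw [Finset.sum_comm (s := Finset.range (nB X))]
    refine Finset.sum_congr rfl fun a ha => sum_rng_eq_dy hX3 _ fun b hb => z a b ?_
    rw [nr_mul]
    exact hb.trans_le (le_mul_of_one_le_left (by linarith) (mem_dy.1 ha).1.one_le)
  rw [e1, e2]
  refine (norm_sum_le _ _).trans ((Finset.sum_le_sum fun i _ => (norm_sum_le _ _).trans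
    (Finset.sum_le_sum fun j _ => hb _ _ (by positivity) (by positivity))).trans ?_)
  simp only [Finset.sum_const, Finset.card_range, nsmul_eq_mul]
  have h2 := nB_le hX3
  rw [← mul_assoc]
  refine (mul_le_mul_of_nonneg_right (mul_le_mul h2 h2 (by positivity) (by positivity))
    (by positivity)).trans_eq ?_
  rw [pow_add]
  field_simp
  norm_num

end Crest.Agent.R12
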