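import Crest.Agent.R12.CmbF2

/-!
# Row 12, analytic half: type II and narrow configurations
-/

set_option autoImplicit false

noncomputable section

namespace Crest.Agent.R12

open Crest.Agent.R17
open scoped ComplexConjugate Topology
open Filter MeasureTheory

theorem CmbF_step {a r : ℝ} (ha : 0 < a) (hr : 0 < r) (hr1 : r < 1) :
    min (a ^ (1 / 48 : ℝ)) a⁻¹ ≤ 4 / (1 - r) * (a ^ (1 / 48 : ℝ) / (1 + a ^ (1 / 48 : ℝ)) -
      r * a ^ (1 / 48 : ℝ) / (1 + r * a ^ (1 / 48 : ℝ))) := by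
  have hu : 0 < a ^ (1 / 48 : ℝ) := by positivity
  have h1 : min (a ^ (1 / 48 : ℝ)) a⁻¹ ≤ 4 * a ^ (1 / 48 : ℝ) / (1 + a ^ (1 / 48 : ℝ)) ^ 2 := by
    rcases le_total a 1 with h | h
    · have h2 : a ^ (1 / 48 : ℝ) ≤ 1 := Real.rpow_le_one ha.le h (by norm_num)
      refine (min_le_left _ _).trans ?_
      rw [le_div_iff₀ (by positivity), mul_comm]
      exact mul_le_mul_of_nonneg_right (by nlinarith) hu.le
    · have h2 : 1 ≤ a ^ (1 / 48 : ℝ) := Real.one_le_rpow h (by norm_num)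
      have h3 : a ^ (1 / 48 : ℝ) ≤ a := Real.rpow_le_self_of_one_le h (by norm_num)
      refine (min_le_right _ _).trans ((inv_anti₀ hu h3).trans ?_)
      rw [le_div_iff₀ (by positivity), inv_mul_le_iff₀ hu]
      nlinarith
  generalize a ^ (1 / 48 : ℝ) = u at hu h1 ⊢
  have h2 : 0 < 1 - r := by linarith
  have e : 4 / (1 - r) * (u / (1 + u) - r * u / (1 + r * u)) = 4 * u / ((1 + u) * (1 + r * u)) := by
    field_simp; ring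
  rw [e]
  refine h1.trans (div_le_div_of_nonneg_left (by positivity) (by positivity) ?_)
  nlinarith [mul_pos hu h2, mul_pos (mul_pos hu hu) h2]

theorem CmbF_sum : ∃ C : ℝ, 0 < C ∧ ∀ (X : ℝ) (J : ℕ), 0 < X →
    ∑ j ∈ Finset.range J, min ((X / 8 ^ (j + 1)) ^ (1 / 48 : ℝ)) ((8 ^ (j + 1) / X) ^ (1 : ℝ)) ≤
      C := by
  have hr : (0 : ℝ) < (1 / 8) ^ (1 / 48 : ℝ) := by positivity
  have hr1 : (1 / 8 : ℝ) ^ (1 / 48 : ℝ) < 1 :=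
    Real.rpow_lt_one (by norm_num) (by norm_num) (by norm_num)
  have h2 : 0 < 1 - (1 / 8 : ℝ) ^ (1 / 48 : ℝ) := by linarith
  refine ⟨4 / (1 - (1 / 8) ^ (1 / 48 : ℝ)), by positivity, fun X J hX => ?_⟩
  set h : ℕ → ℝ := fun j => (X / 8 ^ (j + 1)) ^ (1 / 48 : ℝ) / (1 + (X / 8 ^ (j + 1)) ^ (1 / 48 : ℝ))
    with hh
  have key : ∀ j ∈ Finset.range J,
      min ((X / 8 ^ (j + 1)) ^ (1 / 48 : ℝ)) ((8 ^ (j + 1) / X) ^ (1 : ℝ)) ≤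
      4 / (1 - (1 / 8) ^ (1 / 48 : ℝ)) * (h j - h (j + 1)) := by
    intro j _
    have e : (X / 8 ^ (j + 1 + 1)) ^ (1 / 48 : ℝ) =
        (1 / 8) ^ (1 / 48 : ℝ) * (X / 8 ^ (j + 1)) ^ (1 / 48 : ℝ) := by
      rw [← Real.mul_rpow (by norm_num) (by positivity)]
      congr 1
      field_simp
      ring
    simp only [hh, e]
    rw [Real.rpow_one, ← inv_div X]
    exact CmbF_step (by positivity) hr hr1
  refine (Finset.sum_le_sum key).trans ?_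
  rw [← Finset.mul_sum, Finset.sum_range_sub']
  refine mul_le_of_le_one_right (by positivity) ?_
  have a1 : h 0 ≤ 1 := (div_le_one (by positivity)).2 (by linarith)
  have a2 : 0 ≤ h J := by positivity
  linarith

theorem CmbF_sup (g : AF) {i j : ℕ} (h : i ≤ j) : Sup (g.cut 0 (2 ^ i)) 1 (2 ^ j) := fun n hn h0 =>
  ⟨hn.one_le, (sup_cut g _ _ n hn h0).2.trans (pow_le_pow_right₀ one_le_two h)⟩

theorem CmbF_diff (g : AF) (j : ℕ) (n : O) (hn : PS n) :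
    (g.cut 0 (2 ^ (j + 1)) - g.cut 0 (2 ^ j)) n =
      if n ∈ dy (2 ^ (j + 1) / 2) then g n else 0 := by
  have h0 : 0 ≤ nr n := Nat.cast_nonneg _
  have h1 : (2 : ℝ) ^ (j + 1) = 2 * 2 ^ j := by ring
  have h2 : (0 : ℝ) < 2 ^ j := by positivity
  simp only [AF.sub_apply, AF.cut, AF.pm_apply, mem_dy, hn, h0, true_and, h1]
  rw [show (2 : ℝ) * 2 ^ j / 2 = 2 ^ j by ring]
  by_cases a : nr n ≤ 2 ^ j
  · rw [if_pos a, if_pos (by linarith), if_neg fun h => absurd a (not_le.2 h.1), sub_self]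
  · rw [if_neg a, mul_zero, sub_zero]
    simp only [not_le.1 a, true_and, mul_ite, mul_one, mul_zero]

/-- **Narrow configurations.**  With `γᵢ^{≤j} = (γ i).cut 0 (2^j)`, `P j = ∏ γᵢ^{≤j}`, telescope
`P j - P (j-1) = γ₀^{=j} γ₁^{≤j} γ₂^{≤j} + γ₀^{<j} γ₁^{=j} γ₂^{≤j} + γ₀^{<j} γ₁^{<j} γ₂^{=j}`. -/
theorem case_N : ∃ (θ : ℝ) (A₀ : ℕ), 0 < θ ∧ θ < 1 ∧ ∀ (l : ℤ) (Cb : ℝ) (A₁ : ℕ), 0 < Cb →
    ∃ C X₀ : ℝ, 0 < C ∧ ∀ X ≥ X₀, ∀ (v : ℝ → ℂ) (Φ : ℂ → ℂ) (T T₁ Λ₀ : ℝ) (γ : Fin 3 → AF),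
    Adm v Φ T T₁ → Real.log X ^ 2 ≤ T → 0 ≤ Λ₀ → BH l v X θ A₀ A₁ Cb Λ₀ →
    (∀ i, Bd 14 (γ i) ∧ Rgh (wX θ X) (γ i) ∧ HasReg (wX θ X) X (γ i) ∧
      Sup (γ i) (X ^ (32 / 100 : ℝ)) (X ^ (35 / 100 : ℝ))) →
    ‖pr l v X (∏ i, γ i)‖ ≤ C * X ^ (5 / 6 : ℝ) *
      (Λ₀ * Real.log X ^ (-(5 / 4 : ℝ)) + (Real.log X ^ 3)⁻¹) := by
  obtain ⟨θ, A₀, h0, h1, h⟩ := case_N_aux
  obtain ⟨Cs, hCs, hs⟩ := CmbF_sum
  refine ⟨θ, A₀, h0, h1, fun l Cb A₁ hCb => ?_⟩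
  obtain ⟨C, X₀, hC, h⟩ := h l Cb A₁ hCb
  refine ⟨3 * C * (Cs + 6), max X₀ 5, by positivity, fun X hX v Φ T T₁ Λ₀ γ hv hT hΛ hB hγ => ?_⟩
  obtain ⟨hX0, hX5⟩ := max_le_iff.1 hX
  have hL : 0 < Real.log X := Real.log_pos (by linarith)
  set c : Fin 3 → ℕ → AF := fun i j => (γ i).cut 0 (2 ^ j) with hc
  set E : ℕ → ℝ := fun j => C * X ^ (5 / 6 : ℝ) * (Λ₀ * Real.log X ^ (-(5 / 4 : ℝ)) *
    min ((X / 8 ^ (j + 1)) ^ (1 / 48 : ℝ)) ((8 ^ (j + 1) / X) ^ (1 : ℝ)) + (Real.log X ^ 4)⁻¹)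
    with hE
  have key : ∀ (j : ℕ) (a b i : Fin 3) (ja jb : ℕ), ja ≤ j + 1 → jb ≤ j + 1 →
      ‖pr l v X (c a ja * c b jb * (c i (j + 1) - c i j))‖ ≤ E j := fun j a b i ja jb ha hb =>
    h X hX0 v Φ T T₁ Λ₀ (j + 1) _ _ (γ i) _ hv hT hΛ hB ((hγ a).1.cut _ _) ((hγ b).1.cut _ _)
      (hγ i).1 ((hγ a).2.1.pm _) ((hγ b).2.1.pm _) (hγ i).2.1 (hγ i).2.2.1 (CmbF_sup _ ha)
      (CmbF_sup _ hb) (hγ i).2.2.2 (CmbF_diff _ j)
  have step : ∀ j ∈ Finset.range (nB X), ‖pr l v X (c 0 (j + 1) * c 1 (j + 1) * c 2 (j + 1)) -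
      pr l v X (c 0 j * c 1 j * c 2 j)‖ ≤ 3 * E j := by
    intro j _
    have e : c 0 (j + 1) * c 1 (j + 1) * c 2 (j + 1) - c 0 j * c 1 j * c 2 j =
        c 1 (j + 1) * c 2 (j + 1) * (c 0 (j + 1) - c 0 j) +
        c 0 j * c 2 (j + 1) * (c 1 (j + 1) - c 1 j) + c 0 j * c 1 j * (c 2 (j + 1) - c 2 j) := by
      ring
    rw [← pr_sub, e, pr_add, pr_add]
    refine norm_add₃_le.trans ?_
    linarith [key j 1 2 0 _ _ le_rfl le_rfl, key j 0 2 1 j _ (Nat.le_succ j) le_rfl,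
      key j 0 1 2 j j (Nat.le_succ j) (Nat.le_succ j)]
  have hP0 : pr l v X (c 0 0 * c 1 0 * c 2 0) = 0 :=
    pr_eq_zero_of_sup l v X (((CmbF_sup (γ 0) (le_refl 0)).mul (CmbF_sup (γ 1) (le_refl 0))
      zero_le_one zero_le_one).mul (CmbF_sup (γ 2) (le_refl 0)) (by norm_num) zero_le_one)
      (Or.inl (by norm_num; linarith))
  have hJ : ∀ i, EqPS (γ i) (c i (nB X)) := by
    intro i n hn
    by_cases h0 : γ i n = 0
    · simp only [hc, AF.cut, AF.pm_apply, h0, zero_mul]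
    have h1 := ((hγ i).2.2.2 n hn h0).2
    have h2 : X ^ (35 / 100 : ℝ) ≤ X := Real.rpow_le_self_of_one_le (by linarith) (by norm_num)
    have h3 : ((⌈2 * X⌉₊ : ℕ) : ℝ) ≤ 2 ^ Nat.clog 2 ⌈2 * X⌉₊ := by
      exact_mod_cast Nat.le_pow_clog one_lt_two ⌈2 * X⌉₊
    have h4 := Nat.le_ceil (2 * X)
    have h5 : nr n ≤ 2 ^ nB X := by
      rw [nB, pow_succ]
      linarith
    simp only [hc, AF.cut, AF.pm_apply]
    rw [if_pos ⟨Nat.cast_nonneg _, h5⟩, mul_one]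
  have hPJ : pr l v X (∏ i, γ i) = pr l v X (c 0 (nB X) * c 1 (nB X) * c 2 (nB X)) := by
    rw [Fin.prod_univ_three]
    exact pr_congr l v X fun n hn _ _ => (((hJ 0).mul (hJ 1)).mul (hJ 2)) n hn
  have tel := Finset.sum_range_sub (fun j => pr l v X (c 0 j * c 1 j * c 2 j)) (nB X)
  rw [hP0, sub_zero] at tel
  rw [hPJ, ← tel]
  refine (norm_sum_le_of_le _ step).trans ?_
  have a1 := hs X (nB X) (by linarith)
  have a2 : (nB X : ℝ) * (Real.log X ^ 4)⁻¹ ≤ 6 * (Real.log X ^ 3)⁻¹ := by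
    refine (mul_le_mul_of_nonneg_right (nB_le (by linarith)) (by positivity)).trans_eq ?_
    field_simp
  have hX' : 0 < X := by linarith
  simp only [hE]
  rw [← Finset.mul_sum, ← Finset.mul_sum, Finset.sum_add_distrib, ← Finset.mul_sum,
    Finset.sum_const, Finset.card_range, nsmul_eq_mul]
  have a3 : 0 ≤ Λ₀ * Real.log X ^ (-(5 / 4 : ℝ)) := by positivity
  have a4 : 0 ≤ (Real.log X ^ 3)⁻¹ := by positivity
  calc _ ≤ 3 * (C * X ^ (5 / 6 : ℝ) * ((Cs + 6) *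
        (Λ₀ * Real.log X ^ (-(5 / 4 : ℝ)) + (Real.log X ^ 3)⁻¹))) := by
        gcongr
        nlinarith [mul_le_mul_of_nonneg_left a1 a3, mul_nonneg hCs.le a4]
    _ = _ := by ring

end Crest.Agent.R12
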