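import Crest.Agent.R12.CmbB
import Crest.Agent.R12.CmbC

/-!
# Row 12, analytic half: type II and narrow configurations
-/

set_option autoImplicit false

noncomputable section

namespace Crest.Agent.R12

open Crest.Agent.R17
open scoped ComplexConjugate Topology
open Filter MeasureTheory

theorem CmbF0_mom {α : AF} (hα : Bd 14 α) (A : ℝ) {k : ℝ} (hk : 0 ≤ k) (hk8 : k ≤ 8) :
    NW k (dy A) α ≤ ∑ b ∈ rng 1 (2 * A), |(1568 : ℝ)| ^ (pf b).card := by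
  refine le_trans (Finset.sum_le_sum fun b hb => ?_) (Finset.sum_le_sum_of_subset_of_nonneg
    (fun b hb => ?_) fun _ _ _ => by positivity)
  · have h := hα b (mem_dy.1 hb).1
    calc ‖α b‖ ^ 2 * k ^ (pf b).card ≤ ((14 : ℝ) ^ (pf b).card) ^ 2 * 8 ^ (pf b).card := by gcongr
      _ = _ := by rw [← pow_mul, mul_comm _ 2, pow_mul, ← mul_pow]; norm_num
  · obtain ⟨h1, -, h3⟩ := mem_dy.1 hb
    exact mem_rng.2 ⟨h1, one_le_nr h1.1.ne_zero, h3⟩

theorem CmbF0_num {X A B : ℝ} (hX : 1 ≤ X) (hA : 0 < A) (hB : 0 < B) (h1 : A * B ≤ 2 * X)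
    (h2 : X ^ (1 / 3 + 1 / 20000 : ℝ) ≤ 2 * B) :
    Real.sqrt A * Real.sqrt ((A + A ^ (3 / 4 : ℝ) * B ^ (1 / 2 : ℝ)) * B) ≤
      4 * (X ^ (5 / 6 : ℝ) / X ^ (1 / 160000 : ℝ)) ∧
    Real.sqrt A * (A ^ (1 / 3 : ℝ) * B ^ (5 / 6 : ℝ)) ≤ 2 * X ^ (5 / 6 : ℝ) := by
  have hX0 : 0 < X := by linarith
  constructor
  · have a1 : A ≤ 4 * X ^ (2 / 3 - 1 / 20000 : ℝ) := by
      have e : X ^ (2 / 3 - 1 / 20000 : ℝ) * X ^ (1 / 3 + 1 / 20000 : ℝ) = X := by
        rw [← Real.rpow_add hX0]; norm_num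
      refine le_of_mul_le_mul_right ?_ (by positivity : 0 < X ^ (1 / 3 + 1 / 20000 : ℝ))
      rw [mul_assoc, e]
      nlinarith
    have a2 : A ^ (3 / 4 : ℝ) * B ^ (1 / 2 : ℝ) ≤ 4 * X ^ (2 / 3 - 1 / 80000 : ℝ) := by
      calc _ = A ^ (1 / 4 : ℝ) * (A * B) ^ (1 / 2 : ℝ) := by
            rw [Real.mul_rpow hA.le hB.le, ← mul_assoc, ← Real.rpow_add hA]; norm_num
        _ ≤ (2 ^ 4 * X ^ (2 / 3 - 1 / 20000 : ℝ)) ^ (1 / 4 : ℝ) * (2 ^ 2 * X) ^ (1 / 2 : ℝ) := by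
            have : 0 < X ^ (2 / 3 - 1 / 20000 : ℝ) := by positivity
            exact mul_le_mul (Real.rpow_le_rpow hA.le (by linarith) (by norm_num))
              (Real.rpow_le_rpow (by positivity) (by linarith) (by norm_num)) (by positivity)
              (by positivity)
        _ = _ := by
            rw [Real.mul_rpow (by positivity) (by positivity),
              Real.mul_rpow (by positivity) (by positivity), ← Real.rpow_mul hX0.le,
              mul_mul_mul_comm, ← Real.rpow_add hX0, ← Real.rpow_natCast, ← Real.rpow_natCast,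
              ← Real.rpow_mul (by norm_num), ← Real.rpow_mul (by norm_num)]
            norm_num
    have a3 : X ^ (2 / 3 - 1 / 20000 : ℝ) ≤ X ^ (2 / 3 - 1 / 80000 : ℝ) :=
      Real.rpow_le_rpow_of_exponent_le hX (by norm_num)
    rw [← Real.sqrt_mul hA.le, ← Real.rpow_sub hX0]
    refine Real.sqrt_le_iff.2 ⟨by positivity, ?_⟩
    calc _ = (A + A ^ (3 / 4 : ℝ) * B ^ (1 / 2 : ℝ)) * (A * B) := by ring
      _ ≤ (8 * X ^ (2 / 3 - 1 / 80000 : ℝ)) * (2 * X ^ (1 : ℝ)) := by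
          rw [Real.rpow_one]; gcongr; linarith
      _ = _ := by
          rw [mul_mul_mul_comm, ← Real.rpow_add hX0, mul_pow, ← Real.rpow_natCast (X ^ _),
            ← Real.rpow_mul hX0.le]
          norm_num
  · calc _ = (A * B) ^ (5 / 6 : ℝ) := by
          rw [Real.mul_rpow hA.le hB.le, ← mul_assoc, Real.sqrt_eq_rpow, ← Real.rpow_add hA]
          norm_num
      _ ≤ (2 * X) ^ (5 / 6 : ℝ) := by gcongr
      _ ≤ _ := by
          rw [Real.mul_rpow (by norm_num) hX0.le]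
          gcongr
          exact (Real.rpow_le_rpow_of_exponent_le (by norm_num) (by norm_num)).trans_eq
            (Real.rpow_one 2)

/-- `pr_dyadic` with `E j = 0` unless the block meets the support; `sw_beta`, `mom_crude`. -/
theorem case_II : ∃ A₀ : ℕ, ∀ (l : ℤ) (θ Cb : ℝ) (A₁ : ℕ), 0 < θ → θ < 1 → 0 < Cb →
    ∃ C X₀ : ℝ, 0 < C ∧ ∀ X ≥ X₀, ∀ (v : ℝ → ℂ) (Φ : ℂ → ℂ) (T T₁ Λ₀ : ℝ) (α β : AF),
    Adm v Φ T T₁ → Real.log X ^ 2 ≤ T → 0 ≤ Λ₀ → Λ₀ ≤ Real.log X → BH l v X θ A₀ A₁ Cb Λ₀ →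
    Bd 14 α → Bd 14 β → Rgh (wX θ X) β → HasReg (wX θ X) X β →
    Sup β (X ^ (1 / 3 + 1 / 20000 : ℝ)) (X ^ (1 / 2 - 1 / 20000 : ℝ)) →
    ‖pr l v X (α * β)‖ ≤ C * X ^ (5 / 6 : ℝ) / Real.log X ^ 3 := by
  obtain ⟨C₃, J, hC₃, hmom⟩ := mom_crude 1568
  refine ⟨J + 4, fun l θ Cb A₁ h0 h1 hCb => ?_⟩
  obtain ⟨X₁, hd⟩ := pr_dyadic l 14
  obtain ⟨X₂, hsw⟩ := sw_beta l A₁ h0 h1
  obtain ⟨X₃, hw⟩ := wX_ev h0 h1 (κ := 1 / 160000) (by norm_num) (2 * J + 5)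
  set K := 2 * C₃ * 2 ^ J + 1 with hK
  have hK1 : 1 ≤ K := le_add_of_nonneg_left (by positivity)
  refine ⟨36 * (Cb * (4 * K ^ 2 + 2 * K)) + 1, max (max X₁ X₂) (max X₃ 4), by positivity,
    fun X hX v Φ T T₁ Λ₀ α β hv hT hΛ hΛ' hBH hα hβ hr hreg hs => ?_⟩
  simp only [ge_iff_le, max_le_iff] at hX
  obtain ⟨⟨x1, x2⟩, x3, x4⟩ := hX
  obtain ⟨w1, w2, w3⟩ := hw X x3
  have hX0 : 0 < X := by linarith
  have hX1 : 1 ≤ X := by linarith
  have hL : 1 ≤ Real.log X := by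
    rw [Real.le_log_iff_exp_le hX0]
    linarith [Real.exp_one_lt_d9]
  have hm : ∀ (γ : AF) (Y k : ℝ), Bd 14 γ → 0 ≤ Y → Y ≤ 2 * X → 0 ≤ k → k ≤ 8 →
      NW k (dy Y) γ ≤ (K * Real.log X ^ J) ^ 2 * Y := fun γ Y k hγ hY hY' hk hk' => by
    refine (CmbF0_mom hγ Y hk hk').trans
      ((hmom (X ^ 2) (2 * Y) (by nlinarith) (by positivity) (by nlinarith)).1.trans ?_)
    have h2 : 1 ≤ K * Real.log X ^ J := one_le_mul_of_one_le_of_one_le hK1 (one_le_pow₀ hL)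
    rw [Real.log_pow, mul_pow]
    calc _ = 2 * C₃ * 2 ^ J * Real.log X ^ J * Y := by push_cast; ring
      _ ≤ K * Real.log X ^ J * Y := by gcongr; linarith
      _ ≤ _ := by gcongr; exact le_self_pow₀ h2 two_ne_zero
  have hE : 0 ≤ Cb * (4 * K ^ 2 + 2 * K) * X ^ (5 / 6 : ℝ) / Real.log X ^ 4 := by positivity
  refine (hd X x1 v Φ T T₁ α β (fun _ => Cb * (4 * K ^ 2 + 2 * K) * X ^ (5 / 6 : ℝ) /
    Real.log X ^ 4) hv hT hα hβ (fun _ => hE) fun j A hA1 hA2 => ?_).trans ?_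
  · have hB : (0 : ℝ) < 2 ^ j / 2 := by positivity
    generalize (2 : ℝ) ^ j / 2 = B at *
    by_cases hz : ∀ b ∈ dy B, β b = 0
    · rw [Bil, Finset.sum_eq_zero fun a _ => Finset.sum_eq_zero fun b hb => by simp [hz b hb],
        norm_zero]
      exact hE
    push Not at hz
    obtain ⟨b, hb, hb0⟩ := hz
    obtain ⟨b1, b2, b3⟩ := mem_dy.1 hb
    obtain ⟨s1, s2⟩ := hs b b1 hb0
    have hA : 0 < A := pos_of_mul_pos_right (by linarith) hB.le
    have hB1 : X ^ (3 / 10 : ℝ) ≤ B := by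
      have : X ^ (3 / 10 : ℝ) * X ^ (1 / 160000 : ℝ) ≤ X ^ (1 / 3 + 1 / 20000 : ℝ) := by
        rw [← Real.rpow_add hX0]
        exact Real.rpow_le_rpow_of_exponent_le hX1 (by norm_num)
      have h3 : 0 < X ^ (3 / 10 : ℝ) := by positivity
      nlinarith
    have hB2 : 1 ≤ B := (Real.one_le_rpow hX1 (by norm_num)).trans hB1
    have hB3 : B ≤ X := (b2.le.trans s2).trans
      ((Real.rpow_le_rpow_of_exponent_le hX1 (by norm_num)).trans_eq (Real.rpow_one X))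
    refine (hBH A B α β hB1 (b2.le.trans s2) hA1 hA2 (fun c hc => hr c (mem_dy.1 hc).1)
      (fun c hc => hβ c (mem_dy.1 hc).1) (hsw X x2 β B hreg hB2 hB3)).trans ?_
    obtain ⟨n1, n2⟩ := CmbF0_num hX1 hA hB hA2 (s1.trans b3)
    have m1 : Real.sqrt (N2 (dy A) α) ≤ K * Real.log X ^ J * Real.sqrt A := by
      rw [← Real.sqrt_sq (by positivity : 0 ≤ K * Real.log X ^ J), ← Real.sqrt_mul (by positivity)]
      refine Real.sqrt_le_sqrt (le_trans ?_ (hm α A 1 hα hA.le (by nlinarith) (by norm_num)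
        (by norm_num)))
      simp [N2, NW]
    have m2 : Real.sqrt ((A + A ^ (3 / 4 : ℝ) * B ^ (1 / 2 : ℝ)) * NW 8 (dy B) β) ≤
        K * Real.log X ^ J * Real.sqrt ((A + A ^ (3 / 4 : ℝ) * B ^ (1 / 2 : ℝ)) * B) := by
      rw [← Real.sqrt_sq (by positivity : 0 ≤ K * Real.log X ^ J), ← Real.sqrt_mul (by positivity),
        mul_left_comm]
      exact Real.sqrt_le_sqrt (mul_le_mul_of_nonneg_left
        (hm β B 8 hβ hB.le (by linarith) (by norm_num) le_rfl) (by positivity))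
    have m3 := w1.trans w2
    generalize Real.log X = L at *
    calc _ ≤ Cb * (K * L ^ J * Real.sqrt A) * (L * (K * L ^ J *
          Real.sqrt ((A + A ^ (3 / 4 : ℝ) * B ^ (1 / 2 : ℝ)) * B)) +
          A ^ (1 / 3 : ℝ) * B ^ (5 / 6 : ℝ) / L ^ (J + 4)) := by gcongr
      _ = Cb * (K ^ 2 * L ^ (2 * J + 1) * (Real.sqrt A *
          Real.sqrt ((A + A ^ (3 / 4 : ℝ) * B ^ (1 / 2 : ℝ)) * B)) +
          K * (Real.sqrt A * (A ^ (1 / 3 : ℝ) * B ^ (5 / 6 : ℝ))) / L ^ 4) := by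
          field_simp
          ring
      _ ≤ Cb * (K ^ 2 * L ^ (2 * J + 1) * (4 * (X ^ (5 / 6 : ℝ) / L ^ (2 * J + 5))) +
          K * (2 * X ^ (5 / 6 : ℝ)) / L ^ 4) := by
          have n3 := n1.trans (show _ ≤ 4 * (X ^ (5 / 6 : ℝ) / L ^ (2 * J + 5)) by gcongr)
          gcongr Cb * (K ^ 2 * L ^ (2 * J + 1) * ?_ + K * ?_ / L ^ 4)
      _ = _ := by
          field_simp
          ring
  · have h3 := nB_le (X := X) (by linarith)
    have h4 : Real.log X ^ 3 ≤ X ^ (5 / 6 : ℝ) :=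
      (pow_le_pow_right₀ hL (by omega)).trans ((w1.trans w2).trans
        (Real.rpow_le_rpow_of_exponent_le hX1 (by norm_num)))
    rw [Finset.sum_const, Finset.card_range, nsmul_eq_mul, add_mul, add_div, one_mul]
    refine add_le_add ?_ ((one_le_div (by positivity)).2 h4)
    calc _ ≤ 6 * (6 * Real.log X * (Cb * (4 * K ^ 2 + 2 * K) * X ^ (5 / 6 : ℝ) /
          Real.log X ^ 4)) := by gcongr
      _ = _ := by
          field_simp
          ring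

end Crest.Agent.R12
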