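import Crest.Agent.R12.CmbF0

/-!
# Row 12, analytic half: type II and narrow configurations
-/

set_option autoImplicit false

noncomputable section

namespace Crest.Agent.R12

open Crest.Agent.R17
open scoped ComplexConjugate Topology
open Filter MeasureTheory

theorem CmbF1_inj {α β : Type*} [DecidableEq β] {s : Finset α} {t : Finset β} {g : β → ℝ}
    (e : α → β) (he : Set.InjOn e s) (ht : s.image e ⊆ t) (hg : ∀ b ∈ t, 0 ≤ g b) :
    ∑ a ∈ s, g (e a) ≤ ∑ b ∈ t, g b := by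
  rw [← Finset.sum_image he]
  exact Finset.sum_le_sum_of_subset_of_nonneg ht fun b hb _ => hg b hb

open Classical in
/-- Dyadic decomposition of a logarithmically weighted sum. -/
theorem CmbF1_dyadic {w y₀ Y M k : ℝ} (hy : 0 < y₀) (hk : 0 ≤ k)
    (hm : ∀ y : ℝ, y₀ ≤ y → y ≤ Y →
      ∑ b ∈ (rng 1 y).filter (Rough w), k ^ (pf b).card ≤ M * y) (I : ℕ) (hI : 2 ^ I * y₀ ≤ Y) :
    ∑ b ∈ (rng 1 (2 ^ I * y₀)).filter (fun b => Rough w b ∧ y₀ < nr b),
      k ^ (pf b).card / nr b ≤ 2 * M * I := by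
  induction I with
  | zero =>
    rw [Finset.sum_eq_zero]
    · simp
    · intro b hb
      rw [Finset.mem_filter, mem_rng] at hb
      have h1 := hb.1.2.2
      have h2 := hb.2.2
      simp only [pow_zero, one_mul] at h1
      linarith
  | succ I ih =>
    have h2 : (0 : ℝ) < 2 ^ I * y₀ := by positivity
    have hI' : 2 ^ I * y₀ ≤ Y := by rw [pow_succ] at hI; nlinarith
    have h1 : y₀ ≤ 2 ^ (I + 1) * y₀ :=
      le_mul_of_one_le_left hy.le (one_le_pow₀ (by norm_num))
    rw [← Finset.sum_filter_add_sum_filter_not _ (fun b => nr b ≤ 2 ^ I * y₀)]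
    have e1 : ∑ b ∈ ((rng 1 (2 ^ (I + 1) * y₀)).filter (fun b => Rough w b ∧ y₀ < nr b)).filter
        (fun b => nr b ≤ 2 ^ I * y₀), k ^ (pf b).card / nr b ≤ 2 * M * I := by
      refine le_trans (Finset.sum_le_sum_of_subset_of_nonneg ?_ ?_) (ih hI')
      · intro b hb
        simp only [Finset.mem_filter, mem_rng] at hb ⊢
        exact ⟨⟨hb.1.1.1, hb.1.1.2.1, hb.2⟩, hb.1.2⟩
      · intro b hb _
        rw [Finset.mem_filter, mem_rng] at hb
        have := hb.1.2.1
        positivity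
    have e2 : ∑ b ∈ ((rng 1 (2 ^ (I + 1) * y₀)).filter (fun b => Rough w b ∧ y₀ < nr b)).filter
        (fun b => ¬ nr b ≤ 2 ^ I * y₀), k ^ (pf b).card / nr b ≤ 2 * M := by
      calc _ ≤ ∑ b ∈ ((rng 1 (2 ^ (I + 1) * y₀)).filter (fun b => Rough w b ∧ y₀ < nr b)).filter
            (fun b => ¬ nr b ≤ 2 ^ I * y₀), k ^ (pf b).card / (2 ^ I * y₀) := by
            refine Finset.sum_le_sum fun b hb => ?_
            rw [Finset.mem_filter] at hb
            exact div_le_div_of_nonneg_left (by positivity) h2 (not_le.1 hb.2).le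
        _ ≤ ∑ b ∈ (rng 1 (2 ^ (I + 1) * y₀)).filter (Rough w), k ^ (pf b).card / (2 ^ I * y₀) := by
            refine Finset.sum_le_sum_of_subset_of_nonneg ?_ fun b _ _ => by positivity
            intro b hb
            simp only [Finset.mem_filter] at hb ⊢
            exact ⟨hb.1.1, hb.1.2.1⟩
        _ ≤ M * (2 ^ (I + 1) * y₀) / (2 ^ I * y₀) := by
            rw [← Finset.sum_div]
            exact div_le_div_of_nonneg_right (hm _ h1 hI) h2.le
        _ = 2 * M := by rw [pow_succ]; field_simp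
    push_cast
    linarith

open Classical in
/-- The pointwise bound. -/
theorem CmbF1_pt {w B : ℝ} {α₁ α₂ : AF} (h₁ : Bd 14 α₁) (h₂ : Bd 14 α₂) (r₁ : Rgh w α₁)
    (r₂ : Rgh w α₂) (s₁ : Sup α₁ 1 (2 * B)) (s₂ : Sup α₂ 1 (2 * B)) {a : O} (ha : PS a) :
    ‖(α₁ * α₂ : AF) a‖ ^ 2 ≤ ∑ d ∈ (pdiv a).filter (fun d => (Rough w d ∧ nr d ≤ 2 * B) ∧
      Rough w (a / d) ∧ nr (a / d) ≤ 2 * B),
      (392 : ℝ) ^ (pf d).card * 392 ^ (pf (a / d)).card := by
  rw [AF.mul_apply, Finset.sum_filter]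
  calc _ ≤ (∑ d ∈ pdiv a, ‖α₁ d * α₂ (a / d)‖) ^ 2 :=
        pow_le_pow_left₀ (norm_nonneg _) (norm_sum_le _ _) 2
    _ ≤ (pdiv a).card * ∑ d ∈ pdiv a, ‖α₁ d * α₂ (a / d)‖ ^ 2 := sq_sum_le_card_mul_sum_sq
    _ ≤ _ := by
        rw [ha.card_pdiv, Finset.mul_sum]
        refine Finset.sum_le_sum fun d hd => ?_
        obtain ⟨k1, k2, k3, k4⟩ := ha.div hd
        by_cases h0 : α₁ d * α₂ (a / d) = 0
        · rw [h0]
          split_ifs
          · simp only [norm_zero]
            rw [zero_pow two_ne_zero, mul_zero]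
            positivity
          · simp
        · have n1 := left_ne_zero_of_mul h0
          have n2 := right_ne_zero_of_mul h0
          rw [if_pos ⟨⟨r₁ d k1 n1, (s₁ d k1 n1).2⟩, r₂ _ k2 n2, (s₂ _ k2 n2).2⟩]
          have e : (pf a).card = (pf d).card + (pf (a / d)).card := by
            rw [← card_pf_mul k1.ne_zero k2.ne_zero k3, k4]
          have b1 : ‖α₁ d * α₂ (a / d)‖ ≤ 14 ^ (pf d).card * 14 ^ (pf (a / d)).card := by
            rw [norm_mul]
            exact mul_le_mul (h₁ d k1) (h₂ _ k2) (norm_nonneg _) (by positivity)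
          calc _ ≤ 2 ^ (pf a).card * ((14 : ℝ) ^ (pf d).card * 14 ^ (pf (a / d)).card) ^ 2 :=
                mul_le_mul_of_nonneg_left (pow_le_pow_left₀ (norm_nonneg _) b1 2) (by positivity)
            _ = _ := by
                rw [e, show (392 : ℝ) = 2 * 14 * 14 by norm_num]
                simp only [mul_pow, pow_add]
                ring

/-- The sharp norm of the product of two rough factors that are both `≤ 2B`:
`|α₁ α₂|²(a) ≤ 2^{ω(a)} ∑_{a = a₁ a₂} |α₁|² |α₂|²`, `A / 2B ≤ N a₁ ≤ 2B` (dyadic blocks). -/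
theorem N2_narrow {w A B M : ℝ} {α₁ α₂ : AF} (hA : 0 < A) (hB : 0 < B) (hM : 0 ≤ M)
    (hAB : A ≤ 4 * B ^ 2)
    (h₁ : Bd 14 α₁) (h₂ : Bd 14 α₂) (r₁ : Rgh w α₁) (r₂ : Rgh w α₂)
    (s₁ : Sup α₁ 1 (2 * B)) (s₂ : Sup α₂ 1 (2 * B))
    (hm : ∀ y : ℝ, A / (2 * B) ≤ y → y ≤ 8 * B →
      (by classical exact ∑ b ∈ (rng 1 y).filter (Rough w), (392 : ℝ) ^ (pf b).card) ≤ M * y) :
    N2 (dy A) (α₁ * α₂ : AF) ≤ 20 * M ^ 2 * A * (1 + Real.log (4 * B ^ 2 / A)) := by
  classical
  have hy : 0 < A / (2 * B) := by positivity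
  have hR : 1 ≤ 4 * B ^ 2 / A := (one_le_div hA).2 hAB
  obtain ⟨n, hn1, hn2⟩ := exists_nat_pow_near hR (one_lt_two (α := ℝ))
  have eR : 4 * B ^ 2 / A * (A / (2 * B)) = 2 * B := by field_simp; norm_num
  have hI1 : 2 * B ≤ 2 ^ (n + 1) * (A / (2 * B)) := by
    rw [← eR]
    nth_rewrite 2 [eR]
    exact mul_le_mul_of_nonneg_right hn2.le hy.le
  have hI2 : 2 ^ (n + 1) * (A / (2 * B)) ≤ 8 * B := by
    have := mul_le_mul_of_nonneg_right hn1 hy.le
    rw [eR] at this
    rw [pow_succ]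
    nlinarith
  have hd := CmbF1_dyadic hy (by norm_num : (0 : ℝ) ≤ 392) hm (n + 1) hI2
  have hlog : (n : ℝ) ≤ 2 * Real.log (4 * B ^ 2 / A) := by
    have h1 := Real.log_le_log (by positivity) hn1
    rw [Real.log_pow] at h1
    have h2 := Real.log_two_gt_d9
    have h3 : (0 : ℝ) ≤ n := n.cast_nonneg
    nlinarith
  set S := (rng 1 (2 ^ (n + 1) * (A / (2 * B)))).filter
    (fun b => Rough w b ∧ A / (2 * B) < nr b ∧ nr b ≤ 2 * B) with hS
  calc N2 (dy A) (α₁ * α₂ : AF)
      ≤ ∑ a ∈ dy A, ∑ d ∈ (pdiv a).filter (fun d => (Rough w d ∧ nr d ≤ 2 * B) ∧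
          Rough w (a / d) ∧ nr (a / d) ≤ 2 * B),
          (392 : ℝ) ^ (pf d).card * 392 ^ (pf (a / d)).card :=
        Finset.sum_le_sum fun a ha => CmbF1_pt h₁ h₂ r₁ r₂ s₁ s₂ (mem_dy.1 ha).1
    _ ≤ ∑ d ∈ S, ∑ m ∈ (rng 1 (2 * A / nr d)).filter (Rough w),
          (392 : ℝ) ^ (pf d).card * 392 ^ (pf m).card := by
        rw [Finset.sum_sigma', Finset.sum_sigma']
        refine CmbF1_inj (g := fun p : (Σ _ : O, O) =>
            (392 : ℝ) ^ (pf p.1).card * 392 ^ (pf p.2).card)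
          (fun p : (Σ _ : O, O) => (⟨p.2, p.1 / p.2⟩ : Σ _ : O, O)) ?_ ?_
          (fun p _ => by positivity)
        · rintro ⟨a, d⟩ h ⟨a', d'⟩ h' e
          simp only [Finset.coe_sigma, Set.mem_sigma_iff, Finset.mem_coe, Finset.mem_filter,
            mem_dy] at h h'
          simp only [Sigma.mk.injEq, heq_eq_eq] at e ⊢
          obtain ⟨rfl, e⟩ := e
          refine ⟨?_, rfl⟩
          rw [← (h.1.1.div h.2.1).2.2.2, ← (h'.1.1.div h'.2.1).2.2.2, e]
        · intro p hp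
          obtain ⟨⟨a, d⟩, h, rfl⟩ := Finset.mem_image.1 hp
          simp only [Finset.mem_sigma, Finset.mem_filter, mem_dy] at h
          obtain ⟨⟨ha, a1, a2⟩, hd, ⟨r1, b1⟩, r2, b2⟩ := h
          obtain ⟨k1, k2, -, k4⟩ := ha.div hd
          have e : nr a = nr d * nr (a / d) := by rw [← nr_mul, k4]
          have p1 := k1.one_le
          have p2 := k2.one_le
          simp only [hS, Finset.mem_sigma, Finset.mem_filter, mem_rng]
          refine ⟨⟨⟨k1, p1, b1.trans hI1⟩, r1, ?_, b1⟩, ⟨k2, p2, ?_⟩, r2⟩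
          · rw [div_lt_iff₀ (by positivity)]
            nlinarith
          · rw [le_div_iff₀ (by positivity)]
            nlinarith
    _ ≤ ∑ d ∈ S, 2 * M * A * ((392 : ℝ) ^ (pf d).card / nr d) := by
        refine Finset.sum_le_sum fun d hd => ?_
        simp only [hS, Finset.mem_filter, mem_rng] at hd
        obtain ⟨⟨-, p1, -⟩, -, b1, b2⟩ := hd
        have p0 : 0 < nr d := by linarith
        rw [← Finset.mul_sum]
        have := hm (2 * A / nr d) (by
          rw [div_le_div_iff₀ (by positivity) p0]; nlinarith) (by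
          rw [div_lt_iff₀ (by positivity)] at b1
          rw [div_le_iff₀ p0]; nlinarith)
        calc _ ≤ (392 : ℝ) ^ (pf d).card * (M * (2 * A / nr d)) :=
              mul_le_mul_of_nonneg_left this (by positivity)
          _ = _ := by ring
    _ ≤ 2 * M * A * (2 * M * ((n + 1 : ℕ) : ℝ)) := by
        rw [← Finset.mul_sum]
        refine mul_le_mul_of_nonneg_left (le_trans ?_ hd) (by positivity)
        refine Finset.sum_le_sum_of_subset_of_nonneg ?_ ?_
        · intro b hb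
          simp only [hS, Finset.mem_filter] at hb ⊢
          exact ⟨hb.1, hb.2.1, hb.2.2.1⟩
        · intro b hb _
          rw [Finset.mem_filter, mem_rng] at hb
          have := hb.1.2.1
          positivity
    _ ≤ _ := by
        push_cast
        have h0 : 0 ≤ Real.log (4 * B ^ 2 / A) := Real.log_nonneg hR
        have h1 : 0 ≤ M ^ 2 * A := by positivity
        nlinarith

end Crest.Agent.R12
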