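import Crest.Agent.R12.CmbF1

/-!
# Row 12, analytic half: type II and narrow configurations
-/

set_option autoImplicit false

noncomputable section

namespace Crest.Agent.R12

open Crest.Agent.R17
open scoped ComplexConjugate Topology
open Filter MeasureTheory

theorem CmbF2_first {X A B N W C L : ℝ} (hX : 0 < X) (hA : 0 < A) (hB : 0 < B) (hL : 1 ≤ L)
    (hC : 0 < C) (hAB : A ≤ 4 * B ^ 2) (h2 : A * B ≤ 2 * X) (h16 : X / 16 ≤ A * B)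
    (hN0 : 0 ≤ N) (hN : N ≤ 20 * (C * L ^ (-1 + 1 / 10 : ℝ)) ^ 2 * A * (1 + Real.log (4 * B ^ 2 / A)))
    (hW0 : 0 ≤ W) (hW : W ≤ C * (2 * B) * L ^ (-1 + 1 / 10 : ℝ)) :
    Real.sqrt N * Real.sqrt ((A + A ^ (3 / 4 : ℝ) * B ^ (1 / 2 : ℝ)) * W) ≤
      8 * Real.sqrt (24000 * C ^ 3) * X ^ (5 / 6 : ℝ) * (L ^ (-(5 / 4 : ℝ)) *
        min ((X / (8 * B ^ 3)) ^ (1 / 48 : ℝ)) ((8 * B ^ 3 / X) ^ (1 : ℝ))) := by
  have hL0 : 0 < L := by linarith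
  obtain ⟨μ, hμ⟩ : ∃ μ, μ = 64 * B ^ 3 / X := ⟨_, rfl⟩
  have h1 : 4 * B ^ 2 / A ≤ μ := by
    rw [hμ, div_le_div_iff₀ hA hX]
    nlinarith [mul_le_mul_of_nonneg_left h16 (show 0 ≤ 64 * B ^ 2 by positivity)]
  have h3 : 1 ≤ 4 * B ^ 2 / A := (one_le_div hA).2 hAB
  have hμ1 : 1 ≤ μ := h3.trans h1
  have hμ0 : 0 < μ := by linarith
  have l2 : 0 < Real.log 2 := Real.log_pos one_lt_two
  have a1 : 1 + Real.log (4 * B ^ 2 / A) ≤ 25 * μ ^ (1 / 24 : ℝ) := by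
    have b1 := Real.log_le_log (by linarith) h1
    have b2 := Real.log_le_rpow_div hμ0.le (show (0 : ℝ) < 1 / 24 by norm_num)
    have b3 := Real.one_le_rpow hμ1 (show (0 : ℝ) ≤ 1 / 24 by norm_num)
    linarith
  have lAB : Real.log A ≤ 2 * Real.log 2 + 2 * Real.log B := by
    have := Real.log_le_log hA hAB
    rwa [show 4 * B ^ 2 = (2 * B) ^ 2 by ring, Real.log_pow, Real.log_mul two_ne_zero hB.ne',
      Nat.cast_ofNat, mul_add] at this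
  have l2X : Real.log A + Real.log B ≤ Real.log 2 + Real.log X := by
    have := Real.log_le_log (by positivity) h2
    rwa [Real.log_mul hA.ne' hB.ne', Real.log_mul two_ne_zero hX.ne'] at this
  have lμ : Real.log μ = 6 * Real.log 2 + 3 * Real.log B - Real.log X := by
    rw [hμ, Real.log_div (by positivity) hX.ne', Real.log_mul (by norm_num) (by positivity),
      Real.log_pow, show (64 : ℝ) = 2 ^ 6 by norm_num, Real.log_pow]
    push_cast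
    ring
  have a2 : A ≤ 2 * (A ^ (3 / 4 : ℝ) * B ^ (1 / 2 : ℝ)) := by
    rw [← Real.log_le_log_iff hA (by positivity), Real.log_mul two_ne_zero (by positivity),
      Real.log_mul (by positivity) (by positivity), Real.log_rpow hA, Real.log_rpow hB]
    linarith
  have a3 : μ ^ (1 / 24 : ℝ) * (A * (A ^ (3 / 4 : ℝ) * B ^ (1 / 2 : ℝ)) * B) ≤
      2 ^ 3 * (X ^ (5 / 6 : ℝ) * μ ^ (-(1 / 48 : ℝ))) ^ 2 := by
    rw [← Real.log_le_log_iff (by positivity) (by positivity)]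
    simp (disch := positivity) only [Real.log_mul, Real.log_rpow, Real.log_pow]
    push_cast
    linarith
  have a4 : (L ^ (-1 + 1 / 10 : ℝ)) ^ 3 ≤ (L ^ (-(5 / 4 : ℝ))) ^ 2 := by
    rw [← Real.rpow_mul_natCast hL0.le, ← Real.rpow_mul_natCast hL0.le]
    exact Real.rpow_le_rpow_of_exponent_le hL (by norm_num)
  have a5 : μ ^ (-(1 / 48 : ℝ)) ≤
      8 * min ((X / (8 * B ^ 3)) ^ (1 / 48 : ℝ)) ((8 * B ^ 3 / X) ^ (1 : ℝ)) := by
    rw [mul_min_of_nonneg _ _ (by norm_num), Real.rpow_one]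
    refine le_min ?_ ?_
    · rw [Real.rpow_neg hμ0.le, ← Real.inv_rpow hμ0.le]
      refine le_trans ?_ (le_mul_of_one_le_left (by positivity) (by norm_num))
      rw [hμ, inv_div]
      gcongr
      norm_num
    · refine (Real.rpow_le_one_of_one_le_of_nonpos hμ1 (by norm_num)).trans (hμ1.trans_eq ?_)
      rw [hμ]
      ring
  rw [← Real.sqrt_mul hN0]
  calc _ ≤ Real.sqrt (24000 * C ^ 3 *
        (X ^ (5 / 6 : ℝ) * μ ^ (-(1 / 48 : ℝ)) * L ^ (-(5 / 4 : ℝ))) ^ 2) := by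
        refine Real.sqrt_le_sqrt ?_
        calc _ ≤ 20 * (C * L ^ (-1 + 1 / 10 : ℝ)) ^ 2 * A * (25 * μ ^ (1 / 24 : ℝ)) *
              (3 * (A ^ (3 / 4 : ℝ) * B ^ (1 / 2 : ℝ)) * (C * (2 * B) * L ^ (-1 + 1 / 10 : ℝ))) := by
              refine mul_le_mul (hN.trans (by gcongr)) ?_ (by positivity) (by positivity)
              gcongr ?_ * ?_
              linarith
          _ = 3000 * C ^ 3 * (μ ^ (1 / 24 : ℝ) * (A * (A ^ (3 / 4 : ℝ) * B ^ (1 / 2 : ℝ)) * B)) *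
              (L ^ (-1 + 1 / 10 : ℝ)) ^ 3 := by ring
          _ ≤ 3000 * C ^ 3 * (2 ^ 3 * (X ^ (5 / 6 : ℝ) * μ ^ (-(1 / 48 : ℝ))) ^ 2) *
              (L ^ (-(5 / 4 : ℝ))) ^ 2 := by gcongr
          _ = _ := by ring
    _ = Real.sqrt (24000 * C ^ 3) * X ^ (5 / 6 : ℝ) * (L ^ (-(5 / 4 : ℝ)) * μ ^ (-(1 / 48 : ℝ))) := by
        rw [Real.sqrt_mul (by positivity), Real.sqrt_sq (by positivity)]
        ring
    _ ≤ Real.sqrt (24000 * C ^ 3) * X ^ (5 / 6 : ℝ) * (L ^ (-(5 / 4 : ℝ)) *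
        (8 * min ((X / (8 * B ^ 3)) ^ (1 / 48 : ℝ)) ((8 * B ^ 3 / X) ^ (1 : ℝ)))) := by gcongr
    _ = _ := by ring

theorem CmbF2_second {X A B N C L : ℝ} {J : ℕ} (hX : 0 < X) (hA : 0 < A) (hB : 0 < B) (hL : 1 ≤ L)
    (hC : 0 < C) (h2 : A * B ≤ 2 * X) (hN : N ≤ C * (2 * A) * L ^ J) :
    Real.sqrt N * (A ^ (1 / 3 : ℝ) * B ^ (5 / 6 : ℝ) / L ^ (J + 4)) ≤
      2 * Real.sqrt (2 * C) * X ^ (5 / 6 : ℝ) * (L ^ 4)⁻¹ := by
  have hL0 : 0 < L := by linarith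
  have h1 : Real.sqrt N ≤ Real.sqrt (2 * C) * A ^ (1 / 2 : ℝ) * L ^ J := by
    rw [Real.sqrt_le_iff, mul_pow, mul_pow, Real.sq_sqrt (by positivity), ← Real.sqrt_eq_rpow,
      Real.sq_sqrt hA.le]
    refine ⟨by positivity, hN.trans ?_⟩
    rw [show C * (2 * A) = 2 * C * A by ring]
    gcongr
    exact le_self_pow₀ (one_le_pow₀ hL) two_ne_zero
  have h3 : A ^ (1 / 2 : ℝ) * A ^ (1 / 3 : ℝ) * B ^ (5 / 6 : ℝ) ≤ 2 * X ^ (5 / 6 : ℝ) := by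
    rw [← Real.rpow_add hA, show (1 / 2 + 1 / 3 : ℝ) = 5 / 6 by norm_num, ← Real.mul_rpow hA.le hB.le]
    refine (Real.rpow_le_rpow (by positivity) h2 (by norm_num)).trans ?_
    rw [Real.mul_rpow zero_le_two hX.le]
    gcongr
    exact Real.rpow_le_self_of_one_le one_le_two (by norm_num)
  calc _ ≤ Real.sqrt (2 * C) * A ^ (1 / 2 : ℝ) * L ^ J *
        (A ^ (1 / 3 : ℝ) * B ^ (5 / 6 : ℝ) / L ^ (J + 4)) := by gcongr
    _ = Real.sqrt (2 * C) * (A ^ (1 / 2 : ℝ) * A ^ (1 / 3 : ℝ) * B ^ (5 / 6 : ℝ)) * (L ^ 4)⁻¹ := by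
        rw [pow_add]
        field_simp
    _ ≤ Real.sqrt (2 * C) * (2 * X ^ (5 / 6 : ℝ)) * (L ^ 4)⁻¹ := by gcongr
    _ = _ := by ring

theorem CmbF2_dy_eq {i j : ℕ} {b : O} (hi : b ∈ dy (2 ^ i / 2)) (hj : b ∈ dy (2 ^ j / 2)) :
    i = j := by
  have key : ∀ {i j : ℕ}, b ∈ dy (2 ^ i / 2) → b ∈ dy (2 ^ j / 2) → i ≤ j := fun {i j} hi hj => by
    have h1 : (2 : ℝ) ^ i < 2 ^ (j + 1) := by
      rw [pow_succ]
      linarith [(mem_dy.1 hi).2.1, (mem_dy.1 hj).2.2]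
    exact Nat.lt_succ_iff.1 ((pow_lt_pow_iff_right₀ one_lt_two).1 h1)
  exact le_antisymm (key hi hj) (key hj hi)

theorem CmbF2_Bil_zero {l : ℤ} {v : ℝ → ℂ} {X : ℝ} {Sa Sb : Finset O} {α β : O → ℂ}
    (h : (∀ a ∈ Sa, α a = 0) ∨ ∀ b ∈ Sb, β b = 0) : Bil l v X Sa Sb α β = 0 :=
  Finset.sum_eq_zero fun a ha => Finset.sum_eq_zero fun b hb => by
    rcases h with h | h
    · rw [h a ha, zero_mul, zero_mul]
    · rw [h b hb, mul_zero, zero_mul]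

/-- One of the three terms: `β` lies in the block `j`, the other two factors are `≤ 2^j`. -/
theorem case_N_aux : ∃ (θ : ℝ) (A₀ : ℕ), 0 < θ ∧ θ < 1 ∧ ∀ (l : ℤ) (Cb : ℝ) (A₁ : ℕ), 0 < Cb →
    ∃ C X₀ : ℝ, 0 < C ∧ ∀ X ≥ X₀, ∀ (v : ℝ → ℂ) (Φ : ℂ → ℂ) (T T₁ Λ₀ : ℝ) (j : ℕ)
    (α₁ α₂ γ β : AF), Adm v Φ T T₁ → Real.log X ^ 2 ≤ T → 0 ≤ Λ₀ → BH l v X θ A₀ A₁ Cb Λ₀ →
    Bd 14 α₁ → Bd 14 α₂ → Bd 14 γ → Rgh (wX θ X) α₁ → Rgh (wX θ X) α₂ → Rgh (wX θ X) γ →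
    HasReg (wX θ X) X γ → Sup α₁ 1 (2 ^ j) → Sup α₂ 1 (2 ^ j) →
    Sup γ (X ^ (32 / 100 : ℝ)) (X ^ (35 / 100 : ℝ)) →
    (∀ n, PS n → β n = if n ∈ dy (2 ^ j / 2) then γ n else 0) →
    ‖pr l v X (α₁ * α₂ * β)‖ ≤ C * X ^ (5 / 6 : ℝ) *
      (Λ₀ * Real.log X ^ (-(5 / 4 : ℝ)) * min ((X / 8 ^ j) ^ (1 / 48 : ℝ)) ((8 ^ j / X) ^ (1 : ℝ)) +
        (Real.log X ^ 4)⁻¹) := by
  classical
  obtain ⟨θ, C₁, X₁, h0, h1, hC₁, H₁⟩ := mom_rough (k := 1568) (ε := 1 / 10) (by norm_num)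
    (by norm_num)
  obtain ⟨C₂, J, hC₂, H₂⟩ := mom_crude 784
  refine ⟨θ, J + 4, h0, h1, fun l Cb A₁ hCb => ?_⟩
  obtain ⟨X₂, H₃⟩ := pr_dyadic l 28
  obtain ⟨X₃, H₄⟩ := sw_beta l A₁ h0 h1
  obtain ⟨K, hK⟩ : ∃ K, K = Cb * (8 * Real.sqrt (24000 * C₁ ^ 3) + 2 * Real.sqrt (2 * C₂)) :=
    ⟨_, rfl⟩
  have hK0 : 0 < K := by rw [hK]; positivity
  refine ⟨6 * K + 1, max (max X₁ X₂) (max X₃ (50 ^ 50)), by positivity,
    fun X hX v Φ T T₁ Λ₀ j α₁ α₂ γ β hv hT hΛ hB b₁ b₂ bγ r₁ r₂ rγ hγ s₁ s₂ sγ hβ => ?_⟩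
  simp only [ge_iff_le, max_le_iff] at hX
  obtain ⟨⟨hX₁, hX₂⟩, hX₃, hX⟩ := hX
  have hX3 : 3 ≤ X := le_trans (by norm_num) hX
  have hX1 : 1 ≤ X := by linarith
  have hX0 : 0 < X := by linarith
  obtain ⟨t, ht⟩ : ∃ t, t = X ^ (1 / 50 : ℝ) := ⟨_, rfl⟩
  have ht50 : 50 ≤ t := by
    rw [ht, one_div, Real.le_rpow_inv_iff_of_pos (by norm_num) hX0.le (by norm_num)]
    exact_mod_cast hX
  have hp : ∀ (n : ℕ) (y : ℝ), y = n / 50 → X ^ y = t ^ n := fun n y hy => by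
    rw [ht, ← Real.rpow_mul_natCast hX0.le, hy]
    congr 1
    ring
  have hXt : X = t ^ 50 := by rw [← hp 50 1 (by norm_num), Real.rpow_one]
  have hpow : ∀ {m n : ℕ}, m < n → 50 * t ^ m ≤ t ^ n := fun {m n} h =>
    le_trans (by rw [pow_succ']; gcongr) (pow_le_pow_right₀ (by linarith) (Nat.succ_le_of_lt h))
  obtain ⟨L, hL⟩ : ∃ L, L = Real.log X := ⟨_, rfl⟩
  have hL1 : 1 ≤ L := by
    rw [hL, Real.le_log_iff_exp_le hX0]
    linarith [Real.exp_one_lt_d9]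
  have hL4 : 1 ≤ X ^ (5 / 6 : ℝ) * (L ^ 4)⁻¹ := by
    rw [← div_eq_mul_inv, one_le_div (by positivity)]
    have a1 := Real.log_le_rpow_div hX0.le (show (0 : ℝ) < 1 / 50 by norm_num)
    rw [← hL, ← ht] at a1
    calc L ^ 4 ≤ (t ^ 2) ^ 4 := by gcongr; nlinarith
      _ = X ^ (8 / 50 : ℝ) := by rw [hp 8 _ (by norm_num)]; ring
      _ ≤ _ := Real.rpow_le_rpow_of_exponent_le hX1 (by norm_num)
  obtain ⟨B, hBe⟩ : ∃ B : ℝ, B = 2 ^ j / 2 := ⟨_, rfl⟩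
  have hB0 : 0 < B := by rw [hBe]; positivity
  have e2 : (2 : ℝ) ^ j = 2 * B := by rw [hBe]; ring
  have e8 : (8 : ℝ) ^ j = 8 * B ^ 3 := by
    rw [show (8 : ℝ) = 2 ^ 3 by norm_num, ← pow_mul, mul_comm 3 j, pow_mul, e2]; ring
  rw [e2] at s₁ s₂
  rw [← hL, e8]
  obtain ⟨m, hm⟩ : ∃ m, m = min ((X / (8 * B ^ 3)) ^ (1 / 48 : ℝ)) ((8 * B ^ 3 / X) ^ (1 : ℝ)) :=
    ⟨_, rfl⟩
  have hm0 : 0 ≤ m := hm ▸ le_min (by positivity) (by positivity)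
  rw [← hm]
  obtain ⟨F, hF⟩ : ∃ F, F = X ^ (5 / 6 : ℝ) * (Λ₀ * L ^ (-(5 / 4 : ℝ)) * m + (L ^ 4)⁻¹) := ⟨_, rfl⟩
  have hF1 : 1 ≤ F := by
    rw [hF, mul_add]
    exact hL4.trans (le_add_of_nonneg_left (by positivity))
  have bα : Bd 28 (α₁ * α₂) := by
    have := b₁.mul b₂ (by norm_num) (by norm_num)
    norm_num at this
    exact this
  have bβ : Bd 28 β := fun n hn => by
    rw [hβ n hn]
    split_ifs
    · exact bγ.mono (by norm_num) (by norm_num) n hn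
    · rw [norm_zero]; positivity
  have main : ∀ A : ℝ, X / 16 ≤ A * B → A * B ≤ 2 * X →
      ‖Bil l v X (dy A) (dy B) (α₁ * α₂ : AF) γ‖ ≤ K * F := by
    intro A h16 h2
    by_cases hz : (∀ a ∈ dy A, (α₁ * α₂ : AF) a = 0) ∨ ∀ b ∈ dy B, γ b = 0
    · rw [CmbF2_Bil_zero hz, norm_zero]; positivity
    push Not at hz
    obtain ⟨⟨a, ha, ha0⟩, b, hb, hb0⟩ := hz
    have hA0 : 0 < A := (pos_iff_pos_of_mul_pos (lt_of_lt_of_le (by positivity) h16)).2 hB0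
    have hAB : A ≤ 4 * B ^ 2 := by
      linarith [(mem_dy.1 ha).2.1, (s₁.mul s₂ zero_le_one zero_le_one a (mem_dy.1 ha).1 ha0).2]
    obtain ⟨c1, c2⟩ := sγ b (mem_dy.1 hb).1 hb0
    have c3 : B ≤ X ^ (35 / 100 : ℝ) := (mem_dy.1 hb).2.1.le.trans c2
    have c4 : B ≤ t ^ 18 := by
      rw [← hp 18 (18 / 50) (by norm_num)]
      exact c3.trans (Real.rpow_le_rpow_of_exponent_le hX1 (by norm_num))
    have c5 : t ^ 16 ≤ 2 * B := by
      rw [← hp 16 (32 / 100) (by norm_num)]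
      exact c1.trans (mem_dy.1 hb).2.2
    have p0 : ∀ n : ℕ, 1 ≤ t ^ n := fun n => one_le_pow₀ (by linarith)
    have c6 : 50 * B ≤ X := by linarith [hpow (show 18 < 50 by norm_num), hXt]
    have c7 : t ^ 15 ≤ B := by linarith [hpow (show 15 < 16 by norm_num), p0 15]
    have c8 : t ^ 5 ≤ 2 * B := by linarith [hpow (show 5 < 16 by norm_num), p0 5]
    have c9 : 50 ≤ B := by linarith [hpow (show 0 < 15 by norm_num), pow_zero t]
    have c10 : t ^ 5 ≤ A / (2 * B) := by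
      rw [le_div_iff₀ (by positivity)]
      refine le_of_mul_le_mul_right (le_trans ?_ h16) hB0
      calc t ^ 5 * (2 * B) * B ≤ t ^ 5 * (2 * t ^ 18) * t ^ 18 := by gcongr
        _ = 2 * t ^ 41 := by ring
        _ ≤ _ := by linarith [hpow (show 41 < 50 by norm_num), hXt, p0 41]
    have e5 := hp 5 (1 / 10) (by norm_num)
    have hBH := hB A B (α₁ * α₂ : AF) γ (by rw [hp 15 _ (by norm_num)]; exact c7)
      (c3.trans (Real.rpow_le_rpow_of_exponent_le hX1 (by norm_num))) h16 h2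
      (fun b hb => rγ b (mem_dy.1 hb).1) (fun b hb => bγ b (mem_dy.1 hb).1)
      (H₄ X hX₃ γ B hγ (by linarith) (by linarith))
    rw [← hL] at hBH
    have hN := N2_narrow (M := C₁ * L ^ (-1 + 1 / 10 : ℝ)) hA0 hB0 (by positivity) hAB b₁ b₂ r₁ r₂
      s₁ s₂ fun y y1 y2 => by
        have := H₁ X hX₁ y (by rw [e5]; linarith) (by linarith)
        rw [← hL, mul_right_comm] at this
        exact le_trans (Finset.sum_le_sum fun b _ => by gcongr; norm_num) this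
    have hW : NW 8 (dy B) γ ≤ C₁ * (2 * B) * L ^ (-1 + 1 / 10 : ℝ) := by
      have := H₁ X hX₁ (2 * B) (by rw [e5]; linarith) (by linarith)
      rw [← hL] at this
      refine le_trans ?_ this
      rw [NW, ← Finset.sum_filter_of_ne (p := Rough (wX θ X)) fun b hb h0 =>
        rγ b (mem_dy.1 hb).1 fun h => h0 (by simp [h])]
      refine le_trans (Finset.sum_le_sum fun b hb => ?_) (Finset.sum_le_sum_of_subset_of_nonneg
        (Finset.filter_subset_filter _ fun b hb => mem_rng.2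
          ⟨(mem_dy.1 hb).1, (mem_dy.1 hb).1.one_le, (mem_dy.1 hb).2.2⟩) fun _ _ _ => by positivity)
      have := bγ b (mem_dy.1 (Finset.mem_filter.1 hb).1).1
      calc ‖γ b‖ ^ 2 * 8 ^ (pf b).card ≤ (14 ^ (pf b).card) ^ 2 * 8 ^ (pf b).card := by gcongr
        _ = (1568 : ℝ) ^ (pf b).card := by
          rw [← pow_mul, mul_comm _ 2, pow_mul, ← mul_pow]; norm_num
    have hN' : N2 (dy A) (α₁ * α₂ : AF) ≤ C₂ * (2 * A) * L ^ J := by
      have := (H₂ X (2 * A) hX3 (by positivity) (by nlinarith)).1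
      rw [← hL] at this
      refine le_trans (le_trans (Finset.sum_le_sum fun a ha => ?_)
        (Finset.sum_le_sum_of_subset_of_nonneg (fun a ha => mem_rng.2
          ⟨(mem_dy.1 ha).1, (mem_dy.1 ha).1.one_le, (mem_dy.1 ha).2.2⟩)
            fun _ _ _ => by positivity)) this
      have := bα a (mem_dy.1 ha).1
      calc ‖(α₁ * α₂ : AF) a‖ ^ 2 ≤ (28 ^ (pf a).card) ^ 2 := by gcongr
        _ = |(784 : ℝ)| ^ (pf a).card := by rw [← pow_mul, mul_comm _ 2, pow_mul]; norm_num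
    have f1 := CmbF2_first hX0 hA0 hB0 hL1 hC₁ hAB h2 h16
      (Finset.sum_nonneg fun _ _ => by positivity) hN (NW_nonneg (by norm_num) _ _) hW
    have f2 := CmbF2_second hX0 hA0 hB0 hL1 hC₂ h2 hN'
    rw [← hm] at f1
    refine hBH.trans ?_
    rw [mul_assoc Cb, hK, mul_assoc Cb, mul_add (Real.sqrt _), mul_left_comm (Real.sqrt _) Λ₀, hF]
    refine mul_le_mul_of_nonneg_left ((add_le_add (mul_le_mul_of_nonneg_left f1 hΛ) f2).trans ?_)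
      hCb.le
    have g1 : 0 ≤ 8 * Real.sqrt (24000 * C₁ ^ 3) * (X ^ (5 / 6 : ℝ) * (L ^ 4)⁻¹) := by positivity
    have g2 : 0 ≤ 2 * Real.sqrt (2 * C₂) * (X ^ (5 / 6 : ℝ) * (Λ₀ * L ^ (-(5 / 4 : ℝ)) * m)) := by
      positivity
    linarith
  have fin := H₃ X hX₂ v Φ T T₁ (α₁ * α₂) β (fun i => if i = j then K * F else 0) hv hT bα bβ
    (fun i => by positivity) fun i A h16 h2 => by
      split_ifs with h
      · subst h
        rw [← hBe] at h16 h2 hβ ⊢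
        refine le_of_eq_of_le (congrArg norm ?_) (main A h16 h2)
        exact Finset.sum_congr rfl fun a _ => Finset.sum_congr rfl fun b hb => by
          rw [hβ b (mem_dy.1 hb).1, if_pos hb]
      · rw [CmbF2_Bil_zero (Or.inr fun b hb => by
          rw [hβ b (mem_dy.1 hb).1, if_neg fun hb' => h (CmbF2_dy_eq hb hb')]), norm_zero]
  rw [Finset.sum_ite_eq'] at fin
  rw [mul_assoc (6 * K + 1), ← hF]
  refine fin.trans ?_
  have : 0 ≤ K * F := by positivity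
  split_ifs <;> linarith

end Crest.Agent.R12
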