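import Crest.Agent.R12.CmbG2

/-!
# Row 12, analytic half: configurations with long smooth variables
-/

set_option autoImplicit false

noncomputable section

namespace Crest.Agent.R12

open Crest.Agent.R17
open scoped ComplexConjugate Topology
open Filter MeasureTheory

/-- The same with `tail_lemma` applied twice (first `ρ₂ = zc w a₂ b₂`, then `ρ₂` = the opened first
variable, which is `Bd 4`). -/
theorem case_Q4 (l : ℤ) {θ : ℝ} (h0 : 0 < θ) (h1 : θ < 1) : ∃ δ₁ C X₀ : ℝ, 0 < δ₁ ∧ 0 < C ∧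
    ∀ X ≥ X₀, ∀ (v : ℝ → ℂ) (Φ : ℂ → ℂ) (T T₁ a₁ b₁ a₂ b₂ : ℝ) (ρ : AF), Adm v Φ T T₁ →
    Real.log X ^ 2 ≤ T → T ≤ X ^ δ₁ → Bd 14 ρ →
    Sup ρ (X ^ (1 / 2 - 3 / 10000 : ℝ)) (X ^ (1 / 2 + 3 / 10000 : ℝ)) → a₁ ≤ b₁ → a₂ ≤ b₂ →
    -(Real.log X / 1000) ≤ a₁ → -(Real.log X / 1000) ≤ a₂ →
    (1 / 2 - 3 / 10000) * Real.log X ≤ a₁ + a₂ → b₁ + b₂ ≤ (1 / 2 + 3 / 10000) * Real.log X →
    ‖pr l v X (ρ * zc (wX θ X) a₁ b₁ * zc (wX θ X) a₂ b₂)‖ ≤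
      C * X ^ (5 / 6 : ℝ) / Real.log X ^ 3 := by
  obtain ⟨δ, X₁, hδ, hδ1, hQ⟩ := CmbG2_Q l
  obtain ⟨X₂, ht⟩ := CmbG2_tail l h0 h1
  obtain ⟨X₃, hev⟩ := CmbG2_ev 1 5 (show (0 : ℝ) < 5 / 10000 by norm_num)
  refine ⟨δ, 3, max (max X₁ X₂) (max X₃ 3), hδ, three_pos,
    fun X hX v Φ T T₁ a₁ b₁ a₂ b₂ ρ hA hT hT' hρ hs hab₁ hab₂ ha₁ ha₂ ha hb => ?_⟩
  have hX1 : X₁ ≤ X := le_trans (le_trans (le_max_left _ _) (le_max_left _ _)) hX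
  have hX2 : X₂ ≤ X := le_trans (le_trans (le_max_right _ _) (le_max_left _ _)) hX
  have hX3 : X₃ ≤ X := le_trans (le_trans (le_max_left _ _) (le_max_right _ _)) hX
  have hX4 : 3 ≤ X := le_trans (le_trans (le_max_right _ _) (le_max_right _ _)) hX
  have hX0 : 0 < X := by linarith
  have hX5 : 1 ≤ X := by linarith
  have hL : 0 < Real.log X := Real.log_pos (by linarith)
  have hTX : T ≤ X := by
    calc T ≤ X ^ δ := hT'
      _ ≤ X ^ (1 : ℝ) := Real.rpow_le_rpow_of_exponent_le hX5 hδ1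
      _ = X := Real.rpow_one X
  obtain ⟨lam, D, hbl, hsl, hD, hS, htail⟩ := ht X hX2
  have hba₁ : b₁ - a₁ ≤ Real.log X := by linarith
  have hba₂ : b₂ - a₂ ≤ Real.log X := by linarith
  have hZ : Bd 14 ((lam * zt 0).pm fun n => cw a₂ b₂ (nr n)) :=
    ((hbl.mul (bd_zt 0) (by norm_num) (by norm_num)).pm fun n hn =>
      norm_cw_le_one _ _ (nr_pos hn.ne_zero)).mono (by norm_num) (by norm_num)
  have e1 := htail v Φ T T₁ a₂ b₂ ρ _ hA hT hTX hab₂ hba₂ hρ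
    ((bd_zc (wX θ X) a₁ b₁).mono (by norm_num) (by norm_num)) hs
  have e1' := htail v Φ T T₁ a₁ b₁ ρ _ hA hT hTX hab₁ hba₁ hρ hZ hs
  rw [mul_right_comm] at e1'
  have e2 := CmbG2_open l v X (ρ * (lam * zt 0).pm fun n => cw a₂ b₂ (nr n))
      (E := (∑ d ∈ rng 1 D, ‖lam d‖) * ((b₂ - a₂) * X ^ (5 / 6 - 19 / 10000 : ℝ))) hsl hab₁
      fun d₁ hd₁ u₁ hu₁ hu₁' => by
    rw [mul_right_comm ρ, mul_right_comm (ρ * dl d₁)]
    refine CmbG2_open l v X _ hsl hab₂ fun d₂ hd₂ u₂ hu₂ hu₂' => ?_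
    rw [mul_right_comm (ρ * dl d₁), mul_assoc (ρ * dl d₁ * dl d₂)]
    obtain ⟨t₁, r1, r2, r3⟩ := CmbG2_scale hX0 hD hd₁ u₁
    obtain ⟨t₂, s1, s2, s3⟩ := CmbG2_scale hX0 hD hd₂ u₂
    have hD0 : 0 ≤ D := by linarith [(mem_rng.1 hd₁).2.1, (mem_rng.1 hd₁).2.2]
    have hlo : ∀ t : ℝ, -1 * Real.log X ≤ t → X⁻¹ ≤ Real.exp t := fun t ht => by
      rw [← Real.rpow_neg_one]
      exact CmbG2_rpow_le hX0 ht
    have hhi : ∀ t : ℝ, t ≤ 1 * Real.log X → Real.exp t ≤ X := fun t ht => by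
      simpa using CmbG2_le_rpow hX0 ht
    rw [r3, s3]
    refine hQ X hX1 v Φ T T₁ (Real.exp (t₁ + t₂)) _ _ hA hT hT'
      (((hρ.mul (CmbG2_bd_dl d₁) (by norm_num) (by norm_num)).mul (CmbG2_bd_dl d₂) (by norm_num)
        (by norm_num)).mono (by norm_num) (by norm_num))
      (((hs.mul (CmbG2_sup_dl hd₁) (by positivity) (by norm_num)).mul (CmbG2_sup_dl hd₂)
        (by positivity) (by norm_num)).mono ?_ ?_)
      (Or.inr ⟨_, _, hlo _ (by linarith), hhi _ (by linarith), hlo _ (by linarith),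
        hhi _ (by linarith), (Real.exp_add _ _).symm, rfl⟩)
      (CmbG2_rpow_le hX0 (by linarith)) (CmbG2_le_rpow hX0 (by linarith))
    · rw [mul_one, mul_one]
      exact Real.rpow_le_rpow_of_exponent_le hX5 (by norm_num)
    · calc X ^ (1 / 2 + 3 / 10000 : ℝ) * D * D
          ≤ X ^ (1 / 2 + 3 / 10000 : ℝ) * X ^ (6 / 10000 : ℝ) * X ^ (6 / 10000 : ℝ) := by gcongr
        _ ≤ _ := by
          rw [← Real.rpow_add hX0, ← Real.rpow_add hX0]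
          exact Real.rpow_le_rpow_of_exponent_le hX5 (by norm_num)
  have e3 : (∑ d ∈ rng 1 D, ‖lam d‖) * ((b₁ - a₁) *
      ((∑ d ∈ rng 1 D, ‖lam d‖) * ((b₂ - a₂) * X ^ (5 / 6 - 19 / 10000 : ℝ)))) ≤
      X ^ (5 / 6 : ℝ) / Real.log X ^ 3 := by
    rw [le_div_iff₀ (by positivity)]
    have h4 := hev X hX3
    have p1 : 0 ≤ b₁ - a₁ := by linarith
    have p2 : 0 ≤ b₂ - a₂ := by linarith
    calc (∑ d ∈ rng 1 D, ‖lam d‖) * ((b₁ - a₁) *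
          ((∑ d ∈ rng 1 D, ‖lam d‖) * ((b₂ - a₂) * X ^ (5 / 6 - 19 / 10000 : ℝ)))) * Real.log X ^ 3
        ≤ X ^ (7 / 10000 : ℝ) * (Real.log X * (X ^ (7 / 10000 : ℝ) *
            (Real.log X * X ^ (5 / 6 - 19 / 10000 : ℝ)))) * Real.log X ^ 3 := by gcongr
      _ = X ^ (7 / 10000 : ℝ) * X ^ (7 / 10000 : ℝ) * X ^ (5 / 6 - 19 / 10000 : ℝ) *
            (1 * Real.log X ^ 5) := by ring
      _ ≤ X ^ (7 / 10000 : ℝ) * X ^ (7 / 10000 : ℝ) * X ^ (5 / 6 - 19 / 10000 : ℝ) *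
            X ^ (5 / 10000 : ℝ) := by gcongr
      _ = _ := by rw [← Real.rpow_add hX0, ← Real.rpow_add hX0, ← Real.rpow_add hX0]; norm_num
  have e4 := norm_le_norm_add_norm_sub' (pr l v X (ρ * zc (wX θ X) a₁ b₁ * zc (wX θ X) a₂ b₂))
    (pr l v X (ρ * zc (wX θ X) a₁ b₁ * (lam * zt 0).pm fun n => cw a₂ b₂ (nr n)))
  have e5 := norm_le_norm_add_norm_sub'
    (pr l v X (ρ * zc (wX θ X) a₁ b₁ * (lam * zt 0).pm fun n => cw a₂ b₂ (nr n)))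
    (pr l v X ((ρ * (lam * zt 0).pm fun n => cw a₂ b₂ (nr n)) *
      (lam * zt 0).pm fun n => cw a₁ b₁ (nr n)))
  rw [mul_div_assoc]
  linarith

end Crest.Agent.R12
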