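import Crest.Agent.R12.QC1

/-!
# Row 12, analytic half: dispersion with an enlarged modulus
-/

set_option autoImplicit false

noncomputable section

namespace Crest.Agent.R12

open Crest.Agent.R17
open scoped ComplexConjugate Topology
open Filter MeasureTheory

theorem QC_num {X a b : ℝ} (hX : 1 ≤ X) (ha : 496 / 1000 ≤ a) (ha' : a ≤ 504 / 1000)
    (hb : 496 / 1000 ≤ b) (hb' : b ≤ 504 / 1000) {A B Λ A' U : ℝ} (hA : A = X ^ a) (hB : B = X ^ b)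
    (hΛ : Λ = X ^ (1 / 100000 : ℝ)) (hA' : A' = A * (X ^ (1 / 50 : ℝ)) ^ 3)
    (hU : U = (X ^ (1 / 50 : ℝ)) ^ (1 - 1 / 1000 : ℝ) *
      (A ^ (2 / 3 : ℝ) * B ^ (5 / 3 : ℝ) * X ^ (-(1 / 200 : ℝ)))) :
    X ^ (1 / 10000 : ℝ) * Λ * A' * (B ^ 2 / A') ^ (27 / 20 : ℝ) ≤ U ∧
    Λ ^ 2 * ((A' + A' ^ (3 / 4 : ℝ) * B ^ (1 / 2 : ℝ)) + (A' * Λ * B) ^ (1 / 100000 : ℝ) *
      ((A' * B) ^ (1 / 6 : ℝ) * B + A' ^ (1 / 2 : ℝ) * B ^ (2 / 3 : ℝ))) * (Λ * B * Λ) ≤ 4 * U ∧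
    (A * (Λ * B)) ^ (1 / 100000 : ℝ) *
      (A + (A * (Λ * B)) ^ (2 / 3 : ℝ) + A ^ (1 / 3 : ℝ) * (Λ * B)) * (Λ * B * Λ) ≤ 3 * U := by
  have hX0 : 0 < X := by linarith
  have e1 : A' = X ^ (a + 3 / 50) := by
    rw [hA', hA, ← Real.rpow_natCast, ← Real.rpow_mul hX0.le, ← Real.rpow_add hX0]
    norm_num
  have e2 : U = X ^ (2 / 3 * a + 5 / 3 * b + 1498 / 100000) := by
    rw [hU, hA, hB]
    simp only [← Real.rpow_mul hX0.le, ← Real.rpow_add hX0]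
    congr 1
    ring
  have e3 : Λ ^ 2 = X ^ (2 / 100000 : ℝ) := by
    rw [hΛ, ← Real.rpow_natCast, ← Real.rpow_mul hX0.le]
    norm_num
  have e4 : B ^ 2 = X ^ (2 * b) := by
    rw [hB, ← Real.rpow_natCast, ← Real.rpow_mul hX0.le]
    congr 1
    push_cast
    ring
  have key : ∀ p : ℝ, p ≤ 2 / 3 * a + 5 / 3 * b + 1498 / 100000 → X ^ p ≤ U := fun p hp =>
    e2 ▸ Real.rpow_le_rpow_of_exponent_le hX hp
  rw [e3, e4, e1, hA, hB, hΛ]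
  refine ⟨?_, ?_, ?_⟩
  · simp only [← Real.rpow_mul hX0.le, ← Real.rpow_add hX0, ← Real.rpow_sub hX0]
    exact key _ (by linarith)
  · simp only [mul_add, add_mul]
    simp only [← Real.rpow_mul hX0.le, ← Real.rpow_add hX0]
    rw [show 4 * U = U + U + (U + U) by ring]
    exact add_le_add (add_le_add (key _ (by linarith)) (key _ (by linarith)))
      (add_le_add (key _ (by linarith)) (key _ (by linarith)))
  · simp only [mul_add, add_mul]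
    simp only [← Real.rpow_mul hX0.le, ← Real.rpow_add hX0]
    rw [show 3 * U = U + U + U by ring]
    exact add_le_add (add_le_add (key _ (by linarith)) (key _ (by linarith))) (key _ (by linarith))

theorem QC_sum_N2 {S P : Finset O} (hS : ∀ b ∈ S, PS b) (hP : ∀ c ∈ P, Prime c ∧ Primary c)
    (γ : O → ℂ) : ∑ c ∈ P, N2 (Sd S c) γ ≤ NW 8 S γ := by
  classical
  have h1 : ∀ d : O, N2 (Sd S d) γ = ∑ b ∈ S, ‖γ b‖ ^ 2 * (if d ∣ b then (1 : ℝ) else 0) := by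
    intro d
    unfold N2 Sd
    rw [Finset.sum_filter]
    refine Finset.sum_congr rfl fun b _ => ?_
    split_ifs <;> simp
  simp only [h1]
  rw [Finset.sum_comm, NW]
  refine Finset.sum_le_sum fun b hb => ?_
  rw [← Finset.mul_sum, Finset.sum_boole]
  refine mul_le_mul_of_nonneg_left ?_ (by positivity)
  have h2 : (P.filter fun c => c ∣ b).card ≤ (pf b).card := by
    refine Finset.card_le_card fun c hc => ?_
    rw [Finset.mem_filter] at hc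
    exact (mem_pf (hS b hb).ne_zero).2 ⟨(hP c hc.1).1, (hP c hc.1).2, hc.2⟩
  have h3 : (pf b).card ≤ 8 ^ (pf b).card := (Nat.lt_pow_self (by norm_num)).le
  exact_mod_cast h2.trans h3

theorem QC_log (J : ℕ) : ∀ᶠ X : ℝ in atTop, Real.log X ^ J ≤ X ^ (1 / 100000 : ℝ) := by
  have h := (isLittleO_log_rpow_rpow_atTop (J : ℝ) (s := 1 / 100000) (by norm_num)).bound one_pos
  filter_upwards [h, eventually_ge_atTop 1] with X h1 h2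
  rw [Real.rpow_natCast, one_mul, Real.norm_of_nonneg (pow_nonneg (Real.log_nonneg h2) _),
    Real.norm_of_nonneg (by positivity)] at h1
  exact h1

/-- `C₀ = X^{1/50}`, `P = primesIn 1 C₀` (`card_primesIn_ge`), `∑_c N2 (Sd S c) ≤ NW 2 S`,
`disp_le`, `nc_row`, `mom_crude` (or `pow_card_pf_le`). -/
theorem propQ_core (l : ℤ) (J : ℕ) : ∃ C X₀ : ℝ, 0 < C ∧ ∀ X ≥ X₀, ∀ (A B t : ℝ) (β : O → ℂ),
    X ^ (496 / 1000 : ℝ) ≤ A → A ≤ X ^ (504 / 1000 : ℝ) → X ^ (496 / 1000 : ℝ) ≤ B →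
    B ≤ X ^ (504 / 1000 : ℝ) → (∀ b, PS b → ‖β b‖ ≤ 2 ^ (pf b).card) →
    RowHyp l (rng (B / X ^ (1 / 100000 : ℝ)) (X ^ (1 / 100000 : ℝ) * B)) β B
      (X ^ (1 / 10000 : ℝ)) J →
    ∑ a ∈ dy A, ‖EE (rng (B / X ^ (1 / 100000 : ℝ)) (X ^ (1 / 100000 : ℝ) * B)) (tw l t β) a‖ ^ 2 ≤
      C * (1 + |t|) ^ J * A ^ (2 / 3 : ℝ) * B ^ (5 / 3 : ℝ) * X ^ (-(1 / 200 : ℝ)) := by
  obtain ⟨C₁, hC₁, h₁⟩ := EE_enlarge
  obtain ⟨C₂, hC₂, h₂⟩ := EE_crude (ε := 1 / 100000) (by norm_num)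
  obtain ⟨C₃, hC₃, h₃⟩ := nc_row l J
  obtain ⟨C₄, hC₄, h₄⟩ := disp_le (ε := 1 / 100000) (by norm_num)
  obtain ⟨C₅, J', hC₅, h₅⟩ := mom_crude 32
  obtain ⟨P₀, h₆⟩ := card_primesIn_ge (M := 1) one_ne_zero (ε := 1 / 1000) (by norm_num)
  have hev : ∀ᶠ X : ℝ in atTop, 3 ≤ X ∧ Real.log X ^ J' ≤ X ^ (1 / 100000 : ℝ) ∧
      Real.log X ^ 1 ≤ X ^ (1 / 100000 : ℝ) ∧ P₀ ≤ X ^ (1 / 50 : ℝ) :=
    (eventually_ge_atTop 3).and ((QC_log J').and ((QC_log 1).and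
      ((tendsto_rpow_atTop (by norm_num)).eventually_ge_atTop P₀)))
  obtain ⟨X₀, hX₀⟩ := eventually_atTop.1 hev
  refine ⟨C₁ * (2 * C₃ + 4 * (C₄ * C₅)) + 6 * (C₂ * C₅), X₀, by positivity,
    fun X hX A B t β hA hA' hB hB' hβ hrow => ?_⟩
  obtain ⟨hX3, hlJ, hl1, hP₀⟩ := hX₀ X hX
  have hX1 : 1 < X := by linarith
  have hX0 : 0 < X := by linarith
  have hone : ∀ p : ℝ, 0 ≤ p → 1 ≤ X ^ p := fun p hp => Real.one_le_rpow hX1.le hp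
  have hA1 : 1 ≤ A := (hone _ (by norm_num)).trans hA
  have hB1 : 1 ≤ B := (hone _ (by norm_num)).trans hB
  have eA : A = X ^ Real.logb X A := (Real.rpow_logb hX0 hX1.ne' (by linarith)).symm
  have eB : B = X ^ Real.logb X B := (Real.rpow_logb hX0 hX1.ne' (by linarith)).symm
  have hexp : ∀ {p q : ℝ}, X ^ p ≤ X ^ q → p ≤ q := fun h =>
    (Real.rpow_le_rpow_left_iff hX1).1 h
  have hb2 : Real.logb X B ≤ 504 / 1000 := hexp (eB ▸ hB')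
  obtain ⟨n₁, n₂, n₃⟩ := QC_num hX1.le (hexp (eA ▸ hA)) (hexp (eA ▸ hA')) (hexp (eB ▸ hB)) hb2
    eA eB rfl rfl rfl
  set Λ : ℝ := X ^ (1 / 100000 : ℝ) with hΛ
  set C₀ : ℝ := X ^ (1 / 50 : ℝ) with hC₀
  set S := rng (B / Λ) (Λ * B) with hSdef
  set γ := tw l t β with hγ
  set T : ℝ := A ^ (2 / 3 : ℝ) * B ^ (5 / 3 : ℝ) * X ^ (-(1 / 200 : ℝ)) with hT
  set Q : ℝ := C₀ ^ (1 - 1 / 1000 : ℝ) with hQ
  have hΛ1 : 1 ≤ Λ := hone _ (by norm_num)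
  have hC₀1 : 1 ≤ C₀ := hone _ (by norm_num)
  have hQ0 : 0 < Q := by positivity
  have hT0 : 0 < T := by positivity
  have hy1 : 1 ≤ Λ * B := one_le_mul_of_one_le_of_one_le hΛ1 hB1
  have hyX : Λ * B ≤ X := by
    rw [hΛ, eB, ← Real.rpow_add hX0]
    exact (Real.rpow_le_rpow_of_exponent_le hX1.le (by linarith)).trans_eq (Real.rpow_one X)
  have hS : ∀ b ∈ S, PS b ∧ B / Λ ≤ nr b ∧ nr b ≤ Λ * B := fun b hb => mem_rng.1 hb
  have hS1 : ∀ b ∈ S, PS b := fun b hb => (hS b hb).1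
  have hNW : NW 8 S γ ≤ C₅ * (Λ * B * Λ) := by
    have h7 := (h₅ X (Λ * B) hX3 (by linarith) hyX).1
    have h8 : NW 8 S γ ≤ ∑ b ∈ rng 1 (Λ * B), |(32 : ℝ)| ^ (pf b).card := by
      refine le_trans (Finset.sum_le_sum fun b hb => ?_)
        (Finset.sum_le_sum_of_subset_of_nonneg (s := S) (fun b hb => mem_rng.2
          ⟨hS1 b hb, (hS1 b hb).one_le, (hS b hb).2.2⟩) fun _ _ _ => by positivity)
      rw [hγ, norm_tw l t β (hS1 b hb).ne_zero, abs_of_pos (by norm_num),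
        show (32 : ℝ) = 2 ^ 2 * 8 by norm_num, mul_pow, ← pow_mul, mul_comm 2, pow_mul]
      exact mul_le_mul_of_nonneg_right (pow_le_pow_left₀ (norm_nonneg _) (hβ b (hS1 b hb)) 2)
        (by positivity)
    refine h8.trans (h7.trans ?_)
    rw [mul_assoc C₅]
    exact mul_le_mul_of_nonneg_left (mul_le_mul_of_nonneg_left hlJ (by positivity)) hC₅.le
  have hP : ∀ c ∈ primesIn 1 C₀, Prime c ∧ Primary c ∧ C₀ < nr c ∧ nr c ≤ 2 * C₀ := fun c hc => by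
    obtain ⟨c1, c2, -, c3, c4⟩ := (mem_primesIn (by linarith)).1 hc
    exact ⟨c1, c2, c3, c4⟩
  have hA'1 : 1 ≤ A * C₀ ^ 3 := one_le_mul_of_one_le_of_one_le hA1 (one_le_pow₀ hC₀1)
  have ht1 : 1 ≤ (1 + |t|) ^ J := one_le_pow₀ (by linarith [abs_nonneg t])
  have k₁ := h₁ A C₀ S (primesIn 1 C₀) γ (by linarith) (by linarith) hS1 hP
  have k₃ := h₃ (A * C₀ ^ 3) B (Λ * B) (X ^ (1 / 10000 : ℝ)) t S β (by linarith) (by linarith) hy1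
    (by positivity) (fun b hb => ⟨hS1 b hb, (hS b hb).2.2⟩) hrow
  have k₄ := h₄ (A * C₀ ^ 3) B Λ S γ hA'1 hB1 hΛ1 hS
  have k₆ : Q ≤ (primesIn 1 C₀).card := h₆ C₀ hP₀
  have hlog : 1 + Real.log (Λ * B) ≤ 2 * Λ := by
    have := Real.log_le_log (by linarith) hyX
    rw [pow_one] at hl1
    linarith
  -- the non-cube rows
  have m₁ : ‖NCs (A * C₀ ^ 3) S γ‖ ≤ 2 * C₃ * ((1 + |t|) ^ J * (Q * T)) := by
    refine k₃.trans ?_
    calc _ ≤ C₃ * X ^ (1 / 10000 : ℝ) * (1 + |t|) ^ J * (2 * Λ) * (A * C₀ ^ 3) *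
          (B ^ 2 / (A * C₀ ^ 3)) ^ (27 / 20 : ℝ) := by gcongr
      _ = 2 * C₃ * ((1 + |t|) ^ J * (X ^ (1 / 10000 : ℝ) * Λ * (A * C₀ ^ 3) *
          (B ^ 2 / (A * C₀ ^ 3)) ^ (27 / 20 : ℝ))) := by ring
      _ ≤ _ := by gcongr
  have hQT : Q * T ≤ (1 + |t|) ^ J * (Q * T) := le_mul_of_one_le_left (by positivity) ht1
  -- the dispersion
  have m₂ : Disp (A * C₀ ^ 3) S γ ≤ (2 * C₃ + 4 * (C₄ * C₅)) * ((1 + |t|) ^ J * (Q * T)) := by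
    refine k₄.trans ?_
    rw [add_mul]
    refine add_le_add m₁ ?_
    refine (mul_le_mul_of_nonneg_left hNW (by positivity)).trans ?_
    calc _ = C₄ * C₅ * (Λ ^ 2 * ((A * C₀ ^ 3 + (A * C₀ ^ 3) ^ (3 / 4 : ℝ) * B ^ (1 / 2 : ℝ)) +
          (A * C₀ ^ 3 * Λ * B) ^ (1 / 100000 : ℝ) * ((A * C₀ ^ 3 * B) ^ (1 / 6 : ℝ) * B +
          (A * C₀ ^ 3) ^ (1 / 2 : ℝ) * B ^ (2 / 3 : ℝ))) * (Λ * B * Λ)) := by ring
      _ ≤ C₄ * C₅ * (4 * (Q * T)) := mul_le_mul_of_nonneg_left n₂ (by positivity)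
      _ ≤ C₄ * C₅ * (4 * ((1 + |t|) ^ J * (Q * T))) := by gcongr
      _ = _ := by ring
  -- the multiples of `c`
  have m₃ : ∑ c ∈ primesIn 1 C₀, ∑ a ∈ dy A, ‖EE (Sd S c) γ a‖ ^ 2 ≤
      3 * (C₂ * C₅) * ((1 + |t|) ^ J * (Q * T)) := by
    refine (Finset.sum_le_sum fun c _ => h₂ A (Λ * B) (Sd S c) γ hA1 hy1 fun b hb =>
      ⟨hS1 b (mem_Sd.1 hb).1, (hS b (mem_Sd.1 hb).1).2.2⟩).trans ?_
    rw [← Finset.mul_sum]
    refine (mul_le_mul_of_nonneg_left ((QC_sum_N2 hS1 (fun c hc => ⟨(hP c hc).1, (hP c hc).2.1⟩)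
      γ).trans hNW) (by positivity)).trans ?_
    calc _ = C₂ * C₅ * ((A * (Λ * B)) ^ (1 / 100000 : ℝ) * (A + (A * (Λ * B)) ^ (2 / 3 : ℝ) +
          A ^ (1 / 3 : ℝ) * (Λ * B)) * (Λ * B * Λ)) := by ring
      _ ≤ C₂ * C₅ * (3 * (Q * T)) := mul_le_mul_of_nonneg_left n₃ (by positivity)
      _ ≤ C₂ * C₅ * (3 * ((1 + |t|) ^ J * (Q * T))) := by gcongr
      _ = _ := by ring
  have m₄ : Q * ∑ a ∈ dy A, ‖EE S γ a‖ ^ 2 ≤
      Q * ((C₁ * (2 * C₃ + 4 * (C₄ * C₅)) + 6 * (C₂ * C₅)) * ((1 + |t|) ^ J * T)) := by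
    refine (mul_le_mul_of_nonneg_right k₆ (Finset.sum_nonneg fun _ _ => by positivity)).trans
      (k₁.trans ((add_le_add (mul_le_mul_of_nonneg_left m₂ hC₁.le)
        (mul_le_mul_of_nonneg_left m₃ (by norm_num))).trans_eq ?_))
    ring
  refine (le_of_mul_le_mul_left m₄ hQ0).trans_eq ?_
  rw [hT]
  ring

end Crest.Agent.R12
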