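import Crest.Agent.R12.QB
import Crest.Agent.R12.QC
import Crest.Agent.R12.DspH
import Crest.Agent.R12.CmbB

/-!
# Row 12, analytic half: two smooth variables of total size one half
-/

set_option autoImplicit false

noncomputable section

namespace Crest.Agent.R12

open Crest.Agent.R17
open scoped ComplexConjugate Topology
open Filter MeasureTheory

theorem QD_triv (Sa Sb : Finset O) (α β : O → ℂ) (c : O → O → ℂ) {η P Q : ℝ} (hη : 0 ≤ η)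
    (hc : ∀ a ∈ Sa, ∀ b ∈ Sb, ‖c a b‖ ≤ η) (hP : ∑ a ∈ Sa, ‖α a‖ ≤ P) (hQ : ∑ b ∈ Sb, ‖β b‖ ≤ Q) :
    ‖∑ a ∈ Sa, ∑ b ∈ Sb, α a * β b * c a b‖ ≤ η * P * Q := by
  have h0 : 0 ≤ ∑ a ∈ Sa, ‖α a‖ := Finset.sum_nonneg fun _ _ => norm_nonneg _
  have h1 : 0 ≤ ∑ b ∈ Sb, ‖β b‖ := Finset.sum_nonneg fun _ _ => norm_nonneg _
  calc ‖∑ a ∈ Sa, ∑ b ∈ Sb, α a * β b * c a b‖
      ≤ ∑ a ∈ Sa, ∑ b ∈ Sb, ‖α a‖ * ‖β b‖ * η := by
        refine (norm_sum_le _ _).trans (Finset.sum_le_sum fun a ha => ?_)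
        refine (norm_sum_le _ _).trans (Finset.sum_le_sum fun b hb => ?_)
        rw [norm_mul, norm_mul]
        exact mul_le_mul_of_nonneg_left (hc a ha b hb) (by positivity)
    _ = η * (∑ a ∈ Sa, ‖α a‖) * ∑ b ∈ Sb, ‖β b‖ := by
        rw [mul_assoc, Finset.sum_mul_sum, Finset.mul_sum]
        refine Finset.sum_congr rfl fun a _ => ?_
        rw [Finset.mul_sum]
        exact Finset.sum_congr rfl fun b _ => by ring
    _ ≤ η * P * Q :=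
        mul_le_mul (mul_le_mul_of_nonneg_left hP hη) hQ h1 (mul_nonneg hη (h0.trans hP))

theorem QD_sumA {α : O → ℂ} {𝒜 X : ℝ} (h𝒜 : 0 ≤ 𝒜) (hX : 0 ≤ X)
    (h : ∀ y : ℝ, 0 ≤ y → N2 (rng 1 y) α ≤ 𝒜 * y) {S : Finset O} (hS : S ⊆ rng 1 (2 * X)) :
    ∑ a ∈ S, ‖α a‖ ≤ 6 * Real.sqrt 𝒜 * X := by
  refine (Finset.sum_le_sum_of_subset_of_nonneg hS fun _ _ _ => norm_nonneg _).trans ?_
  have h1 := sq_sum_norm_le (rng 1 (2 * X)) α
  have h2 := card_rng_le 1 (y := 2 * X) (by positivity)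
  have h3 := h (2 * X) (by positivity)
  have h4 : 0 ≤ N2 (rng 1 (2 * X)) α := Finset.sum_nonneg fun _ _ => by positivity
  have h5 : ((rng 1 (2 * X)).card : ℝ) * N2 (rng 1 (2 * X)) α ≤ 7 * (2 * X) * (𝒜 * (2 * X)) :=
    mul_le_mul h2 h3 h4 (by positivity)
  refine le_of_sq_le_sq ?_ (by positivity)
  have h6 : (6 * Real.sqrt 𝒜 * X) ^ 2 = 36 * (𝒜 * X ^ 2) := by
    rw [mul_pow, mul_pow, Real.sq_sqrt h𝒜]; ring
  have h7 : 0 ≤ 𝒜 * X ^ 2 := by positivity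
  rw [h6]
  nlinarith

theorem QD_sumB {β : AF} (hβ : Bd 2 β) {X : ℝ} (hX : 0 ≤ X) {S : Finset O}
    (hS : S ⊆ rng 1 (2 * X)) : ∑ b ∈ S, ‖β b‖ ≤ 56 * X ^ 3 := by
  refine (Finset.sum_le_sum_of_subset_of_nonneg hS fun _ _ _ => norm_nonneg _).trans ?_
  have h1 : ∀ b ∈ rng 1 (2 * X), ‖β b‖ ≤ (2 * X) ^ 2 := fun b hb => by
    obtain ⟨b1, b2, b3⟩ := mem_rng.1 hb
    have h2 := card_pf_le_log b1.ne_zero
    have h3 : (2 : ℝ) ^ (pf b).card ≤ Real.exp 1 ^ (pf b).card :=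
      pow_le_pow_left₀ (by norm_num) (by linarith [Real.add_one_le_exp 1]) _
    have h4 : Real.exp 1 ^ (pf b).card ≤ nr b ^ 2 := by
      rw [← Real.exp_nat_mul, mul_one]
      refine (Real.exp_le_exp.2 h2).trans (le_of_eq ?_)
      rw [show (2 : ℝ) = ((2 : ℕ) : ℝ) by norm_num, Real.exp_nat_mul,
        Real.exp_log (by linarith)]
    exact (hβ b b1).trans (h3.trans (h4.trans (pow_le_pow_left₀ (by linarith) b3 2)))
  have h2 := Finset.sum_le_card_nsmul _ _ _ h1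
  rw [nsmul_eq_mul] at h2
  have h3 := card_rng_le 1 (y := 2 * X) (by positivity)
  refine h2.trans ((mul_le_mul_of_nonneg_right h3 (by positivity)).trans (le_of_eq (by ring)))

open Classical in
theorem QD_split (l : ℤ) (v : ℝ → ℂ) (X : ℝ) (α β : AF) {S : Finset O} (hS : S ⊆ rng 1 (2 * X)) :
    pr l v X (α * β) = Bil l v X (rng 1 (2 * X)) S α β +
      (∑ a ∈ rng 1 (2 * X), ∑ b ∈ rng 1 (2 * X) \ S, α a * β b *
        if X / 4 ≤ nr (a * b) ∧ nr (a * b) ≤ 2 * X then ff l (a * b) * v (nr (a * b) / X) else 0) -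
      ∑ a ∈ rng 1 (2 * X), ∑ b ∈ S, α a * β b *
        if X / 4 ≤ nr (a * b) ∧ nr (a * b) ≤ 2 * X then 0 else ff l (a * b) * v (nr (a * b) / X) := by
  rw [pr_mul, Bil, ← Finset.sum_add_distrib, ← Finset.sum_sub_distrib]
  refine Finset.sum_congr rfl fun a _ => ?_
  rw [← Finset.sum_sdiff hS, add_comm, add_sub_right_comm, ← Finset.sum_sub_distrib]
  congr 1
  · refine Finset.sum_congr rfl fun b _ => ?_
    split_ifs <;> simp
  · refine Finset.sum_congr rfl fun b _ => ?_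
    split_ifs <;> simp

theorem QD_dyadic (l : ℤ) (v : ℝ → ℂ) {X : ℝ} (hX : 3 ≤ X) (α β : O → ℂ) (S : Finset O)
    (hα : ∀ a, PS a → 2 * X < nr a → α a = 0) :
    Bil l v X (rng 1 (2 * X)) S α β =
      ∑ j ∈ Finset.range (nB X), Bil l v X (dy (2 ^ j / 2)) S α β := by
  classical
  have h := sum_rng_eq_dy hX (fun a => if nr a ≤ 2 * X then
    ∑ b ∈ S, α a * β b * (ff l (a * b) * v (nr (a * b) / X)) else 0)
    (fun n hn => if_neg (not_le.2 hn))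
  have e1 : ∀ K : Finset O, (∀ a ∈ K, PS a) → ∑ a ∈ K, (if nr a ≤ 2 * X then
      ∑ b ∈ S, α a * β b * (ff l (a * b) * v (nr (a * b) / X)) else 0) = Bil l v X K S α β :=
    fun K hK => Finset.sum_congr rfl fun a ha => by
      split_ifs with h1
      · rfl
      · simp [hα a (hK a ha) (not_le.1 h1)]
  rw [e1 _ fun a ha => (mem_rng.1 ha).1] at h
  rw [h]
  exact Finset.sum_congr rfl fun j _ => e1 _ fun a ha => (mem_dy.1 ha).1

theorem QD_sqrt {C u A Y X : ℝ} (hC : 0 ≤ C) (hu : 1 ≤ u) (hA : 0 ≤ A) (hY : 0 ≤ Y) (hX : 0 ≤ X)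
    {s : ℝ} (h : s ≤ C * u * A ^ (2 / 3 : ℝ) * Y ^ (5 / 3 : ℝ) * X ^ (-(1 / 200 : ℝ))) :
    Real.sqrt s ≤
      Real.sqrt C * A ^ (1 / 3 : ℝ) * Y ^ (5 / 6 : ℝ) * X ^ (-(1 / 400 : ℝ)) * u := by
  refine Real.sqrt_le_iff.2 ⟨by positivity, h.trans ?_⟩
  have e1 : (A ^ (1 / 3 : ℝ)) ^ 2 = A ^ (2 / 3 : ℝ) := by
    rw [← Real.rpow_natCast, ← Real.rpow_mul hA]; norm_num
  have e2 : (Y ^ (5 / 6 : ℝ)) ^ 2 = Y ^ (5 / 3 : ℝ) := by
    rw [← Real.rpow_natCast, ← Real.rpow_mul hY]; norm_num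
  have e3 : (X ^ (-(1 / 400 : ℝ))) ^ 2 = X ^ (-(1 / 200 : ℝ)) := by
    rw [← Real.rpow_natCast, ← Real.rpow_mul hX]; norm_num
  rw [mul_pow, mul_pow, mul_pow, mul_pow, e1, e2, e3, Real.sq_sqrt hC]
  have h1 : 0 ≤ C * A ^ (2 / 3 : ℝ) * Y ^ (5 / 3 : ℝ) * X ^ (-(1 / 200 : ℝ)) := by positivity
  have h2 : u ≤ u ^ 2 := by nlinarith
  calc C * u * A ^ (2 / 3 : ℝ) * Y ^ (5 / 3 : ℝ) * X ^ (-(1 / 200 : ℝ))
      = C * A ^ (2 / 3 : ℝ) * Y ^ (5 / 3 : ℝ) * X ^ (-(1 / 200 : ℝ)) * u := by ring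
    _ ≤ _ := mul_le_mul_of_nonneg_left h2 h1

theorem QD_num {X A Y T 𝒜 N : ℝ} (J : ℕ) (hX : 1 ≤ X) (hA : 0 < A) (hY : 0 < Y) (hT : 1 ≤ T)
    (h𝒜 : 0 ≤ 𝒜) (hN : N ≤ 𝒜 * (2 * A)) (hAY : A * Y ≤ 2 * X ^ (1 / 100000 : ℝ) * X)
    (hTX : T ≤ X ^ (1 / (8000 * (J + 1)) : ℝ)) :
    Real.sqrt N * (A ^ (1 / 3 : ℝ) * Y ^ (5 / 6 : ℝ) * X ^ (-(1 / 400 : ℝ)) * Real.log (2 + T) *
      T ^ J) ≤ 8 * Real.sqrt 𝒜 * X ^ (5 / 6 - 1 / 500 - 1 / 8000 : ℝ) := by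
  have hX0 : 0 < X := by linarith
  have h1 : Real.sqrt N ≤ 2 * Real.sqrt 𝒜 * A ^ (1 / 2 : ℝ) := by
    refine Real.sqrt_le_iff.2 ⟨by positivity, hN.trans ?_⟩
    have e1 : (A ^ (1 / 2 : ℝ)) ^ 2 = A := by
      rw [← Real.rpow_natCast, ← Real.rpow_mul hA.le]; norm_num
    rw [mul_pow, mul_pow, e1, Real.sq_sqrt h𝒜]
    nlinarith [mul_nonneg h𝒜 hA.le]
  have h2 : Real.log (2 + T) ≤ 2 * T := by
    linarith [Real.log_le_sub_one_of_pos (show 0 < 2 + T by linarith)]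
  have h2' : 0 ≤ Real.log (2 + T) := Real.log_nonneg (by linarith)
  have h3 : T * T ^ J ≤ X ^ (1 / 8000 : ℝ) := by
    rw [← pow_succ']
    refine (pow_le_pow_left₀ (by linarith) hTX _).trans (le_of_eq ?_)
    rw [← Real.rpow_natCast, ← Real.rpow_mul hX0.le]
    congr 1
    push_cast
    field_simp
  have h4 : A ^ (1 / 2 : ℝ) * A ^ (1 / 3 : ℝ) * Y ^ (5 / 6 : ℝ) ≤
      2 * X ^ (5 / 6 + 1 / 100000 : ℝ) := by
    rw [← Real.rpow_add hA, show (1 / 2 + 1 / 3 : ℝ) = 5 / 6 by norm_num,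
      ← Real.mul_rpow hA.le hY.le]
    refine (Real.rpow_le_rpow (by positivity) hAY (by norm_num)).trans ?_
    rw [mul_assoc, Real.mul_rpow (by norm_num) (by positivity), ← Real.rpow_add_one hX0.ne',
      ← Real.rpow_mul hX0.le]
    refine mul_le_mul ?_ (Real.rpow_le_rpow_of_exponent_le hX (by norm_num)) (by positivity)
      (by norm_num)
    calc (2 : ℝ) ^ (5 / 6 : ℝ) ≤ 2 ^ (1 : ℝ) :=
          Real.rpow_le_rpow_of_exponent_le (by norm_num) (by norm_num)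
      _ = 2 := Real.rpow_one 2
  have h5 : X ^ (5 / 6 + 1 / 100000 : ℝ) * X ^ (-(1 / 400 : ℝ)) * X ^ (1 / 8000 : ℝ) ≤
      X ^ (5 / 6 - 1 / 500 - 1 / 8000 : ℝ) := by
    rw [← Real.rpow_add hX0, ← Real.rpow_add hX0]
    exact Real.rpow_le_rpow_of_exponent_le hX (by norm_num)
  calc Real.sqrt N * (A ^ (1 / 3 : ℝ) * Y ^ (5 / 6 : ℝ) * X ^ (-(1 / 400 : ℝ)) * Real.log (2 + T) *
        T ^ J)
      ≤ 2 * Real.sqrt 𝒜 * A ^ (1 / 2 : ℝ) * (A ^ (1 / 3 : ℝ) * Y ^ (5 / 6 : ℝ) *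
          X ^ (-(1 / 400 : ℝ)) * (2 * T) * T ^ J) := by gcongr
    _ = 4 * Real.sqrt 𝒜 * ((A ^ (1 / 2 : ℝ) * A ^ (1 / 3 : ℝ) * Y ^ (5 / 6 : ℝ)) *
          X ^ (-(1 / 400 : ℝ)) * (T * T ^ J)) := by ring
    _ ≤ 4 * Real.sqrt 𝒜 * ((2 * X ^ (5 / 6 + 1 / 100000 : ℝ)) *
          X ^ (-(1 / 400 : ℝ)) * X ^ (1 / 8000 : ℝ)) := by gcongr
    _ = 8 * Real.sqrt 𝒜 * (X ^ (5 / 6 + 1 / 100000 : ℝ) *
          X ^ (-(1 / 400 : ℝ)) * X ^ (1 / 8000 : ℝ)) := by ring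
    _ ≤ _ := by gcongr

theorem QD_ev : ∀ᶠ X : ℝ in atTop, 3 ≤ X ∧ 1 ≤ Real.log X ∧ Real.log X ≤ X ^ (1 / 8000 : ℝ) ∧
    2 ≤ X ^ (1 / 1000 : ℝ) := by
  have h1 := (isLittleO_log_rpow_atTop (r := 1 / 8000) (by norm_num)).bound one_pos
  filter_upwards [eventually_ge_atTop 3, Real.tendsto_log_atTop.eventually_ge_atTop 1, h1,
    (tendsto_rpow_atTop (y := 1 / 1000) (by norm_num)).eventually_ge_atTop 2] with X a b c d
  refine ⟨a, b, ?_, d⟩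
  rw [one_mul, Real.norm_of_nonneg (by linarith), Real.norm_of_nonneg (by positivity)] at c
  exact c

/-- Replace `β` by its restriction to `rng (Y/Λ) (Λ Y)` (`rowHyp_QW`), decompose `α` dyadically;
blocks with `A Y > 2 Λ X` are empty, in the others remove the truncation (`Adm.tail_le`);
`bil_le_of_EE` with `E₃ = 0`, `propQ_core`. -/
theorem propQ (l : ℤ) : ∃ δ₁ C X₀ : ℝ, 0 < δ₁ ∧ 0 < C ∧ ∀ X ≥ X₀, ∀ (v : ℝ → ℂ) (Φ : ℂ → ℂ)
    (T T₁ Y 𝒜 : ℝ) (α β : AF), Adm v Φ T T₁ → Real.log X ^ 2 ≤ T → T ≤ X ^ δ₁ → 0 ≤ 𝒜 →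
    Sup α (X ^ (497 / 1000 : ℝ)) (X ^ (503 / 1000 : ℝ)) →
    (∀ y : ℝ, 0 ≤ y → N2 (rng 1 y) α ≤ 𝒜 * y) → QW X β Y → X ^ (497 / 1000 : ℝ) ≤ Y →
    Y ≤ X ^ (503 / 1000 : ℝ) →
    ‖pr l v X (α * β)‖ ≤ C * Real.sqrt 𝒜 * X ^ (5 / 6 - 1 / 500 : ℝ) := by
  classical
  obtain ⟨J, X₁, h₁⟩ := rowHyp_QW l
  obtain ⟨C₂, X₂, hC₂, h₂⟩ := propQ_core l J
  obtain ⟨C₃, hC₃, h₃⟩ := bil_le_of_EE l J
  obtain ⟨X₄, h₄⟩ := Adm.tail_le
  obtain ⟨X₅, h₅⟩ := eventually_atTop.1 QD_ev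
  have hcP := AFa_cP_pos
  set K : ℝ := 8 * C₃ * Real.sqrt C₂ + 336 * (1 + cP) with hK
  have hK0 : 0 < K := by positivity
  refine ⟨1 / (8000 * (J + 1)), 6 * K + 342 * (1 + cP), max (max X₁ X₂) (max X₄ X₅),
    by positivity, by positivity, ?_⟩
  intro X hX v Φ T T₁ Y 𝒜 α β hv hT hTX h𝒜 hα hN hβ hY₁ hY₂
  have hX₁ : X₁ ≤ X := (le_max_left _ _).trans ((le_max_left _ _).trans hX)
  have hX₂ : X₂ ≤ X := (le_max_right _ _).trans ((le_max_left _ _).trans hX)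
  have hX₄ : X₄ ≤ X := (le_max_left _ _).trans ((le_max_right _ _).trans hX)
  obtain ⟨hX3, hL1, hL2, hX2⟩ := h₅ X ((le_max_right _ _).trans ((le_max_right _ _).trans hX))
  have hX1 : 1 ≤ X := by linarith
  have hX0 : 0 < X := by linarith
  have hexp : ∀ {a b : ℝ}, a ≤ b → X ^ a ≤ X ^ b := fun h =>
    Real.rpow_le_rpow_of_exponent_le hX1 h
  have hone : X ^ (503 / 1000 : ℝ) ≤ X := by
    simpa using hexp (show (503 / 1000 : ℝ) ≤ 1 by norm_num)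
  have hY0 : 0 < Y := (Real.rpow_pos_of_pos hX0 _).trans_le hY₁
  have hT1 : 1 ≤ T := hv.one_le.trans hv.le
  obtain ⟨hrow, hbd, htail⟩ := h₁ X hX₁ β Y hβ ((hexp (by norm_num)).trans hY₁)
    (hY₂.trans (hexp (by norm_num)))
  obtain ⟨hv20, -, -⟩ := h₄ X hX₄ v Φ T T₁ hv hT
  set Λ : ℝ := X ^ (1 / 100000 : ℝ) with hΛ
  have hΛ0 : 0 < Λ := Real.rpow_pos_of_pos hX0 _
  set S : Finset O := rng (Y / Λ) (Λ * Y) with hSd
  have hS : S ⊆ rng 1 (2 * X) := fun b hb => by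
    obtain ⟨b1, -, b3⟩ := mem_rng.1 hb
    refine mem_rng.2 ⟨b1, b1.one_le, b3.trans ?_⟩
    have h1 : Λ * Y ≤ X ^ (1 / 100000 : ℝ) * X ^ (503 / 1000 : ℝ) :=
      mul_le_mul_of_nonneg_left hY₂ hΛ0.le
    rw [← Real.rpow_add hX0] at h1
    have h2 : X ^ (1 / 100000 + 503 / 1000 : ℝ) ≤ X := by
      simpa using hexp (show (1 / 100000 + 503 / 1000 : ℝ) ≤ 1 by norm_num)
    linarith
  have hsB := QD_sumB hbd hX0.le hS
  have hw : ∀ a b : O, PS a → PS b → 0 < nr (a * b) / X := fun a b ha hb =>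
    div_pos (nr_pos (mul_ne_zero ha.ne_zero hb.ne_zero)) hX0
  have hout : ∀ a b : O, PS a → PS b → ¬ (X / 4 ≤ nr (a * b) ∧ nr (a * b) ≤ 2 * X) →
      ‖ff l (a * b) * v (nr (a * b) / X)‖ ≤ (1 + cP) * X ^ (-20 : ℝ) := fun a b ha hb h => by
    rw [norm_mul]
    refine mul_le_mul (norm_ff_le _ _) (hv20 _ (hw a b ha hb) ?_) (norm_nonneg _) (by positivity)
    rcases not_and_or.1 h with h | h
    · exact Or.inl (by rw [div_lt_iff₀ hX0]; linarith [not_le.1 h])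
    · exact Or.inr (by rw [lt_div_iff₀ hX0]; exact not_le.1 h)
  have hsm : X ^ (-20 : ℝ) * X * X ^ 3 ≤ 1 := by
    rw [← Real.rpow_add_one hX0.ne', ← Real.rpow_natCast, ← Real.rpow_add hX0]
    exact Real.rpow_le_one_of_one_le_of_nonpos hX1 (by norm_num)
  have hsm' : X * X ^ (-10 : ℝ) ≤ 1 := by
    rw [mul_comm, ← Real.rpow_add_one hX0.ne']
    exact Real.rpow_le_one_of_one_le_of_nonpos hX1 (by norm_num)
  have hsq := Real.sqrt_nonneg 𝒜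
  have hfin : (1 + cP) * X ^ (-20 : ℝ) * (6 * Real.sqrt 𝒜 * X) * (56 * X ^ 3) ≤
      336 * (1 + cP) * Real.sqrt 𝒜 :=
    calc (1 + cP) * X ^ (-20 : ℝ) * (6 * Real.sqrt 𝒜 * X) * (56 * X ^ 3)
        = 336 * (1 + cP) * Real.sqrt 𝒜 * (X ^ (-20 : ℝ) * X * X ^ 3) := by ring
      _ ≤ _ := mul_le_of_le_one_right (by positivity) hsm
  set W : ℝ := X ^ (5 / 6 - 1 / 500 - 1 / 8000 : ℝ) with hW
  have hW1 : 1 ≤ W := Real.one_le_rpow hX1 (by norm_num)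
  have hblk : ∀ A : ℝ, ‖Bil l v X (dy A) S α β‖ ≤ K * Real.sqrt 𝒜 * W := fun A => by
    by_cases hz : ∀ a ∈ dy A, α a = 0
    · have : Bil l v X (dy A) S α β = 0 :=
        Finset.sum_eq_zero fun a ha => by simp [hz a ha]
      rw [this, norm_zero]; positivity
    push Not at hz
    obtain ⟨a₀, ha₀, hne⟩ := hz
    obtain ⟨a1, a2, a3⟩ := mem_dy.1 ha₀
    obtain ⟨a4, a5⟩ := hα a₀ a1 hne
    have hA0 : 0 < A := by linarith [a1.one_le]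
    have hAX : A ≤ X := by linarith
    have hdy : dy A ⊆ rng 1 (2 * A) := fun a ha => by
      obtain ⟨b1, -, b3⟩ := mem_dy.1 ha
      exact mem_rng.2 ⟨b1, b1.one_le, b3⟩
    by_cases hAY : A * Y ≤ 2 * Λ * X
    · have hA1 : X ^ (496 / 1000 : ℝ) ≤ A := by
        have h1 : X ^ (496 / 1000 : ℝ) * X ^ (1 / 1000 : ℝ) = X ^ (497 / 1000 : ℝ) := by
          rw [← Real.rpow_add hX0]; norm_num
        nlinarith [Real.rpow_pos_of_pos hX0 (496 / 1000 : ℝ)]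
      have hA2 : A ≤ X ^ (504 / 1000 : ℝ) := (a2.le.trans a5).trans (hexp (by norm_num))
      have hb := h₃ X T T₁
        (Real.sqrt C₂ * A ^ (1 / 3 : ℝ) * Y ^ (5 / 6 : ℝ) * X ^ (-(1 / 400 : ℝ))) 0 0 v Φ (dy A) S α β
        hX0 hv (fun a ha => (mem_dy.1 ha).1) (fun b hb => (mem_rng.1 hb).1) (by positivity) le_rfl
        le_rfl fun t => by
          rw [ite_self, add_zero]
          exact QD_sqrt hC₂.le (one_le_pow₀ (by linarith [abs_nonneg t])) hA0.le hY0.le hX0.le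
            (h₂ X hX₂ A Y t β hA1 hA2 ((hexp (by norm_num)).trans hY₁)
              (hY₂.trans (hexp (by norm_num))) hbd hrow)
      have hN' : N2 (dy A) α ≤ 𝒜 * (2 * A) :=
        (Finset.sum_le_sum_of_subset_of_nonneg hdy fun _ _ _ => by positivity).trans
          (hN _ (by positivity))
      have hn := QD_num J hX1 hA0 hY0 hT1 h𝒜 hN' hAY hTX
      calc ‖Bil l v X (dy A) S α β‖ ≤ _ := hb
        _ = C₃ * Real.sqrt C₂ * (Real.sqrt (N2 (dy A) α) * (A ^ (1 / 3 : ℝ) * Y ^ (5 / 6 : ℝ) *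
            X ^ (-(1 / 400 : ℝ)) * Real.log (2 + T) * T ^ J)) := by ring
        _ ≤ C₃ * Real.sqrt C₂ * (8 * Real.sqrt 𝒜 * W) :=
            mul_le_mul_of_nonneg_left hn (by positivity)
        _ = 8 * C₃ * Real.sqrt C₂ * Real.sqrt 𝒜 * W := by ring
        _ ≤ K * Real.sqrt 𝒜 * W := by
            gcongr
            exact le_add_of_nonneg_right (by positivity)
    · have hdy' : dy A ⊆ rng 1 (2 * X) := fun a ha => by
        obtain ⟨b1, -, b3⟩ := mem_dy.1 ha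
        exact mem_rng.2 ⟨b1, b1.one_le, by linarith⟩
      have hb := QD_triv (dy A) S α β (fun a b => ff l (a * b) * v (nr (a * b) / X))
        (η := (1 + cP) * X ^ (-20 : ℝ)) (by positivity) (fun a ha b hb => by
          obtain ⟨c1, c2, -⟩ := mem_dy.1 ha
          obtain ⟨d1, d2, -⟩ := mem_rng.1 hb
          refine hout a b c1 d1 fun h => hAY ?_
          have h1 : A * (Y / Λ) ≤ nr a * nr b :=
            mul_le_mul c2.le d2 (by positivity) (by linarith)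
          rw [← nr_mul, ← mul_div_assoc, div_le_iff₀ hΛ0] at h1
          nlinarith [h.2]) (QD_sumA h𝒜 hX0.le hN hdy') hsB
      calc ‖Bil l v X (dy A) S α β‖ ≤ _ := hb
        _ ≤ 336 * (1 + cP) * Real.sqrt 𝒜 := hfin
        _ ≤ K * Real.sqrt 𝒜 := by
            gcongr
            exact le_add_of_nonneg_left (by positivity)
        _ ≤ _ := le_mul_of_one_le_right (by positivity) hW1
  have hmain : ‖Bil l v X (rng 1 (2 * X)) S α β‖ ≤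
      6 * K * Real.sqrt 𝒜 * X ^ (5 / 6 - 1 / 500 : ℝ) := by
    rw [QD_dyadic l v hX3 α β S fun a ha h => by
      by_contra hne
      linarith [(hα a ha hne).2]]
    refine (norm_sum_le _ _).trans ((Finset.sum_le_card_nsmul _ _ _ fun j _ => hblk _).trans ?_)
    rw [Finset.card_range, nsmul_eq_mul]
    have e : X ^ (5 / 6 - 1 / 500 : ℝ) = X ^ (1 / 8000 : ℝ) * W := by
      rw [hW, ← Real.rpow_add hX0]; norm_num
    calc (nB X : ℝ) * (K * Real.sqrt 𝒜 * W) ≤ 6 * X ^ (1 / 8000 : ℝ) * (K * Real.sqrt 𝒜 * W) :=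
          mul_le_mul_of_nonneg_right ((nB_le hX3).trans (by linarith)) (by positivity)
      _ = _ := by rw [e]; ring
  have hsA := QD_sumA h𝒜 hX0.le hN (Finset.Subset.refl _)
  have ht1 := QD_triv (rng 1 (2 * X)) (rng 1 (2 * X) \ S) α β (fun a b =>
    if X / 4 ≤ nr (a * b) ∧ nr (a * b) ≤ 2 * X then ff l (a * b) * v (nr (a * b) / X) else 0)
    (η := 1 + cP) (by positivity) (fun a ha b hb => by
      split_ifs
      · rw [norm_mul]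
        refine (mul_le_of_le_one_right (norm_nonneg _) ?_).trans (norm_ff_le _ _)
        refine (hv.sp _ (hw a b (mem_rng.1 ha).1 (mem_rng.1 (Finset.mem_sdiff.1 hb).1).1)).trans
          (Real.exp_le_one_iff.2 ?_)
        exact mul_nonpos_of_nonpos_of_nonneg (by linarith [hv.one_le]) (abs_nonneg _)
      · rw [norm_zero]; positivity) hsA htail
  have ht2 := QD_triv (rng 1 (2 * X)) S α β (fun a b =>
    if X / 4 ≤ nr (a * b) ∧ nr (a * b) ≤ 2 * X then 0 else ff l (a * b) * v (nr (a * b) / X))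
    (η := (1 + cP) * X ^ (-20 : ℝ)) (by positivity) (fun a ha b hb => by
      split_ifs with h
      · rw [norm_zero]; positivity
      · exact hout a b (mem_rng.1 ha).1 (mem_rng.1 hb).1 h) hsA hsB
  have ht1' : (1 + cP) * (6 * Real.sqrt 𝒜 * X) * X ^ (-10 : ℝ) ≤ 6 * (1 + cP) * Real.sqrt 𝒜 :=
    calc (1 + cP) * (6 * Real.sqrt 𝒜 * X) * X ^ (-10 : ℝ)
        = 6 * (1 + cP) * Real.sqrt 𝒜 * (X * X ^ (-10 : ℝ)) := by ring
      _ ≤ _ := mul_le_of_le_one_right (by positivity) hsm'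
  have hZ : 1 ≤ X ^ (5 / 6 - 1 / 500 : ℝ) := Real.one_le_rpow hX1 (by norm_num)
  have hlast : 342 * (1 + cP) * Real.sqrt 𝒜 ≤
      342 * (1 + cP) * Real.sqrt 𝒜 * X ^ (5 / 6 - 1 / 500 : ℝ) :=
    le_mul_of_one_le_right (by positivity) hZ
  rw [QD_split l v X α β hS]
  refine (norm_sub_le _ _).trans ((add_le_add (norm_add_le _ _) le_rfl).trans ?_)
  linarith

end Crest.Agent.R12
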