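import Crest.Agent.R12.TI1

/-!
# Row 12, analytic half: type I sums
-/

set_option autoImplicit false

noncomputable section

namespace Crest.Agent.R12

open Crest.Agent.R17
open scoped ComplexConjugate Topology
open Filter MeasureTheory

theorem TI_summable (l : ℤ) {v : ℝ → ℂ} {Φ : ℂ → ℂ} {T T₁ X : ℝ} (h : Adm v Φ T T₁)
    (hX : 0 < X) {r : O} (hr : r ≠ 0) :
    Summable fun c : O => ‖ff l (r * c) * v (nr (r * c) / X)‖ := by
  have hinj : Function.Injective fun c : O => r * c := mul_right_injective₀ hr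
  have h1 : Summable fun n : O => ‖ff l n * v (nr n / X)‖ := by
    refine Summable.of_nonneg_of_le (fun _ => norm_nonneg _) (fun n => ?_)
      ((summable_nr_rpow (σ := 2) (by norm_num)).mul_left ((1 + cP) * X ^ 2))
    have hc : 0 ≤ 1 + cP := (norm_nonneg _).trans (norm_ff_le l 0)
    by_cases hn : n = 0
    · subst hn
      rw [ff_of_not l (fun h' => h'.ne_zero rfl), zero_mul, norm_zero]
      positivity
    · rw [norm_mul, mul_assoc]
      exact mul_le_mul (norm_ff_le l n) (TI1_v_le h hX hn) (norm_nonneg _) hc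
  exact h1.comp_injective hinj

theorem TI_cpow {x X : ℝ} (hx : 0 < x) (hX : 0 < X) {r c : O} (hr : r ≠ 0) (hc : c ≠ 0)
    (s : ℂ) : ((x * nr c : ℝ) : ℂ) ^ s =
      ((x * X / nr r : ℝ) : ℂ) ^ s * ((nr (r * c) / X : ℝ) : ℂ) ^ s := by
  have h1 := nr_pos hr
  have h2 := nr_pos hc
  have h3 := nr_pos (mul_ne_zero hr hc)
  rw [← Complex.mul_cpow_ofReal_nonneg (by positivity) (by positivity), ← Complex.ofReal_mul]
  congr 2
  rw [nr_mul]
  field_simp

/-- With an additional weight on the smooth variable (`GM.tsum_le`, `Adm.twist`). -/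
theorem typeI_gm (l : ℤ) {ε : ℝ} (hε : 0 < ε) : ∃ C : ℝ, 0 < C ∧ ∀ (X T T₁ P x : ℝ) (v ψ : ℝ → ℂ)
    (Φ : ℂ → ℂ) (r : O), 3 ≤ X → Adm v Φ T T₁ → T ≤ X ^ (1 / 3 : ℝ) → PS r → nr r ≤ X → GM ψ P →
    0 < x → ‖∑' c : O, ψ (x * nr c) * (ff l (r * c) * v (nr (r * c) / X))‖ ≤
      C * P * X ^ (1 / 2 + ε) * nr r ^ (-(1 / 4 : ℝ)) * (T / Real.sqrt T₁) := by
  obtain ⟨C₁, hC₁, h₁⟩ := GM.tsum_le
  obtain ⟨C₂, hC₂, h₂⟩ := typeI_ff l hε
  refine ⟨C₁ * C₂, by positivity, fun X T T₁ P x v ψ Φ r hX h hT hr hrX hψ hx => ?_⟩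
  have hX0 : 0 < X := by linarith
  have hr0 := nr_pos hr.ne_zero
  have hT0 : 0 ≤ T := by linarith [h.one_le_T]
  set E : ℝ := C₂ * X ^ (1 / 2 + ε) * nr r ^ (-(1 / 4 : ℝ)) * (T / Real.sqrt T₁) with hE
  have hE0 : 0 ≤ E := by positivity
  have hne : ∀ c : O, ff l (r * c) * v (nr (r * c) / X) ≠ 0 → c ≠ 0 := by
    rintro c hc rfl
    exact hc (by rw [mul_zero, ff_of_not l (fun h' => h'.ne_zero rfl), zero_mul])
  have key := h₁ ψ P E (fun c => ff l (r * c) * v (nr (r * c) / X)) (fun c => x * nr c) hψ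
    (TI_summable l h hX0 hr.ne_zero) (fun c hc => mul_pos hx (nr_pos (hne c hc))) hE0 ?_
  · simp_rw [mul_comm (ψ _)]
    refine key.trans (le_of_eq ?_)
    rw [hE]; ring
  intro t
  have h3 := h₂ X T T₁ _ _ r hX (h.twist (-t)) hT hr hrX
  rw [abs_neg, ← hE] at h3
  set K : ℝ := (1 + |t|) * Real.exp |t| with hK
  have hK0 : 0 < K := by positivity
  have e : ∀ c : O, ff l (r * c) * v (nr (r * c) / X) * ((x * nr c : ℝ) : ℂ) ^ (-(t * Complex.I)) =
      (((x * X / nr r : ℝ) : ℂ) ^ (-(t * Complex.I)) * (K : ℂ)) * (ff l (r * c) *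
        (((K⁻¹ : ℝ) : ℂ) * (v (nr (r * c) / X) *
          ((nr (r * c) / X : ℝ) : ℂ) ^ (((-t : ℝ) : ℂ) * Complex.I)))) := by
    intro c
    by_cases hc : c = 0
    · subst hc
      rw [mul_zero, ff_of_not l (fun h' => h'.ne_zero rfl)]
      simp
    · have hK1 : (K : ℂ) ≠ 0 := Complex.ofReal_ne_zero.2 hK0.ne'
      rw [TI_cpow hx hX0 hr.ne_zero hc, Complex.ofReal_neg, neg_mul, Complex.ofReal_inv]
      field_simp
  rw [tsum_congr e, tsum_mul_left, norm_mul, norm_mul, WtA_norm_cpow (by positivity), one_mul,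
    Complex.norm_real, Real.norm_of_nonneg hK0.le, mul_comm]
  exact mul_le_mul_of_nonneg_right h3 hK0.le

end Crest.Agent.R12
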