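import Crest.Agent.R12.ThGamB

/-!
# Row 12, theta half: gamma factors, the dual kernel and dual sums
-/

set_option autoImplicit false

noncomputable section

namespace Crest.Agent.R12

open Crest.Agent.R17
open scoped ComplexConjugate Topology
open Filter MeasureTheory

/-! ### the log-Gaussian weights -/

theorem stripDecay_Wm {X : ℝ} (hX : 0 < X) (s₀ : ℂ) :
    StripDecay fun s => Wm (s + s₀) * (X : ℂ) ^ s := by
  have hX' : (X : ℂ) ≠ 0 := Complex.ofReal_ne_zero.2 hX.ne'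
  refine ⟨(differentiable_Wm.comp (differentiable_id.add_const s₀)).mul
    (differentiable_id.const_cpow (Or.inl hX')), fun a b => ?_⟩
  refine ⟨Real.sqrt Real.pi * Real.exp ((|a| + |b| + |s₀.re|) ^ 2 / 4 + 10 * |s₀.im| + 100) *
    (X ^ a + X ^ b), fun s ha hb => ?_⟩
  have h1 : X ^ s.re ≤ X ^ a + X ^ b := by
    rcases le_total 1 X with h | h
    · have := Real.rpow_le_rpow_of_exponent_le h hb
      have := Real.rpow_pos_of_pos hX a
      linarith
    · have := Real.rpow_le_rpow_of_exponent_ge hX h ha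
      have := Real.rpow_pos_of_pos hX b
      linarith
  have h2 : (s.re + s₀.re) ^ 2 ≤ (|a| + |b| + |s₀.re|) ^ 2 := by
    refine sq_le_sq' ?_ ?_
    · linarith [neg_abs_le a, abs_nonneg b, neg_abs_le s₀.re]
    · linarith [le_abs_self b, abs_nonneg a, le_abs_self s₀.re]
  have h3 : |s.im| ≤ |s.im + s₀.im| + |s₀.im| := by
    have := abs_sub (s.im + s₀.im) s₀.im
    rwa [add_sub_cancel_right] at this
  have h4 : 10 * |s.im + s₀.im| ≤ (s.im + s₀.im) ^ 2 / 4 + 100 := by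
    rw [← sq_abs (s.im + s₀.im)]
    nlinarith [sq_nonneg (|s.im + s₀.im| - 20)]
  have h5 : Real.exp (((s.re + s₀.re) ^ 2 - (s.im + s₀.im) ^ 2) / 4) ≤
      Real.exp ((|a| + |b| + |s₀.re|) ^ 2 / 4 + 10 * |s₀.im| + 100) * Real.exp (-10 * |s.im|) := by
    rw [← Real.exp_add]
    exact Real.exp_le_exp.2 (by linarith)
  simp only [norm_mul, norm_Wm, Complex.norm_cpow_eq_rpow_re_of_pos hX, Complex.add_re,
    Complex.add_im]
  calc _ ≤ Real.sqrt Real.pi * (Real.exp ((|a| + |b| + |s₀.re|) ^ 2 / 4 + 10 * |s₀.im| + 100) *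
        Real.exp (-10 * |s.im|)) * (X ^ a + X ^ b) := by gcongr
    _ = _ := by ring

theorem Mom_Wm_le (σ B : ℝ) (k : ℕ) : ∃ C : ℝ, 0 < C ∧ ∀ (X : ℝ) (s₀ : ℂ), 0 < X → |s₀.re| ≤ B →
    Mom (fun s => Wm (s + s₀) * (X : ℂ) ^ s) σ k ≤ C * (1 + |s₀.im|) ^ k * X ^ σ := by
  have hI := integrable_Wm_mul_pow 0 k
  have hI0 : 0 ≤ ∫ u : ℝ, ‖Wm ((0 : ℝ) + u * Complex.I)‖ * (1 + |u|) ^ k :=
    integral_nonneg fun u => by positivity
  refine ⟨Real.exp ((|σ| + B) ^ 2 / 4) *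
    ((∫ u : ℝ, ‖Wm ((0 : ℝ) + u * Complex.I)‖ * (1 + |u|) ^ k) + 1), by positivity,
    fun X s₀ hX hB => ?_⟩
  have hp : 0 < X ^ σ := Real.rpow_pos_of_pos hX σ
  have h1 : Mom (fun s => Wm (s + s₀) * (X : ℂ) ^ s) σ k ≤
      ∫ u : ℝ, Real.exp ((|σ| + B) ^ 2 / 4) * (1 + |s₀.im|) ^ k * X ^ σ *
        (‖Wm ((0 : ℝ) + ((u + s₀.im : ℝ) : ℂ) * Complex.I)‖ * (1 + |u + s₀.im|) ^ k) := by
    refine integral_mono_of_nonneg (Eventually.of_forall fun u => by positivity)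
      ((hI.comp_add_right s₀.im).const_mul _) (Eventually.of_forall fun u => ?_)
    have h2 : (σ + s₀.re) ^ 2 ≤ (|σ| + B) ^ 2 := by
      refine sq_le_sq' ?_ ?_
      · linarith [neg_abs_le σ, neg_abs_le s₀.re]
      · linarith [le_abs_self σ, le_abs_self s₀.re]
    have h3 : 1 + |u| ≤ (1 + |s₀.im|) * (1 + |u + s₀.im|) := by
      have := abs_sub (u + s₀.im) s₀.im
      rw [add_sub_cancel_right] at this
      nlinarith [mul_nonneg (abs_nonneg s₀.im) (abs_nonneg (u + s₀.im))]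
    have h4 : (1 + |u|) ^ k ≤ (1 + |s₀.im|) ^ k * (1 + |u + s₀.im|) ^ k := by
      rw [← mul_pow]
      gcongr
    have h5 : Real.exp (((σ + s₀.re) ^ 2 - (u + s₀.im) ^ 2) / 4) ≤
        Real.exp ((|σ| + B) ^ 2 / 4) * Real.exp ((0 ^ 2 - (u + s₀.im) ^ 2) / 4) := by
      rw [← Real.exp_add]
      exact Real.exp_le_exp.2 (by linarith)
    simp only [norm_mul, norm_Wm, Complex.norm_cpow_eq_rpow_re_of_pos hX, Complex.add_re,
      Complex.add_im, Complex.ofReal_re, Complex.ofReal_im, Complex.mul_re, Complex.mul_im,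
      Complex.I_re, Complex.I_im, mul_zero, mul_one, sub_zero, add_zero, zero_add]
    calc _ ≤ Real.sqrt Real.pi * (Real.exp ((|σ| + B) ^ 2 / 4) *
          Real.exp ((0 ^ 2 - (u + s₀.im) ^ 2) / 4)) * X ^ σ *
          ((1 + |s₀.im|) ^ k * (1 + |u + s₀.im|) ^ k) := by gcongr
      _ = _ := by ring
  rw [integral_const_mul, integral_add_right_eq_self
    (fun u : ℝ => ‖Wm ((0 : ℝ) + (u : ℂ) * Complex.I)‖ * (1 + |u|) ^ k) s₀.im] at h1
  refine h1.trans ?_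
  have h6 : 0 ≤ Real.exp ((|σ| + B) ^ 2 / 4) * (1 + |s₀.im|) ^ k * X ^ σ := by positivity
  nlinarith

theorem Sm_eq_lineI {a : O → ℂ} {H : ℝ} (ha : PolyB a H (1 / 6)) {X : ℝ} (hX : 0 < X) (s₀ : ℂ) :
    Sm a X s₀ = lineI 2 fun s => Wm (s + s₀) * (X : ℂ) ^ s * Dser a s := by
  rw [Sm_eq_integral ha hX (σ := 2) (by norm_num) s₀]
  rfl

end Crest.Agent.R12
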