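import Crest.Agent.R12.Defs
import Crest.Agent.R12.BV
import Crest.Agent.R12.ThGam

/-!
# Row 12, analytic half: the smooth cells
-/

set_option autoImplicit false

noncomputable section

namespace Crest.Agent.R12

open Crest.Agent.R17
open scoped ComplexConjugate Topology
open Filter MeasureTheory

theorem WtB_int : Integrable fun u : ℝ => Real.exp (-u ^ 2) := by
  simpa using integrable_exp_neg_mul_sq one_pos
theorem WtB_sqrt_pos : 0 < Real.sqrt Real.pi := Real.sqrt_pos.2 Real.pi_pos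

theorem Ec_nonneg (x : ℝ) : 0 ≤ Ec x :=
  mul_nonneg (inv_nonneg.2 WtB_sqrt_pos.le) (integral_nonneg fun _ => (Real.exp_pos _).le)
theorem Ec_add_neg (x : ℝ) : Ec x + Ec (-x) = 1 := by
  have h1 := integral_comp_neg_Iic x fun u : ℝ => Real.exp (-u ^ 2)
  have h2 : ∫ u : ℝ, Real.exp (-u ^ 2) = Real.sqrt Real.pi := by simpa using integral_gaussian 1
  simp only [neg_sq] at h1
  rw [Ec, Ec, ← h1, ← mul_add, add_comm,
    intervalIntegral.integral_Iic_add_Ioi WtB_int.integrableOn WtB_int.integrableOn, h2,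
    inv_mul_cancel₀ WtB_sqrt_pos.ne']
theorem Ec_le_one (x : ℝ) : Ec x ≤ 1 := by linarith [Ec_add_neg x, Ec_nonneg (-x)]
theorem antitone_Ec : Antitone Ec := fun _ _ h =>
  mul_le_mul_of_nonneg_left (setIntegral_mono_set WtB_int.integrableOn
    (Eventually.of_forall fun _ => (Real.exp_pos _).le) (Set.Ioi_subset_Ioi h).eventuallyLE)
    (inv_nonneg.2 WtB_sqrt_pos.le)
/-- `(x + u)² ≥ x² + u²` for `x, u ≥ 0`. -/
theorem Ec_le_exp {x : ℝ} (hx : 0 ≤ x) : Ec x ≤ Real.exp (-x ^ 2) / 2 := by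
  have h1 := (measurePreserving_add_right volume x).setIntegral_preimage_emb
    (measurableEmbedding_addRight x) (fun u : ℝ => Real.exp (-u ^ 2)) (Set.Ioi x)
  have h2 : ∫ u in Set.Ioi (0 : ℝ), Real.exp (-u ^ 2) = Real.sqrt Real.pi / 2 := by
    simpa using integral_gaussian_Ioi 1
  rw [Set.preimage_add_const_Ioi, sub_self] at h1
  have h3 : ∫ u in Set.Ioi (0 : ℝ), Real.exp (-(u + x) ^ 2) ≤
      ∫ u in Set.Ioi (0 : ℝ), Real.exp (-x ^ 2) * Real.exp (-u ^ 2) := by
    refine setIntegral_mono_on (WtB_int.comp_add_right x).integrableOn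
      (WtB_int.const_mul _).integrableOn measurableSet_Ioi fun u hu => ?_
    rw [← Real.exp_add]
    exact Real.exp_le_exp.2 (by nlinarith [mul_nonneg hx (le_of_lt hu)])
  rw [integral_const_mul, h2, h1] at h3
  rw [Ec, inv_mul_le_iff₀ WtB_sqrt_pos]
  linarith
theorem Ec_sub (a b : ℝ) :
    Ec a - Ec b = (Real.sqrt Real.pi)⁻¹ * ∫ u in a..b, Real.exp (-u ^ 2) := by
  rw [Ec, Ec, ← mul_sub,
    intervalIntegral.integral_Ioi_sub_Ioi' WtB_int.integrableOn WtB_int.integrableOn]

theorem cw_eq (a b : ℝ) {y : ℝ} (hy : 0 < y) :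
    cw a b y = ((Ec (Real.log y - b) - Ec (Real.log y - a) : ℝ) : ℂ) := by
  rw [Ec_sub, ← intervalIntegral.integral_comp_sub_left (fun u : ℝ => Real.exp (-u ^ 2)),
    Complex.ofReal_mul, ← intervalIntegral.integral_ofReal, cw]
  congr 2
  funext u
  rw [Wc, Real.log_div hy.ne' (Real.exp_pos u).ne', Real.log_exp]
  simp
theorem cw_add (a b c : ℝ) {y : ℝ} (hy : 0 < y) : cw a b y + cw b c y = cw a c y := by
  rw [cw_eq _ _ hy, cw_eq _ _ hy, cw_eq _ _ hy]
  push_cast
  ring
theorem sum_cw (x₀ h : ℝ) (N : ℕ) {y : ℝ} (hy : 0 < y) :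
    ∑ i ∈ Finset.range N, cw (x₀ + i * h) (x₀ + (i + 1) * h) y = cw x₀ (x₀ + N * h) y := by
  induction N with
  | zero => simp [cw]
  | succ N ih => rw [Finset.sum_range_succ, ih, cw_add _ _ _ hy, Nat.cast_succ]
theorem norm_cw_le_one (a b : ℝ) {y : ℝ} (hy : 0 < y) : ‖cw a b y‖ ≤ 1 := by
  rw [cw_eq _ _ hy, Complex.norm_real, Real.norm_eq_abs, abs_le]
  constructor
  · linarith [Ec_nonneg (Real.log y - b), Ec_le_one (Real.log y - a)]
  · linarith [Ec_nonneg (Real.log y - a), Ec_le_one (Real.log y - b)]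
theorem norm_cw_le_exp {a b y d : ℝ} (hab : a ≤ b) (hy : 0 < y) (hd : 0 ≤ d)
    (h : Real.log y ≤ a - d ∨ b + d ≤ Real.log y) : ‖cw a b y‖ ≤ Real.exp (-d ^ 2) := by
  have h1 : Ec (Real.log y - a) ≤ Ec (Real.log y - b) := antitone_Ec (by linarith)
  have h2 := Ec_le_exp hd
  have h3 := Real.exp_pos (-d ^ 2)
  rw [cw_eq _ _ hy, Complex.norm_real, Real.norm_of_nonneg (sub_nonneg.2 h1)]
  rcases h with h | h
  · have h4 : Ec (-(Real.log y - a)) ≤ Ec d := antitone_Ec (by linarith)
    linarith [Ec_add_neg (Real.log y - a), Ec_le_one (Real.log y - b)]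
  · have h4 : Ec (Real.log y - b) ≤ Ec d := antitone_Ec (by linarith)
    linarith [Ec_nonneg (Real.log y - a)]
theorem norm_one_sub_cw_le {a b y d : ℝ} (hy : 0 < y) (hd : 0 ≤ d) (h1 : a + d ≤ Real.log y)
    (h2 : Real.log y ≤ b - d) : ‖1 - cw a b y‖ ≤ Real.exp (-d ^ 2) := by
  have h3 := Ec_le_exp hd
  have h4 : Ec (-(Real.log y - b)) ≤ Ec d := antitone_Ec (by linarith)
  have h5 : Ec (Real.log y - a) ≤ Ec d := antitone_Ec (by linarith)
  rw [cw_eq _ _ hy, ← Complex.ofReal_one, ← Complex.ofReal_sub, Complex.norm_real,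
    Real.norm_of_nonneg (by linarith [Ec_nonneg (Real.log y - a), Ec_le_one (Real.log y - b)])]
  linarith [Ec_add_neg (Real.log y - b)]
/-- `Wc_eq_integral` with `σ = 0`, Fubini; `Ψ t = π^{-1/2} Wm (it) ∫_a^b e^{iut} du`. -/
theorem gm_cw {a b : ℝ} (hab : a ≤ b) : GM (cw a b) (b - a) := by
  have hW : Continuous fun t : ℝ => Wm (t * Complex.I) :=
    differentiable_Wm.continuous.comp (by fun_prop)
  have hn : ∀ u t : ℝ, ‖Complex.exp (u * (t * Complex.I))‖ = 1 := fun u t => by
    rw [Complex.norm_exp]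
    simp
  refine ⟨fun t => ((Real.sqrt Real.pi)⁻¹ : ℝ) * Wm (t * Complex.I) *
    ∫ u in a..b, Complex.exp (u * (t * Complex.I)), (continuous_const.mul hW).mul
      (intervalIntegral.continuous_parametric_intervalIntegral_of_continuous' (by fun_prop) a b),
    fun t => ?_, fun y hy => ?_⟩
  · have h1 : ‖∫ u in a..b, Complex.exp (u * (t * Complex.I))‖ ≤ 1 * |b - a| :=
      intervalIntegral.norm_integral_le_of_norm_le_const fun u _ => (hn u t).le
    rw [one_mul, abs_of_nonneg (sub_nonneg.2 hab)] at h1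
    rw [norm_mul, norm_mul, Complex.norm_real, Real.norm_of_nonneg (inv_nonneg.2 WtB_sqrt_pos.le),
      norm_Wm, ← mul_assoc, inv_mul_cancel₀ WtB_sqrt_pos.ne', one_mul, mul_comm]
    refine (mul_le_mul_of_nonneg_right h1 (Real.exp_pos _).le).trans (le_of_eq ?_)
    simp
  · have hy' : (y : ℂ) ≠ 0 := Complex.ofReal_ne_zero.2 hy.ne'
    have h1 : ∀ u : ℝ, Wc (y / Real.exp u) 0 = (1 / (2 * Real.pi) : ℂ) * ∫ t : ℝ,
        Wm (t * Complex.I) * (y : ℂ) ^ (-(t * Complex.I)) * Complex.exp (u * (t * Complex.I)) := by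
      intro u
      have h0 : 0 < y / Real.exp u := div_pos hy (Real.exp_pos u)
      rw [Wc_eq_integral h0 0 0]
      congr 2
      funext t
      rw [Complex.ofReal_zero, zero_add, add_zero, mul_assoc, Complex.cpow_def_of_ne_zero hy',
        Complex.cpow_def_of_ne_zero (Complex.ofReal_ne_zero.2 h0.ne'), ← Complex.ofReal_log h0.le,
        ← Complex.ofReal_log hy.le, Real.log_div hy.ne' (Real.exp_pos u).ne', Real.log_exp,
        ← Complex.exp_add]
      congr 2
      push_cast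
      ring
    have hc : Continuous fun t : ℝ => (y : ℂ) ^ (-(t * Complex.I)) :=
      Continuous.const_cpow (by fun_prop) (Or.inl hy')
    have h2 : Integrable fun t : ℝ => ‖Wm (t * Complex.I)‖ := by
      simpa using integrable_Wm_mul_pow 0 0
    have h3 : Integrable (Function.uncurry fun u t : ℝ =>
        Wm (t * Complex.I) * (y : ℂ) ^ (-(t * Complex.I)) * Complex.exp (u * (t * Complex.I)))
        ((volume.restrict (Set.uIoc a b)).prod volume) := by
      have : IsFiniteMeasure (volume.restrict (Set.uIoc a b)) :=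
        isFiniteMeasure_restrict.2 (by simp [Set.uIoc])
      refine (h2.comp_snd (volume.restrict (Set.uIoc a b))).mono' (Continuous.aestronglyMeasurable
        (((hW.comp continuous_snd).mul (hc.comp continuous_snd)).mul (by fun_prop)))
        (Eventually.of_forall fun p => le_of_eq ?_)
      simp only [Function.uncurry]
      rw [norm_mul, norm_mul, hn, Complex.norm_cpow_eq_rpow_re_of_pos hy]
      simp
    simp only [cw, h1]
    rw [intervalIntegral.integral_const_mul, intervalIntegral_integral_swap h3, mul_left_comm,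
      ← integral_const_mul]
    congr 2
    funext t
    rw [intervalIntegral.integral_const_mul]
    ring
open Classical in
theorem bvn_cw (a b y : ℝ) {x : ℝ} (hx : 0 < x) :
    BVn (fun m => if x ≤ m ∧ (m : ℝ) ≤ y then cw a b m else 0) 8 := by
  have h1 : Monotone fun m : ℕ => Real.log m := fun m n h => by
    rcases Nat.eq_zero_or_pos m with rfl | hm
    · simpa using Real.log_natCast_nonneg n
    · exact Real.log_le_log (Nat.cast_pos.2 hm) (Nat.cast_le.2 h)
  have h2 : ∀ c : ℝ, BVn (fun m : ℕ => (Ec (Real.log m - c) : ℂ)) 2 := fun c =>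
    bvn_of_antitone (fun m n h => antitone_Ec (sub_le_sub_right (h1 h) c)) (fun _ => Ec_nonneg _)
      fun _ => Ec_le_one _
  have h3 := (bvn_ind (P := fun m : ℕ => x ≤ m ∧ (m : ℝ) ≤ y) fun m n k h h' hm hk =>
    ⟨hm.1.trans (Nat.cast_le.2 h), (Nat.cast_le.2 h').trans hk.2⟩).mul ((h2 b).sub (h2 a))
  rw [show (2 : ℝ) * (2 + 2) = 8 by norm_num] at h3
  convert h3 using 2 with m
  split_ifs with h
  · rw [cw_eq _ _ (hx.trans_le h.1), one_mul, Complex.ofReal_sub]
  · rw [zero_mul]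

end Crest.Agent.R12
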