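import Crest.Agent.R12.CmbE
import Crest.Agent.R12.TI
import Crest.Agent.R12.QD
import Crest.Agent.R12.WtB

/-!
# Row 12, analytic half: configurations with long smooth variables
-/

set_option autoImplicit false

noncomputable section

namespace Crest.Agent.R12

open Crest.Agent.R17
open scoped ComplexConjugate Topology
open Filter MeasureTheory

/-- A rough variable in a smooth cell. -/
def zc (w a b : ℝ) : AF := (zt w).pm fun n => cw a b (nr n)

open Classical in
/-- The point mass at `d`. -/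
def dl (d : O) : AF := AF.of fun n => if n = d then 1 else 0

theorem bd_zc (w a b : ℝ) : Bd 1 (zc w a b) :=
  (bd_zt w).pm fun _ hn => norm_cw_le_one a b (nr_pos hn.ne_zero)
theorem dl_mul_apply {d n : O} (hd : Primary d) (hn : Primary n) (f : AF) :
    (dl d * f) n = by classical exact if d ∣ n then f (n / d) else 0 := by
  classical
  have h1 : ∀ e ∈ pdiv n, dl d e * f (n / e) = if e = d then f (n / e) else 0 := by
    intro e he
    rw [dl, AF.of_apply _ (AF.primary_div hn he).1]
    split_ifs <;> simp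
  rw [AF.mul_apply, Finset.sum_congr rfl h1, Finset.sum_ite_eq']
  by_cases h : d ∣ n
  · rw [if_pos ((mem_pdiv hn.ne_zero).2 ⟨hd, h⟩), if_pos h]
  · rw [if_neg fun h' => h ((mem_pdiv hn.ne_zero).1 h').2, if_neg h]
/-- Fixing the sieve variable. -/
theorem pm_lam_eq {lam : AF} {D : ℝ} (h : Sup lam 1 D) (ψ : ℝ → ℂ) :
    EqPS ((lam * zt 0).pm fun n => ψ (nr n))
      (∑ d ∈ rng 1 D, lam d • (dl d * (zt 0).pm fun n => ψ (nr d * nr n))) := by
  classical
  intro n hn
  have h1 : ∀ d ∈ rng 1 D, (lam d • (dl d * (zt 0).pm fun n => ψ (nr d * nr n))) n =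
      if d ∣ n then lam d * ψ (nr n) else 0 := by
    intro d hd
    have hd1 := (mem_rng.1 hd).1.1
    rw [AF.smul_apply, dl_mul_apply hd1 hn.1]
    split_ifs with h'
    · obtain ⟨-, e2, e3⟩ := AF.primary_div hn.1 ((mem_pdiv hn.ne_zero).2 ⟨hd1, h'⟩)
      rw [AF.pm_apply, zt_zero_apply e2, one_mul, ← nr_mul, e3]
    · rw [mul_zero]
  rw [AF.sum_apply, Finset.sum_congr rfl h1, ← Finset.sum_filter, AF.pm_apply, AF.mul_apply,
    Finset.sum_mul]
  symm
  refine Finset.sum_subset_zero_on_sdiff (fun d hd => ?_) (fun d hd => ?_) (fun d hd => ?_)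
  · obtain ⟨h2, h3⟩ := Finset.mem_filter.1 hd
    exact (mem_pdiv hn.ne_zero).2 ⟨(mem_rng.1 h2).1.1, h3⟩
  · obtain ⟨h2, h3⟩ := Finset.mem_sdiff.1 hd
    have h4 : lam d = 0 := by
      by_contra h4
      have h5 := (hn.div h2).1
      exact h3 (Finset.mem_filter.2 ⟨mem_rng.2 ⟨h5, h d h5 h4⟩, ((mem_pdiv hn.ne_zero).1 h2).2⟩)
    rw [h4, zero_mul, zero_mul]
  · obtain ⟨h2, h3⟩ := Finset.mem_filter.1 hd
    obtain ⟨-, e2, -⟩ := AF.primary_div hn.1 ((mem_pdiv hn.ne_zero).2 ⟨(mem_rng.1 h2).1.1, h3⟩)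
    rw [zt_zero_apply e2, mul_one]
/-- A smooth cell is a mixture of log-Gaussians. -/
theorem norm_pr_cw_le (l : ℤ) (v : ℝ → ℂ) (X : ℝ) (α : AF) {a b x E : ℝ} (hab : a ≤ b) (hx : 0 < x)
    (h : ∀ u, a ≤ u → u ≤ b → ‖pr l v X (α * gW (Real.exp u / x))‖ ≤ E) :
    ‖pr l v X (α * (zt 0).pm fun n => cw a b (x * nr n))‖ ≤ (b - a) * E := by
  have hW : ∀ {y : ℝ}, 0 < y → ∀ u : ℝ, Wc (y / (Real.exp u / x)) 0 =
      Complex.exp (-(((Real.log (x * y) - u : ℝ) : ℂ)) ^ 2) := by
    intro y hy u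
    have e : y / (Real.exp u / x) = x * y / Real.exp u := by field_simp
    rw [e, Wc, Real.log_div (by positivity) (Real.exp_pos u).ne', Real.log_exp]
    simp
  have hcont : ∀ {m : O}, Primary m → Continuous fun u : ℝ => gW (Real.exp u / x) m := by
    intro m hm
    simp only [gW, AF.of_apply _ hm, hW (nr_pos hm.ne_zero)]
    fun_prop
  have hcont2 : ∀ {n : O}, Primary n → Continuous fun u : ℝ => (α * gW (Real.exp u / x)) n := by
    intro n hn
    simp only [AF.mul_apply]
    exact continuous_finsetSum _ fun d hd =>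
      continuous_const.mul (hcont (AF.primary_div hn hd).2.1)
  have key : pr l v X (α * (zt 0).pm fun n => cw a b (x * nr n)) =
      ((Real.sqrt Real.pi)⁻¹ : ℝ) * ∫ u in a..b, pr l v X (α * gW (Real.exp u / x)) := by
    simp only [pr]
    rw [intervalIntegral.integral_finsetSum, Finset.mul_sum]
    swap
    · exact fun n hn =>
        ((hcont2 (mem_rng.1 hn).1.1).mul continuous_const).intervalIntegrable a b
    refine Finset.sum_congr rfl fun n hn => ?_
    have hn1 := (mem_rng.1 hn).1.1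
    rw [intervalIntegral.integral_mul_const, ← mul_assoc (((Real.sqrt Real.pi)⁻¹ : ℝ) : ℂ)]
    congr 1
    simp only [AF.mul_apply]
    rw [intervalIntegral.integral_finsetSum, Finset.mul_sum]
    swap
    · exact fun d hd =>
        (continuous_const.mul (hcont (AF.primary_div hn1 hd).2.1)).intervalIntegrable a b
    refine Finset.sum_congr rfl fun d hd => ?_
    have hd2 := (AF.primary_div hn1 hd).2.1
    rw [intervalIntegral.integral_const_mul, mul_left_comm, AF.pm_apply, zt_zero_apply hd2, one_mul,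
      cw]
    congr 3
    funext u
    rw [gW, AF.of_apply _ hd2]
    congr 1
    field_simp
  have h1 : ‖∫ u in a..b, pr l v X (α * gW (Real.exp u / x))‖ ≤ E * |b - a| := by
    refine intervalIntegral.norm_integral_le_of_norm_le_const fun u hu => ?_
    rw [Set.uIoc_of_le hab] at hu
    exact h u hu.1.le hu.2
  have h2 : (Real.sqrt Real.pi)⁻¹ ≤ 1 :=
    inv_le_one_of_one_le₀ (Real.one_le_sqrt.2 (by linarith [Real.pi_gt_three]))
  rw [abs_of_nonneg (sub_nonneg.2 hab), mul_comm] at h1
  rw [key, norm_mul, Complex.norm_real, Real.norm_of_nonneg (inv_nonneg.2 WtB_sqrt_pos.le)]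
  exact (mul_le_of_le_one_left (norm_nonneg _) h2).trans h1

end Crest.Agent.R12
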