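import Crest.Agent.R12.CmbG0

/-!
# Row 12, analytic half: configurations with long smooth variables
-/

set_option autoImplicit false

noncomputable section

namespace Crest.Agent.R12

open Crest.Agent.R17
open scoped ComplexConjugate Topology
open Filter MeasureTheory

theorem CmbG1_bd_dl (d : O) : Bd 1 (dl d) := by
  intro n hn
  unfold dl
  rw [AF.of_apply _ hn.1, one_pow]
  split_ifs <;> simp

theorem CmbG1_sup_dl {d : O} {x y : ℝ} (hd : d ∈ rng x y) : Sup (dl d) x y := by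
  intro n hn h
  unfold dl at h
  rw [AF.of_apply _ hn.1] at h
  have e : n = d := by
    by_contra e
    exact h (if_neg e)
  rw [e]
  exact (mem_rng.1 hd).2

/-- The convolution bound for the sieve variable. -/
theorem CmbG1_conv {lam ρ : AF} {i j : ℝ} (hi : 0 ≤ i) (hj : 0 ≤ j) (hl : Bd i lam) (hρ : Bd j ρ)
    (x y : ℝ) {r : O} (hr : PS r) :
    ∑ d ∈ rng x y, ‖lam d‖ * ‖(ρ * dl d) r‖ ≤ (i + j) ^ (pf r).card := by
  classical
  rw [← hr.sum_pdiv_pow]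
  calc ∑ d ∈ rng x y, ‖lam d‖ * ‖(ρ * dl d) r‖
      ≤ ∑ d ∈ rng x y, if d ∈ pdiv r then i ^ (pf d).card * j ^ (pf (r / d)).card else 0 := by
        refine Finset.sum_le_sum fun d hd => ?_
        have hd' := (mem_rng.1 hd).1
        rw [mul_comm ρ, dl_mul_apply hd'.1 hr.1]
        by_cases h : d ∣ r
        · have h' : d ∈ pdiv r := (mem_pdiv hr.ne_zero).2 ⟨hd'.1, h⟩
          rw [if_pos h, if_pos h']
          exact mul_le_mul (hl d hd') (hρ _ (hr.div h').2.1) (norm_nonneg _) (pow_nonneg hi _)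
        · rw [if_neg h, norm_zero, mul_zero]
          split_ifs
          · positivity
          · exact le_rfl
    _ ≤ _ := by
        rw [← Finset.sum_filter]
        exact Finset.sum_le_sum_of_subset_of_nonneg (fun d hd => (Finset.mem_filter.1 hd).2)
          fun d _ _ => by positivity

/-- Fixing the sieve variable in the pairing. -/
theorem CmbG1_pr (l : ℤ) (v : ℝ → ℂ) (X : ℝ) (ρ : AF) {lam : AF} {D : ℝ} (h : Sup lam 1 D)
    (ψ : ℝ → ℂ) : pr l v X (ρ * (lam * zt 0).pm fun n => ψ (nr n)) =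
      ∑ d ∈ rng 1 D, lam d * pr l v X (ρ * dl d * (zt 0).pm fun n => ψ (nr d * nr n)) := by
  rw [pr_congr l v X fun n hn _ _ => ((EqPS.refl ρ).mul (pm_lam_eq h ψ)) n hn, Finset.mul_sum,
    pr_sum]
  refine Finset.sum_congr rfl fun d _ => ?_
  rw [mul_smul_comm, pr_smul, mul_assoc]

/-- The type I bound for the sieved sum. -/
theorem CmbG1_main (l : ℤ) : ∃ (C X₀ : ℝ) (J : ℕ), 0 < C ∧ ∀ X ≥ X₀,
    ∀ (v ψ : ℝ → ℂ) (Φ : ℂ → ℂ) (T T₁ R D P : ℝ) (ρ lam : AF), Adm v Φ T T₁ →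
    Real.log X ^ 2 ≤ T → T ≤ X ^ (1 / 1000 : ℝ) → Bd 14 ρ → Sup ρ 1 R → 1 ≤ R → Bd 3 lam →
    Sup lam 1 D → 0 ≤ D → R * D ≤ X ^ (361 / 1000 : ℝ) → GM ψ P → P ≤ Real.log X →
    ‖pr l v X (ρ * (lam * zt 0).pm fun n => ψ (nr n))‖ ≤
      C * Real.log X ^ J * X ^ (39 / 50 : ℝ) := by
  obtain ⟨X₁, hI⟩ := pr_typeI l 15
  obtain ⟨C₁, hC₁, hgm⟩ := typeI_gm l (ε := 1 / 1000) (by norm_num)
  obtain ⟨C₂, J, hC₂, hmom⟩ := mom_crude 17
  refine ⟨C₂ + C₁ * C₂, max X₁ 3, J + 1, by positivity,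
    fun X hX v ψ Φ T T₁ R D P ρ lam hA hT hT' hρ hsρ hR hlam hsl hD hRD hψ hP => ?_⟩
  simp only [ge_iff_le, max_le_iff] at hX
  obtain ⟨x1, x3⟩ := hX
  have hX1 : 1 ≤ X := by linarith
  have hX0 : 0 < X := by linarith
  have hL1 : 1 ≤ Real.log X := by
    rw [Real.le_log_iff_exp_le hX0]
    have := Real.exp_one_lt_d9
    linarith
  have hLX : Real.log X ≤ X := (Real.log_le_sub_one_of_pos hX0).trans (by linarith)
  have hP0 : 0 ≤ P := (norm_nonneg _).trans (hψ.norm_le one_pos)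
  have hRX : R * D ≤ X := hRD.trans (by
    simpa using Real.rpow_le_rpow_of_exponent_le hX1 (show (361 / 1000 : ℝ) ≤ 1 by norm_num))
  have hDX : D ≤ X := le_trans (le_mul_of_one_le_left hD hR) hRX
  have hRD0 : 0 ≤ R * D := by positivity
  have h17 : |(17 : ℝ)| = 17 := abs_of_pos (by norm_num)
  have m1 := (hmom X D x3 hD hDX).1
  have m2 := (hmom X (R * D) x3 hRD0 hRX).2
  rw [h17] at m1 m2
  set L := Real.log X with hL
  set K := C₁ * L * X ^ (39 / 50 : ℝ) with hK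
  have hK0 : 0 ≤ K := by positivity
  have hτ : T / Real.sqrt T₁ ≤ X ^ (1 / 1000 : ℝ) :=
    (div_le_self (zero_le_one.trans hA.one_le_T) (Real.one_le_sqrt.2 hA.one_le)).trans hT'
  have hone : ∀ d ∈ rng 1 D, ∀ r ∈ rng 1 (R * D),
      ‖∑' c : O, ψ (nr d * nr c) * (ff l (r * c) * v (nr (r * c) / X))‖ ≤ K / nr r := by
    intro d hd r hr
    obtain ⟨r1, r2, r3⟩ := mem_rng.1 hr
    have r0 : 0 < nr r := by linarith
    refine (hgm X T T₁ P (nr d) v ψ Φ r x3 hA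
      (hT'.trans (Real.rpow_le_rpow_of_exponent_le hX1 (by norm_num))) r1 (r3.trans hRX) hψ
      (zero_lt_one.trans_le (mem_rng.1 hd).2.1)).trans ?_
    have e1 : nr r ^ (-(1 / 4 : ℝ)) = nr r ^ (3 / 4 : ℝ) / nr r := by
      rw [← Real.rpow_sub_one r0.ne']; norm_num
    have e2 : nr r ^ (3 / 4 : ℝ) ≤ X ^ (271 / 1000 : ℝ) := by
      refine (Real.rpow_le_rpow r0.le (r3.trans hRD) (by norm_num)).trans ?_
      rw [← Real.rpow_mul hX0.le]
      exact Real.rpow_le_rpow_of_exponent_le hX1 (by norm_num)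
    have e3 : X ^ (1 / 2 + 1 / 1000 : ℝ) * X ^ (271 / 1000 : ℝ) * X ^ (1 / 1000 : ℝ) ≤
        X ^ (39 / 50 : ℝ) := by
      rw [← Real.rpow_add hX0, ← Real.rpow_add hX0]
      exact Real.rpow_le_rpow_of_exponent_le hX1 (by norm_num)
    have hτ0 : 0 ≤ T / Real.sqrt T₁ :=
      div_nonneg (zero_le_one.trans hA.one_le_T) (Real.sqrt_nonneg _)
    rw [e1]
    calc C₁ * P * X ^ (1 / 2 + 1 / 1000 : ℝ) * (nr r ^ (3 / 4 : ℝ) / nr r) * (T / Real.sqrt T₁)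
        ≤ C₁ * L * X ^ (1 / 2 + 1 / 1000 : ℝ) * (X ^ (271 / 1000 : ℝ) / nr r) *
            X ^ (1 / 1000 : ℝ) := by gcongr
      _ = C₁ * L * (X ^ (1 / 2 + 1 / 1000 : ℝ) * X ^ (271 / 1000 : ℝ) * X ^ (1 / 1000 : ℝ)) /
            nr r := by ring
      _ ≤ K / nr r := by rw [hK]; gcongr
  have hd : ∀ d ∈ rng 1 D, ‖pr l v X (ρ * dl d * (zt 0).pm fun n => ψ (nr d * nr n))‖ ≤
      1 / X + ∑ r ∈ rng 1 (R * D), ‖(ρ * dl d) r‖ * (K / nr r) := by
    intro d hd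
    have d0 : 0 < nr d := zero_lt_one.trans_le (mem_rng.1 hd).2.1
    have b1 : Bd 15 (ρ * dl d) := by
      have := hρ.mul (CmbG1_bd_dl d) (by norm_num) zero_le_one
      rwa [show (14 + 1 : ℝ) = 15 by norm_num] at this
    have s1 : Sup (ρ * dl d) 1 (R * D) := by
      have := hsρ.mul (CmbG1_sup_dl hd) zero_le_one zero_le_one
      rwa [one_mul] at this
    have h1 := hI X x1 v Φ T T₁ (R * D) (ρ * dl d) (fun n => ψ (nr d * nr n)) hA hT b1 s1 hRX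
      fun c hc => (hψ.norm_le (mul_pos d0 (nr_pos hc))).trans (hP.trans hLX)
    rw [add_comm]
    refine (norm_le_insert' _ _).trans
      (add_le_add ((norm_sum_le _ _).trans (Finset.sum_le_sum fun r hr => ?_)) h1)
    rw [norm_mul]
    exact mul_le_mul_of_nonneg_left (hone d hd r hr) (norm_nonneg _)
  rw [CmbG1_pr l v X ρ hsl ψ]
  have hXp : 1 ≤ X ^ (39 / 50 : ℝ) := Real.one_le_rpow hX1 (by norm_num)
  calc ‖∑ d ∈ rng 1 D, lam d * pr l v X (ρ * dl d * (zt 0).pm fun n => ψ (nr d * nr n))‖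
      ≤ ∑ d ∈ rng 1 D, ‖lam d‖ * (1 / X + ∑ r ∈ rng 1 (R * D), ‖(ρ * dl d) r‖ * (K / nr r)) := by
        refine (norm_sum_le _ _).trans (Finset.sum_le_sum fun d hd' => ?_)
        rw [norm_mul]
        exact mul_le_mul_of_nonneg_left (hd d hd') (norm_nonneg _)
    _ = (∑ d ∈ rng 1 D, ‖lam d‖) / X +
          ∑ r ∈ rng 1 (R * D), (∑ d ∈ rng 1 D, ‖lam d‖ * ‖(ρ * dl d) r‖) * (K / nr r) := by
        simp only [mul_add, Finset.sum_add_distrib, Finset.mul_sum, Finset.sum_mul, Finset.sum_div,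
          mul_one_div, mul_assoc]
        rw [Finset.sum_comm]
    _ ≤ (∑ d ∈ rng 1 D, (17 : ℝ) ^ (pf d).card) / X +
          ∑ r ∈ rng 1 (R * D), K * (17 ^ (pf r).card / nr r) := by
        refine add_le_add (div_le_div_of_nonneg_right (Finset.sum_le_sum fun d hd' =>
          hlam.mono (by norm_num) (by norm_num) d (mem_rng.1 hd').1) hX0.le)
          (Finset.sum_le_sum fun r hr => ?_)
        obtain ⟨r1, r2, -⟩ := mem_rng.1 hr
        have := CmbG1_conv (by norm_num) (by norm_num) hlam hρ 1 D r1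
        rw [show (3 + 14 : ℝ) = 17 by norm_num] at this
        calc _ ≤ 17 ^ (pf r).card * (K / nr r) :=
              mul_le_mul_of_nonneg_right this (div_nonneg hK0 (by linarith))
          _ = _ := by ring
    _ ≤ C₂ * X * L ^ J / X + K * (C₂ * L ^ J) := by
        rw [← Finset.mul_sum]
        refine add_le_add (div_le_div_of_nonneg_right (m1.trans ?_) hX0.le)
          (mul_le_mul_of_nonneg_left m2 hK0)
        gcongr
    _ = C₂ * L ^ J * 1 * 1 + C₁ * C₂ * L ^ (J + 1) * X ^ (39 / 50 : ℝ) := by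
        rw [hK]; field_simp; ring
    _ ≤ C₂ * L ^ J * L * X ^ (39 / 50 : ℝ) + C₁ * C₂ * L ^ (J + 1) * X ^ (39 / 50 : ℝ) := by
        gcongr
    _ = _ := by ring

/-- `tail_lemma` (`ρ₂ = 1`, `Y₁ = X^{0.35} / R₁`, `κ = 1/100`), `pm_lam_eq`, `pr_typeI`,
`typeI_gm`. -/
theorem case_I (l : ℤ) {θ : ℝ} (h0 : 0 < θ) (h1 : θ < 1) : ∃ C X₀ : ℝ, 0 < C ∧ ∀ X ≥ X₀,
    ∀ (v : ℝ → ℂ) (Φ : ℂ → ℂ) (T T₁ R₁ R₂ a b : ℝ) (ρ : AF), Adm v Φ T T₁ → Real.log X ^ 2 ≤ T →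
    T ≤ X ^ (1 / 1000 : ℝ) → Bd 14 ρ → Sup ρ R₁ R₂ → 0 < R₁ → R₁ ≤ R₂ →
    R₂ ≤ X ^ (335 / 1000 : ℝ) → R₂ ≤ R₁ * X ^ (1 / 10000 : ℝ) → a ≤ b → b ≤ a + Real.log X →
    ‖pr l v X (ρ * zc (wX θ X) a b)‖ ≤ C * X ^ (5 / 6 : ℝ) / Real.log X ^ 3 := by
  obtain ⟨X₁, ht⟩ := tail_lemma l 14 h0 h1 (κ := 1 / 100) (by norm_num)
  obtain ⟨C, X₂, J, hC, hm⟩ := CmbG1_main l
  obtain ⟨X₃, hw⟩ := wX_ev h0 h1 (κ := 9 / 10000) (by norm_num) 0
  obtain ⟨X₄, he⟩ := eventually_atTop.1 (Mom_ev C (J + 3) (c := 1 / 20) (δ := 1) (by norm_num)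
    one_pos)
  refine ⟨2, max (max X₁ X₂) (max (max X₃ X₄) 3), two_pos,
    fun X hX v Φ T T₁ R₁ R₂ a b ρ hA hT hT' hρ hs hR₁ hR hR₂ hR₂' hab hb => ?_⟩
  simp only [ge_iff_le, max_le_iff] at hX
  obtain ⟨⟨x1, x2⟩, ⟨x3, x4⟩, x5⟩ := hX
  have hX1 : 1 ≤ X := by linarith
  have hX0 : 0 < X := by linarith
  have hL1 : 1 ≤ Real.log X := by
    rw [Real.le_log_iff_exp_le hX0]
    have := Real.exp_one_lt_d9
    linarith
  have hL0 : 0 < Real.log X := by linarith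
  rcases lt_or_ge R₂ 1 with h | h
  · have e : EqPS ρ 0 := fun n hn => by
      by_contra hne
      have := (hs n hn hne).2
      have := hn.one_le
      linarith
    rw [pr_congr l v X fun n hn _ _ => (e.mul (EqPS.refl _)) n hn, zero_mul, pr_zero, norm_zero]
    positivity
  obtain ⟨-, w1, w2⟩ := hw X x3
  have mono : ∀ {s t : ℝ}, s ≤ t → X ^ s ≤ X ^ t := fun h =>
    Real.rpow_le_rpow_of_exponent_le hX1 h
  have hY : 1 ≤ X ^ (35 / 100 : ℝ) / R₁ :=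
    (one_le_div hR₁).2 (hR.trans (hR₂.trans (mono (by norm_num))))
  obtain ⟨lam, hl, hsl, htl⟩ := ht X x1 _ hY
  have hw0 : 0 ≤ wX θ X := by linarith
  have k1 : R₂ * (X ^ (35 / 100 : ℝ) / R₁ * wX θ X) ≤ X ^ (351 / 1000 : ℝ) := by
    calc R₂ * (X ^ (35 / 100 : ℝ) / R₁ * wX θ X)
        ≤ R₁ * X ^ (1 / 10000 : ℝ) * (X ^ (35 / 100 : ℝ) / R₁ * X ^ (9 / 10000 : ℝ)) := by gcongr
      _ = X ^ (1 / 10000 : ℝ) * X ^ (35 / 100 : ℝ) * X ^ (9 / 10000 : ℝ) := by field_simp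
      _ = X ^ (351 / 1000 : ℝ) := by
          rw [← Real.rpow_add hX0, ← Real.rpow_add hX0]; norm_num
  have k2 : R₂ * (X ^ (35 / 100 : ℝ) / R₁ * wX θ X * X ^ (1 / 100 : ℝ)) ≤
      X ^ (361 / 1000 : ℝ) := by
    calc R₂ * (X ^ (35 / 100 : ℝ) / R₁ * wX θ X * X ^ (1 / 100 : ℝ))
        = R₂ * (X ^ (35 / 100 : ℝ) / R₁ * wX θ X) * X ^ (1 / 100 : ℝ) := by ring
      _ ≤ X ^ (351 / 1000 : ℝ) * X ^ (1 / 100 : ℝ) := by gcongr
      _ = X ^ (361 / 1000 : ℝ) := by rw [← Real.rpow_add hX0]; norm_num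
  have hP : b - a ≤ Real.log X := by linarith
  have t1 := htl v (cw a b) Φ T T₁ (b - a) R₁ R₂ ρ 1 hA hT
    (hT'.trans (by simpa using mono (show (1 / 1000 : ℝ) ≤ 1 by norm_num))) (gm_cw hab)
    (hP.trans (by nlinarith)) hρ (bd_one.mono le_rfl (by norm_num)) hR₁.le hs
    (Or.inl ⟨by rw [mul_div_cancel₀ _ hR₁.ne']; exact mono (by norm_num),
      k1.trans (mono (by norm_num))⟩)
  rw [mul_one] at t1
  have t2 := hm X x2 v (cw a b) Φ T T₁ R₂ _ (b - a) ρ lam hA hT hT' hρ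
    (fun n hn hne => ⟨hn.one_le, (hs n hn hne).2⟩) h hl hsl (by positivity) k2 (gm_cw hab) hP
  have t3 : C * Real.log X ^ J * X ^ (39 / 50 : ℝ) ≤ X ^ (5 / 6 : ℝ) / Real.log X ^ 3 := by
    have e := he X x4
    rw [Real.rpow_one, mul_comm (1 / 20 : ℝ), ← Real.rpow_def_of_pos hX0] at e
    rw [le_div_iff₀ (by positivity)]
    calc C * Real.log X ^ J * X ^ (39 / 50 : ℝ) * Real.log X ^ 3
        = C * Real.log X ^ (J + 3) * X ^ (39 / 50 : ℝ) := by ring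
      _ ≤ X ^ (1 / 20 : ℝ) * X ^ (39 / 50 : ℝ) := by gcongr
      _ ≤ X ^ (5 / 6 : ℝ) := by rw [← Real.rpow_add hX0]; exact mono (by norm_num)
  calc ‖pr l v X (ρ * zc (wX θ X) a b)‖
      ≤ ‖pr l v X (ρ * (lam * zt 0).pm fun n => cw a b (nr n))‖ +
        ‖pr l v X (ρ * (zt (wX θ X)).pm fun n => cw a b (nr n)) -
          pr l v X (ρ * (lam * zt 0).pm fun n => cw a b (nr n))‖ := norm_le_insert' _ _
    _ ≤ X ^ (5 / 6 : ℝ) / Real.log X ^ 3 + X ^ (5 / 6 : ℝ) / Real.log X ^ 3 :=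
        add_le_add (t2.trans t3) t1
    _ = _ := by ring

end Crest.Agent.R12
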