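import Crest.Agent.R12.CmbG1

/-!
# Row 12, analytic half: configurations with long smooth variables
-/

set_option autoImplicit false

noncomputable section

namespace Crest.Agent.R12

open Crest.Agent.R17
open scoped ComplexConjugate Topology
open Filter MeasureTheory

theorem CmbG2_bd_dl (d : O) : Bd 1 (dl d) := by
  intro n hn
  rw [dl, AF.of_apply _ hn.1, one_pow]
  split_ifs <;> simp

theorem CmbG2_sup_dl {d : O} {D : ℝ} (hd : d ∈ rng 1 D) : Sup (dl d) 1 D := by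
  intro n hn h0
  rw [dl, AF.of_apply _ hn.1] at h0
  have : n = d := by
    by_contra h
    exact h0 (if_neg h)
  subst this
  exact (mem_rng.1 hd).2

theorem CmbG2_ev (C : ℝ) (J : ℕ) {ε : ℝ} (hε : 0 < ε) :
    ∃ X₀ : ℝ, ∀ X ≥ X₀, C * Real.log X ^ J ≤ X ^ ε := by
  have h := (isLittleO_log_rpow_rpow_atTop (J : ℝ) hε).bound
    (show (0 : ℝ) < 1 / (|C| + 1) by positivity)
  obtain ⟨X₀, hX₀⟩ := eventually_atTop.1 (h.and (eventually_ge_atTop 1))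
  refine ⟨X₀, fun X hX => ?_⟩
  obtain ⟨h1, h2⟩ := hX₀ X hX
  have hL : 0 ≤ Real.log X ^ J := pow_nonneg (Real.log_nonneg h2) _
  have hP : 0 ≤ X ^ ε := Real.rpow_nonneg (by linarith) _
  rw [Real.rpow_natCast, Real.norm_of_nonneg hL, Real.norm_of_nonneg hP] at h1
  have h3 : 0 < |C| + 1 := by positivity
  calc C * Real.log X ^ J ≤ (|C| + 1) * Real.log X ^ J :=
        mul_le_mul_of_nonneg_right (by linarith [le_abs_self C]) hL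
    _ ≤ (|C| + 1) * (1 / (|C| + 1) * X ^ ε) := mul_le_mul_of_nonneg_left h1 h3.le
    _ = X ^ ε := by field_simp

theorem CmbG2_N2 : ∃ (C : ℝ) (J : ℕ), 0 < C ∧ ∀ X : ℝ, 3 ≤ X → ∀ (α : AF) (x : ℝ), Bd 16 α →
    Sup α x X → ∀ y : ℝ, 0 ≤ y → N2 (rng 1 y) α ≤ C * Real.log X ^ J * y := by
  classical
  obtain ⟨C, J, hC, h⟩ := mom_crude 256
  refine ⟨C, J, hC, fun X hX α x hα hs y hy => ?_⟩
  have hm : 0 ≤ min y X := le_min hy (by linarith)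
  have h1 := (h X (min y X) hX hm (min_le_right _ _)).1
  have hL : 0 ≤ Real.log X ^ J := pow_nonneg (Real.log_nonneg (by linarith)) _
  have h2 : N2 (rng 1 y) α = ∑ b ∈ rng 1 (min y X), ‖α b‖ ^ 2 := by
    refine (Finset.sum_subset (fun b hb => ?_) fun b hb hb' => ?_).symm
    · obtain ⟨a1, a2, a3⟩ := mem_rng.1 hb
      exact mem_rng.2 ⟨a1, a2, a3.trans (min_le_left _ _)⟩
    · obtain ⟨a1, a2, a3⟩ := mem_rng.1 hb
      by_cases h0 : α b = 0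
      · simp [h0]
      · exact absurd (mem_rng.2 ⟨a1, a2, le_min a3 (hs b a1 h0).2⟩) hb'
  rw [h2]
  calc ∑ b ∈ rng 1 (min y X), ‖α b‖ ^ 2 ≤ ∑ b ∈ rng 1 (min y X), |(256 : ℝ)| ^ (pf b).card := by
        refine Finset.sum_le_sum fun b hb => ?_
        have h3 := hα b (mem_rng.1 hb).1
        calc ‖α b‖ ^ 2 ≤ ((16 : ℝ) ^ (pf b).card) ^ 2 := pow_le_pow_left₀ (norm_nonneg _) h3 2
          _ = |(256 : ℝ)| ^ (pf b).card := by
            rw [← pow_mul, mul_comm, pow_mul]; norm_num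
    _ ≤ C * min y X * Real.log X ^ J := h1
    _ ≤ C * y * Real.log X ^ J := by gcongr; exact min_le_left _ _
    _ = _ := by ring

/-- `propQ` for bounded coefficients. -/
theorem CmbG2_Q (l : ℤ) : ∃ δ₁ X₀ : ℝ, 0 < δ₁ ∧ δ₁ ≤ 1 ∧ ∀ X ≥ X₀, ∀ (v : ℝ → ℂ) (Φ : ℂ → ℂ)
    (T T₁ Y : ℝ) (α β : AF), Adm v Φ T T₁ → Real.log X ^ 2 ≤ T → T ≤ X ^ δ₁ → Bd 16 α →
    Sup α (X ^ (497 / 1000 : ℝ)) (X ^ (503 / 1000 : ℝ)) → QW X β Y → X ^ (497 / 1000 : ℝ) ≤ Y →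
    Y ≤ X ^ (503 / 1000 : ℝ) → ‖pr l v X (α * β)‖ ≤ X ^ (5 / 6 - 19 / 10000 : ℝ) := by
  obtain ⟨δ, C, X₁, hδ, hC, h⟩ := propQ l
  obtain ⟨C₂, J, hC₂, h₂⟩ := CmbG2_N2
  obtain ⟨X₂, h₃⟩ := CmbG2_ev (C ^ 2 * C₂) J (show (0 : ℝ) < 2 / 10000 by norm_num)
  refine ⟨min δ 1, max (max X₁ X₂) 3, lt_min hδ one_pos, min_le_right _ _,
    fun X hX v Φ T T₁ Y α β hA hT hT' hα hs hQ hY hY' => ?_⟩
  have hX1 : X₁ ≤ X := le_trans (le_trans (le_max_left _ _) (le_max_left _ _)) hX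
  have hX2 : X₂ ≤ X := le_trans (le_trans (le_max_right _ _) (le_max_left _ _)) hX
  have hX3 : 3 ≤ X := le_trans (le_max_right _ _) hX
  have hX0 : 0 < X := by linarith
  have hL : 0 ≤ Real.log X ^ J := pow_nonneg (Real.log_nonneg (by linarith)) _
  have hs' : Sup α (X ^ (497 / 1000 : ℝ)) X := hs.mono le_rfl (by
    calc X ^ (503 / 1000 : ℝ) ≤ X ^ (1 : ℝ) :=
          Real.rpow_le_rpow_of_exponent_le (by linarith) (by norm_num)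
      _ = X := Real.rpow_one X)
  have h4 := h X hX1 v Φ T T₁ Y (C₂ * Real.log X ^ J) α β hA hT
    (hT'.trans (Real.rpow_le_rpow_of_exponent_le (by linarith) (min_le_left _ _)))
    (by positivity) hs (h₂ X hX3 α _ hα hs') hQ hY hY'
  have h5 : C * Real.sqrt (C₂ * Real.log X ^ J) ≤ X ^ (1 / 10000 : ℝ) := by
    refine (pow_le_pow_iff_left₀ (by positivity) (by positivity) two_ne_zero).1 ?_
    rw [mul_pow, Real.sq_sqrt (by positivity), ← Real.rpow_natCast (X ^ (1 / 10000 : ℝ)),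
      ← Real.rpow_mul hX0.le, ← mul_assoc]
    refine (h₃ X hX2).trans (le_of_eq ?_)
    norm_num
  refine h4.trans ((mul_le_mul_of_nonneg_right h5 (by positivity)).trans (le_of_eq ?_))
  rw [← Real.rpow_add hX0]
  norm_num

/-- Opening the sieve variable and the smooth cell. -/
theorem CmbG2_open (l : ℤ) (v : ℝ → ℂ) (X : ℝ) (α : AF) {lam : AF} {D a b E : ℝ}
    (h : Sup lam 1 D) (hab : a ≤ b)
    (hE : ∀ d ∈ rng 1 D, ∀ u, a ≤ u → u ≤ b →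
      ‖pr l v X (α * dl d * gW (Real.exp u / nr d))‖ ≤ E) :
    ‖pr l v X (α * (lam * zt 0).pm fun n => cw a b (nr n))‖ ≤
      (∑ d ∈ rng 1 D, ‖lam d‖) * ((b - a) * E) := by
  have h1 := (EqPS.refl α).mul (pm_lam_eq h (cw a b))
  rw [pr_congr l v X fun n hn _ _ => h1 n hn, Finset.mul_sum, pr_sum, Finset.sum_mul]
  refine (norm_sum_le _ _).trans (Finset.sum_le_sum fun d hd => ?_)
  rw [mul_smul_comm, pr_smul, norm_mul, ← mul_assoc]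
  exact mul_le_mul_of_nonneg_left
    (norm_pr_cw_le l v X _ hab (nr_pos (mem_rng.1 hd).1.ne_zero) (hE d hd)) (norm_nonneg _)

/-- `tail_lemma` with `Y₁ = X^{4/10000}`, `κ = 1/10000`. -/
theorem CmbG2_tail (l : ℤ) {θ : ℝ} (h0 : 0 < θ) (h1 : θ < 1) : ∃ X₀ : ℝ, ∀ X ≥ X₀,
    ∃ (lam : AF) (D : ℝ), Bd 3 lam ∧ Sup lam 1 D ∧ D ≤ X ^ (6 / 10000 : ℝ) ∧
      ∑ d ∈ rng 1 D, ‖lam d‖ ≤ X ^ (7 / 10000 : ℝ) ∧
      ∀ (v : ℝ → ℂ) (Φ : ℂ → ℂ) (T T₁ a b : ℝ) (ρ₁ ρ₂ : AF), Adm v Φ T T₁ → Real.log X ^ 2 ≤ T →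
      T ≤ X → a ≤ b → b - a ≤ Real.log X → Bd 14 ρ₁ → Bd 14 ρ₂ →
      Sup ρ₁ (X ^ (1 / 2 - 3 / 10000 : ℝ)) (X ^ (1 / 2 + 3 / 10000 : ℝ)) →
      ‖pr l v X (ρ₁ * ρ₂ * zc (wX θ X) a b) -
        pr l v X (ρ₁ * ρ₂ * (lam * zt 0).pm fun n => cw a b (nr n))‖ ≤
        X ^ (5 / 6 : ℝ) / Real.log X ^ 3 := by
  have hκ : (0 : ℝ) < 1 / 10000 := by norm_num
  obtain ⟨X₁, h₁⟩ := tail_lemma l 14 h0 h1 hκ
  obtain ⟨X₂, h₂⟩ := wX_ev h0 h1 hκ 0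
  obtain ⟨C, J, hC, h₃⟩ := mom_crude 3
  obtain ⟨X₃, h₄⟩ := CmbG2_ev C J hκ
  refine ⟨max (max X₁ X₂) (max X₃ 3), fun X hX => ?_⟩
  have hX1 : X₁ ≤ X := le_trans (le_trans (le_max_left _ _) (le_max_left _ _)) hX
  have hX2 : X₂ ≤ X := le_trans (le_trans (le_max_right _ _) (le_max_left _ _)) hX
  have hX3 : X₃ ≤ X := le_trans (le_trans (le_max_left _ _) (le_max_right _ _)) hX
  have hX4 : 3 ≤ X := le_trans (le_trans (le_max_right _ _) (le_max_right _ _)) hX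
  have hX0 : 0 < X := by linarith
  have hX5 : 1 ≤ X := by linarith
  obtain ⟨-, hw, hw8⟩ := h₂ X hX2
  obtain ⟨lam, hb, hs, ht⟩ := h₁ X hX1 (X ^ (4 / 10000 : ℝ)) (Real.one_le_rpow hX5 (by norm_num))
  have hD : X ^ (4 / 10000 : ℝ) * wX θ X * X ^ (1 / 10000 : ℝ) ≤ X ^ (6 / 10000 : ℝ) := by
    calc X ^ (4 / 10000 : ℝ) * wX θ X * X ^ (1 / 10000 : ℝ)
        ≤ X ^ (4 / 10000 : ℝ) * X ^ (1 / 10000 : ℝ) * X ^ (1 / 10000 : ℝ) := by gcongr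
      _ = _ := by rw [← Real.rpow_add hX0, ← Real.rpow_add hX0]; norm_num
  have hD0 : 0 ≤ X ^ (4 / 10000 : ℝ) * wX θ X * X ^ (1 / 10000 : ℝ) :=
    mul_nonneg (mul_nonneg (by positivity) (by linarith)) (by positivity)
  have hDX : X ^ (6 / 10000 : ℝ) ≤ X := by
    calc X ^ (6 / 10000 : ℝ) ≤ X ^ (1 : ℝ) := Real.rpow_le_rpow_of_exponent_le hX5 (by norm_num)
      _ = X := Real.rpow_one X
  have hL1 : 1 ≤ Real.log X := by
    rw [Real.le_log_iff_exp_le hX0]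
    exact (Real.exp_one_lt_d9.le.trans (by norm_num)).trans hX4
  refine ⟨lam, _, hb, hs, hD, ?_, fun v Φ T T₁ a b ρ₁ ρ₂ hA hT hT' hab hab' hρ₁ hρ₂ hs₁ => ?_⟩
  · generalize X ^ (4 / 10000 : ℝ) * wX θ X * X ^ (1 / 10000 : ℝ) = D at hD hD0
    have h5 := (h₃ X D hX4 hD0 (hD.trans hDX)).1
    calc ∑ d ∈ rng 1 D, ‖lam d‖ ≤ ∑ d ∈ rng 1 D, |(3 : ℝ)| ^ (pf d).card :=
          Finset.sum_le_sum fun d hd => by
            rw [abs_of_pos (by norm_num : (0 : ℝ) < 3)]; exact hb d (mem_rng.1 hd).1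
      _ ≤ C * D * Real.log X ^ J := h5
      _ = D * (C * Real.log X ^ J) := by ring
      _ ≤ X ^ (6 / 10000 : ℝ) * X ^ (1 / 10000 : ℝ) :=
          mul_le_mul hD (h₄ X hX3) (by positivity) (by positivity)
      _ = _ := by rw [← Real.rpow_add hX0]; norm_num
  · refine ht v (cw a b) Φ T T₁ (b - a) _ _ ρ₁ ρ₂ hA hT hT' (gm_cw hab) (by nlinarith) hρ₁ hρ₂
      (by positivity) hs₁ (Or.inr ⟨?_, ?_⟩)
    · rw [← Real.rpow_add hX0]
      exact Real.rpow_le_rpow_of_exponent_le hX5 (by norm_num)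
    · calc X ^ (1 / 2 + 3 / 10000 : ℝ) * (X ^ (4 / 10000 : ℝ) * wX θ X)
          ≤ X ^ (1 / 2 + 3 / 10000 : ℝ) * (X ^ (4 / 10000 : ℝ) * X ^ (1 / 10000 : ℝ)) := by gcongr
        _ ≤ _ := by
          rw [← Real.rpow_add hX0, ← Real.rpow_add hX0]
          exact Real.rpow_le_rpow_of_exponent_le hX5 (by norm_num)

/-- The scale `e^u / N d` in terms of exponents. -/
theorem CmbG2_scale {X D s : ℝ} (hX : 0 < X) (hD : D ≤ X ^ s) {d : O} (hd : d ∈ rng 1 D) (u : ℝ) :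
    ∃ t : ℝ, u - s * Real.log X ≤ t ∧ t ≤ u ∧ Real.exp u / nr d = Real.exp t := by
  obtain ⟨h1, h2, h3⟩ := mem_rng.1 hd
  have h4 : 0 < nr d := by linarith
  refine ⟨u - Real.log (nr d), ?_, by linarith [Real.log_nonneg h2], ?_⟩
  · have h5 := Real.log_le_log h4 (h3.trans hD)
    rw [Real.log_rpow hX] at h5
    linarith
  · rw [Real.exp_sub, Real.exp_log h4]

theorem CmbG2_rpow_le {X s t : ℝ} (hX : 0 < X) (h : s * Real.log X ≤ t) : X ^ s ≤ Real.exp t := by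
  rw [Real.rpow_def_of_pos hX]
  exact Real.exp_le_exp.2 (by linarith)

theorem CmbG2_le_rpow {X s t : ℝ} (hX : 0 < X) (h : t ≤ s * Real.log X) : Real.exp t ≤ X ^ s := by
  rw [Real.rpow_def_of_pos hX]
  exact Real.exp_le_exp.2 (by linarith)

/-- `tail_lemma` (`Y₁ = X^{4/10000}`, `κ = 1/10000`), `pm_lam_eq`, `norm_pr_cw_le`, `propQ` with
`α = ρ * dl d`, `𝒜 = C X^ε / N d`. -/
theorem case_Q2 (l : ℤ) {θ : ℝ} (h0 : 0 < θ) (h1 : θ < 1) : ∃ δ₁ C X₀ : ℝ, 0 < δ₁ ∧ 0 < C ∧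
    ∀ X ≥ X₀, ∀ (v : ℝ → ℂ) (Φ : ℂ → ℂ) (T T₁ a b : ℝ) (ρ : AF), Adm v Φ T T₁ →
    Real.log X ^ 2 ≤ T → T ≤ X ^ δ₁ → Bd 14 ρ →
    Sup ρ (X ^ (1 / 2 - 3 / 10000 : ℝ)) (X ^ (1 / 2 + 3 / 10000 : ℝ)) → a ≤ b →
    (1 / 2 - 3 / 10000) * Real.log X ≤ a → b ≤ (1 / 2 + 3 / 10000) * Real.log X →
    ‖pr l v X (ρ * zc (wX θ X) a b)‖ ≤ C * X ^ (5 / 6 : ℝ) / Real.log X ^ 3 := by
  obtain ⟨δ, X₁, hδ, hδ1, hQ⟩ := CmbG2_Q l
  obtain ⟨X₂, ht⟩ := CmbG2_tail l h0 h1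
  obtain ⟨X₃, hev⟩ := CmbG2_ev 1 4 (show (0 : ℝ) < 12 / 10000 by norm_num)
  refine ⟨δ, 2, max (max X₁ X₂) (max X₃ 3), hδ, two_pos,
    fun X hX v Φ T T₁ a b ρ hA hT hT' hρ hs hab ha hb => ?_⟩
  have hX1 : X₁ ≤ X := le_trans (le_trans (le_max_left _ _) (le_max_left _ _)) hX
  have hX2 : X₂ ≤ X := le_trans (le_trans (le_max_right _ _) (le_max_left _ _)) hX
  have hX3 : X₃ ≤ X := le_trans (le_trans (le_max_left _ _) (le_max_right _ _)) hX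
  have hX4 : 3 ≤ X := le_trans (le_trans (le_max_right _ _) (le_max_right _ _)) hX
  have hX0 : 0 < X := by linarith
  have hX5 : 1 ≤ X := by linarith
  have hL : 0 < Real.log X := Real.log_pos (by linarith)
  have hTX : T ≤ X := by
    calc T ≤ X ^ δ := hT'
      _ ≤ X ^ (1 : ℝ) := Real.rpow_le_rpow_of_exponent_le hX5 hδ1
      _ = X := Real.rpow_one X
  obtain ⟨lam, D, -, hsl, hD, hS, htail⟩ := ht X hX2
  have hba : b - a ≤ Real.log X := by linarith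
  have e1 := htail v Φ T T₁ a b ρ 1 hA hT hTX hab hba hρ (bd_one.mono le_rfl (by norm_num)) hs
  rw [mul_one] at e1
  have e2 := CmbG2_open l v X ρ (E := X ^ (5 / 6 - 19 / 10000 : ℝ)) hsl hab fun d hd u hu hu' => by
    obtain ⟨t, t1, t2, t3⟩ := CmbG2_scale hX0 hD hd u
    refine hQ X hX1 v Φ T T₁ _ _ _ hA hT hT'
      ((hρ.mul (CmbG2_bd_dl d) (by norm_num) (by norm_num)).mono (by norm_num) (by norm_num))
      ((hs.mul (CmbG2_sup_dl hd) (by positivity) (by norm_num)).mono ?_ ?_) (Or.inl rfl) ?_ ?_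
    · rw [mul_one]
      exact Real.rpow_le_rpow_of_exponent_le hX5 (by norm_num)
    · calc X ^ (1 / 2 + 3 / 10000 : ℝ) * D ≤ X ^ (1 / 2 + 3 / 10000 : ℝ) * X ^ (6 / 10000 : ℝ) := by
            gcongr
        _ ≤ _ := by
          rw [← Real.rpow_add hX0]
          exact Real.rpow_le_rpow_of_exponent_le hX5 (by norm_num)
    · rw [t3]
      exact CmbG2_rpow_le hX0 (by linarith)
    · rw [t3]
      exact CmbG2_le_rpow hX0 (by linarith)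
  have e3 : (∑ d ∈ rng 1 D, ‖lam d‖) * ((b - a) * X ^ (5 / 6 - 19 / 10000 : ℝ)) ≤
      X ^ (5 / 6 : ℝ) / Real.log X ^ 3 := by
    rw [le_div_iff₀ (by positivity)]
    have h4 := hev X hX3
    calc (∑ d ∈ rng 1 D, ‖lam d‖) * ((b - a) * X ^ (5 / 6 - 19 / 10000 : ℝ)) * Real.log X ^ 3
        ≤ X ^ (7 / 10000 : ℝ) * (Real.log X * X ^ (5 / 6 - 19 / 10000 : ℝ)) * Real.log X ^ 3 := by
          have : 0 ≤ b - a := by linarith
          gcongr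
      _ = X ^ (7 / 10000 : ℝ) * X ^ (5 / 6 - 19 / 10000 : ℝ) * (1 * Real.log X ^ 4) := by ring
      _ ≤ X ^ (7 / 10000 : ℝ) * X ^ (5 / 6 - 19 / 10000 : ℝ) * X ^ (12 / 10000 : ℝ) := by gcongr
      _ = _ := by rw [← Real.rpow_add hX0, ← Real.rpow_add hX0]; norm_num
  have e4 := norm_le_norm_add_norm_sub' (pr l v X (ρ * zc (wX θ X) a b))
    (pr l v X (ρ * (lam * zt 0).pm fun n => cw a b (nr n)))
  rw [mul_div_assoc]
  linarith

end Crest.Agent.R12
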