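import Crest.Agent.R12.CmbA
import Crest.Agent.R12.CmbF
import Crest.Agent.R12.CmbG

/-!
# Row 12, analytic half: one configuration
-/

set_option autoImplicit false

noncomputable section

namespace Crest.Agent.R12

open Crest.Agent.R17
open scoped ComplexConjugate Topology
open Filter MeasureTheory

/-- The mesh of the cells. -/
def dm : ℝ := 1 / 1000000

/-- A group of variables. -/
theorem CmbH_grp {ι : Type} [DecidableEq ι] {w X : ℝ} (hX : 1 ≤ X) {x : ι → ℝ} {g : ι → AF}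
    (hg : ∀ i, Reg w 10 (X ^ (x i - 2 * dm)) (g i) ∧
      Sup (g i) (X ^ (x i - 2 * dm)) (X ^ (x i + 2 * dm))) (I : Finset ι) (hI : I.card ≤ 14) :
    Bd 14 (∏ i ∈ I, g i) ∧ Rgh w (∏ i ∈ I, g i) ∧
      (32 / 100 ≤ ∑ i ∈ I, x i → HasReg w X (∏ i ∈ I, g i)) ∧
      ∀ a b : ℝ, a ≤ ∑ i ∈ I, x i - 28 / 1000000 → ∑ i ∈ I, x i + 28 / 1000000 ≤ b →
        Sup (∏ i ∈ I, g i) (X ^ a) (X ^ b) := by
  have hX0 : 0 < X := by linarith
  have hc : (I.card : ℝ) ≤ 14 := by exact_mod_cast hI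
  refine ⟨(Bd.prod fun i _ => (hg i).1.bd).mono (Nat.cast_nonneg _) hc,
    Rgh.prod fun i _ => (hg i).1.rgh, fun hs => ?_, fun a b ha hb => ?_⟩
  · obtain ⟨i, hi, hxi⟩ : ∃ i ∈ I, 2 / 100 ≤ x i := by
      by_contra hn
      push Not at hn
      have := Finset.sum_le_card_nsmul I x (2 / 100) fun i hi => (hn i hi).le
      rw [nsmul_eq_mul] at this
      linarith
    refine ⟨g i, ∏ j ∈ I.erase i, g j, (hg i).1.mono le_rfl
      (Real.rpow_le_rpow_of_exponent_le hX (by unfold dm; linarith)),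
      (Bd.prod fun j _ => (hg j).1.bd).mono (Nat.cast_nonneg _) ?_,
      (Finset.mul_prod_erase I g hi).symm⟩
    have : (I.erase i).card ≤ 13 := by rw [Finset.card_erase_of_mem hi]; omega
    exact_mod_cast this
  · have h := Sup.prod (s := I) (fun i _ => (hg i).2) fun i _ => by positivity
    rw [← Real.rpow_sum_of_pos hX0, ← Real.rpow_sum_of_pos hX0, Finset.sum_sub_distrib,
      Finset.sum_add_distrib, Finset.sum_const, nsmul_eq_mul] at h
    refine h.mono (Real.rpow_le_rpow_of_exponent_le hX ?_) (Real.rpow_le_rpow_of_exponent_le hX ?_)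
    all_goals unfold dm; linarith

theorem CmbH_err {X : ℝ} (hX : 3 ≤ X) :
    X ^ 2 * X ^ (-10 : ℝ) ≤ X ^ (5 / 6 : ℝ) / Real.log X ^ 3 := by
  have hX0 : 0 < X := by linarith
  have hL : 0 < Real.log X := Real.log_pos (by linarith)
  have h1 : Real.log X ≤ X := (Real.log_le_sub_one_of_pos hX0).trans (by linarith)
  rw [le_div_iff₀ (by positivity)]
  calc X ^ 2 * X ^ (-10 : ℝ) * Real.log X ^ 3 ≤ X ^ 2 * X ^ (-10 : ℝ) * X ^ 3 := by gcongr
    _ = X ^ (-5 : ℝ) := by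
        rw [← Real.rpow_natCast X 2, ← Real.rpow_natCast X 3, ← Real.rpow_add hX0,
          ← Real.rpow_add hX0]
        norm_num
    _ ≤ X ^ (5 / 6 : ℝ) := Real.rpow_le_rpow_of_exponent_le (by linarith) (by norm_num)

/-- The total size is close to `1`. -/
theorem CmbH_tot (l : ℤ) (v : ℝ → ℂ) {X s : ℝ} (hX : 1 ≤ X) (h4 : 4 < X ^ (2 / 100000 : ℝ)) {G : AF}
    (hG : Sup G (X ^ (s - 28 / 1000000)) (X ^ (s + 28 / 1000000))) (h : pr l v X G ≠ 0) :
    |s - 1| ≤ 1 / 20000 := by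
  have hX0 : 0 < X := by linarith
  by_contra hn
  refine h (pr_eq_zero_of_sup l v X hG ?_)
  rw [abs_le, not_and_or, not_le, not_le] at hn
  rcases hn with hn | hn
  · left
    have h1 : X ^ (s + 28 / 1000000) * X ^ (2 / 100000 : ℝ) ≤ X := by
      rw [← Real.rpow_add hX0]
      exact Real.rpow_le_self_of_one_le hX (by linarith)
    have h2 : 0 < X ^ (s + 28 / 1000000) := by positivity
    nlinarith
  · right
    have h1 : X * X ^ (2 / 100000 : ℝ) ≤ X ^ (s - 28 / 1000000) := by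
      rw [mul_comm, ← Real.rpow_add_one hX0.ne']
      exact Real.rpow_le_rpow_of_exponent_le hX (by linarith)
    nlinarith

/-- **One configuration.**  If the pairing is not zero then `|∑ x - 1| ≤ 1/20000` (`Sup.prod`,
`pr_eq_zero_of_sup`); `classify`; group the variables (`Finset.prod_mul_prod_compl`,
`Finset.prod_fiberwise`); a group of total size `≥ 0.32` contains a variable with
`x i - 2 dm ≥ 1/60`; in the cases I, Q2, Q4 replace `g i` by `zc` (`pr_perturb`). -/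
theorem core_cfg (l : ℤ) : ∃ (θ δ₁ : ℝ) (A₀ : ℕ), 0 < θ ∧ θ < 1 ∧ 0 < δ₁ ∧ ∀ (Cb : ℝ) (A₁ : ℕ),
    0 < Cb → ∃ C X₀ : ℝ, 0 < C ∧ ∀ X ≥ X₀, ∀ (v : ℝ → ℂ) (Φ : ℂ → ℂ) (T T₁ Λ₀ : ℝ) (ι : Type)
    [Fintype ι] [DecidableEq ι] (Sm : Finset ι) (x : ι → ℝ) (g : ι → AF),
    Adm v Φ T T₁ → Real.log X ^ 2 ≤ T → T ≤ X ^ δ₁ → 0 ≤ Λ₀ → Λ₀ ≤ Real.log X →
    BH l v X θ A₀ A₁ Cb Λ₀ → Fintype.card ι ≤ 14 → (∀ i, 0 ≤ x i) →
    (∀ i, i ∉ Sm → x i ≤ 3 / 20) →
    (∀ i, Reg (wX θ X) 10 (X ^ (x i - 2 * dm)) (g i) ∧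
      Sup (g i) (X ^ (x i - 2 * dm)) (X ^ (x i + 2 * dm))) →
    (∀ i ∈ Sm, ∀ n, PS n → nr n ≤ 2 * X →
      ‖g i n - zc (wX θ X) ((x i - dm) * Real.log X) (x i * Real.log X) n‖ ≤ X ^ (-10 : ℝ)) →
    ‖pr l v X (∏ i, g i)‖ ≤ C * X ^ (5 / 6 : ℝ) *
      (Λ₀ * Real.log X ^ (-(5 / 4 : ℝ)) + (Real.log X ^ 3)⁻¹) := by
  obtain ⟨θ, AN, h0, h1, hN⟩ := case_N
  obtain ⟨A2, h2⟩ := case_II
  obtain ⟨CI, XI, hCI, hI⟩ := case_I l h0 h1
  obtain ⟨δ2, CQ, XQ, hδ2, hCQ, hQ⟩ := case_Q2 l h0 h1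
  obtain ⟨δ4, CR, XR, hδ4, hCR, hR⟩ := case_Q4 l h0 h1
  obtain ⟨Cp, hCp, hp⟩ := pr_perturb l 15
  obtain ⟨X4, hX4⟩ := eventually_atTop.1
    ((tendsto_rpow_atTop (show (0 : ℝ) < 2 / 100000 by norm_num)).eventually_gt_atTop 4)
  refine ⟨θ, min (min δ2 δ4) (1 / 1000), max AN A2, h0, h1, by positivity, fun Cb A₁ hCb => ?_⟩
  obtain ⟨CN, XN, hCN, hN⟩ := hN l Cb A₁ hCb
  obtain ⟨C2, X2, hC2, h2⟩ := h2 l θ Cb A₁ h0 h1 hCb
  refine ⟨CN + C2 + CI + CQ + CR + 2 * Cp, max (max (max XN X2) (max XI XQ)) (max (max XR X4) 3),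
    by positivity, fun X hX v Φ T T₁ Λ₀ ι _ _ Sm x g hv hT hT' hΛ hΛ' hB hι hx hs hg hz => ?_⟩
  simp only [ge_iff_le, max_le_iff] at hX
  obtain ⟨⟨⟨x1, x2⟩, x3, x4⟩, ⟨x5, x6⟩, x7⟩ := hX
  have hX1 : 1 ≤ X := by linarith
  have hX0 : 0 < X := by linarith
  have hL : 0 < Real.log X := Real.log_pos (by linarith)
  have hcard : ∀ I : Finset ι, I.card ≤ 14 := fun I => (Finset.card_le_univ I).trans hι
  have grp := fun I => CmbH_grp hX1 hg I (hcard I)
  have hT2 : T ≤ X ^ δ2 := hT'.trans (Real.rpow_le_rpow_of_exponent_le hX1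
    ((min_le_left _ _).trans (min_le_left _ _)))
  have hT4 : T ≤ X ^ δ4 := hT'.trans (Real.rpow_le_rpow_of_exponent_le hX1
    ((min_le_left _ _).trans (min_le_right _ _)))
  have hTI : T ≤ X ^ (1 / 1000 : ℝ) :=
    hT'.trans (Real.rpow_le_rpow_of_exponent_le hX1 (min_le_right _ _))
  set U := X ^ (5 / 6 : ℝ) / Real.log X ^ 3 with hU
  set W := X ^ (5 / 6 : ℝ) * (Λ₀ * Real.log X ^ (-(5 / 4 : ℝ)) + (Real.log X ^ 3)⁻¹) with hW
  have hU0 : 0 ≤ U := by positivity
  have hUW : U ≤ W := by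
    rw [hU, hW, div_eq_mul_inv]
    exact mul_le_mul_of_nonneg_left (le_add_of_nonneg_left (by positivity)) (by positivity)
  have hW0 : 0 ≤ W := hU0.trans hUW
  have pert : ∀ α : AF, Bd 15 α → ∀ i ∈ Sm, ‖pr l v X (α * g i)‖ ≤ ‖pr l v X
      (α * zc (wX θ X) ((x i - dm) * Real.log X) (x i * Real.log X))‖ + Cp * W := by
    intro α hα i hi
    have e := hp X (X ^ (-10 : ℝ)) v α _ _ hX1 (by positivity) (fun y hy => hv.norm_le_one hy) hα
      (hz i hi)
    have e2 : Cp * X ^ 2 * X ^ (-10 : ℝ) ≤ Cp * W := by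
      rw [mul_assoc]
      exact mul_le_mul_of_nonneg_left ((CmbH_err x7).trans hUW) hCp.le
    exact (norm_le_norm_add_norm_sub' _ _).trans (add_le_add le_rfl (e.trans e2))
  have fin : ∀ {E C : ℝ}, 0 ≤ C → E ≤ C * X ^ (5 / 6 : ℝ) / Real.log X ^ 3 → E ≤ C * W :=
    fun hC h => (h.trans_eq (mul_div_assoc _ _ _)).trans (mul_le_mul_of_nonneg_left hUW hC)
  have hdm : (0 : ℝ) < dm * Real.log X := mul_pos (by unfold dm; norm_num) hL
  have hdm' : dm * Real.log X = Real.log X / 1000000 := by unfold dm; ring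
  have p1 := mul_nonneg hCN.le hW0
  have p2 := mul_nonneg hC2.le hW0
  have p3 := mul_nonneg hCI.le hW0
  have p4 := mul_nonneg hCQ.le hW0
  have p5 := mul_nonneg hCR.le hW0
  have p6 := mul_nonneg hCp.le hW0
  rw [mul_assoc, ← hW]
  by_cases hne : pr l v X (∏ i, g i) = 0
  · rw [hne, norm_zero]
    positivity
  have htot := CmbH_tot l v hX1 (hX4 X x6) ((grp Finset.univ).2.2.2 _ _ le_rfl le_rfl) hne
  have htot' := abs_le.1 htot
  rcases classify Sm x hx hs htot with ⟨I, a1, a2⟩ | ⟨i, hi, a1⟩ | ⟨i, hi, a1⟩ |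
    ⟨i, hi, i', hi', hii, a1⟩ | ⟨c, hc⟩
  · have := fin hC2.le (h2 X x2 v Φ T T₁ Λ₀ (∏ i ∈ Iᶜ, g i) (∏ i ∈ I, g i) hv hT hΛ hΛ'
      (hB.mono x7 hCb.le (le_max_right _ _)) (grp _).1 (grp _).1 (grp _).2.1
      ((grp _).2.2.1 (by linarith)) ((grp _).2.2.2 _ _ (by linarith) (by linarith)))
    rw [Finset.prod_compl_mul_prod] at this
    linarith
  · have e := Finset.sum_erase_add Finset.univ x (Finset.mem_univ i)
    have b := pert _ ((grp (Finset.univ.erase i)).1.mono (by norm_num) (by norm_num)) i hi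
    rw [Finset.prod_erase_mul _ _ (Finset.mem_univ i)] at b
    have := fin hCI.le (hI X x3 v Φ T T₁ _ _ ((x i - dm) * Real.log X) (x i * Real.log X) _ hv hT
      hTI (grp (Finset.univ.erase i)).1 ((grp _).2.2.2 _ _ le_rfl le_rfl) (by positivity)
      (Real.rpow_le_rpow_of_exponent_le hX1 (by linarith))
      (Real.rpow_le_rpow_of_exponent_le hX1 (by linarith))
      (by rw [← Real.rpow_add hX0]; exact Real.rpow_le_rpow_of_exponent_le hX1 (by linarith))
      (by linarith) (by linarith))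
    linarith
  · have e := Finset.sum_erase_add Finset.univ x (Finset.mem_univ i)
    have a2 := abs_le.1 a1
    have b := pert _ ((grp (Finset.univ.erase i)).1.mono (by norm_num) (by norm_num)) i hi
    rw [Finset.prod_erase_mul _ _ (Finset.mem_univ i)] at b
    have := fin hCQ.le (hQ X x4 v Φ T T₁ ((x i - dm) * Real.log X) (x i * Real.log X) _ hv hT
      hT2 (grp (Finset.univ.erase i)).1 ((grp _).2.2.2 _ _ (by linarith) (by linarith))
      (by linarith) (mul_le_mul_of_nonneg_right (by unfold dm; linarith) hL.le)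
      (mul_le_mul_of_nonneg_right (by linarith) hL.le))
    linarith
  · have m' : i ∈ Finset.univ.erase i' := Finset.mem_erase.2 ⟨hii, Finset.mem_univ i⟩
    have e := Finset.sum_erase_add Finset.univ x (Finset.mem_univ i')
    have e' := Finset.sum_erase_add _ x m'
    have a2 := abs_le.1 a1
    have b := pert _ ((grp (Finset.univ.erase i')).1.mono (by norm_num) (by norm_num)) i' hi'
    rw [Finset.prod_erase_mul _ _ (Finset.mem_univ i'), ← Finset.prod_erase_mul _ _ m',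
      mul_right_comm] at b
    have b' := pert _ (((grp ((Finset.univ.erase i').erase i)).1.mul (bd_zc (wX θ X)
      ((x i' - dm) * Real.log X) (x i' * Real.log X)) (by norm_num) (by norm_num)).mono
      (by norm_num) (by norm_num)) i hi
    have q1 := mul_nonneg (hx i) hL.le
    have q2 := mul_nonneg (hx i') hL.le
    have := fin hCR.le (hR X x5 v Φ T T₁ ((x i' - dm) * Real.log X) (x i' * Real.log X)
      ((x i - dm) * Real.log X) (x i * Real.log X) _ hv hT
      hT4 (grp ((Finset.univ.erase i').erase i)).1 ((grp _).2.2.2 _ _ (by linarith) (by linarith))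
      (by linarith) (by linarith) (by linarith) (by linarith)
      (by rw [← add_mul]; exact mul_le_mul_of_nonneg_right (by unfold dm; linarith) hL.le)
      (by rw [← add_mul]; exact mul_le_mul_of_nonneg_right (by linarith) hL.le))
    linarith
  · have e := Finset.sum_fiberwise Finset.univ c x
    rw [Fin.sum_univ_three] at e
    have c0 := hc 0
    have c1 := hc 1
    have c2 := hc 2
    have low : ∀ a : Fin 3,
        33 / 100 ≤ ∑ i ∈ Finset.univ.filter (fun i => c i = a), x i := by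
      intro a
      fin_cases a
      · show 33 / 100 ≤ ∑ i ∈ Finset.univ.filter (fun i => c i = 0), x i
        linarith
      · show 33 / 100 ≤ ∑ i ∈ Finset.univ.filter (fun i => c i = 1), x i
        linarith
      · show 33 / 100 ≤ ∑ i ∈ Finset.univ.filter (fun i => c i = 2), x i
        linarith
    have := hN X x1 v Φ T T₁ Λ₀ (fun a => ∏ i ∈ Finset.univ.filter (fun i => c i = a), g i) hv hT hΛ
      (hB.mono x7 hCb.le (le_max_left _ _)) fun a => ⟨(grp _).1, (grp _).2.1,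
        (grp _).2.2.1 (by linarith [low a]),
        (grp _).2.2.2 _ _ (by linarith [low a]) (by linarith [hc a])⟩
    rw [Finset.prod_fiberwise, mul_assoc, ← hW] at this
    linarith

end Crest.Agent.R12
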