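import Crest.Agent.R12.CmbI0

/-!
# Row 12, analytic half: decomposition into cells
-/

set_option autoImplicit false

noncomputable section

namespace Crest.Agent.R12

open Crest.Agent.R17
open scoped ComplexConjugate Topology
open Filter MeasureTheory

theorem CmbI_expand {j : ℕ} (N₁ N₂ : ℕ) (g : ℕ → AF) (h : Fin j → ℕ → AF) :
    (∏ i, ∑ a ∈ Finset.range N₂, h i a) * ∏ _i : Fin j, ∑ a ∈ Finset.range N₁, g a =
      ∑ p ∈ Fintype.piFinset (fun _ : Fin j => Finset.range N₁) ×ˢ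
          Fintype.piFinset (fun _ : Fin j => Finset.range N₂),
        ∏ i : Fin j ⊕ Fin j, Sum.elim (fun i => g (p.1 i)) (fun i => h i (p.2 i)) i := by
  rw [mul_comm, Finset.prod_univ_sum, Finset.prod_univ_sum, Finset.sum_mul_sum, Finset.sum_product]
  simp only [Fintype.prod_sum_type, Sum.elim_inl, Sum.elim_inr]

theorem CmbI_card {j N₁ N₂ : ℕ} (hj : j ≤ 7) (h₁ : 1 ≤ N₁) (h₂ : 1 ≤ N₂) :
    ((Fintype.piFinset (fun _ : Fin j => Finset.range N₁) ×ˢ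
      Fintype.piFinset (fun _ : Fin j => Finset.range N₂)).card : ℝ) ≤ ((N₁ * N₂) ^ 7 : ℕ) := by
  rw [Finset.card_product, Fintype.card_piFinset_const, Fintype.card_piFinset_const,
    Finset.card_range, Finset.card_range, ← mul_pow]
  exact_mod_cast Nat.pow_le_pow_right (Nat.mul_pos h₁ h₂) hj

theorem CmbI_small {X : ℝ} (hX : 2 ≤ X) :
    X ^ 2 * X ^ (-9 : ℝ) ≤ X ^ (5 / 6 : ℝ) * (Real.log X ^ 3)⁻¹ := by
  have h0 : 0 < X := by linarith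
  have h1 : 0 < Real.log X := Real.log_pos (by linarith)
  have h2 : Real.log X ≤ X := (Real.log_le_sub_one_of_pos h0).trans (by linarith)
  have h3 : (X ^ 3)⁻¹ ≤ (Real.log X ^ 3)⁻¹ := by gcongr
  have h4 : X ^ 2 * X ^ (-9 : ℝ) ≤ X ^ (5 / 6 : ℝ) * (X ^ 3)⁻¹ := by
    rw [← Real.rpow_natCast, ← Real.rpow_natCast, ← Real.rpow_neg h0.le, ← Real.rpow_add h0,
      ← Real.rpow_add h0]
    exact Real.rpow_le_rpow_of_exponent_le (by linarith) (by norm_num)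
  exact h4.trans (mul_le_mul_of_nonneg_left h3 (by positivity))

/-- `ι = Fin j ⊕ Fin j`, `Finset.prod_univ_sum` (keep the numerals abstract: `obtain ⟨N, hN⟩ : ∃ N, N = 1000003`), `pr_prod_perturb`, `core_cfg`. -/
theorem core (l : ℤ) : ∃ (θ δ₁ : ℝ) (A₀ : ℕ), 0 < θ ∧ θ < 1 ∧ 0 < δ₁ ∧ ∀ (Cb : ℝ) (A₁ : ℕ),
    0 < Cb → ∃ C X₀ : ℝ, 0 < C ∧ ∀ X ≥ X₀, ∀ (v : ℝ → ℂ) (Φ : ℂ → ℂ) (T T₁ Λ₀ : ℝ),
    Adm v Φ T T₁ → Real.log X ^ 2 ≤ T → T ≤ X ^ δ₁ → 0 ≤ Λ₀ → Λ₀ ≤ Real.log X →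
    BH l v X θ A₀ A₁ Cb Λ₀ → ∀ j : ℕ, j ≤ 7 → ∀ m : Fin j → AF,
    (∀ i, Reg (wX θ X) 2 0 (m i) ∧ Sup (m i) 1 ((2 * X) ^ (1 / 7 : ℝ))) →
    ‖pr l v X (zt (wX θ X) ^ j * ∏ i, m i)‖ ≤ C * X ^ (5 / 6 : ℝ) *
      (Λ₀ * Real.log X ^ (-(5 / 4 : ℝ)) + (Real.log X ^ 3)⁻¹) := by
  classical
  obtain ⟨θ, δ₁, A₀, h0, h1, h2, H⟩ := core_cfg l
  refine ⟨θ, δ₁, A₀, h0, h1, h2, fun Cb A₁ hCb => ?_⟩
  obtain ⟨C, X₀, hC, H⟩ := H Cb A₁ hCb
  obtain ⟨C', hC', HP⟩ := pr_prod_perturb l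
  obtain ⟨X₁, HS⟩ := cells_smooth
  obtain ⟨X₂, HC⟩ := cells_sharp
  obtain ⟨N₁, hN₁⟩ : ∃ N : ℕ, 1000003 = N := ⟨_, rfl⟩
  obtain ⟨N₂, hN₂⟩ : ∃ N : ℕ, 150001 = N := ⟨_, rfl⟩
  rw [hN₁] at HS
  rw [hN₂] at HC
  have n₁ : 1 ≤ N₁ := by omega
  have n₂ : 1 ≤ N₂ := by omega
  have n₃ : ∀ a : ℕ, a < N₂ → (a : ℝ) * dm ≤ 3 / 20 := fun a ha => by
    have : (a : ℝ) ≤ 150000 := by exact_mod_cast (by omega : a ≤ 150000)
    rw [dm]; linarith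
  clear hN₁ hN₂
  have hdm : 0 ≤ dm := by rw [dm]; norm_num
  refine ⟨((N₁ * N₂) ^ 7 : ℕ) * C + C', max (max X₀ X₁) (max X₂ 2), by positivity, ?_⟩
  intro X hX v Φ T T₁ Λ₀ hA hT hT' hΛ hΛ' hBH j hj m hm
  simp only [ge_iff_le, max_le_iff] at hX
  obtain ⟨⟨hX0, hX1⟩, hX2, hX3⟩ := hX
  obtain ⟨g, hg1, hg2, hg3⟩ := HS X hX1 (wX θ X)
  choose h hh1 hh2 using fun i => HC X hX2 (wX θ X) (m i) (hm i).1 (hm i).2
  have hv : ∀ y, 0 < y → ‖v y‖ ≤ 1 := fun y hy => hA.norm_le_one hy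
  have hlog : 0 < Real.log X := Real.log_pos (by linarith)
  have hXp : 0 < X := by linarith
  set R := Λ₀ * Real.log X ^ (-(5 / 4 : ℝ)) + (Real.log X ^ 3)⁻¹ with hR
  have e1 := HP X (X ^ (-9 : ℝ)) v (Fin j) Finset.univ (∏ i, m i) (fun _ => zt (wX θ X))
    (fun _ => ∑ i ∈ Finset.range N₁, g i) (by linarith) (by positivity) hv
    (by rw [Finset.card_univ, Fintype.card_fin]; omega)
    ((Bd.prod fun i _ => (hm i).1.bd).mono (by positivity) (by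
      rw [Finset.card_univ, Fintype.card_fin]; exact_mod_cast (by omega : j ≤ 14)))
    fun _ _ => ⟨bd_zt _, hg2, hg3⟩
  have e2 : pr l v X ((∏ i, m i) * ∏ _i : Fin j, ∑ i ∈ Finset.range N₁, g i) =
      pr l v X ((∏ i, ∑ a ∈ Finset.range N₂, h i a) *
        ∏ _i : Fin j, ∑ i ∈ Finset.range N₁, g i) :=
    pr_congr l v X fun n hn _ _ => ((EqPS.prod fun i _ => hh2 i).mul (EqPS.refl _)) n hn
  have e3 : ‖pr l v X ((∏ i, m i) * ∏ _i : Fin j, ∑ i ∈ Finset.range N₁, g i)‖ ≤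
      ((N₁ * N₂) ^ 7 : ℕ) * (C * X ^ (5 / 6 : ℝ) * R) := by
    rw [e2, CmbI_expand, pr_sum]
    refine (norm_sum_le _ _).trans ((Finset.sum_le_card_nsmul _ _
      (C * X ^ (5 / 6 : ℝ) * R) fun p hp => ?_).trans ?_)
    · have hp2 := Fintype.mem_piFinset.1 (Finset.mem_product.1 hp).2
      refine H X hX0 v Φ T T₁ Λ₀ (Fin j ⊕ Fin j) (Finset.univ.image Sum.inl)
        (Sum.elim (fun i => (p.1 i : ℝ) * dm) fun i => (p.2 i : ℝ) * dm) _ hA hT hT' hΛ hΛ' hBH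
        (by rw [Fintype.card_sum, Fintype.card_fin]; omega) ?_ ?_ ?_ ?_
      · rintro (i | i) <;> exact mul_nonneg (Nat.cast_nonneg _) hdm
      · rintro (i | i) hi
        · exact absurd (Finset.mem_image_of_mem _ (Finset.mem_univ i)) hi
        · exact n₃ _ (Finset.mem_range.1 (hp2 i))
      · rintro (i | i)
        · exact ⟨(hg1 _).1, (hg1 _).2.1⟩
        · exact hh1 i _
      · intro i hi
        obtain ⟨i, -, rfl⟩ := Finset.mem_image.1 hi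
        exact (hg1 _).2.2
    · rw [nsmul_eq_mul]
      exact mul_le_mul_of_nonneg_right (CmbI_card hj n₁ n₂) (by positivity)
  have e4 : C' * X ^ 2 * X ^ (-9 : ℝ) ≤ C' * X ^ (5 / 6 : ℝ) * R := by
    rw [mul_assoc, mul_assoc]
    refine mul_le_mul_of_nonneg_left ((CmbI_small hX3).trans ?_) hC'.le
    exact mul_le_mul_of_nonneg_left (le_add_of_nonneg_left (by positivity)) (by positivity)
  rw [Finset.prod_const, Finset.card_univ, Fintype.card_fin, mul_comm] at e1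
  refine (norm_le_norm_sub_add _ _).trans ((add_le_add (e1.trans e4) e3).trans_eq (by ring))

end Crest.Agent.R12
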