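import Crest.Agent.R12.CmbH

/-!
# Row 12, analytic half: decomposition into cells
-/

set_option autoImplicit false

noncomputable section

namespace Crest.Agent.R12

open Crest.Agent.R17
open scoped ComplexConjugate Topology
open Filter MeasureTheory

open Classical in
theorem CmbI0_smooth {δ : ℝ} {N : ℕ} (hδ : 0 < δ) (hN : (N : ℝ) * δ = 1 + 3 * δ) :
    ∃ X₀ : ℝ, ∀ X ≥ X₀, ∀ w : ℝ, ∃ g : ℕ → AF,
    (∀ i : ℕ, Reg w 10 (X ^ ((i : ℝ) * δ - 2 * δ)) (g i) ∧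
      Sup (g i) (X ^ ((i : ℝ) * δ - 2 * δ)) (X ^ ((i : ℝ) * δ + 2 * δ)) ∧
      ∀ n, PS n → nr n ≤ 2 * X → ‖g i n -
        zc w (((i : ℝ) * δ - δ) * Real.log X) ((i : ℝ) * δ * Real.log X) n‖ ≤ X ^ (-10 : ℝ)) ∧
    Bd 1 (∑ i ∈ Finset.range N, g i) ∧ ∀ n, PS n → nr n ≤ 2 * X →
      ‖zt w n - (∑ i ∈ Finset.range N, g i) n‖ ≤ X ^ (-9 : ℝ) := by
  refine ⟨max (N + 1) (Real.exp (10 / δ ^ 2 + 1 / δ)), fun X hX w => ?_⟩
  obtain ⟨hX1, hX2⟩ := max_le_iff.1 hX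
  have hX0 : 0 < X := (Real.exp_pos _).trans_le hX2
  have hL := (Real.le_log_iff_exp_le hX0).2 hX2
  have p1 : 0 < 10 / δ ^ 2 := by positivity
  have p2 : 0 < 1 / δ := by positivity
  set L := Real.log X with hLdef
  have hL0 : 0 < L := by linarith
  have hd1 : 1 ≤ δ * L := by
    rw [mul_comm, ← div_le_iff₀ hδ]; linarith
  have hd : 0 ≤ δ * L := by positivity
  have he : Real.exp (-(δ * L) ^ 2) ≤ X ^ (-10 : ℝ) := by
    rw [Real.rpow_def_of_pos hX0, Real.exp_le_exp]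
    have h1 : 10 ≤ L * δ ^ 2 := (div_le_iff₀ (by positivity)).1 (by linarith)
    nlinarith [mul_le_mul_of_nonneg_left h1 hL0.le]
  have hab : ∀ i : ℕ, ((i : ℝ) * δ - δ) * L ≤ (i : ℝ) * δ * L := fun i => by linarith
  have hzt : ∀ n, PS n → ‖zt w n‖ ≤ 1 := fun n hn => by simpa using bd_zt w n hn
  have key : ∀ (i : ℕ) n, PS n → ‖(zc w (((i : ℝ) * δ - δ) * L) ((i : ℝ) * δ * L)).cut
      (X ^ ((i : ℝ) * δ - 2 * δ)) (X ^ ((i : ℝ) * δ + 2 * δ)) n -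
      zc w (((i : ℝ) * δ - δ) * L) ((i : ℝ) * δ * L) n‖ ≤ X ^ (-10 : ℝ) := fun i n hn => by
    have hn0 := nr_pos hn.ne_zero
    simp only [AF.cut, zc, AF.pm_apply]
    split_ifs with h
    · rw [mul_one, sub_self, norm_zero]; positivity
    · rw [mul_zero, zero_sub, norm_neg, norm_mul]
      refine (mul_le_of_le_one_left (norm_nonneg _) (hzt n hn)).trans
        ((norm_cw_le_exp (hab i) hn0 hd ?_).trans he)
      rw [not_and_or, not_le, not_le, Real.lt_rpow_iff_log_lt hn0 hX0,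
        Real.rpow_lt_iff_lt_log hX0 hn0] at h
      exact h.imp (fun h => by linarith) fun h => by linarith
  refine ⟨fun i => (zc w (((i : ℝ) * δ - δ) * L) ((i : ℝ) * δ * L)).cut
    (X ^ ((i : ℝ) * δ - 2 * δ)) (X ^ ((i : ℝ) * δ + 2 * δ)),
    fun i => ⟨⟨0, _, zero_le_one, (bvn_cw (((i : ℝ) * δ - δ) * L) ((i : ℝ) * δ * L)
      (X ^ ((i : ℝ) * δ + 2 * δ)) (Real.rpow_pos_of_pos hX0 _)).mono (by norm_num), fun m => ?_,
      fun m hm => if_neg fun h => hm.not_ge h.1, fun n hn => ?_⟩, sup_cut _ _ _,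
      fun n hn _ => key i n hn⟩, fun n hn => ?_, fun n hn hnX => ?_⟩
  · split_ifs with h
    · exact norm_cw_le_one _ _ ((Real.rpow_pos_of_pos hX0 _).trans_le h.1)
    · simp
  · simp only [AF.cut, zc, AF.pm_apply, zt_apply w hn, nr]
    split_ifs <;> simp
  · have hn0 := nr_pos hn.ne_zero
    rw [one_pow, AF.sum_apply]
    refine (norm_sum_le_of_le _ (n := fun i => Ec (Real.log (nr n) - (((i + 1 : ℕ) : ℝ) * δ - δ) * L) -
      Ec (Real.log (nr n) - ((i : ℝ) * δ - δ) * L)) fun i _ => ?_).trans ?_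
    · have h1 : ‖cw (((i : ℝ) * δ - δ) * L) ((i : ℝ) * δ * L) (nr n)‖ =
          Ec (Real.log (nr n) - (((i + 1 : ℕ) : ℝ) * δ - δ) * L) -
            Ec (Real.log (nr n) - ((i : ℝ) * δ - δ) * L) := by
        rw [cw_eq _ _ hn0, Complex.norm_real,
          Real.norm_of_nonneg (sub_nonneg.2 (antitone_Ec (by linarith [hab i])))]
        congr 3
        push_cast
        ring
      rw [← h1]
      simp only [AF.cut, zc, AF.pm_apply, norm_mul]
      refine (mul_le_of_le_one_right (by positivity) ?_).trans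
        (mul_le_of_le_one_left (norm_nonneg _) (hzt n hn))
      split_ifs <;> simp
    · rw [Finset.sum_range_sub fun i : ℕ => Ec (Real.log (nr n) - ((i : ℝ) * δ - δ) * L)]
      exact (sub_le_self _ (Ec_nonneg _)).trans (Ec_le_one _)
  · have hn0 := nr_pos hn.ne_zero
    have h1 : ∑ i ∈ Finset.range N, zc w (((i : ℝ) * δ - δ) * L) ((i : ℝ) * δ * L) n =
        zt w n * cw (-(δ * L)) (-(δ * L) + N * (δ * L)) (nr n) := by
      rw [← sum_cw _ _ _ hn0, Finset.mul_sum]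
      refine Finset.sum_congr rfl fun i _ => ?_
      simp only [zc, AF.pm_apply]
      congr 2 <;> ring
    have h2 : Real.log (nr n) ≤ 1 + L := by
      refine (Real.log_le_log hn0 hnX).trans ?_
      rw [Real.log_mul two_ne_zero hX0.ne']
      linarith [Real.log_two_lt_d9]
    have h3 : ‖zt w n - ∑ i ∈ Finset.range N,
        zc w (((i : ℝ) * δ - δ) * L) ((i : ℝ) * δ * L) n‖ ≤ X ^ (-10 : ℝ) := by
      rw [h1, ← mul_one_sub, norm_mul]
      refine (mul_le_of_le_one_left (norm_nonneg _) (hzt n hn)).trans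
        ((norm_one_sub_cw_le hn0 hd ?_ ?_).trans he)
      · linarith [Real.log_nonneg hn.one_le]
      · rw [← mul_assoc, hN]; linarith
    refine (norm_sub_le_norm_sub_add_norm_sub _ _ _).trans ((add_le_add h3
      (show _ ≤ N * X ^ (-10 : ℝ) from ?_)).trans ?_)
    · rw [norm_sub_rev, AF.sum_apply, ← Finset.sum_sub_distrib]
      refine (norm_sum_le_of_le _ fun i _ => key i n hn).trans_eq ?_
      rw [Finset.sum_const, Finset.card_range, nsmul_eq_mul]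
    · rw [show (-9 : ℝ) = -10 + 1 by norm_num, Real.rpow_add_one hX0.ne']
      nlinarith [mul_le_mul_of_nonneg_left hX1 (Real.rpow_nonneg hX0.le (-10))]

open Classical in
theorem CmbI0_sharp {δ : ℝ} {N : ℕ} (hδ : 0 < δ) (hN : 3 / 20 ≤ (N : ℝ) * δ) :
    ∃ X₀ : ℝ, ∀ X ≥ X₀, ∀ (w : ℝ) (m : AF), Reg w 2 0 m →
    Sup m 1 ((2 * X) ^ (1 / 7 : ℝ)) → ∃ g : ℕ → AF,
    (∀ i : ℕ, Reg w 10 (X ^ ((i : ℝ) * δ - 2 * δ)) (g i) ∧
      Sup (g i) (X ^ ((i : ℝ) * δ - 2 * δ)) (X ^ ((i : ℝ) * δ + 2 * δ))) ∧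
    EqPS m (∑ i ∈ Finset.range N, g i) := by
  refine ⟨Real.exp 30, fun X hX w m ⟨j, φ, h1, h2, h3, _, h5⟩ hs => ?_⟩
  have hX0 : 0 < X := (Real.exp_pos _).trans_le hX
  have hL := (Real.le_log_iff_exp_le hX0).2 hX
  set L := Real.log X with hLdef
  have hd : 0 < δ * L := mul_pos hδ (by linarith)
  have hmono : ∀ a b : ℕ, 1 ≤ a → a ≤ b → ⌊Real.log a / (δ * L)⌋₊ ≤ ⌊Real.log b / (δ * L)⌋₊ :=
    fun a b ha hab => Nat.floor_le_floor (div_le_div_of_nonneg_right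
      (Real.log_le_log (by exact_mod_cast ha) (by exact_mod_cast hab)) hd.le)
  have key : ∀ i a : ℕ, 1 ≤ a ∧ ⌊Real.log a / (δ * L)⌋₊ = i →
      X ^ ((i : ℝ) * δ - 2 * δ) ≤ a ∧ (a : ℝ) ≤ X ^ ((i : ℝ) * δ + 2 * δ) := by
    rintro i a ⟨ha, rfl⟩
    have ha1 : (1 : ℝ) ≤ a := by exact_mod_cast ha
    have ha0 : (0 : ℝ) < a := one_pos.trans_le ha1
    have k1 := (le_div_iff₀ hd).1 (Nat.floor_le (div_nonneg (Real.log_nonneg ha1) hd.le))
    have k2 := (div_lt_iff₀ hd).1 (Nat.lt_floor_add_one (Real.log a / (δ * L)))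
    rw [Real.rpow_le_iff_le_log hX0 ha0, Real.le_rpow_iff_log_le ha0 hX0]
    constructor <;> linarith
  refine ⟨fun i => m.pm fun n => if 1 ≤ nm n ∧ ⌊Real.log (nm n) / (δ * L)⌋₊ = i then 1 else 0,
    fun i => ⟨⟨j, _, h1, (h2.mul (bvn_ind (P := fun a => 1 ≤ a ∧ ⌊Real.log a / (δ * L)⌋₊ = i)
      fun a b c hab hbc ha hc => ⟨ha.1.trans hab, le_antisymm
        ((hmono b c (ha.1.trans hab) hbc).trans_eq hc.2) (ha.2.ge.trans (hmono a b ha.1 hab))⟩)).mono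
      (by norm_num), fun a => ?_, fun a ha => ?_, fun n hn => ?_⟩, fun n _ h => key i _ ?_⟩,
    fun n hn => ?_⟩
  · split_ifs
    · rw [mul_one]; exact h3 a
    · simp
  · rw [if_neg fun h => ha.not_ge (key i a h).1, mul_zero]
  · rw [AF.pm_apply, h5 n hn]
    split_ifs <;> simp
  · by_contra h6
    exact h (by rw [AF.pm_apply, if_neg h6, mul_zero])
  · rw [AF.sum_apply]
    simp only [AF.pm_apply]
    rw [← Finset.mul_sum]
    by_cases h6 : m n = 0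
    · rw [h6, zero_mul]
    have h7 : 1 ≤ nm n := by exact_mod_cast hn.one_le
    have h8 := ((Real.le_rpow_iff_log_le (nr_pos hn.ne_zero) (by positivity)).1 (hs n hn h6).2)
    rw [Real.log_mul two_ne_zero hX0.ne'] at h8
    simp only [h7, true_and, Finset.sum_ite_eq, Finset.mem_range]
    rw [if_pos, mul_one]
    rw [Nat.floor_lt (div_nonneg (Real.log_nonneg hn.one_le) hd.le), div_lt_iff₀ hd, ← mul_assoc]
    nlinarith [Real.log_two_lt_d9, mul_le_mul_of_nonneg_right hN (show 0 ≤ L by linarith)]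

open Classical in
/-- The truncated smooth cells `(zc w ((i-1) dm L) (i dm L)).cut (X^{(i-2) dm}) (X^{(i+2) dm})`,
`i < 1000003` (`sum_cw`, `norm_cw_le_exp`, `norm_one_sub_cw_le`, `bvn_cw`). -/
theorem cells_smooth : ∃ X₀ : ℝ, ∀ X ≥ X₀, ∀ w : ℝ, ∃ g : ℕ → AF,
    (∀ i : ℕ, Reg w 10 (X ^ ((i : ℝ) * dm - 2 * dm)) (g i) ∧
      Sup (g i) (X ^ ((i : ℝ) * dm - 2 * dm)) (X ^ ((i : ℝ) * dm + 2 * dm)) ∧
      ∀ n, PS n → nr n ≤ 2 * X → ‖g i n -
        zc w (((i : ℝ) * dm - dm) * Real.log X) ((i : ℝ) * dm * Real.log X) n‖ ≤ X ^ (-10 : ℝ)) ∧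
    Bd 1 (∑ i ∈ Finset.range 1000003, g i) ∧ ∀ n, PS n → nr n ≤ 2 * X →
      ‖zt w n - (∑ i ∈ Finset.range 1000003, g i) n‖ ≤ X ^ (-9 : ℝ) :=
  CmbI0_smooth (by norm_num [dm]) (by norm_num [dm])

/-- The sharp cells `X^{i dm} ≤ N < X^{(i+1) dm}`, `i ≤ 150000`. -/
theorem cells_sharp : ∃ X₀ : ℝ, ∀ X ≥ X₀, ∀ (w : ℝ) (m : AF), Reg w 2 0 m →
    Sup m 1 ((2 * X) ^ (1 / 7 : ℝ)) → ∃ g : ℕ → AF,
    (∀ i : ℕ, Reg w 10 (X ^ ((i : ℝ) * dm - 2 * dm)) (g i) ∧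
      Sup (g i) (X ^ ((i : ℝ) * dm - 2 * dm)) (X ^ ((i : ℝ) * dm + 2 * dm))) ∧
    EqPS m (∑ i ∈ Finset.range 150001, g i) :=
  CmbI0_sharp (by norm_num [dm]) (by norm_num [dm])

end Crest.Agent.R12
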