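import Crest.Agent.R12.CmbJ0

/-!
# Row 12, analytic half: the three regimes
-/

set_option autoImplicit false

noncomputable section

namespace Crest.Agent.R12

open Crest.Agent.R17
open scoped ComplexConjugate Topology
open Filter MeasureTheory

theorem CmbJ_ev (C : ℝ) (J : ℕ) {κ : ℝ} (hκ : 0 < κ) :
    ∀ᶠ X : ℝ in atTop, C * Real.log X ^ J ≤ X ^ κ := by
  filter_upwards [Mom_ev C J hκ one_pos, eventually_gt_atTop 0] with X h hX
  rwa [Real.rpow_one, mul_comm κ, ← Real.rpow_def_of_pos hX] at h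

theorem CmbJ_exp {X A : ℝ} (hX : 1 < X) (hA : 0 < A) : ∃ a : ℝ, A = X ^ a :=
  ⟨_, (Real.rpow_logb (by linarith) hX.ne' hA).symm⟩

/-- The numerical part of the bound for one block. -/
theorem CmbJ_num {X A B δ L : ℝ} (h0 : 0 < δ) (h1 : δ ≤ 1 / 100) (hX : 1 < X)
    (hκ : 32 ≤ X ^ (δ / 1000)) (hL : 1 ≤ L) (hB : X ^ (1 / 3 - δ / 2) / 32 ≤ B) (hBA : B ≤ A)
    (hAB : A * B ≤ 2 * X) :
    1 ≤ B ∧ (X ^ δ / 2) ^ 2 ≤ B ∧ Real.sqrt (A * B) ≤ X ^ (1 / 2 + δ / 1000) ∧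
    L * ((A / (X ^ δ / 2)) ^ (1 / 2 : ℝ) + (A * B) ^ (1 / 3 : ℝ) * (X ^ δ / 2) ^ (-(1 / 3 : ℝ))) +
      X ^ (δ / 50) * (B ^ (1 / 2 : ℝ) * (X ^ δ / 2) ^ (1 / 4 : ℝ) +
        A ^ (1 / 6 : ℝ) * B ^ (1 / 2 : ℝ) * (X ^ δ / 2) ^ (-(1 / 12 : ℝ))) ≤
      4 * L * X ^ (1 / 3 - δ / 16) := by
  have X0 : 0 < X := by linarith
  have B0 : 0 < B := lt_of_lt_of_le (by positivity) hB
  obtain ⟨t, ht⟩ := CmbJ_exp hX (A := X ^ δ / 2) (by positivity)
  obtain ⟨a, rfl⟩ := CmbJ_exp hX (B0.trans_le hBA)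
  obtain ⟨b, rfl⟩ := CmbJ_exp hX B0
  have e := fun x y : ℝ => (Real.rpow_le_rpow_left_iff (y := x) (z := y) hX)
  have k1 : b ≤ a := (e _ _).1 hBA
  have k2 : a + b ≤ δ / 1000 + 1 := by
    rw [← e, Real.rpow_add X0, Real.rpow_add X0, Real.rpow_one]
    nlinarith
  have k3 : 1 / 3 - δ / 2 ≤ b + δ / 1000 := by
    rw [← e, Real.rpow_add X0]
    nlinarith
  have k4 : t ≤ δ := by
    rw [← e, ← ht]
    linarith [Real.rpow_pos_of_pos X0 δ]
  have k5 : δ ≤ t + δ / 1000 := by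
    rw [← e, Real.rpow_add X0, ← ht]
    nlinarith [Real.rpow_pos_of_pos X0 δ]
  rw [ht]
  refine ⟨Real.one_le_rpow hX.le (by linarith), ?_, ?_, ?_⟩
  · rw [sq, ← Real.rpow_add X0, e]
    linarith
  · rw [Real.sqrt_eq_rpow, ← Real.rpow_add X0, ← Real.rpow_mul X0.le, e]
    linarith
  · simp only [mul_add, ← Real.rpow_sub X0, ← Real.rpow_add X0, ← Real.rpow_mul X0.le]
    have m1 := (e ((a - t) * (1 / 2)) (1 / 3 - δ / 16)).2 (by linarith)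
    have m2 := (e ((a + b) * (1 / 3) + t * -(1 / 3)) (1 / 3 - δ / 16)).2 (by linarith)
    have m3 := (e (δ / 50 + (b * (1 / 2) + t * (1 / 4))) (1 / 3 - δ / 16)).2 (by linarith)
    have m4 := (e (δ / 50 + (a * (1 / 6) + b * (1 / 2) + t * -(1 / 12))) (1 / 3 - δ / 16)).2
      (by linarith)
    have m5 := le_mul_of_one_le_left (Real.rpow_pos_of_pos X0 (1 / 3 - δ / 16)).le hL
    have m6 := mul_le_mul_of_nonneg_left m1 (zero_le_one.trans hL)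
    have m7 := mul_le_mul_of_nonneg_left m2 (zero_le_one.trans hL)
    linarith

theorem CmbJ_NW {B : ℝ} {β : O → ℂ} (h : ∀ b, PS b → ‖β b‖ ≤ 2 ^ (pf b).card) :
    NW 8 (dy B) β ≤ ∑ b ∈ rng 1 (2 * B), |(32 : ℝ)| ^ (pf b).card := by
  refine (Finset.sum_le_sum (g := fun b => |(32 : ℝ)| ^ (pf b).card) fun b hb => ?_).trans
    (Finset.sum_le_sum_of_subset_of_nonneg (fun b hb => ?_) fun _ _ _ => by positivity)
  · calc ‖β b‖ ^ 2 * 8 ^ (pf b).card ≤ (2 ^ (pf b).card) ^ 2 * 8 ^ (pf b).card :=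
          mul_le_mul_of_nonneg_right (pow_le_pow_left₀ (norm_nonneg _) (h b (mem_dy.1 hb).1) 2)
            (by positivity)
      _ = _ := by
          rw [← pow_mul, mul_comm _ 2, pow_mul, ← mul_pow]
          norm_num
  · obtain ⟨h1, -, h3⟩ := mem_dy.1 hb
    exact mem_rng.2 ⟨h1, h1.one_le, h3⟩

/-- One block, with `B ≤ A`. -/
theorem CmbJ_block (l : ℤ) {δ : ℝ} (h0 : 0 < δ) (h1 : δ ≤ 1 / 100) :
    ∀ᶠ X : ℝ in atTop, ∀ (v : ℝ → ℂ) (Φ : ℂ → ℂ) (T A B : ℝ) (α β : O → ℂ),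
    Adm v Φ T (X ^ δ / 2) → T ≤ X → X ^ (1 / 3 - δ / 2) / 32 ≤ B → B ≤ A → A * B ≤ 2 * X →
    (∀ a, PS a → ‖α a‖ ≤ 2 ^ (pf a).card) → (∀ b, PS b → ‖β b‖ ≤ 2 ^ (pf b).card) →
    ‖Bil l v X (dy A) (dy B) α β‖ ≤ X ^ (5 / 6 - δ / 20) := by
  obtain ⟨C, hC, h⟩ := propW l (ε := δ / 50) (by positivity)
  obtain ⟨C₁, J, hC₁, hm⟩ := mom_crude 32
  filter_upwards [CmbJ_ev 32 0 (κ := δ / 1000) (by positivity),
    CmbJ_ev (8 * C * C₁ * 2 ^ J) (J + 5) (κ := δ / 1000) (by positivity),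
    eventually_ge_atTop 4] with X e1 e2 hX v Φ T A B α β hv hT hB hBA hAB hα hβ
  have X0 : 0 < X := by linarith
  have hL : 1 ≤ Real.log X := by
    rw [Real.le_log_iff_exp_le X0]
    linarith [Real.exp_one_lt_d9]
  rw [pow_zero, mul_one] at e1
  obtain ⟨n1, n2, n3, n4⟩ := CmbJ_num h0 h1 (by linarith) e1 (one_le_pow₀ (n := 5) hL) hB hBA hAB
  have hA : A ≤ 2 * X := le_trans (le_mul_of_one_le_right (by linarith) n1) hAB
  have hlog : Real.log (4 * X) ^ J ≤ 2 ^ J * Real.log X ^ J := by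
    rw [← mul_pow]
    refine pow_le_pow_left₀ (Real.log_nonneg (by linarith)) ?_ J
    rw [Real.log_mul (by norm_num) X0.ne']
    linarith [Real.log_le_log (by norm_num) hX]
  set K := C₁ * (2 ^ J * Real.log X ^ J) with hK
  have K0 : 0 ≤ K := by positivity
  have hN : ∀ (Y : ℝ) (γ : O → ℂ), 0 ≤ Y → Y ≤ 2 * X → (∀ b, PS b → ‖γ b‖ ≤ 2 ^ (pf b).card) →
      NW 8 (dy Y) γ ≤ 2 * K * Y := fun Y γ hY hY' hγ =>
    calc _ ≤ C₁ * (2 * Y) * Real.log (4 * X) ^ J :=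
          (CmbJ_NW hγ).trans (hm (4 * X) (2 * Y) (by linarith) (by linarith) (by linarith)).1
      _ ≤ C₁ * (2 * Y) * (2 ^ J * Real.log X ^ J) := mul_le_mul_of_nonneg_left hlog (by positivity)
      _ = _ := by rw [hK]; ring
  have hs : Real.sqrt (N2 (dy A) α) * Real.sqrt (NW 8 (dy B) β) ≤
      2 * K * X ^ (1 / 2 + δ / 1000) :=
    calc _ ≤ Real.sqrt (2 * K * A) * Real.sqrt (2 * K * B) :=
          mul_le_mul (Real.sqrt_le_sqrt ((N2_le_NW (by norm_num) _ _).trans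
            (hN A α (by linarith) hA hα))) (Real.sqrt_le_sqrt (hN B β (by linarith)
            (hBA.trans hA) hβ)) (Real.sqrt_nonneg _) (Real.sqrt_nonneg _)
      _ = 2 * K * Real.sqrt (A * B) := by
          rw [← Real.sqrt_mul (by nlinarith), show 2 * K * A * (2 * K * B) =
            (2 * K) ^ 2 * (A * B) by ring, Real.sqrt_mul (by positivity),
            Real.sqrt_sq (by positivity)]
      _ ≤ _ := mul_le_mul_of_nonneg_left n3 (by positivity)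
  refine (h X A B T _ v Φ α β (by linarith) hv hT n1 hBA hAB n2).trans ?_
  have A0 : 0 < A := by linarith
  have B0 : 0 < B := by linarith
  calc _ ≤ C * (2 * K * X ^ (1 / 2 + δ / 1000)) * (4 * Real.log X ^ 5 * X ^ (1 / 3 - δ / 16)) := by
        rw [mul_assoc C]
        exact mul_le_mul (mul_le_mul_of_nonneg_left hs hC.le) n4 (by positivity) (by positivity)
    _ = (8 * C * C₁ * 2 ^ J * Real.log X ^ (J + 5)) *
        (X ^ (1 / 2 + δ / 1000) * X ^ (1 / 3 - δ / 16)) := by rw [hK]; ring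
    _ ≤ X ^ (δ / 1000) * (X ^ (1 / 2 + δ / 1000) * X ^ (1 / 3 - δ / 16)) :=
        mul_le_mul_of_nonneg_right e2 (by positivity)
    _ ≤ _ := by
        rw [← Real.rpow_add X0, ← Real.rpow_add X0]
        exact Real.rpow_le_rpow_of_exponent_le (by linarith) (by linarith)

/-- `pr_dyadic`, `propW` with `T₁ = X^δ / 2` (`Adm.mono`), the smaller of `A`, `B` playing the role
of `B` (`Bil_comm`); it is `≥ U / 64`. -/
theorem bil_c (l : ℤ) {δ : ℝ} (h0 : 0 < δ) (h1 : δ ≤ 1 / 100) : ∃ η C X₀ : ℝ, 0 < η ∧ 0 < C ∧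
    ∀ X ≥ X₀, ∀ (v : ℝ → ℂ) (Φ : ℂ → ℂ) (T : ℝ) (α β : AF), Adm v Φ T (T / 2) → X ^ δ ≤ T →
    T ≤ X → Bd 2 α → Bd 2 β → Sup α (X ^ (1 / 3 - δ / 2)) (2 * X / X ^ (1 / 3 - δ / 2)) →
    ‖pr l v X (α * β)‖ ≤ C * X ^ (5 / 6 - η) := by
  obtain ⟨X₁, h⟩ := pr_dyadic l 2
  obtain ⟨X₀, hX₀⟩ := eventually_atTop.1 ((CmbJ_block l h0 h1).and
    ((CmbJ_ev 36 1 (κ := δ / 60) (by positivity)).and ((CmbJ_ev 1 2 h0).and
      ((CmbJ_ev 2 0 h0).and ((eventually_ge_atTop X₁).and (eventually_ge_atTop 3))))))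
  refine ⟨δ / 30, 2, X₀, by positivity, two_pos, fun X hX v Φ T α β hv hT hTX hα hβ hS => ?_⟩
  obtain ⟨hb, e1, e2, e3, hX₁, hX3⟩ := hX₀ X hX
  have X0 : 0 < X := by linarith
  rw [pow_zero, mul_one] at e3
  rw [pow_one] at e1
  rw [one_mul] at e2
  have hv' : Adm v Φ T (X ^ δ / 2) := hv.mono (by linarith) (by linarith)
  have U0 : 0 < X ^ (1 / 3 - δ / 2) := by positivity
  have E0 : 0 < X ^ (5 / 6 - δ / 20) := by positivity
  refine (h X hX₁ v Φ T _ α β (fun _ => X ^ (5 / 6 - δ / 20)) hv (e2.trans hT) hα hβ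
    (fun _ => E0.le) fun j A hA1 hA2 => ?_).trans ?_
  · by_cases hz : ∀ a ∈ dy A, α a = 0
    · rw [Bil, Finset.sum_eq_zero fun a ha => by simp [hz a ha], norm_zero]
      exact E0.le
    push Not at hz
    obtain ⟨a, ha, ha0⟩ := hz
    obtain ⟨a1, a2, a3⟩ := mem_dy.1 ha
    obtain ⟨s1, s2⟩ := hS a a1 ha0
    set B : ℝ := 2 ^ j / 2 with hB
    have B0 : 0 < B := by positivity
    rcases le_total B A with hc | hc
    · refine hb v Φ T A B α β hv' hTX ?_ hc hA2 hα hβ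
      have h3 : A * X ^ (1 / 3 - δ / 2) ≤ 2 * X := by
        have := (le_div_iff₀ U0).1 (a2.le.trans s2)
        exact this
      have A0 : 0 < A := by linarith
      refine le_of_mul_le_mul_left ?_ A0
      linarith
    · rw [Bil_comm]
      exact hb v Φ T B A β α hv' hTX (by linarith) hc (by linarith) hβ hα
  · rw [Finset.sum_const, Finset.card_range, nsmul_eq_mul]
    have k1 : X ^ (δ / 60) * X ^ (5 / 6 - δ / 20) = X ^ (5 / 6 - δ / 30) := by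
      rw [← Real.rpow_add X0]
      congr 1
      ring
    have k2 : 1 ≤ X ^ (5 / 6 - δ / 30) := Real.one_le_rpow (by linarith) (by linarith)
    have k3 := mul_le_mul_of_nonneg_right (nB_le hX3) E0.le
    have k4 := mul_le_mul_of_nonneg_right e1 E0.le
    linarith

/-- The type I sums. -/
theorem CmbJ_typeI (l : ℤ) {δ : ℝ} (h0 : 0 < δ) (h1 : δ ≤ 1 / 100) :
    ∀ᶠ X : ℝ in atTop, ∀ (v : ℝ → ℂ) (Φ : ℂ → ℂ) (T : ℝ) (ρ : AF), Adm v Φ T (T / 2) →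
    Real.log X ^ 2 ≤ T → T ≤ 8 * X ^ (1 / 6 : ℝ) * Real.log X ^ 3 → Bd 2 ρ →
    Sup ρ 1 (X ^ (1 / 3 - δ / 2)) → ‖pr l v X (ρ * zt 0)‖ ≤ 2 * X ^ (5 / 6 - δ / 4) := by
  obtain ⟨X₁, h⟩ := pr_typeI l 2
  obtain ⟨C, hC, hI⟩ := typeI_ff l (ε := δ / 50) (by positivity)
  obtain ⟨C₁, J, hC₁, hm⟩ := mom_crude 2
  filter_upwards [CmbJ_ev 8 3 (κ := δ / 50) (by positivity),
    CmbJ_ev (2 * C * C₁) J (κ := δ / 50) (by positivity), eventually_ge_atTop X₁,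
    eventually_ge_atTop 3] with X e1 e2 hX₁ hX v Φ T ρ hv hT1 hT2 hρ hS
  have X0 : 0 < X := by linarith
  have X1 : 1 ≤ X := by linarith
  have T0 : 0 < T := by linarith [hv.one_le]
  have hU : X ^ (1 / 3 - δ / 2) ≤ X :=
    (Real.rpow_le_rpow_of_exponent_le X1 (by linarith)).trans_eq (Real.rpow_one X)
  have U0 : 0 < X ^ (1 / 3 - δ / 2) := by positivity
  have hT3 : T ≤ X ^ (1 / 6 + δ / 50) := by
    rw [Real.rpow_add X0]
    have := mul_le_mul_of_nonneg_left e1 (Real.rpow_pos_of_pos X0 (1 / 6)).le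
    linarith
  have hT4 : T ≤ X ^ (1 / 3 : ℝ) := hT3.trans (Real.rpow_le_rpow_of_exponent_le X1 (by linarith))
  have hT5 : T / Real.sqrt (T / 2) ≤ 2 * X ^ (1 / 12 + δ / 100) := by
    have : T / Real.sqrt (T / 2) = 2 * Real.sqrt (T / 2) := by
      rw [← Real.div_sqrt (x := T / 2), Real.div_sqrt]
      nth_rewrite 2 [← Real.div_sqrt (x := T / 2)]
      ring
    rw [this]
    refine mul_le_mul_of_nonneg_left (Real.sqrt_le_iff.2 ⟨by positivity, ?_⟩) two_pos.le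
    rw [sq, ← Real.rpow_add X0, show 1 / 12 + δ / 100 + (1 / 12 + δ / 100) = 1 / 6 + δ / 50 by ring]
    linarith
  have h2 := h X hX₁ v Φ T _ _ ρ (fun _ => 1) hv hT1 hρ hS hU fun c _ => by rw [norm_one]; exact X1
  have h3 : (zt 0).pm (fun _ => 1) = zt 0 := by ext n; simp
  rw [h3] at h2
  simp only [one_mul] at h2
  set K := C * X ^ (1 / 2 + δ / 50) * (2 * X ^ (1 / 12 + δ / 100)) *
    (X ^ (1 / 3 - δ / 2)) ^ (3 / 4 : ℝ) with hK
  have h4 : ‖∑ r ∈ rng 1 (X ^ (1 / 3 - δ / 2)),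
      ρ r * ∑' c : O, ff l (r * c) * v (nr (r * c) / X)‖ ≤ K * (C₁ * Real.log X ^ J) := by
    refine (norm_sum_le _ _).trans (le_trans ?_
      (mul_le_mul_of_nonneg_left (hm X _ hX U0.le hU).2 (by positivity)))
    rw [Finset.mul_sum]
    refine Finset.sum_le_sum fun r hr => ?_
    obtain ⟨r1, r2, r3⟩ := mem_rng.1 hr
    have r0 : 0 < nr r := by linarith
    have r4 : nr r ^ (-(1 / 4 : ℝ)) ≤ (X ^ (1 / 3 - δ / 2)) ^ (3 / 4 : ℝ) / nr r := by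
      rw [show -(1 / 4 : ℝ) = 3 / 4 - 1 by norm_num, Real.rpow_sub_one r0.ne']
      exact div_le_div_of_nonneg_right (Real.rpow_le_rpow r0.le r3 (by norm_num)) r0.le
    rw [norm_mul]
    calc _ ≤ 2 ^ (pf r).card * (C * X ^ (1 / 2 + δ / 50) *
          ((X ^ (1 / 3 - δ / 2)) ^ (3 / 4 : ℝ) / nr r) * (2 * X ^ (1 / 12 + δ / 100))) :=
          mul_le_mul (hρ r r1) ((hI X T _ v Φ r hX hv hT4 r1 (r3.trans hU)).trans
            (mul_le_mul (mul_le_mul_of_nonneg_left r4 (by positivity)) hT5 (by positivity)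
              (by positivity))) (norm_nonneg _) (by positivity)
      _ = _ := by
          rw [hK, abs_two]
          ring
  have h5 : K * (C₁ * Real.log X ^ J) ≤ X ^ (5 / 6 - δ / 4) :=
    calc _ = (2 * C * C₁ * Real.log X ^ J) * (X ^ (1 / 2 + δ / 50) * X ^ (1 / 12 + δ / 100) *
          (X ^ (1 / 3 - δ / 2)) ^ (3 / 4 : ℝ)) := by rw [hK]; ring
      _ ≤ X ^ (δ / 50) * (X ^ (1 / 2 + δ / 50) * X ^ (1 / 12 + δ / 100) *
          (X ^ (1 / 3 - δ / 2)) ^ (3 / 4 : ℝ)) := mul_le_mul_of_nonneg_right e2 (by positivity)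
      _ ≤ _ := by
          rw [← Real.rpow_mul X0.le, ← Real.rpow_add X0, ← Real.rpow_add X0, ← Real.rpow_add X0]
          exact Real.rpow_le_rpow_of_exponent_le X1 (by linarith)
  have h6 : 1 / X ≤ X ^ (5 / 6 - δ / 4) :=
    ((div_le_one X0).2 X1).trans (Real.one_le_rpow X1 (by linarith))
  have h7 := norm_le_norm_add_norm_sub' (pr l v X (ρ * zt 0))
    (∑ r ∈ rng 1 (X ^ (1 / 3 - δ / 2)), ρ r * ∑' c : O, ff l (r * c) * v (nr (r * c) / X))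
  linarith

/-- `psum_eq` with `w = 0`, `vaughan_bound` with `U = X^{1/3 - δ/2}`, `pr_typeI`, `typeI_ff`. -/
theorem regime_c (l : ℤ) {δ : ℝ} (h0 : 0 < δ) : ∃ C X₀ : ℝ, 0 < C ∧ ∀ X ≥ X₀,
    ∀ (v : ℝ → ℂ) (Φ : ℂ → ℂ) (T : ℝ), AdmS v Φ T (T / 2) → X ^ δ ≤ T →
    T ≤ 8 * X ^ (1 / 6 : ℝ) * Real.log X ^ 3 →
    ‖PSum l v X‖ ≤ C * X ^ (5 / 6 : ℝ) / Real.log X ^ 2 := by
  obtain ⟨δ', h0', h1, hδ⟩ : ∃ δ' : ℝ, 0 < δ' ∧ δ' ≤ 1 / 100 ∧ δ' ≤ δ :=
    ⟨min δ (1 / 100), lt_min h0 (by norm_num), min_le_right _ _, min_le_left _ _⟩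
  obtain ⟨η, C, X₁, hη, hC, hb⟩ := bil_c l h0' h1
  obtain ⟨η', hη', k1, k2⟩ : ∃ η' : ℝ, 0 < η' ∧ η' ≤ η ∧ η' ≤ δ' / 4 :=
    ⟨min η (δ' / 4), lt_min hη (by positivity), min_le_left _ _, min_le_right _ _⟩
  obtain ⟨X₂, hp⟩ := psum_eq l
  obtain ⟨X₀, hX₀⟩ := eventually_atTop.1 ((CmbJ_typeI l h0' h1).and
    ((CmbJ_ev (20 * (C + 2)) 3 hη').and ((CmbJ_ev 1 2 h0').and
      ((CmbJ_ev 8 3 (κ := 2 / 3) (by norm_num)).and ((eventually_ge_atTop X₁).and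
        ((eventually_ge_atTop X₂).and (eventually_ge_atTop 3)))))))
  refine ⟨2, X₀, two_pos, fun X hX v Φ T hv hT hT2 => ?_⟩
  obtain ⟨hI, e1, e2, e3, hX₁, hX₂, hX3⟩ := hX₀ X hX
  have X0 : 0 < X := by linarith
  have X1 : 1 ≤ X := by linarith
  have hL : 1 ≤ Real.log X := by
    rw [Real.le_log_iff_exp_le X0]
    linarith [Real.exp_one_lt_d9]
  have e := fun {x y : ℝ} (h : x ≤ y) => Real.rpow_le_rpow_of_exponent_le X1 h
  rw [one_mul] at e2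
  have hT' : X ^ δ' ≤ T := (e hδ).trans hT
  have hT1 : Real.log X ^ 2 ≤ T := e2.trans hT'
  have hTX : T ≤ X := by
    have a1 := mul_le_mul_of_nonneg_left e3 (Real.rpow_pos_of_pos X0 (1 / 6)).le
    have a2 := e (x := 1 / 6 + 2 / 3) (y := 1) (by norm_num)
    rw [Real.rpow_add X0, Real.rpow_one] at a2
    linarith
  have hU : X ^ (1 / 3 - δ' / 2) < X / 4 := by
    have a1 : (8 : ℝ) ≤ X ^ (2 / 3 : ℝ) := by linarith [one_le_pow₀ (n := 3) hL]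
    have a2 := e (x := 1 / 3 - δ' / 2 + 2 / 3) (y := 1) (by linarith)
    rw [Real.rpow_add X0, Real.rpow_one] at a2
    have a3 := mul_le_mul_of_nonneg_left a1 (Real.rpow_pos_of_pos X0 (1 / 3 - δ' / 2)).le
    linarith
  have hU3 : (X ^ (1 / 3 - δ' / 2)) ^ 3 ≤ 2 * X := by
    have a2 := e (x := (1 / 3 - δ' / 2) * (3 : ℕ)) (y := 1) (by push_cast; linarith)
    rw [Real.rpow_mul X0.le, Real.rpow_natCast, Real.rpow_one] at a2
    linarith
  have E0 : 0 < X ^ (5 / 6 - η') := by positivity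
  have h2 := vaughan_bound l (v := v) (E := (C + 2) * X ^ (5 / 6 - η')) hX3
    (Real.one_le_rpow X1 (by linarith)) hU hU3 (fun s₀ hs ρ hρ hS => by
      have a1 := hI _ _ T ρ (hv s₀ hs) hT1 hT2 hρ hS
      have a2 := e (x := 5 / 6 - δ' / 4) (y := 5 / 6 - η') (by linarith)
      have a3 := mul_pos hC E0
      linarith) (fun α β hα hβ hS => by
      have a1 := hb X hX₁ v Φ T α β hv.adm hT' hTX hα hβ hS
      have a2 := mul_le_mul_of_nonneg_left (e (x := 5 / 6 - η) (y := 5 / 6 - η') (by linarith)) hC.le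
      linarith)
  have h3 := hp X hX₂ v Φ T _ 0 hv.adm hT1 (by linarith)
  have h4 := norm_le_norm_add_norm_sub' (PSum l v X) (pr l v X (vmw 0))
  have h5 : X ^ η' * X ^ (5 / 6 - η') = X ^ (5 / 6 : ℝ) := by
    rw [← Real.rpow_add X0]
    congr 1
    ring
  have h6 := mul_le_mul_of_nonneg_right e1 E0.le
  have h7 := e2.trans (e (x := δ') (y := 5 / 6) (by linarith))
  have h8 : ‖PSum l v X‖ ≤ 20 * Real.log X * ((C + 2) * X ^ (5 / 6 - η')) + 1 := by linarith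
  rw [le_div_iff₀ (by positivity)]
  have h9 := mul_le_mul_of_nonneg_right h8 (sq_nonneg (Real.log X))
  linarith

theorem regime_thin (l : ℤ) : ∃ (c : ℕ) (C X₀ : ℝ), 2 ≤ c ∧ 0 < C ∧ ∀ X ≥ X₀,
    ∀ (v : ℝ → ℂ) (Φ : ℂ → ℂ) (T : ℝ), AdmS v Φ T (T / 2) → Real.log X ^ c ≤ T →
    T ≤ 8 * X ^ (1 / 6 : ℝ) * Real.log X ^ 3 →
    ‖PSum l v X‖ ≤ C * X ^ (5 / 6 : ℝ) / Real.log X ^ 2 := by
  obtain ⟨c, δ, C, X₀, hc, hδ, hC, h⟩ := regime_b l
  obtain ⟨C', X₁, hC', h'⟩ := regime_c l hδ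
  refine ⟨c, max C C', max (max X₀ X₁) 1, hc, lt_max_of_lt_left hC, fun X hX v Φ T hv h1 h2 => ?_⟩
  have hX0 : X₀ ≤ X := le_trans ((le_max_left _ _).trans (le_max_left _ _)) hX
  have hX1 : X₁ ≤ X := le_trans ((le_max_right _ _).trans (le_max_left _ _)) hX
  have hX2 : 0 ≤ X := le_trans (zero_le_one.trans (le_max_right _ _)) hX
  rcases le_total T (X ^ δ) with h3 | h3
  · refine (h X hX0 v Φ T hv h1 h3).trans ?_
    gcongr; exact le_max_left _ _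
  · refine (h' X hX1 v Φ T hv h3 h2).trans ?_
    gcongr; exact le_max_right _ _

end Crest.Agent.R12
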