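import Crest.Agent.R12.CmbI

/-!
# Row 12, analytic half: the three regimes
-/

set_option autoImplicit false

noncomputable section

namespace Crest.Agent.R12

open Crest.Agent.R17
open scoped ComplexConjugate Topology
open Filter MeasureTheory

theorem CmbJ0_log (J : ℕ) {δ : ℝ} (hδ : 0 < δ) : ∀ᶠ X : ℝ in atTop, Real.log X ^ J ≤ X ^ δ := by
  have h := (isLittleO_log_rpow_rpow_atTop (J : ℝ) hδ).bound one_pos
  filter_upwards [h, eventually_ge_atTop 1] with X h1 h2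
  rw [Real.rpow_natCast, one_mul, Real.norm_of_nonneg (pow_nonneg (Real.log_nonneg h2) _),
    Real.norm_of_nonneg (by positivity)] at h1
  exact h1

theorem CmbJ0_one_le_log {X : ℝ} (hX : 3 ≤ X) : 1 ≤ Real.log X := by
  rw [Real.le_log_iff_exp_le (by linarith)]
  linarith [Real.exp_one_lt_d9]

theorem CmbJ0_main (l : ℤ) : ∃ (θ δ₁ : ℝ) (A₀ : ℕ), 0 < θ ∧ θ < 1 ∧ 0 < δ₁ ∧ ∀ (Cb : ℝ) (A₁ : ℕ),
    0 < Cb → ∃ C : ℝ, 0 < C ∧ ∀ᶠ X : ℝ in atTop, ∀ (v : ℝ → ℂ) (Φ : ℂ → ℂ) (T T₁ Λ₀ : ℝ),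
    AdmS v Φ T T₁ → Real.log X ^ 2 ≤ T → T ≤ X ^ δ₁ → 0 ≤ Λ₀ → Λ₀ ≤ Real.log X →
    (∀ s₀ : ℂ, ‖s₀‖ ≤ 1 → BH l (fun y => v y * (y : ℂ) ^ s₀) X θ A₀ A₁ Cb Λ₀) →
    ‖PSum l v X‖ ≤ C * X ^ (5 / 6 : ℝ) *
      (Λ₀ * Real.log X ^ (-(1 / 4 : ℝ)) + (Real.log X ^ 2)⁻¹) := by
  obtain ⟨θ, δ₁, A₀, h0, h1, hδ, h⟩ := core l
  refine ⟨θ, δ₁, A₀, h0, h1, hδ, fun Cb A₁ hCb => ?_⟩
  obtain ⟨C, X₁, hC, h⟩ := h Cb A₁ hCb
  obtain ⟨X₂, h₂⟩ := psum_eq l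
  obtain ⟨X₃, h₃⟩ := wX_ev h0 h1 (κ := 1 / 2) (by norm_num) 0
  refine ⟨400 * C + 1, by positivity, ?_⟩
  filter_upwards [eventually_ge_atTop X₁, eventually_ge_atTop X₂, eventually_ge_atTop X₃,
    eventually_ge_atTop 25, CmbJ0_log 2 (δ := 5 / 6) (by norm_num)]
    with X hX₁ hX₂ hX₃ hX hL2 v Φ T T₁ Λ₀ hA hT hT' hΛ hΛ' hB
  have hX0 : 0 < X := by linarith
  have hL := CmbJ0_one_le_log (X := X) (by linarith)
  have hL0 : 0 < Real.log X := by linarith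
  have hA0 : Adm v Φ T T₁ := by simpa using hA 0 (by simp)
  have hw : wX θ X < X / 4 := by
    refine (h₃ X hX₃).2.1.trans_lt ?_
    rw [← Real.sqrt_eq_rpow, Real.sqrt_lt' (by positivity)]
    nlinarith
  have hz7 : ((2 * X) ^ (1 / 7 : ℝ)) ^ 7 = 2 * X := by
    rw [← Real.rpow_natCast, ← Real.rpow_mul (by positivity)]
    norm_num
  have hzX : (2 * X) ^ (1 / 7 : ℝ) ≤ X := by
    refine le_of_pow_le_pow_left₀ (n := 7) (by norm_num) hX0.le ?_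
    rw [hz7, pow_succ]
    refine mul_le_mul_of_nonneg_right ?_ hX0.le
    exact le_trans (by linarith) (le_self_pow₀ (by linarith) (by norm_num))
  have k₁ := h₂ X hX₂ v Φ T T₁ _ hA0 hT hw
  have k₂ := hb_bound l (v := v) (X := X) (w := wX θ X) (by linarith)
    (Real.one_le_rpow (by linarith) (by norm_num)) hzX hz7.ge
    (fun s₀ hs j _ hj m hm => h X hX₁ _ _ T T₁ Λ₀ (hA s₀ hs) hT hT' hΛ hΛ' (hB s₀ hs) j hj m hm)
  have e1 : Real.log X * Real.log X ^ (-(5 / 4 : ℝ)) = Real.log X ^ (-(1 / 4 : ℝ)) := by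
    rw [show (-(1 / 4 : ℝ)) = 1 + -(5 / 4 : ℝ) by norm_num, Real.rpow_add hL0, Real.rpow_one]
  have e2 : 400 * Real.log X * (C * X ^ (5 / 6 : ℝ) *
      (Λ₀ * Real.log X ^ (-(5 / 4 : ℝ)) + (Real.log X ^ 3)⁻¹)) = 400 * C * X ^ (5 / 6 : ℝ) *
      (Λ₀ * Real.log X ^ (-(1 / 4 : ℝ)) + (Real.log X ^ 2)⁻¹) := by
    rw [← e1]
    field_simp
  have k₃ : 1 ≤ X ^ (5 / 6 : ℝ) * (Λ₀ * Real.log X ^ (-(1 / 4 : ℝ)) + (Real.log X ^ 2)⁻¹) := by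
    refine le_trans ?_ (mul_le_mul_of_nonneg_left (le_add_of_nonneg_left (by positivity))
      (by positivity))
    rw [← div_eq_mul_inv, one_le_div (by positivity)]
    exact hL2
  have k₄ := norm_add_le (PSum l v X - pr l v X (vmw (wX θ X))) (pr l v X (vmw (wX θ X)))
  rw [sub_add_cancel] at k₄
  rw [e2] at k₂
  nlinarith

/-- `psum_eq`, `hb_bound`, `core`, `propBa`. -/
theorem regime_a (l : ℤ) (c : ℕ) : ∃ C X₀ : ℝ, 0 < C ∧ ∀ X ≥ X₀, ∀ (v : ℝ → ℂ) (Φ : ℂ → ℂ)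
    (T T₁ : ℝ), AdmS v Φ T T₁ → Real.log X ^ 2 ≤ T → T ≤ Real.log X ^ c →
    ‖PSum l v X‖ ≤ C * X ^ (5 / 6 : ℝ) * Real.log X ^ (-(1 / 5 : ℝ)) := by
  obtain ⟨θ, δ₁, A₀, h0, h1, hδ, h⟩ := CmbJ0_main l
  obtain ⟨A₁, Cb, X₁, hCb, h₁⟩ := propBa l h0 h1 A₀ c
  obtain ⟨C, hC, h⟩ := h Cb A₁ hCb
  obtain ⟨X₀, hX₀⟩ := eventually_atTop.1 (h.and ((eventually_ge_atTop X₁).and
    ((eventually_ge_atTop 3).and (CmbJ0_log c hδ))))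
  refine ⟨21 * C, X₀, by positivity, fun X hX v Φ T T₁ hA hT hT' => ?_⟩
  obtain ⟨k₁, k₂, k₃, k₄⟩ := hX₀ X hX
  have hL := CmbJ0_one_le_log k₃
  have hL0 : 0 < Real.log X := by linarith
  have hX0 : 0 < X := by linarith
  refine (k₁ v Φ T T₁ (Real.log (Real.log X)) hA hT (hT'.trans k₄) (Real.log_nonneg hL)
    (Real.log_le_self hL0.le) fun s₀ hs => h₁ X k₂ _ _ T T₁ (hA s₀ hs) hT').trans ?_
  have k₅ : Real.log (Real.log X) * Real.log X ^ (-(1 / 4 : ℝ)) ≤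
      20 * Real.log X ^ (-(1 / 5 : ℝ)) := by
    refine (mul_le_mul_of_nonneg_right (Real.log_le_rpow_div hL0.le (ε := 1 / 20) (by norm_num))
      (by positivity)).trans_eq ?_
    rw [show (-(1 / 5 : ℝ)) = 1 / 20 + -(1 / 4 : ℝ) by norm_num, Real.rpow_add hL0]
    ring
  have k₆ : (Real.log X ^ 2)⁻¹ ≤ Real.log X ^ (-(1 / 5 : ℝ)) := by
    rw [← Real.rpow_natCast, ← Real.rpow_neg hL0.le]
    exact Real.rpow_le_rpow_of_exponent_le hL (by norm_num)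
  refine (mul_le_mul_of_nonneg_left (add_le_add k₅ k₆) (by positivity)).trans_eq ?_
  ring

/-- `psum_eq`, `hb_bound`, `core`, `propBb`. -/
theorem regime_b (l : ℤ) : ∃ (c : ℕ) (δ₁ C X₀ : ℝ), 2 ≤ c ∧ 0 < δ₁ ∧ 0 < C ∧ ∀ X ≥ X₀,
    ∀ (v : ℝ → ℂ) (Φ : ℂ → ℂ) (T : ℝ), AdmS v Φ T (T / 2) → Real.log X ^ c ≤ T → T ≤ X ^ δ₁ →
    ‖PSum l v X‖ ≤ C * X ^ (5 / 6 : ℝ) / Real.log X ^ 2 := by
  obtain ⟨θ, δ₁, A₀, h0, h1, hδ, h⟩ := CmbJ0_main l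
  obtain ⟨c, Cb, X₁, hCb, h₁⟩ := propBb l θ A₀
  obtain ⟨C, hC, h⟩ := h Cb 0 hCb
  obtain ⟨X₀, hX₀⟩ := eventually_atTop.1 (h.and ((eventually_ge_atTop X₁).and
    (eventually_ge_atTop 3)))
  refine ⟨max c 2, min δ₁ (1 / 100), 2 * C, X₀, le_max_right _ _, lt_min hδ (by norm_num),
    by positivity, fun X hX v Φ T hA hT hT' => ?_⟩
  obtain ⟨k₁, k₂, k₃⟩ := hX₀ X hX
  have hL := CmbJ0_one_le_log k₃
  have hL0 : 0 < Real.log X := by linarith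
  have hX1 : 1 ≤ X := by linarith
  have k₄ : (Real.log X ^ 2)⁻¹ ≤ 1 := inv_le_one_of_one_le₀ (one_le_pow₀ hL)
  refine (k₁ v Φ T (T / 2) (Real.log X ^ 2)⁻¹ hA
    ((pow_le_pow_right₀ hL (le_max_right _ _)).trans hT)
    (hT'.trans (Real.rpow_le_rpow_of_exponent_le hX1 (min_le_left _ _))) (by positivity)
    (k₄.trans hL) fun s₀ hs => h₁ X k₂ _ _ T (hA s₀ hs)
      ((pow_le_pow_right₀ hL (le_max_left _ _)).trans hT)
      (hT'.trans (Real.rpow_le_rpow_of_exponent_le hX1 (min_le_right _ _)))).trans ?_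
  have k₅ : (Real.log X ^ 2)⁻¹ * Real.log X ^ (-(1 / 4 : ℝ)) ≤ (Real.log X ^ 2)⁻¹ :=
    mul_le_of_le_one_right (by positivity)
      (Real.rpow_le_one_of_one_le_of_nonpos hL (by norm_num))
  refine (mul_le_mul_of_nonneg_left (add_le_add k₅ le_rfl) (by positivity)).trans_eq ?_
  ring

end Crest.Agent.R12
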