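import Crest.Agent.R12.Cnt0

/-!
# Row 12, analytic half: counting in thin annuli
-/

set_option autoImplicit false

noncomputable section

namespace Crest.Agent.R12

open Crest.Agent.R17
open scoped ComplexConjugate Topology
open Filter MeasureTheory

theorem Cnt_decomp {l : ℤ} {z n : O} (hz : PS z) (h : tm l z n ≠ 0) :
    ∃ v : O × O × O, v.1 ∈ pdiv z ∧ Primary v.1 ∧ Primary v.2.1 ∧ Primary v.2.2 ∧
      n = z * v.1 ^ 2 * v.2.1 ^ 3 * v.2.2 ∧ ‖tm l z n‖ ≤ Real.sqrt (nr v.1 * nr v.2.1) := by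
  unfold tm at h ⊢
  split_ifs at h ⊢ with hzn
  swap
  · exact (h rfl).elim
  unfold tc at h ⊢
  split_ifs at h ⊢ with hn
  swap
  · exact (h (zero_mul _)).elim
  obtain ⟨e, hm, hs, hd⟩ := eq_sq1_mul_cu hn.1 hn.2
  obtain ⟨⟨z₁, hz₁⟩, ⟨d₁, hd₁⟩⟩ :=
    (dvd_pgcd_iff hz.1.ne_zero hd.ne_zero (primary_pgcd z (cu n))).1 dvd_rfl
  have hg := primary_pgcd z (cu n)
  have hpg : pgcd z (cu n) = pgcd (pgcd z (cu n) * z₁) (pgcd z (cu n) * d₁) := by
    rw [← hz₁, ← hd₁]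
  generalize pgcd z (cu n) = g at hz₁ hd₁ hg hpg
  have h1 : Primary z₁ := hg.of_mul (hz₁ ▸ hz.1)
  have h2 : Primary d₁ := hg.of_mul (hd₁ ▸ hd)
  rw [pgcd_mul_left hg h1.ne_zero h2.ne_zero] at hpg
  have h3 : IsCoprime z₁ d₁ := (pgcd_eq_one_iff h1 h2.ne_zero).1
    (mul_left_cancel₀ hg.ne_zero (hpg.symm.trans (mul_one g).symm))
  have h4 : IsCoprime g z₁ := (IsRelPrime.of_squarefree_mul (hz₁ ▸ hz.2)).isCoprime
  have h5 : IsCoprime z₁ (cu n ^ 3) := (hd₁ ▸ h4.symm.mul_right h3 : IsCoprime z₁ (cu n)).pow_right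
  obtain ⟨m, hm'⟩ := h5.dvd_of_dvd_mul_right (e ▸ (Dvd.intro_left g hz₁.symm).trans hzn)
  refine ⟨(g, d₁, m), (mem_pdiv hz.1.ne_zero).2 ⟨hg, Dvd.intro _ hz₁.symm⟩, hg, h2,
    h1.of_mul (hm' ▸ hm), ?_, ?_⟩
  · rw [e, hm', hd₁, hz₁]; ring
  · rw [norm_mul, norm_mul, norm_Gn hm hs, one_mul, Complex.norm_real,
      Real.norm_of_nonneg (Real.sqrt_nonneg _), norm_zpow, norm_arg hn.1.ne_zero, one_zpow, mul_one,
      hd₁, nr_mul]

theorem Cnt_min {a b T Y R θ : ℝ} (ha : 1 ≤ a) (hb : 1 ≤ b) (hT : 1 ≤ T) (hY : 0 < Y) (hR : 1 ≤ R)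
    (hYR : Y ≤ R) (hθ : 0 ≤ θ) (hθ1 : θ ≤ 1 / 2) :
    Real.sqrt (a * b) * min (Y / (a ^ 2 * b ^ 3) / T + Real.sqrt (Y / (a ^ 2 * b ^ 3)))
      (Y / (a ^ 2 * b ^ 3)) ≤ b ^ (-(1 + 3 * θ)) * (R ^ θ * min (Y / T + Real.sqrt Y) Y) := by
  have ha0 : 0 < a := one_pos.trans_le ha
  have hb0 : 0 < b := one_pos.trans_le hb
  have hRθ : 1 ≤ R ^ θ := Real.one_le_rpow hR hθ
  have key : ∀ s : ℝ, 1 / 2 + θ ≤ s →
      Real.sqrt (a * b) * (Y / (a ^ 2 * b ^ 3)) ^ s ≤ b ^ (-(1 + 3 * θ)) * Y ^ s := fun s hs => by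
    rw [Real.div_rpow hY.le (by positivity), mul_div_assoc', mul_comm, mul_div_assoc, mul_comm]
    refine mul_le_mul_of_nonneg_right ?_ (by positivity)
    rw [Real.sqrt_eq_rpow, Real.mul_rpow ha0.le hb0.le, Real.mul_rpow (by positivity) (by positivity),
      mul_div_mul_comm, ← Real.rpow_natCast, ← Real.rpow_natCast, ← Real.rpow_mul ha0.le,
      ← Real.rpow_mul hb0.le, ← Real.rpow_sub ha0, ← Real.rpow_sub hb0]
    refine (mul_le_of_le_one_left (by positivity)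
      (Real.rpow_le_one_of_one_le_of_nonpos ha (by push_cast; linarith))).trans
      (Real.rpow_le_rpow_of_exponent_le hb (by push_cast; linarith))
  set Y' := Y / (a ^ 2 * b ^ 3) with hY'
  have hY'0 : 0 < Y' := by positivity
  have k1 := key 1 (by linarith)
  rw [Real.rpow_one, Real.rpow_one] at k1
  have k2 := key _ le_rfl
  have h1 : min (Y' / T + Real.sqrt Y') Y' ≤ Y' / T + Y' ^ (1 / 2 + θ) := by
    rcases le_total 1 Y' with h | h
    · refine (min_le_left _ _).trans (add_le_add_right ?_ _)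
      rw [Real.sqrt_eq_rpow]
      exact Real.rpow_le_rpow_of_exponent_le h (by linarith)
    · refine (min_le_right _ _).trans (le_add_of_nonneg_of_le (by positivity) ?_)
      exact Real.self_le_rpow_of_le_one hY'0.le h (by linarith)
  have h2 : Y ^ (1 / 2 + θ) ≤ R ^ θ * Real.sqrt Y := by
    rw [Real.rpow_add hY, Real.sqrt_eq_rpow, mul_comm]
    gcongr
  have hw : 0 ≤ b ^ (-(1 + 3 * θ)) := by positivity
  rw [mul_min_of_nonneg _ _ (zero_le_one.trans hRθ), mul_min_of_nonneg _ _ hw]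
  refine le_min ((mul_le_mul_of_nonneg_left h1 (Real.sqrt_nonneg _)).trans ?_)
    ((mul_le_mul_of_nonneg_left (min_le_right _ _) (Real.sqrt_nonneg _)).trans
      (k1.trans (mul_le_mul_of_nonneg_left (le_mul_of_one_le_left hY.le hRθ) hw)))
  rw [mul_add, mul_add, mul_add, ← mul_div_assoc]
  refine add_le_add ?_ (k2.trans (mul_le_mul_of_nonneg_left h2 hw))
  refine (div_le_div_of_nonneg_right k1 (by linarith)).trans ?_
  rw [mul_div_assoc]
  exact mul_le_mul_of_nonneg_left (le_mul_of_one_le_left (by positivity) hRθ) hw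

/-- Trivial bound for the marked theta coefficients against a thin weight: write `n = m d³`
(`eq_sq1_mul_cu`), `|tc n| ≤ √(N d)`, `z / (z, d) ∣ m`, and use `thin_count`. -/
theorem tm_thin {ε : ℝ} (hε : 0 < ε) : ∃ C : ℝ, 0 < C ∧ ∀ (l : ℤ) (z : O) (R T Y : ℝ), PS z →
    1 ≤ R → nr z ≤ R → 1 ≤ T → 0 < Y → Y ≤ R →
    (Summable fun n : O => ‖tm l z n‖ * Real.exp (-(T + 1) * |Real.log (nr n / Y)|)) ∧
    ∑' n : O, ‖tm l z n‖ * Real.exp (-(T + 1) * |Real.log (nr n / Y)|) ≤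
      C * R ^ ε * min (Y / (nr z * T) + Real.sqrt (Y / nr z)) (Y / nr z) := by
  classical
  obtain ⟨θ, hθ, hθ1, hθε⟩ : ∃ θ : ℝ, 0 < θ ∧ θ ≤ 1 / 2 ∧ θ + θ ≤ ε :=
    ⟨min (1 / 2) (ε / 2), lt_min (by norm_num) (by positivity), min_le_left _ _,
      by linarith [min_le_right (1 / 2) (ε / 2)]⟩
  obtain ⟨C₁, hC₁, h₁⟩ := thin_count
  obtain ⟨C₂, hC₂, h₂⟩ := card_pdiv_le hθ
  have hs := summable_nr_rpow (σ := 1 + 3 * θ) (by linarith)
  set Z : ℝ := ∑' n : O, nr n ^ (-(1 + 3 * θ)) with hZ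
  have hZ0 : 0 ≤ Z := tsum_nonneg fun _ => by positivity
  refine ⟨C₂ * (C₁ * (Z + 1)), by positivity, fun l z R T Y hz hR hzR hT hY hYR => ?_⟩
  have hz1 := one_le_nr hz.1.ne_zero
  have hz0 := nr_pos hz.1.ne_zero
  have hR0 : 0 < R := one_pos.trans_le hR
  suffices key : ∀ S : Finset O,
      ∑ n ∈ S, ‖tm l z n‖ * Real.exp (-(T + 1) * |Real.log (nr n / Y)|) ≤
        C₂ * (C₁ * (Z + 1)) * R ^ ε * min (Y / (nr z * T) + Real.sqrt (Y / nr z)) (Y / nr z) by
    have h := summable_of_sum_le (fun n => by positivity) key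
    exact ⟨h, h.tsum_le_of_sum_le key⟩
  intro S
  rw [← Finset.sum_filter_of_ne (p := fun n => tm l z n ≠ 0) fun n _ h h0 => h (by
    rw [h0, norm_zero, zero_mul]), ← div_div]
  set S' := S.filter fun n => tm l z n ≠ 0
  set μ := min (Y / nr z / T + Real.sqrt (Y / nr z)) (Y / nr z) with hμ
  have hμ0 : 0 ≤ μ := le_min (by positivity) (by positivity)
  choose! v hv using fun n (h : tm l z n ≠ 0) => Cnt_decomp hz h
  have hv' := fun n (h : n ∈ S') => hv n (Finset.mem_filter.1 h).2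
  let F : O × O × O → ℝ := fun v => Real.sqrt (nr v.1 * nr v.2.1) * (if Primary v.2.2 then
    Real.exp (-(T + 1) * |Real.log (nr v.2.2 / (Y / nr z / (nr v.1 ^ 2 * nr v.2.1 ^ 3)))|) else 0)
  have hF : ∀ v, 0 ≤ F v := fun v => mul_nonneg (Real.sqrt_nonneg _) (by split_ifs <;> positivity)
  calc _ ≤ ∑ n ∈ S', F (v n) := Finset.sum_le_sum fun n hn => by
        obtain ⟨-, a1, a2, a3, a4, a5⟩ := hv' n hn
        simp only [F, if_pos a3]
        have e : nr n / Y = nr (v n).2.2 / (Y / nr z / (nr (v n).1 ^ 2 * nr (v n).2.1 ^ 3)) := by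
          have := nr_pos a1.ne_zero
          have := nr_pos a2.ne_zero
          conv_lhs => rw [a4, nr_mul, nr_mul, nr_mul, nr_pow, nr_pow]
          field_simp
        rw [← e]
        exact mul_le_mul_of_nonneg_right a5 (Real.exp_pos _).le
    _ = ∑ x ∈ S'.image v, F x := (Finset.sum_image fun n hn n' hn' h => by
        rw [(hv' n hn).2.2.2.2.1, (hv' n' hn').2.2.2.2.1, h]).symm
    _ ≤ ∑ x ∈ pdiv z ×ˢ ((S'.image fun n => (v n).2.1) ×ˢ (S'.image fun n => (v n).2.2)), F x := by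
        refine Finset.sum_le_sum_of_subset_of_nonneg (fun x hx => ?_) fun x _ _ => hF x
        obtain ⟨n, hn, rfl⟩ := Finset.mem_image.1 hx
        exact Finset.mem_product.2 ⟨(hv' n hn).1, Finset.mem_product.2
          ⟨Finset.mem_image_of_mem _ hn, Finset.mem_image_of_mem _ hn⟩⟩
    _ ≤ (pdiv z).card • (C₁ * (Z * (R ^ θ * μ))) := by
        rw [Finset.sum_product]
        refine Finset.sum_le_card_nsmul _ _ _ fun g hg => ?_
        have hg1 := one_le_nr ((mem_pdiv hz.1.ne_zero).1 hg).1.ne_zero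
        rw [Finset.sum_product]
        calc _ ≤ ∑ d ∈ S'.image fun n => (v n).2.1,
              C₁ * (nr d ^ (-(1 + 3 * θ)) * (R ^ θ * μ)) := Finset.sum_le_sum fun d hd => by
              obtain ⟨n, hn, rfl⟩ := Finset.mem_image.1 hd
              have hd1 := one_le_nr (hv' n hn).2.2.1.ne_zero
              obtain ⟨b1, b2⟩ := h₁ T (Y / nr z / (nr g ^ 2 * nr (v n).2.1 ^ 3)) hT (by positivity)
              simp only [F]
              rw [← Finset.mul_sum]
              refine (mul_le_mul_of_nonneg_left ((b1.sum_le_tsum _ fun m _ => by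
                split_ifs <;> positivity).trans b2) (Real.sqrt_nonneg _)).trans ?_
              rw [mul_left_comm]
              exact mul_le_mul_of_nonneg_left (Cnt_min hg1 hd1 hT (by positivity) hR
                ((div_le_self hY.le hz1).trans hYR) hθ.le hθ1) hC₁.le
          _ ≤ _ := by
              rw [← Finset.mul_sum, ← Finset.sum_mul]
              gcongr
              exact hs.sum_le_tsum _ fun _ _ => by positivity
    _ ≤ C₂ * R ^ θ * (C₁ * ((Z + 1) * (R ^ θ * μ))) := by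
        rw [nsmul_eq_mul]
        gcongr
        · exact (h₂ z hz.1.ne_zero).trans (by gcongr)
        · linarith
    _ = C₂ * (C₁ * (Z + 1)) * R ^ (θ + θ) * μ := by rw [Real.rpow_add hR0]; ring
    _ ≤ _ := by gcongr

end Crest.Agent.R12
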