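import Crest.Agent.R12.SWSm
import Crest.Agent.R17.LZeroAuxC

/-!
# Row 12, Siegel–Walfisz block: removing the smooth weight
-/

set_option autoImplicit false

noncomputable section

namespace Crest.Agent.R12

open Crest.Agent.R17
open scoped ComplexConjugate Topology
open Filter MeasureTheory

/-- The thin Gaussian sum. -/
def thin (b : O → ℂ) (δ Y : ℝ) : ℂ :=
  ∑' n : O, b n * (Real.exp (-(Real.log (nr n / Y) / δ) ^ 2) : ℂ)

/-- The Gaussian probability density with Fourier transform `exp (-a u²)`. -/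
def gd (a τ : ℝ) : ℝ := (Real.sqrt (4 * Real.pi * a))⁻¹ * Real.exp (-τ ^ 2 / (4 * a))

theorem gd_nonneg (a τ : ℝ) : 0 ≤ gd a τ := by
  unfold gd
  positivity

theorem SWThin_gd_eq (a : ℝ) :
    gd a = fun τ => (Real.sqrt (4 * Real.pi * a))⁻¹ * Real.exp (-(4 * a)⁻¹ * τ ^ 2) := by
  funext τ
  rw [gd]
  congr 2
  ring

theorem integrable_gd {a : ℝ} (ha : 0 < a) : Integrable (gd a) := by
  rw [SWThin_gd_eq]
  exact (integrable_exp_neg_mul_sq (by positivity)).const_mul _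

theorem integral_gd {a : ℝ} (ha : 0 < a) : ∫ τ, gd a τ = 1 := by
  rw [SWThin_gd_eq, integral_const_mul, integral_gaussian,
    show Real.pi / (4 * a)⁻¹ = 4 * Real.pi * a by field_simp]
  have : 0 < Real.sqrt (4 * Real.pi * a) := Real.sqrt_pos.2 (by positivity)
  exact inv_mul_cancel₀ this.ne'

theorem integral_gd_exp {a : ℝ} (ha : 0 < a) (u : ℝ) :
    ∫ τ : ℝ, (gd a τ : ℂ) * Complex.exp (τ * Complex.I * u) = (Real.exp (-a * u ^ 2) : ℂ) := by
  have ha' : (a : ℂ) ≠ 0 := Complex.ofReal_ne_zero.2 ha.ne'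
  have h1 : ∀ τ : ℝ, (gd a τ : ℂ) * Complex.exp (τ * Complex.I * u) =
      (((Real.sqrt (4 * Real.pi * a))⁻¹ : ℝ) : ℂ) *
        Complex.exp (((-(4 * a)⁻¹ : ℝ) : ℂ) * (τ : ℂ) ^ 2 + (Complex.I * u) * τ + 0) := by
    intro τ
    rw [gd, Complex.ofReal_mul, Complex.ofReal_exp, mul_assoc, ← Complex.exp_add]
    congr 2
    push_cast
    ring
  simp only [h1]
  have hb : (((-(4 * a)⁻¹ : ℝ) : ℂ)).re < 0 := by
    rw [Complex.ofReal_re]
    have : 0 < (4 * a)⁻¹ := by positivity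
    linarith
  rw [integral_const_mul, integral_cexp_quadratic hb]
  have h2 : ((Real.pi : ℂ) / -((-(4 * a)⁻¹ : ℝ) : ℂ)) = ((4 * Real.pi * a : ℝ) : ℂ) := by
    push_cast
    field_simp
  have h3 : ((4 * Real.pi * a : ℝ) : ℂ) ^ (1 / 2 : ℂ) = (Real.sqrt (4 * Real.pi * a) : ℂ) := by
    rw [Real.sqrt_eq_rpow, Complex.ofReal_cpow (by positivity)]
    norm_num
  have h4 : 0 < Real.sqrt (4 * Real.pi * a) := Real.sqrt_pos.2 (by positivity)
  rw [h2, h3, ← mul_assoc, ← Complex.ofReal_mul, inv_mul_cancel₀ h4.ne', Complex.ofReal_one,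
    one_mul, Complex.ofReal_exp]
  congr 1
  push_cast
  field_simp
  rw [Complex.I_sq]
  ring

theorem SWThin_a_bounds {δ : ℝ} (h0 : 0 < δ) (h1 : δ ≤ 1 / 2) :
    0 < δ⁻¹ ^ 2 - 1 ∧ 3 / 4 * δ⁻¹ ^ 2 ≤ δ⁻¹ ^ 2 - 1 ∧ 2 ≤ δ⁻¹ := by
  have h2 : 2 ≤ δ⁻¹ := by
    rw [le_inv_comm₀ (by norm_num) h0]
    linarith
  refine ⟨by nlinarith, by nlinarith, h2⟩

theorem SWThin_gd_split {a : ℝ} (ha : 0 < a) (τ : ℝ) :
    gd a τ = Real.sqrt 2 * Real.exp (-τ ^ 2 / (8 * a)) * gd (2 * a) τ := by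
  have h4 : 0 < Real.sqrt (4 * Real.pi * a) := Real.sqrt_pos.2 (by positivity)
  have h2 : 0 < Real.sqrt 2 := by positivity
  have h5 : Real.sqrt (4 * Real.pi * (2 * a)) = Real.sqrt 2 * Real.sqrt (4 * Real.pi * a) := by
    rw [← Real.sqrt_mul (by norm_num)]
    congr 1
    ring
  have h6 : Real.exp (-τ ^ 2 / (4 * a)) =
      Real.exp (-τ ^ 2 / (8 * a)) * Real.exp (-τ ^ 2 / (4 * (2 * a))) := by
    rw [← Real.exp_add]
    congr 1
    field_simp
    ring
  rw [gd, gd, h5, h6]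
  field_simp

theorem SWThin_norm_Wc (y τ : ℝ) : ‖Wc y (τ * Complex.I)‖ = ‖Wc y 0‖ := by
  rw [norm_Wc, norm_Wc]
  simp

/-- A thin Gaussian is an average of twisted log-Gaussians, `a = δ⁻² - 1`. -/
theorem thin_eq {b : O → ℂ} (hb : PolyB b 1 0) {δ Y : ℝ} (h0 : 0 < δ) (h1 : δ ≤ 1 / 2)
    (hY : 0 < Y) :
    thin b δ Y = ∫ τ : ℝ, (gd (δ⁻¹ ^ 2 - 1) τ : ℂ) * Sm b Y (τ * Complex.I) := by
  obtain ⟨ha, -, -⟩ := SWThin_a_bounds h0 h1
  set a := δ⁻¹ ^ 2 - 1 with hadef
  have hn : ∀ (n : O) (τ : ℝ), ‖(gd a τ : ℂ) * (b n * Wc (nr n / Y) (τ * Complex.I))‖ =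
      ‖b n * Wc (nr n / Y) 0‖ * gd a τ := by
    intro n τ
    rw [norm_mul, norm_mul, norm_mul, SWThin_norm_Wc, Complex.norm_real,
      Real.norm_of_nonneg (gd_nonneg _ _)]
    ring
  have hi : ∀ n : O, Integrable fun τ : ℝ =>
      (gd a τ : ℂ) * (b n * Wc (nr n / Y) (τ * Complex.I)) := by
    intro n
    refine ((integrable_gd ha).const_mul _).mono' (Continuous.aestronglyMeasurable ?_)
      (Filter.Eventually.of_forall fun u => (hn n u).le)
    unfold gd Wc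
    fun_prop
  simp only [Sm, ← tsum_mul_left]
  rw [← integral_tsum_of_summable_integral_norm hi, thin]
  · refine tsum_congr fun n => ?_
    set L := Real.log (nr n / Y) with hL
    have h2 : ∀ τ : ℝ, (gd a τ : ℂ) * (b n * Wc (nr n / Y) (τ * Complex.I)) =
        (b n * Complex.exp (-(L : ℂ) ^ 2)) * ((gd a τ : ℂ) * Complex.exp (τ * Complex.I * L)) := by
      intro τ
      rw [Wc, Complex.exp_add]
      ring
    simp only [h2]
    rw [integral_const_mul, integral_gd_exp ha, mul_assoc, Complex.ofReal_exp, Complex.ofReal_exp,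
      ← Complex.exp_add]
    congr 2
    rw [hadef]
    push_cast
    ring
  · simp only [hn, integral_const_mul]
    exact (summable_Sm hb hY 0).mul_right _

/-- For `|τ| > T`: `gd a τ ≤ √2 exp (-T² / (8a)) gd (2a) τ` and `‖Sm‖ ≤ C Y` (`LZC.small_le`). -/
theorem norm_thin_le : ∃ C : ℝ, 0 < C ∧ ∀ (b : O → ℂ) (δ Y T ε : ℝ), PolyB b 1 0 → 0 < δ →
    δ ≤ 1 / 2 → 0 < Y → 0 ≤ T → 0 ≤ ε → (∀ τ : ℝ, |τ| ≤ T → ‖Sm b Y (τ * Complex.I)‖ ≤ ε * Y) →
    ‖thin b δ Y‖ ≤ ε * Y + C * Y * Real.exp (-(δ * T) ^ 2 / 8) := by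
  obtain ⟨C, hC, h⟩ := LZC.small_le 0 le_rfl
  refine ⟨Real.sqrt 2 * C, by positivity, fun b δ Y T ε hb h0 h1 hY hT hε hs => ?_⟩
  obtain ⟨ha, -, -⟩ := SWThin_a_bounds h0 h1
  rw [thin_eq hb h0 h1 hY]
  set a := δ⁻¹ ^ 2 - 1 with hadef
  have ha2 : 0 < 2 * a := by positivity
  set K := Real.sqrt 2 * C * Y * Real.exp (-(δ * T) ^ 2 / 8) with hK
  have hK0 : 0 ≤ K := by positivity
  have hint : Integrable fun τ => ε * Y * gd a τ + K * gd (2 * a) τ :=
    ((integrable_gd ha).const_mul _).add ((integrable_gd ha2).const_mul _)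
  refine (norm_integral_le_of_norm_le hint (Filter.Eventually.of_forall fun τ => ?_)).trans_eq ?_
  · rw [norm_mul, Complex.norm_real, Real.norm_of_nonneg (gd_nonneg _ _)]
    have g1 := gd_nonneg a τ
    have g2 := gd_nonneg (2 * a) τ
    rcases le_or_gt |τ| T with hτ | hτ
    · have := mul_le_mul_of_nonneg_left (hs τ hτ) g1
      nlinarith [mul_nonneg hK0 g2]
    · have h3 := mul_le_mul_of_nonneg_left (h b Y τ hb hY).1 g1
      have h4 : Real.exp (-τ ^ 2 / (8 * a)) ≤ Real.exp (-(δ * T) ^ 2 / 8) := by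
        refine Real.exp_le_exp.2 ?_
        have h5 : T ^ 2 ≤ τ ^ 2 := by
          rw [← sq_abs τ]
          exact pow_le_pow_left₀ hT hτ.le 2
        have h6 : δ ^ 2 * a ≤ 1 := by
          rw [hadef]
          have : δ ^ 2 * δ⁻¹ ^ 2 = 1 := by field_simp
          nlinarith [sq_nonneg δ]
        rw [div_le_div_iff₀ (by positivity) (by norm_num)]
        have : (δ * T) ^ 2 * a ≤ τ ^ 2 := by
          calc (δ * T) ^ 2 * a = (δ ^ 2 * a) * T ^ 2 := by ring
            _ ≤ 1 * T ^ 2 := by gcongr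
            _ ≤ τ ^ 2 := by linarith
        linarith
      have h7 : gd a τ * (C * Y) ≤ K * gd (2 * a) τ := by
        rw [SWThin_gd_split ha τ, hK]
        calc Real.sqrt 2 * Real.exp (-τ ^ 2 / (8 * a)) * gd (2 * a) τ * (C * Y)
            ≤ Real.sqrt 2 * Real.exp (-(δ * T) ^ 2 / 8) * gd (2 * a) τ * (C * Y) := by gcongr
          _ = _ := by ring
      have : 0 ≤ ε * Y * gd a τ := by positivity
      linarith
  · rw [integral_add ((integrable_gd ha).const_mul _) ((integrable_gd ha2).const_mul _),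
      integral_const_mul, integral_const_mul, integral_gd ha, integral_gd ha2, mul_one, mul_one]

theorem SWThin_polyB_pri : PolyB E2.pri 1 0 := by
  refine ⟨?_, fun n => ?_⟩
  · unfold E2.pri
    rw [if_neg fun h => Primary.ne_zero h rfl]
  · unfold E2.pri
    split_ifs <;> simp

/-- `Sm_pri_le`; `gd a ≤ δ` and `∫ gd a τ |τ| ≤ C / δ`. -/
theorem norm_thin_pri_le : ∃ C : ℝ, 0 < C ∧ ∀ δ Y : ℝ, 0 < δ → δ ≤ 1 / 2 → 0 < Y →
    ‖thin E2.pri δ Y‖ ≤ C * (δ * Y + δ⁻¹) := by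
  obtain ⟨C, hC, h⟩ := Sm_pri_le
  refine ⟨4 * C, by positivity, fun δ Y h0 h1 hY => ?_⟩
  obtain ⟨ha, ha1, hδ⟩ := SWThin_a_bounds h0 h1
  rw [thin_eq SWThin_polyB_pri h0 h1 hY]
  set a := δ⁻¹ ^ 2 - 1 with hadef
  have ha2 : 0 < 2 * a := by positivity
  have hsa : 0 < Real.sqrt a := Real.sqrt_pos.2 ha
  have hsa1 : Real.sqrt a ≤ δ⁻¹ := by
    rw [Real.sqrt_le_left (by positivity)]
    rw [hadef]
    linarith
  have hsa2 : (Real.sqrt a)⁻¹ ≤ 2 * δ := by
    rw [inv_le_comm₀ hsa (by positivity)]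
    refine Real.le_sqrt_of_sq_le ?_
    have : (2 * δ)⁻¹ ^ 2 = 1 / 4 * δ⁻¹ ^ 2 := by field_simp; norm_num
    rw [this]
    nlinarith [sq_nonneg δ⁻¹]
  have hint : Integrable fun τ => C * (Y * (Real.sqrt a)⁻¹ * gd 1 τ + (gd a τ +
      3 * δ⁻¹ * gd (2 * a) τ)) :=
    (((integrable_gd one_pos).const_mul _).add ((integrable_gd ha).add
      ((integrable_gd ha2).const_mul _))).const_mul _
  refine (norm_integral_le_of_norm_le hint (Filter.Eventually.of_forall fun τ => ?_)).trans ?_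
  · rw [norm_mul, Complex.norm_real, Real.norm_of_nonneg (gd_nonneg _ _)]
    have g1 := gd_nonneg a τ
    have g2 := gd_nonneg (2 * a) τ
    refine (mul_le_mul_of_nonneg_left (h Y τ hY) g1).trans ?_
    have h3 : gd a τ * Real.exp (-τ ^ 2 / 4) ≤ (Real.sqrt a)⁻¹ * gd 1 τ := by
      have h5 : Real.sqrt (4 * Real.pi * a) = Real.sqrt a * Real.sqrt (4 * Real.pi * 1) := by
        rw [← Real.sqrt_mul ha.le]
        congr 1
        ring
      have h6 : Real.exp (-τ ^ 2 / (4 * a)) ≤ 1 := by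
        refine Real.exp_le_one_iff.2 ?_
        have : 0 ≤ τ ^ 2 / (4 * a) := by positivity
        rw [neg_div]
        linarith
      rw [gd, gd, h5, mul_inv, mul_one]
      calc (Real.sqrt a)⁻¹ * (Real.sqrt (4 * Real.pi))⁻¹ * Real.exp (-τ ^ 2 / (4 * a)) *
            Real.exp (-τ ^ 2 / 4)
          ≤ (Real.sqrt a)⁻¹ * (Real.sqrt (4 * Real.pi))⁻¹ * 1 * Real.exp (-τ ^ 2 / 4) := by
            gcongr
        _ = _ := by simp only [mul_one]; ring
    have h4 : gd a τ * |τ| ≤ 3 * δ⁻¹ * gd (2 * a) τ := by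
      have h5 : |τ| ≤ 2 * Real.sqrt a * (1 + τ ^ 2 / (8 * a)) := by
        have h6 : Real.sqrt a * Real.sqrt a = a := Real.mul_self_sqrt ha.le
        have h7 : 2 * Real.sqrt a * (1 + τ ^ 2 / (8 * a)) =
            2 * Real.sqrt a + |τ| ^ 2 / (4 * Real.sqrt a) := by
          rw [sq_abs]
          field_simp
          rw [Real.sq_sqrt ha.le]
          ring
        rw [h7]
        have h8 : |τ| - Real.sqrt a ≤ |τ| ^ 2 / (4 * Real.sqrt a) := by
          rw [le_div_iff₀ (by positivity)]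
          nlinarith [sq_nonneg (|τ| - 2 * Real.sqrt a)]
        linarith
      have h6 : 1 + τ ^ 2 / (8 * a) ≤ Real.exp (τ ^ 2 / (8 * a)) := by
        linarith [Real.add_one_le_exp (τ ^ 2 / (8 * a))]
      have h7 : Real.exp (-τ ^ 2 / (8 * a)) * |τ| ≤ 2 * δ⁻¹ := by
        calc Real.exp (-τ ^ 2 / (8 * a)) * |τ|
            ≤ Real.exp (-τ ^ 2 / (8 * a)) * (2 * δ⁻¹ * Real.exp (τ ^ 2 / (8 * a))) := by
              gcongr
              refine h5.trans ?_
              gcongr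
          _ = 2 * δ⁻¹ * (Real.exp (-τ ^ 2 / (8 * a)) * Real.exp (τ ^ 2 / (8 * a))) := by ring
          _ = 2 * δ⁻¹ := by
              rw [← Real.exp_add, neg_div, neg_add_cancel, Real.exp_zero, mul_one]
      have h8 : Real.sqrt 2 ≤ 3 / 2 := by
        rw [Real.sqrt_le_left (by norm_num)]
        norm_num
      rw [SWThin_gd_split ha τ]
      calc Real.sqrt 2 * Real.exp (-τ ^ 2 / (8 * a)) * gd (2 * a) τ * |τ|
          = Real.sqrt 2 * (Real.exp (-τ ^ 2 / (8 * a)) * |τ|) * gd (2 * a) τ := by ring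
        _ ≤ 3 / 2 * (2 * δ⁻¹) * gd (2 * a) τ := by gcongr
        _ = _ := by ring
    have h5 := mul_le_mul_of_nonneg_left h3 hY.le
    calc gd a τ * (C * (Y * Real.exp (-τ ^ 2 / 4) + (1 + |τ|)))
        = C * (Y * (gd a τ * Real.exp (-τ ^ 2 / 4)) + (gd a τ + gd a τ * |τ|)) := by ring
      _ ≤ C * (Y * ((Real.sqrt a)⁻¹ * gd 1 τ) + (gd a τ + 3 * δ⁻¹ * gd (2 * a) τ)) := by gcongr
      _ = _ := by ring
  · have hi2 : Integrable fun τ => gd a τ + 3 * δ⁻¹ * gd (2 * a) τ :=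
      (integrable_gd ha).add ((integrable_gd ha2).const_mul _)
    rw [integral_const_mul, integral_add ((integrable_gd one_pos).const_mul _) hi2,
      integral_add (integrable_gd ha) ((integrable_gd ha2).const_mul _),
      integral_const_mul, integral_const_mul, integral_gd ha, integral_gd ha2, integral_gd one_pos]
    have h3 : Y * (Real.sqrt a)⁻¹ ≤ Y * (2 * δ) := by gcongr
    have h4 : Y * (Real.sqrt a)⁻¹ * 1 + (1 + 3 * δ⁻¹ * 1) ≤ 4 * (δ * Y + δ⁻¹) := by
      nlinarith [mul_pos h0 hY]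
    calc C * (Y * (Real.sqrt a)⁻¹ * 1 + (1 + 3 * δ⁻¹ * 1)) ≤ C * (4 * (δ * Y + δ⁻¹)) := by gcongr
      _ = _ := by ring

open Classical in
/-- Primary elements in an annulus (take `δ = min (1/2) (max η x^{-1/2})`). -/
theorem card_annulus_le : ∃ C : ℝ, 0 < C ∧ ∀ (x η : ℝ) (S : Finset O), 1 ≤ x → 0 ≤ η → η ≤ 1 →
    (∀ n ∈ S, Primary n ∧ x ≤ nr n ∧ nr n ≤ x * (1 + η)) →
    (S.card : ℝ) ≤ C * (η * x + Real.sqrt x) := by
  obtain ⟨C, hC, h⟩ := norm_thin_pri_le
  refine ⟨Real.exp 4 * C * 3, by positivity, fun x η S hx hη hη1 hS => ?_⟩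
  have hx0 : 0 < x := by linarith
  have hs1 : 1 ≤ Real.sqrt x := Real.one_le_sqrt.2 hx
  have hs0 : 0 < Real.sqrt x := by linarith
  have hsi : 0 < (Real.sqrt x)⁻¹ := by positivity
  set δ := min (1 / 2) (max η (Real.sqrt x)⁻¹) with hδ
  have h0 : 0 < δ := lt_min (by norm_num) (lt_max_of_lt_right hsi)
  have h1 : δ ≤ 1 / 2 := min_le_left _ _
  have h2 : η ≤ 2 * δ := by
    rcases min_choice (1 / 2 : ℝ) (max η (Real.sqrt x)⁻¹) with h3 | h3
    · rw [hδ, h3]; linarith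
    · rw [hδ, h3]; linarith [le_max_left η (Real.sqrt x)⁻¹]
  have h3 : δ * x ≤ η * x + Real.sqrt x := by
    have h4 : δ ≤ η + (Real.sqrt x)⁻¹ :=
      (min_le_right _ _).trans (max_le (by linarith) (by linarith))
    have h5 : (Real.sqrt x)⁻¹ * x = Real.sqrt x := by
      field_simp
      exact (Real.sq_sqrt hx0.le).symm
    nlinarith
  have h4 : δ⁻¹ ≤ 2 * Real.sqrt x := by
    rw [inv_le_comm₀ h0 (by positivity)]
    refine le_min ?_ (le_max_of_le_right ?_)
    · rw [inv_le_comm₀ (by positivity) (by norm_num)]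
      norm_num
      linarith
    · exact inv_anti₀ hs0 (by linarith)
  set r : O → ℝ := fun n =>
    if Primary n then Real.exp (-(Real.log (nr n / x) / δ) ^ 2) else 0 with hr
  have hr0 : ∀ n, 0 ≤ r n := fun n => by
    simp only [hr]
    split_ifs <;> positivity
  have hsum : Summable r := by
    refine Summable.of_nonneg_of_le hr0 (fun n => ?_) (summable_Sm SWThin_polyB_pri hx0 0)
    simp only [hr, E2.pri]
    split_ifs with hp
    · rw [one_mul, norm_Wc]
      refine Real.exp_le_exp.2 ?_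
      have h5 : Real.log (nr n / x) ^ 2 ≤ (Real.log (nr n / x) / δ) ^ 2 := by
        rw [div_pow, le_div_iff₀ (by positivity)]
        have : δ ^ 2 ≤ 1 := by nlinarith
        nlinarith [sq_nonneg (Real.log (nr n / x))]
      simp only [Complex.zero_re, zero_mul, add_zero]
      linarith
    · positivity
  have heq : thin E2.pri δ x = ((∑' n, r n : ℝ) : ℂ) := by
    rw [thin, Complex.ofReal_tsum]
    refine tsum_congr fun n => ?_
    simp only [hr, E2.pri]
    split_ifs <;> simp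
  have h5 := h δ x h0 h1 hx0
  rw [heq, Complex.norm_real, Real.norm_of_nonneg (tsum_nonneg hr0)] at h5
  have h6 : (S.card : ℝ) * Real.exp (-4) ≤ ∑ n ∈ S, r n := by
    rw [← nsmul_eq_mul]
    refine Finset.card_nsmul_le_sum _ _ _ fun n hn => ?_
    obtain ⟨hp, hl, hu⟩ := hS n hn
    simp only [hr]
    rw [if_pos hp]
    refine Real.exp_le_exp.2 ?_
    have h7 : 0 ≤ Real.log (nr n / x) := Real.log_nonneg ((one_le_div hx0).2 hl)
    have h8 : Real.log (nr n / x) ≤ η := by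
      have h9 : nr n / x ≤ 1 + η := by
        rw [div_le_iff₀ hx0]
        linarith
      have h10 : 0 < nr n / x := by
        have : 0 < nr n := by linarith
        positivity
      linarith [Real.log_le_sub_one_of_pos h10]
    have h9 : Real.log (nr n / x) / δ ≤ 2 := by
      rw [div_le_iff₀ h0]
      linarith
    have h10 : 0 ≤ Real.log (nr n / x) / δ := by positivity
    nlinarith
  have h7 : ∑ n ∈ S, r n ≤ ∑' n, r n := hsum.sum_le_tsum S fun n _ => hr0 n
  have h8 : (S.card : ℝ) = Real.exp 4 * (S.card * Real.exp (-4)) := by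
    rw [mul_left_comm, ← Real.exp_add]
    simp
  have h9 : δ * x + δ⁻¹ ≤ 3 * (η * x + Real.sqrt x) := by
    nlinarith [mul_nonneg hη hx0.le]
  calc (S.card : ℝ) = Real.exp 4 * (S.card * Real.exp (-4)) := h8
    _ ≤ Real.exp 4 * (C * (3 * (η * x + Real.sqrt x))) := by
        refine mul_le_mul_of_nonneg_left (h6.trans (h7.trans (h5.trans ?_))) (by positivity)
        exact mul_le_mul_of_nonneg_left h9 hC.le
    _ = _ := by ring

end Crest.Agent.R12
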