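import Crest.Agent.R12.AFa
import Crest.Agent.R12.SWThin

/-!
# Row 12, analytic half: counting in thin annuli
-/

set_option autoImplicit false

noncomputable section

namespace Crest.Agent.R12

open Crest.Agent.R17
open scoped ComplexConjugate Topology
open Filter MeasureTheory

theorem Cnt0_exp_le {T : ℝ} (hT : 1 ≤ T) : Real.exp (1 / (2 * T)) ≤ 1 + 1 / T := by
  have hT0 : 0 < T := by linarith
  have h1 : 1 / (2 * T) ≤ 1 / 2 := by gcongr; linarith
  have h2 := Real.exp_bound_div_one_sub_of_interval (x := 1 / (2 * T)) (by positivity)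
    (by linarith)
  refine h2.trans ?_
  rw [div_le_iff₀ (by linarith), show 1 / T = 2 * (1 / (2 * T)) by field_simp]
  nlinarith [show 0 < 1 / (2 * T) by positivity]

theorem Cnt0_shell : ∃ C : ℝ, 0 < C ∧ ∀ (T x : ℝ) (S : Finset O), 1 ≤ T → 0 < x →
    (∀ n ∈ S, Primary n ∧ x ≤ nr n ∧ nr n ≤ x * (1 + 1 / T)) →
    (S.card : ℝ) ≤ C * min (x / T + Real.sqrt x) x := by
  obtain ⟨C, hC, h⟩ := card_annulus_le
  refine ⟨4 * C, by positivity, fun T x S hT hx hS => ?_⟩
  have hT0 : 0 < T := by linarith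
  have hη : 1 / T ≤ 1 := by rw [div_le_one hT0]; exact hT
  have hη0 : 0 < 1 / T := by positivity
  have hs := Real.sqrt_nonneg x
  have hxT : 0 ≤ x / T := by positivity
  rw [mul_min_of_nonneg _ _ (by positivity)]
  rcases le_total 1 x with h1 | h1
  · have h2 := h x (1 / T) S h1 hη0.le hη hS
    have h3 : Real.sqrt x ≤ x := Real.sqrt_le_iff.2 ⟨hx.le, by nlinarith⟩
    have h4 : x / T ≤ x := div_le_self hx.le hT
    rw [show 1 / T * x = x / T by ring] at h2
    exact le_min (by nlinarith) (by nlinarith)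
  · rcases S.eq_empty_or_nonempty with rfl | ⟨n, hn⟩
    · exact le_min (by simpa using by positivity) (by simpa using by positivity)
    have h2 := h 1 (1 / T) S le_rfl hη0.le hη fun n hn =>
      ⟨(hS n hn).1, one_le_nr (hS n hn).1.ne_zero, (hS n hn).2.2.trans (by gcongr)⟩
    have h3 : 1 ≤ 2 * x := by nlinarith [one_le_nr (hS n hn).1.ne_zero, (hS n hn).2.2]
    have h4 : x ≤ Real.sqrt x := Real.le_sqrt_of_sq_le (by nlinarith)
    rw [Real.sqrt_one] at h2
    exact le_min (by nlinarith) (by nlinarith)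

theorem Cnt0_summable : Summable fun j : ℤ => Real.exp (-(|(j : ℝ)| / 2)) := by
  have h : Summable fun n : ℕ => Real.exp (-((n : ℝ) / 2)) := by
    refine (summable_geometric_of_lt_one (Real.exp_pos (-(1 / 2))).le
      (Real.exp_lt_one_iff.2 (by norm_num))).congr fun n => ?_
    rw [← Real.exp_nat_mul]
    congr 1
    ring
  exact Summable.of_nat_of_neg (by simpa using h) (by simpa using h)

open Classical in
/-- `card_annulus_le` on the shells `Y e^{j/T} < N ≤ Y e^{(j+1)/T}`; for `N < 1` there is nothing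
to count; `∑_j e^{-|j|(T+1)/T} (e^{j/T} Y/T + e^{j/2T} √Y)` converges. -/
theorem thin_count : ∃ C : ℝ, 0 < C ∧ ∀ T Y : ℝ, 1 ≤ T → 0 < Y →
    (Summable fun m : O => if Primary m then Real.exp (-(T + 1) * |Real.log (nr m / Y)|) else 0) ∧
    ∑' m : O, (if Primary m then Real.exp (-(T + 1) * |Real.log (nr m / Y)|) else 0) ≤
      C * min (Y / T + Real.sqrt Y) Y := by
  obtain ⟨C, hC, h⟩ := Cnt0_shell
  have hZ : 0 < ∑' j : ℤ, Real.exp (-(|(j : ℝ)| / 2)) :=
    Cnt0_summable.tsum_pos (fun _ => (Real.exp_pos _).le) 0 (Real.exp_pos _)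
  refine ⟨C * Real.exp 1 * ∑' j : ℤ, Real.exp (-(|(j : ℝ)| / 2)), by positivity,
    fun T Y hT hY => ?_⟩
  have hT0 : 0 < T := by linarith
  obtain ⟨M, hM⟩ : ∃ M, M = min (Y / T + Real.sqrt Y) Y := ⟨_, rfl⟩
  have hM0 : 0 ≤ M := hM ▸ le_min (by positivity) hY.le
  have key : ∀ S : Finset O,
      ∑ m ∈ S, (if Primary m then Real.exp (-(T + 1) * |Real.log (nr m / Y)|) else 0) ≤
        C * Real.exp 1 * (∑' j : ℤ, Real.exp (-(|(j : ℝ)| / 2))) * M := by
    intro S
    rw [← Finset.sum_filter, ← Finset.sum_fiberwise_of_maps_to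
      (fun m hm => Finset.mem_image_of_mem (fun m => ⌊2 * T * Real.log (nr m / Y)⌋) hm),
      mul_right_comm]
    refine le_trans (Finset.sum_le_sum fun j _ => ?_) ((Finset.mul_sum _ _ _).symm.trans_le
      (mul_le_mul_of_nonneg_left (Cnt0_summable.sum_le_tsum _ fun _ _ => (Real.exp_pos _).le)
        (by positivity)))
    obtain ⟨e, he⟩ : ∃ e, e = Real.exp (|(j : ℝ)| / (2 * T)) := ⟨_, rfl⟩
    have he1 : 1 ≤ e := he ▸ Real.one_le_exp (by positivity)
    have hx : Y * Real.exp (j / (2 * T)) ≤ e * Y := by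
      rw [he, mul_comm]; gcongr; exact le_abs_self _
    have hm : ∀ m ∈ (S.filter Primary).filter fun m => ⌊2 * T * Real.log (nr m / Y)⌋ = j,
        Primary m ∧ j ≤ 2 * T * Real.log (nr m / Y) ∧ 2 * T * Real.log (nr m / Y) ≤ j + 1 := by
      intro m hm
      simp only [Finset.mem_filter] at hm
      exact ⟨hm.1.2, hm.2 ▸ Int.floor_le _, hm.2 ▸ (Int.lt_floor_add_one _).le⟩
    have h1 := h T (Y * Real.exp (j / (2 * T))) _ hT (by positivity) fun m hm' => by
      obtain ⟨a1, a2, a3⟩ := hm m hm'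
      have e1 : nr m = Y * Real.exp (Real.log (nr m / Y)) := by
        rw [Real.exp_log (div_pos (nr_pos a1.ne_zero) hY)]; field_simp
      refine ⟨a1, ?_, ?_⟩
      · rw [e1]
        gcongr
        rw [div_le_iff₀ (by positivity)]
        linarith
      · refine le_trans ?_ (mul_le_mul_of_nonneg_left (Cnt0_exp_le hT) (by positivity))
        rw [e1, mul_assoc, ← Real.exp_add, ← add_div]
        gcongr
        rw [le_div_iff₀ (by positivity)]
        linarith
    have h2 : min (Y * Real.exp (j / (2 * T)) / T + Real.sqrt (Y * Real.exp (j / (2 * T))))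
        (Y * Real.exp (j / (2 * T))) ≤ e * M := by
      rw [hM, mul_min_of_nonneg _ _ (by positivity), mul_add, ← mul_div_assoc]
      refine min_le_min (add_le_add (by gcongr) (Real.sqrt_le_iff.2 ⟨by positivity, ?_⟩)) hx
      rw [mul_pow, Real.sq_sqrt hY.le]
      exact hx.trans (by gcongr; nlinarith)
    refine (Finset.sum_le_card_nsmul _ _ (Real.exp (1 - |(j : ℝ)| / 2 - |(j : ℝ)| / (2 * T)))
      fun m hm' => ?_).trans ?_
    · obtain ⟨-, a2, a3⟩ := hm m hm'
      rw [Real.exp_le_exp]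
      have h3 : |(j : ℝ)| ≤ 2 * T * |Real.log (nr m / Y)| + 1 := by
        have b1 := mul_le_mul_of_nonneg_left (le_abs_self (Real.log (nr m / Y)))
          (show 0 ≤ 2 * T by positivity)
        have b2 := mul_le_mul_of_nonneg_left (neg_abs_le (Real.log (nr m / Y)))
          (show 0 ≤ 2 * T by positivity)
        exact abs_le.2 ⟨by linarith, by linarith⟩
      have h4 : |(j : ℝ)| / (2 * T) ≤ |Real.log (nr m / Y)| + 1 / 2 := by
        rw [div_le_iff₀ (by positivity)]
        linarith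
      linarith
    · rw [nsmul_eq_mul]
      calc _ ≤ C * (e * M) * Real.exp (1 - |(j : ℝ)| / 2 - |(j : ℝ)| / (2 * T)) := by
            gcongr
            exact h1.trans (by gcongr)
        _ = C * M * (Real.exp (|(j : ℝ)| / (2 * T)) *
            Real.exp (1 - |(j : ℝ)| / 2 - |(j : ℝ)| / (2 * T))) := by rw [he]; ring
        _ = C * M * (Real.exp 1 * Real.exp (-(|(j : ℝ)| / 2))) := by
            rw [← Real.exp_add, ← Real.exp_add]; congr 2; ring
        _ = _ := by ring
  have h0 : ∀ m : O, 0 ≤ if Primary m then Real.exp (-(T + 1) * |Real.log (nr m / Y)|) else 0 :=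
    fun m => ite_nonneg (Real.exp_pos _).le le_rfl
  rw [← hM]
  exact ⟨summable_of_sum_le h0 key, Real.tsum_le_of_sum_le h0 key⟩

/-- Windows of relative width `1/T`. -/
theorem card_window_le : ∃ C : ℝ, 0 < C ∧ ∀ (T x : ℝ) (S : Finset O), 1 ≤ T → T ^ 2 ≤ x →
    (∀ n ∈ S, Primary n ∧ x < nr n ∧ nr n ≤ x * Real.exp (1 / T)) →
    (S.card : ℝ) ≤ C * x / T := by
  classical
  obtain ⟨C, hC, h⟩ := Cnt0_shell
  refine ⟨6 * C, by positivity, fun T x S hT hx hS => ?_⟩
  have hT0 : 0 < T := by linarith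
  have hx0 : 0 < x := lt_of_lt_of_le (by positivity) hx
  have hη : 1 / T ≤ 1 := by rw [div_le_one hT0]; exact hT
  have hη0 : 0 < 1 / T := by positivity
  have hs : ∀ y, x ≤ y → Real.sqrt y ≤ y / T := fun y hy => by
    have := hx0.trans_le hy
    refine Real.sqrt_le_iff.2 ⟨by positivity, ?_⟩
    rw [div_pow, le_div_iff₀ (by positivity)]
    nlinarith
  have h1 := (h T x (S.filter fun n => nr n ≤ x * (1 + 1 / T)) hT hx0 fun n hn => by
    obtain ⟨a1, a2⟩ := Finset.mem_filter.1 hn
    exact ⟨(hS n a1).1, (hS n a1).2.1.le, a2⟩).trans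
      (mul_le_mul_of_nonneg_left (min_le_left _ _) hC.le)
  have h2 := (h T (x * (1 + 1 / T)) (S.filter fun n => ¬ nr n ≤ x * (1 + 1 / T)) hT (by positivity)
    fun n hn => by
      obtain ⟨a1, a2⟩ := Finset.mem_filter.1 hn
      refine ⟨(hS n a1).1, (not_le.1 a2).le, (hS n a1).2.2.trans ?_⟩
      rw [mul_assoc, show 1 / T = 1 / (2 * T) + 1 / (2 * T) by field_simp; norm_num, Real.exp_add,
        show 1 / (2 * T) + 1 / (2 * T) = 1 / T by field_simp; norm_num]
      have := Cnt0_exp_le hT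
      gcongr).trans (mul_le_mul_of_nonneg_left (min_le_left _ _) hC.le)
  have h3 := hs x le_rfl
  have h4 := hs (x * (1 + 1 / T)) (le_mul_of_one_le_right hx0.le (by linarith))
  have h5 : x * (1 + 1 / T) / T ≤ 2 * (x / T) := by
    rw [← mul_div_assoc]; gcongr ?_ / _; nlinarith
  rw [← Finset.card_filter_add_card_filter_not (fun n => nr n ≤ x * (1 + 1 / T)), Nat.cast_add,
    mul_div_assoc]
  nlinarith

end Crest.Agent.R12
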