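import Crest.Agent.R12.ChrDefs
import Crest.Agent.R17.Count

/-!
# Row 12 (Patterson), analytic half: definitions

`ff l n = α(n)^l (G(n) - c N(n)^{-1/6})` on primary squarefree `n`.  The goal is
`∑_{N π ≤ X} ff l π = o(X^{5/6} / log X)`.
DO NOT change a definition of this file (add new files instead).
-/

set_option autoImplicit false

noncomputable section

namespace Crest.Agent.R12

open Crest.Agent.R17
open scoped ComplexConjugate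

/-! ### arithmetic -/

/-- Primary and squarefree. -/
def PS (n : O) : Prop := Primary n ∧ Squarefree n

open Classical in
/-- The summand: angular character times (Gauss sum minus model). -/
def ff (l : ℤ) (n : O) : ℂ :=
  if Primary n ∧ Squarefree n then
    arg n ^ l * (Gn n - ((cP * nr n ^ (-(1 / 6 : ℝ)) : ℝ) : ℂ)) else 0

/-- The prime-to-`λ` conductor of `n ↦ (k/n)₃`. -/
def cnd (k : O) : ℝ := ∏ p ∈ (pf k).filter (fun p => ¬ 3 ∣ vp p k), nr p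

/-- `∏_{p ∣ n} (1 - 1/N p)`. -/
def phi (n : O) : ℝ := ∏ p ∈ pf n, (1 - (nr p)⁻¹)

/-- A column sum. -/
def col (S : Finset O) (β : O → ℂ) (k : O) : ℂ := ∑ b ∈ S, β b * cub b k

/-- Square of the `ℓ²` norm. -/
def N2 (S : Finset O) (β : O → ℂ) : ℝ := ∑ b ∈ S, ‖β b‖ ^ 2

/-- Square of the `ℓ²` norm with the weight `k^{ω(b)}`. -/
def NW (k : ℝ) (S : Finset O) (β : O → ℂ) : ℝ := ∑ b ∈ S, ‖β b‖ ^ 2 * k ^ (pf b).card

open Classical in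
/-- Primary squarefree elements with `x ≤ N b ≤ y`. -/
def rng (x y : ℝ) : Finset O := (ball ⌊y⌋₊).filter fun b => PS b ∧ x ≤ nr b

open Classical in
/-- Primary squarefree elements with `B < N b ≤ 2 B`. -/
def dy (B : ℝ) : Finset O := (ball ⌊2 * B⌋₊).filter fun b => PS b ∧ B < nr b

/-- Bounded variation of a sequence (this is a Banach algebra norm). -/
def BVn (φ : ℕ → ℂ) (V : ℝ) : Prop :=
  ∀ N : ℕ, ‖φ 0‖ + ∑ n ∈ Finset.range N, ‖φ (n + 1) - φ n‖ ≤ V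

/-! ### weights -/

/-- Admissible weights: `v` is the inverse Mellin transform of `Φ`, which lives on `|Im s| ≲ T`;
`v` is concentrated on `|log y| ≲ 1 / T₁` and negligible outside `[1/4, 2]`. -/
structure Adm (v : ℝ → ℂ) (Φ : ℂ → ℂ) (T T₁ : ℝ) : Prop where
  one_le : 1 ≤ T₁
  le : T₁ ≤ T
  strip : StripDecay Φ
  rep : ∀ y : ℝ, 0 < y → v y = lineI 0 fun s => Φ s * (y : ℂ) ^ (-s)
  mel : ∀ s : ℂ, |s.re| ≤ 2 → ‖Φ s‖ ≤ (1 + |s.im|)⁻¹ * Real.exp (-|s.im| / T)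
  mel₁ : ∀ s : ℂ, |s.re| ≤ 2 → ‖Φ s‖ ≤ T₁⁻¹
  sp : ∀ y : ℝ, 0 < y → ‖v y‖ ≤ Real.exp (-(T₁ + 1) * |Real.log y|)
  tail : ∀ y : ℝ, 0 < y → y < 1 / 4 ∨ 2 < y → ‖v y‖ ≤ Real.exp (-T * |Real.log y|)

/-- All the shifts `v(y) y^{s₀}`, `|s₀| ≤ 1`, are admissible. -/
def AdmS (v : ℝ → ℂ) (Φ : ℂ → ℂ) (T T₁ : ℝ) : Prop :=
  ∀ s₀ : ℂ, ‖s₀‖ ≤ 1 → Adm (fun y => v y * (y : ℂ) ^ s₀) (fun s => Φ (s + s₀)) T T₁

/-- Weights with a Mellin transform of Gaussian decay on the imaginary axis. -/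
def GM (ψ : ℝ → ℂ) (P : ℝ) : Prop :=
  ∃ Ψ : ℝ → ℂ, Continuous Ψ ∧ (∀ t : ℝ, ‖Ψ t‖ ≤ P * Real.exp (-t ^ 2 / 4)) ∧
    ∀ y : ℝ, 0 < y → ψ y = (1 / (2 * Real.pi) : ℂ) * ∫ t : ℝ, Ψ t * (y : ℂ) ^ (-(t * Complex.I))

/-- The smooth cell `a ≲ log y ≲ b`. -/
def cw (a b : ℝ) (y : ℝ) : ℂ :=
  ((Real.sqrt Real.pi)⁻¹ : ℝ) * ∫ u in a..b, Wc (y / Real.exp u) 0

/-- `erfc (x) / 2`. -/
def Ec (x : ℝ) : ℝ := (Real.sqrt Real.pi)⁻¹ * ∫ u in Set.Ioi x, Real.exp (-u ^ 2)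

/-- The smooth version of the indicator function of `(1/2, 1]`. -/
def VT (T y : ℝ) : ℝ := Ec (T * Real.log y) - Ec (T * Real.log (2 * y))

/-- The difference of two consecutive smooth steps. -/
def DT (T y : ℝ) : ℝ := Ec (2 * T * Real.log y) - Ec (T * Real.log y)

open Classical in
/-- The smooth sum over primes. -/
def PSum (l : ℤ) (v : ℝ → ℂ) (X : ℝ) : ℂ :=
  ∑' n : O, if Prime n then ff l n * (Real.log (nr n) : ℂ) * v (nr n / X) else 0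

/-- The bilinear form. -/
def Bil (l : ℤ) (v : ℝ → ℂ) (X : ℝ) (Sa Sb : Finset O) (α β : O → ℂ) : ℂ :=
  ∑ a ∈ Sa, ∑ b ∈ Sb, α a * β b * (ff l (a * b) * v (nr (a * b) / X))

/-! ### dispersion -/

/-- The twisted coefficients `β(b) α(b)^l N(b)^{-it}`. -/
def tw (l : ℤ) (t : ℝ) (β : O → ℂ) (b : O) : ℂ :=
  β b * arg b ^ l * (nr b : ℂ) ^ (-(t * Complex.I))

/-- `G(b) conj (a/b)₃`. -/
def gk (a b : O) : ℂ := Gn b * conj (cub b a)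

open Classical in
/-- The cube-completed model for `gk a b`. -/
def mdl (a b : O) : ℂ :=
  if IsCoprime a b then
    conj (tc a) * ((cP * nr a ^ (-(1 / 6 : ℝ)) * nr b ^ (-(1 / 6 : ℝ)) : ℝ) : ℂ) else 0

/-- The uncorrected inner sum. -/
def TT (S : Finset O) (γ : O → ℂ) (a : O) : ℂ := ∑ b ∈ S, γ b * gk a b

/-- The corrected inner sum. -/
def EE (S : Finset O) (γ : O → ℂ) (a : O) : ℂ := ∑ b ∈ S, γ b * (gk a b - mdl a b)

open Classical in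
/-- The dispersion. -/
def Disp (A : ℝ) (S : Finset O) (γ : O → ℂ) : ℝ :=
  ∑' a : O, if Primary a then ‖Wc (nr a / A) 0‖ * ‖EE S γ a‖ ^ 2 else 0

/-- `κ` is the (radial) Fourier transform of the (radial) weight `φ`. -/
structure PP (φ κ : ℝ → ℂ) : Prop where
  sum₁ : ∀ Y : ℝ, 0 < Y → Summable fun a : O => ‖φ (nr a / Y)‖
  sum₂ : ∀ ρ : ℝ, 0 < ρ → Summable fun h : O => ‖κ (ρ * nr h)‖
  eq : ∀ (q : O) (f : O → ℂ) (Y : ℝ), q ≠ 0 → (∀ x y, q ∣ x - y → f x = f y) → f 0 = 0 → 0 < Y →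
    ∑' a : O, f a * φ (nr a / Y) =
      ((Y / nr q : ℝ) : ℂ) * ∑' h : O, ft q f h * κ (Y / nr q * nr h)

/-- The Mellin transform of the Fourier transform of the log-Gaussian. -/
def kM (t : ℂ) : ℂ := (LBB.cc : ℂ) ^ (1 - 2 * t) * Wm (1 - t) * gamH 0 t

open Classical in
/-- The Fourier transform of the log-Gaussian. -/
def kW (ρ : ℝ) : ℂ :=
  if ρ = 0 then (LBB.cc : ℂ) * Wm 1 else lineI (3 / 2) fun t => kM t * (ρ : ℂ) ^ (-t)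

/-- The row attached to `g = (b₁, b₂)`, `e ∣ g` and the dual variable `k`. -/
def row (g e k : O) : O := k * (e * (g / e) ^ 2)

/-- One term of the dual expansion. -/
def term (κ : ℝ → ℂ) (A : ℝ) (b₁ b₂ e k : O) : ℂ :=
  mu e * ((A / (9 * nr e * Real.sqrt (nr (b₁ / pgcd b₁ b₂) * nr (b₂ / pgcd b₁ b₂))) : ℝ) : ℂ) *
    eq k 3 * cub (b₁ / pgcd b₁ b₂) (row (pgcd b₁ b₂) e k) *
    conj (cub (b₂ / pgcd b₁ b₂) (row (pgcd b₁ b₂) e k)) *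
    κ (A / (9 * nr e * (nr (b₁ / pgcd b₁ b₂) * nr (b₂ / pgcd b₁ b₂))) * nr k)

open Classical in
/-- The part of the dual expansion of the pair `(b₁, b₂)` coming from the rows in `𝒦`. -/
def pairSum (κ : ℝ → ℂ) (A : ℝ) (𝒦 : O → O → O → Prop) (b₁ b₂ : O) : ℂ :=
  ∑ e ∈ pdiv (pgcd b₁ b₂), ∑' k : O, if 𝒦 (pgcd b₁ b₂) e k then term κ A b₁ b₂ e k else 0

/-- The part of the dual expansion coming from the rows in `𝒦`. -/
def RowSum (κ : ℝ → ℂ) (A : ℝ) (S : Finset O) (γ : O → ℂ) (𝒦 : O → O → O → Prop) : ℂ :=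
  ∑ b₁ ∈ S, ∑ b₂ ∈ S, γ b₁ * conj (γ b₂) * pairSum κ A 𝒦 b₁ b₂

open Classical in
/-- The multiples of `d` in `S`. -/
def Sd (S : Finset O) (d : O) : Finset O := S.filter fun b => d ∣ b

open Classical in
/-- The primary divisors of the elements of `S`. -/
def DS (S : Finset O) : Finset O := S.biUnion pdiv

/-- The inner double sum after fixing `g`, `e`, `h`, `k`. -/
def QQ (κ : ℝ → ℂ) (A : ℝ) (S : Finset O) (γ : O → ℂ) (g e h k : O) : ℂ :=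
  ∑ b₁ ∈ Sd S (g * h), ∑ b₂ ∈ Sd S (g * h),
    γ b₁ * cub (b₁ / (g * h)) (row g e k) * conj (γ b₂ * cub (b₂ / (g * h)) (row g e k)) *
      ((nr g / Real.sqrt (nr b₁ * nr b₂) : ℝ) : ℂ) *
      κ (A * nr g ^ 2 / (9 * nr e * (nr b₁ * nr b₂)) * nr k)

/-- A column sum over the multiples of `d`, with the weight `(N b / B)^s`. -/
def cl (S : Finset O) (γ : O → ℂ) (d κ : O) (B : ℝ) (s : ℂ) : ℂ :=
  ∑ b ∈ Sd S d, γ b * cub (b / d) κ * ((nr b / B : ℝ) : ℂ) ^ s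

/-- The contribution of the non-cube rows to the dispersion. -/
def NCs (A : ℝ) (S : Finset O) (γ : O → ℂ) : ℂ :=
  RowSum kW A S γ fun g e k => k ≠ 0 ∧ ¬ Cube (row g e k)

/-- The common main term. -/
def MT (A : ℝ) (b₁ b₂ : O) : ℂ :=
  ((cP ^ 2 * rho0 * A ^ (2 / 3 : ℝ) * (nr b₁ * nr b₂) ^ (-(1 / 6 : ℝ)) * phi (b₁ * b₂) : ℝ) : ℂ) *
    Wm (2 / 3)

/-- The circle integral (a Bessel function). -/
def Jc (r : ℝ) : ℂ :=
  ∫ θ in (0 : ℝ)..2 * Real.pi, eC ((r : ℂ) * Complex.exp (θ * Complex.I))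

/-- The thin annulus weight: an average of Gaussians of width `1/T` over the unit circle. -/
def phT (T y : ℝ) : ℂ :=
  (T : ℂ) * ∫ θ in (0 : ℝ)..2 * Real.pi,
    (gw (T ^ 2 * ‖(Real.sqrt y : ℂ) - Complex.exp (θ * Complex.I)‖ ^ 2) : ℂ)

/-- Its Fourier transform. -/
def kT (T ρ : ℝ) : ℂ := ((T⁻¹ * gw (ρ / T ^ 2) : ℝ) : ℂ) * Jc (Real.sqrt ρ)

/-- Siegel–Walfisz condition. -/
def SWb (l : ℤ) (S : Finset O) (β : O → ℂ) (B Z Θ : ℝ) : Prop :=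
  ∀ (κ : O) (s : ℂ), κ ≠ 0 → ¬ Cube κ → nr κ ≤ Z → |s.re| ≤ 1 → |s.im| ≤ Z →
    ‖∑ b ∈ S, β b * xi l κ b * ((nr b / B : ℝ) : ℂ) ^ s‖ ≤ Θ

/-- The mean value estimate over non-cube rows available for smooth coefficients. -/
def RowHyp (l : ℤ) (S : Finset O) (β : O → ℂ) (B Γ : ℝ) (J : ℕ) : Prop :=
  ∀ (d c : O) (M : ℝ) (s : ℂ) (K : Finset O), PS d → c ≠ 0 → nr c ≤ nr d ^ 2 → 1 ≤ M →
    |s.re| ≤ 1 → (∀ k ∈ K, k ≠ 0 ∧ nr k ≤ M ∧ ¬ Cube (k * c)) →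
    ∑ k ∈ K, ‖cl S (fun b => β b * arg b ^ l) d (k * c) B s‖ ^ 2 ≤
      Γ * (1 + |s.im|) ^ J * (B / nr d) * M ^ (27 / 20 : ℝ) * nr (rad c)

/-- The bilinear estimate that the combinatorial decomposition uses. -/
def BH (l : ℤ) (v : ℝ → ℂ) (X θ : ℝ) (A₀ A₁ : ℕ) (Cb Λ₀ : ℝ) : Prop :=
  ∀ (A B : ℝ) (α β : O → ℂ), X ^ (3 / 10 : ℝ) ≤ B → B ≤ X ^ (1 / 2 - 1 / 20000 : ℝ) →
    X / 16 ≤ A * B → A * B ≤ 2 * X →
    (∀ b ∈ dy B, β b ≠ 0 → Rough (wX θ X) b) → (∀ b ∈ dy B, ‖β b‖ ≤ 14 ^ (pf b).card) →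
    SWb l (dy B) β B (Real.log X ^ A₁) (B / Real.log X ^ A₁) →
    ‖Bil l v X (dy A) (dy B) α β‖ ≤ Cb * Real.sqrt (N2 (dy A) α) *
      (Λ₀ * Real.sqrt ((A + A ^ (3 / 4 : ℝ) * B ^ (1 / 2 : ℝ)) * NW 8 (dy B) β) +
        A ^ (1 / 3 : ℝ) * B ^ (5 / 6 : ℝ) / Real.log X ^ A₀)

end Crest.Agent.R12
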