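import Crest.Agent.R12.DspA1

/-!
# Row 12, analytic half: the Fourier transform of the log-Gaussian
-/

set_option autoImplicit false

noncomputable section

namespace Crest.Agent.R12

open Crest.Agent.R17
open scoped ComplexConjugate Topology
open Filter MeasureTheory

/-- `(s - 1) ∑_{m ≠ 0} N(m)^{-s}`. -/
def DspA_GZ : ℂ → ℂ := LBB.GLf 1 fun _ => 1

theorem DspA_avg : LBB.avg 1 (fun _ => 1) = 1 := by
  have h := card_res (one_ne_zero (α := O))
  rw [LBB.avg, Finset.sum_const, h]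
  simp [nr]

theorem DspA_GZ_le : ∃ C : ℝ, 0 < C ∧ ∀ s : ℂ, 0 ≤ s.re → s.re ≤ 5 →
    ‖DspA_GZ s‖ ≤ C * Real.exp (5 * |s.im|) := by
  obtain ⟨C₁, hC₁, h₁⟩ := norm_inv_Gamma_le 0 6
  obtain ⟨C₂, h₂⟩ := LBB.Lam0_bounded 1 (fun _ => 1) 0 5
  have hcc := LBB.cc_pos
  have hC₂ : 0 ≤ C₂ := (norm_nonneg _).trans (h₂ 0 (by simp) (by simp))
  refine ⟨(LBB.cc ^ (0 : ℝ) + LBB.cc ^ (5 : ℝ)) * (C₁ * (6 * C₂ + 7)), by positivity,
    fun s h0 h5 => ?_⟩
  have a1 := h₁ s h0 (by linarith)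
  have a2 := h₁ (s + 1) (by simp; linarith) (by simp; linarith)
  rw [show (s + 1).im = s.im by simp] at a2
  have a3 : ‖(LBB.cc : ℂ) ^ s‖ ≤ LBB.cc ^ (0 : ℝ) + LBB.cc ^ (5 : ℝ) := by
    rw [Complex.norm_cpow_eq_rpow_re_of_pos hcc]
    exact DspA0_rpow_le hcc h0 h5
  have e1 : 1 ≤ Real.exp |s.im| := Real.one_le_exp (abs_nonneg _)
  have a4 : ‖s - 1‖ ≤ 6 * Real.exp |s.im| := by
    refine (Complex.norm_le_abs_re_add_abs_im _).trans ?_
    have : |(s - 1).re| ≤ 4 := by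
      rw [abs_le]; constructor <;> simp <;> linarith
    have := Real.add_one_le_exp |s.im|
    simp only [Complex.sub_im, Complex.one_im, sub_zero]
    linarith
  have a5 := h₂ s h0 h5
  have e2 : Real.exp (5 * |s.im|) = Real.exp (4 * |s.im|) * Real.exp |s.im| := by
    rw [← Real.exp_add]; congr 1; ring
  rw [DspA_GZ, LBB.GLf, DspA_avg, norm_mul, mul_one, mul_assoc, e2]
  refine mul_le_mul a3 ?_ (norm_nonneg _) (by positivity)
  have a6 : ‖(s - 1) * LBB.Lam0 1 (fun _ => 1) s + 1‖ ≤ (6 * C₂ + 1) * Real.exp |s.im| := by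
    refine (norm_add_le _ _).trans ?_
    rw [norm_mul, norm_one]
    have := mul_le_mul a4 a5 (norm_nonneg _) (by positivity)
    linarith
  refine (norm_sub_le _ _).trans ?_
  rw [norm_mul, norm_mul]
  have b1 := mul_le_mul a1 a6 (norm_nonneg _) (by positivity)
  have b2 := mul_le_mul a4 a2 (norm_nonneg _) (by positivity)
  linarith

theorem DspA_G_le : ∃ K : ℝ, 0 < K ∧ ∀ t : ℂ, 1 / 4 ≤ t.re → t.re ≤ 3 / 2 →
    ‖kM t * DspA_GZ (3 * t) / 3‖ ≤ K / (1 + t.im ^ 2) := by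
  obtain ⟨C₁, hC₁, h₁⟩ := norm_kM_le
  obtain ⟨C₂, hC₂, h₂⟩ := DspA_GZ_le
  refine ⟨C₁ * C₂ * Real.exp 900 * 16, by positivity, fun t h0 h1 => ?_⟩
  have a1 := h₁ t h0 h1
  have a2 := h₂ (3 * t) (by simp; linarith) (by simp; linarith)
  rw [show |(3 * t).im| = 3 * |t.im| by simp [abs_mul]] at a2
  have a3 : Real.exp (-t.im ^ 2 / 8) * Real.exp (5 * (3 * |t.im|)) ≤
      Real.exp 900 * Real.exp (-(t.im ^ 2 / 16)) := by
    rw [← Real.exp_add, ← Real.exp_add]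
    refine Real.exp_le_exp.2 ?_
    nlinarith [sq_nonneg (|t.im| / 4 - 30), sq_abs t.im]
  have a4 : Real.exp (-(t.im ^ 2 / 16)) ≤ 16 / (1 + t.im ^ 2) := by
    rw [Real.exp_neg, le_div_iff₀ (by positivity), inv_mul_le_iff₀ (Real.exp_pos _)]
    linarith [Real.add_one_le_exp (t.im ^ 2 / 16)]
  rw [norm_div, norm_mul, Complex.norm_ofNat]
  calc ‖kM t‖ * ‖DspA_GZ (3 * t)‖ / 3 ≤ ‖kM t‖ * ‖DspA_GZ (3 * t)‖ :=
        div_le_self (by positivity) (by norm_num)
    _ ≤ C₁ * Real.exp (-t.im ^ 2 / 8) * (C₂ * Real.exp (5 * (3 * |t.im|))) := by gcongr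
    _ = C₁ * C₂ * (Real.exp (-t.im ^ 2 / 8) * Real.exp (5 * (3 * |t.im|))) := by ring
    _ ≤ C₁ * C₂ * (Real.exp 900 * (16 / (1 + t.im ^ 2))) := by
        exact mul_le_mul_of_nonneg_left (a3.trans (by gcongr)) (by positivity)
    _ = _ := by ring

theorem DspA_int {ρ : ℝ} (hρ : 0 < ρ) :
    Integrable fun u : ℝ => kM (((3 / 2 : ℝ) : ℂ) + u * Complex.I) *
      (ρ : ℂ) ^ (-(((3 / 2 : ℝ) : ℂ) + u * Complex.I)) := by
  obtain ⟨C, hC, h⟩ := norm_kM_le
  have hc : Continuous fun u : ℝ => kM (((3 / 2 : ℝ) : ℂ) + u * Complex.I) :=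
    differentiableOn_kM.continuousOn.comp_continuous (by fun_prop) fun u => by simp
  have hc2 : Continuous fun u : ℝ => (ρ : ℂ) ^ (-(((3 / 2 : ℝ) : ℂ) + u * Complex.I)) :=
    Continuous.const_cpow (by fun_prop) (Or.inl (Complex.ofReal_ne_zero.2 hρ.ne'))
  refine ((integrable_exp_neg_mul_sq (b := 1 / 8) (by norm_num)).const_mul
    (C * ρ ^ (-(3 / 2 : ℝ)))).mono' (hc.mul hc2).aestronglyMeasurable
    (Eventually.of_forall fun u => ?_)
  have h1 := h (((3 / 2 : ℝ) : ℂ) + u * Complex.I) (by simp; norm_num) (by simp)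
  rw [norm_mul, Complex.norm_cpow_eq_rpow_re_of_pos hρ]
  simp only [Complex.neg_re, Complex.add_re, Complex.ofReal_re, Complex.mul_re, Complex.I_re,
    mul_zero, Complex.ofReal_im, Complex.I_im, mul_one, sub_self, add_zero, Complex.add_im,
    Complex.mul_im, zero_add] at h1 ⊢
  rw [show -(1 / 8) * u ^ 2 = -u ^ 2 / 8 by ring, mul_right_comm]
  gcongr

open Classical in
theorem DspA_sum {ρ : ℝ} (hρ : 0 < ρ) :
    (∑' m : O, if m = 0 then 0 else kW (ρ * nr m ^ 3)) =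
      lineI (3 / 2) fun t => kM t * (ρ : ℂ) ^ (-t) * LBB.Lf 1 (fun _ => 1) (3 * t) := by
  set g : ℝ → ℂ := fun u => kM (((3 / 2 : ℝ) : ℂ) + u * Complex.I) *
    (ρ : ℂ) ^ (-(((3 / 2 : ℝ) : ℂ) + u * Complex.I)) with hg
  have hgi : Integrable g := DspA_int hρ
  set F : O → ℝ → ℂ := fun m u =>
    g u * (nr m : ℂ) ^ (-(3 * (((3 / 2 : ℝ) : ℂ) + u * Complex.I))) with hF
  have hn : ∀ m u, ‖F m u‖ = ‖g u‖ * nr m ^ (-(9 / 2 : ℝ)) := fun m u => by
    rw [hF]
    simp only [norm_mul]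
    rw [Complex.norm_cpow_eq_rpow_re_of_nonneg (show 0 ≤ nr m from Nat.cast_nonneg _) (by simp)]
    congr 2
    simp
    norm_num
  have hFi : ∀ m, Integrable (F m) := fun m => by
    by_cases hm : m = 0
    · have : F m = fun _ => 0 := funext fun u => norm_eq_zero.1 (by
        rw [hn, hm, show nr 0 = 0 by simp [nr, nm], Real.zero_rpow (by norm_num), mul_zero])
      rw [this]
      exact integrable_zero _ _ _
    · refine (hgi.norm.mul_const _).mono' (hgi.aestronglyMeasurable.mul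
        (Continuous.const_cpow (by fun_prop) (Or.inl (Complex.ofReal_ne_zero.2
          (nr_pos hm).ne'))).aestronglyMeasurable) (Eventually.of_forall fun u => (hn m u).le)
  have hs : Summable fun m => ∫ u, ‖F m u‖ := by
    simp only [hn, integral_mul_const]
    exact (summable_nr_rpow (by norm_num)).mul_left _
  have key := integral_tsum_of_summable_integral_norm hFi hs
  have e1 : ∀ u : ℝ, ∑' m, F m u = g u * LBB.Lf 1 (fun _ => 1)
      (3 * (((3 / 2 : ℝ) : ℂ) + u * Complex.I)) := fun u => by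
    rw [LBB.Lf_eq_tsum one_ne_zero (fun _ _ _ => rfl) (by simp; norm_num), ← tsum_mul_left]
    simp only [hF, one_mul]
  rw [lineI]
  simp only [e1] at key
  rw [← key, ← tsum_mul_left]
  refine tsum_congr fun m => ?_
  split_ifs with hm
  · have : F m = fun _ => 0 := funext fun u => norm_eq_zero.1 (by
      rw [hn, hm, show nr 0 = 0 by simp [nr, nm], Real.zero_rpow (by norm_num), mul_zero])
    simp [this]
  · have h0 := nr_pos hm
    rw [kW, if_neg (by positivity), lineI]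
    congr 2
    funext u
    rw [hF, hg]
    simp only
    rw [Complex.ofReal_mul, Complex.mul_cpow_ofReal_nonneg hρ.le (by positivity), mul_assoc,
      ← Real.rpow_natCast, Complex.ofReal_cpow h0.le, ← Complex.cpow_mul]
    · congr 3
      push_cast
      ring
    all_goals
      rw [← Complex.ofReal_log h0.le, ← Complex.ofReal_mul, Complex.ofReal_im]
      first | exact neg_lt_zero.2 Real.pi_pos | exact Real.pi_pos.le

open Classical in
/-- Termwise `kW_eq` on `Re t = 3/2`; `∑_{m ≠ 0} N(m)^{-3t} = (1 - 4^{-3t})⁻¹ Dser (1_{2 ∤ m}) (3t)`,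
`hecke_fe` with `q = 2`, `l = 0`, mean value `3/4`; `contour_shift_pole` from `3/2` to `1/4`. -/
theorem cube_sum : ∃ C : ℝ, 0 < C ∧ ∀ ρ : ℝ, 0 < ρ →
    (Summable fun m : O => ‖kW (ρ * nr m ^ 3)‖) ∧
    ‖(∑' m : O, if m = 0 then 0 else kW (ρ * nr m ^ 3)) -
      ((LBB.cc / 3 * ρ ^ (-(1 / 3 : ℝ)) : ℝ) : ℂ) * kM (1 / 3)‖ ≤ C * ρ ^ (-(1 / 4 : ℝ)) := by
  obtain ⟨K, hK, hG⟩ := DspA_G_le
  obtain ⟨C, hC, hW⟩ := norm_kW_le
  refine ⟨6 * K, by positivity, fun ρ hρ => ⟨?_, ?_⟩⟩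
  · refine Summable.of_norm_bounded_eventually
      ((summable_nr_rpow (σ := 9 / 2) (by norm_num)).mul_left (C * ρ ^ (-(3 / 2 : ℝ)))) ?_
    filter_upwards [Filter.eventually_cofinite_ne 0] with m hm
    have h0 := nr_pos hm
    rw [norm_norm]
    refine (hW _ (3 / 2) (by positivity) (by norm_num) le_rfl).trans_eq ?_
    rw [Real.mul_rpow hρ.le (by positivity), ← Real.rpow_natCast, ← Real.rpow_mul h0.le, mul_assoc]
    norm_num
  have hρ' : (ρ : ℂ) ≠ 0 := Complex.ofReal_ne_zero.2 hρ.ne'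
  set G : ℂ → ℂ := fun t => kM t * DspA_GZ (3 * t) / 3 * (ρ : ℂ) ^ (-t) with hGd
  have hb : ∀ t : ℂ, 1 / 4 ≤ t.re → t.re ≤ 3 / 2 →
      ‖G t‖ ≤ K / (1 + t.im ^ 2) * ρ ^ (-t.re) := fun t h0 h1 => by
    rw [hGd]
    simp only
    rw [norm_mul, Complex.norm_cpow_eq_rpow_re_of_pos hρ, Complex.neg_re]
    gcongr
    exact hG t h0 h1
  have hd : DifferentiableOn ℂ G (strip (1 / 4) (3 / 2)) := by
    refine (((differentiableOn_kM.mono fun t ht => ?_).mul ?_).div_const 3).mul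
      (Differentiable.differentiableOn fun t => DifferentiableAt.const_cpow (by fun_prop)
        (Or.inl hρ'))
    · exact lt_of_lt_of_le (by norm_num) ht.1
    · exact ((LBB.differentiable_GLf _ _).comp (by fun_prop)).differentiableOn
  have key := contour_shift_pole (G := G) (ρ := 1 / 3) (T := 0)
    (K := K * (ρ ^ (-(3 / 2 : ℝ)) + ρ ^ (-(1 / 4 : ℝ)))) (by norm_num) (by norm_num) hd
    (fun t ht _ => (hb t ht.1 ht.2).trans (by
      rw [mul_div_right_comm]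
      gcongr
      exact DspA0_rpow_le hρ (by linarith [ht.2]) (by linarith [ht.1])))
  have e1 : ∀ u : ℝ, G (((3 / 2 : ℝ) : ℂ) + u * Complex.I) /
      (((3 / 2 : ℝ) : ℂ) + u * Complex.I - 1 / 3) = kM (((3 / 2 : ℝ) : ℂ) + u * Complex.I) *
        (ρ : ℂ) ^ (-(((3 / 2 : ℝ) : ℂ) + u * Complex.I)) *
        LBB.Lf 1 (fun _ => 1) (3 * (((3 / 2 : ℝ) : ℂ) + u * Complex.I)) := fun u => by
    have h1 : ((3 / 2 : ℝ) : ℂ) + u * Complex.I - 1 / 3 ≠ 0 := fun h => by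
      have := congrArg Complex.re h
      norm_num at this
    have h2 : 3 * (((3 / 2 : ℝ) : ℂ) + u * Complex.I) ≠ 1 := fun h => by
      have := congrArg Complex.re h
      norm_num at this
    rw [div_eq_iff h1, hGd]
    simp only
    rw [DspA_GZ, LBB.GLf_eq _ _ h2]
    ring
  have e2 : G (1 / 3) = ((LBB.cc / 3 * ρ ^ (-(1 / 3 : ℝ)) : ℝ) : ℂ) * kM (1 / 3) := by
    rw [hGd]
    simp only
    rw [show (3 : ℂ) * (1 / 3) = 1 by norm_num, DspA_GZ, LBB.GLf_one, DspA_avg,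
      Complex.ofReal_mul, Complex.ofReal_cpow hρ.le]
    push_cast
    ring
  simp only [e1] at key
  have hπ : (Real.pi : ℂ) ≠ 0 := Complex.ofReal_ne_zero.2 Real.pi_pos.ne'
  rw [DspA_sum hρ, lineI, key, ← e2, mul_add, show (1 / (2 * Real.pi) : ℂ) *
    (2 * Real.pi * G (1 / 3)) = G (1 / 3) by field_simp, add_sub_cancel_right, norm_mul]
  have h3 : ‖∫ u : ℝ, G (((1 / 4 : ℝ) : ℂ) + u * Complex.I) /
      (((1 / 4 : ℝ) : ℂ) + u * Complex.I - 1 / 3)‖ ≤
      ∫ u : ℝ, 12 * K * ρ ^ (-(1 / 4 : ℝ)) * (1 + u ^ 2)⁻¹ := by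
    refine norm_integral_le_of_norm_le (integrable_inv_one_add_sq.const_mul _)
      (Eventually.of_forall fun u => ?_)
    have h4 := hb (((1 / 4 : ℝ) : ℂ) + u * Complex.I) (by simp) (by simp; norm_num)
    have h5 : 1 / 12 ≤ ‖((1 / 4 : ℝ) : ℂ) + u * Complex.I - 1 / 3‖ := by
      refine le_trans ?_ (Complex.abs_re_le_norm _)
      norm_num [le_abs]
    simp only [Complex.add_re, Complex.ofReal_re, Complex.mul_re, Complex.I_re,
      mul_zero, Complex.ofReal_im, Complex.I_im, mul_one, sub_self, add_zero, Complex.add_im,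
      Complex.mul_im, zero_add] at h4
    rw [norm_div]
    calc _ ≤ K / (1 + u ^ 2) * ρ ^ (-(1 / 4 : ℝ)) / (1 / 12) := by gcongr
      _ = _ := by ring
  rw [integral_const_mul, integral_univ_inv_one_add_sq] at h3
  have h6 : ‖(1 / (2 * Real.pi) : ℂ)‖ = 1 / (2 * Real.pi) := by
    simp [abs_of_pos Real.pi_pos]
  rw [h6]
  calc _ ≤ 1 / (2 * Real.pi) * (12 * K * ρ ^ (-(1 / 4 : ℝ)) * Real.pi) := by gcongr
    _ = _ := by field_simp; ring

end Crest.Agent.R12
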