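import Crest.Agent.R12.ThPoisA

/-!
# Row 12, theta half: Poisson summation and Hecke L-functions with angular characters
-/

set_option autoImplicit false

noncomputable section

namespace Crest.Agent.R12

open Crest.Agent.R17
open scoped ComplexConjugate Topology
open Filter MeasureTheory

open Classical in
/-- The dual coefficients. -/
def ftA (q : O) (f : O → ℂ) (l : ℤ) (h : O) : ℂ := if h = 0 then 0 else ft q f h * arg h ^ (-l)

theorem ThPois_bound {q : O} (hq : q ≠ 0) {f : O → ℂ} (hf : ∀ x y, q ∣ x - y → f x = f y) (n : O) :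
    ‖f n‖ ≤ ∑ x ∈ res q, ‖f x‖ := by
  obtain ⟨r, ⟨hr, hr'⟩, -⟩ := exists_unique_res hq n
  rw [hf n r hr']
  exact Finset.single_le_sum (f := fun x => ‖f x‖) (fun _ _ => norm_nonneg _) hr

theorem ThPois_polyB (l : ℤ) {q : O} (hq : q ≠ 0) {f : O → ℂ}
    (hf : ∀ x y, q ∣ x - y → f x = f y) (h0 : f 0 = 0) :
    PolyB (fun n => f n * arg n ^ l) (∑ x ∈ res q, ‖f x‖) (1 / 6) := by
  refine (cubeB_of_bound (by simp [h0]) fun n => ?_).polyB
  rw [norm_mul]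
  exact (mul_le_of_le_one_right (norm_nonneg _) (norm_arg_zpow_le n l)).trans
    (ThPois_bound hq hf n)

theorem ThPois_cubeB (l : ℤ) (q : O) (f : O → ℂ) : CubeB (ftA q f l) (∑ x ∈ res q, ‖f x‖) := by
  refine cubeB_of_bound (by simp [ftA]) fun n => ?_
  unfold ftA
  split_ifs
  · rw [norm_zero]
    exact Finset.sum_nonneg fun _ _ => norm_nonneg _
  · rw [norm_mul]
    exact (mul_le_of_le_one_right (norm_nonneg _) (norm_arg_zpow_le n _)).trans
      (LBB.norm_ft_le q f n)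

/-- The root number of the theta relation. -/
def ThPois_om (l : ℤ) (q : O) : ℂ :=
  (((nr q)⁻¹ : ℝ) : ℂ) ^ (1 + l.natAbs) * (-1) ^ (-l).toNat * Pl l (ι q)

theorem ThPois_rel (l : ℤ) {q : O} (hq : q ≠ 0) {f : O → ℂ} (hf : ∀ x y, q ∣ x - y → f x = f y)
    (h0 : f 0 = 0) (x : ℝ) (hx : 0 < x) :
    thS gw (fun n => f n * arg n ^ l) ((l.natAbs : ℝ) / 2) 1 x⁻¹ =
      ((x ^ (1 + 2 * ((l.natAbs : ℝ) / 2)) : ℝ) : ℂ) * ((if l = 0 then LBB.avg q f else 0) +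
        ∑ _j ∈ (Finset.univ : Finset Unit),
          ThPois_om l q * thS gw (ftA q f l) ((l.natAbs : ℝ) / 2) (nr q)⁻¹ x) := by
  classical
  have hq0 := nr_pos hq
  have e1 : thS gw (fun n => f n * arg n ^ l) ((l.natAbs : ℝ) / 2) 1 x⁻¹ =
      ∑' k : O, f k * Pl l (ι k) * (gw (nr k / x) : ℂ) := by
    refine tsum_congr fun n => ?_
    rcases eq_or_ne n 0 with rfl | hn
    · simp [h0]
    · rw [Pl_ι hn, one_mul, div_eq_mul_inv (nr n) x]
      push_cast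
      ring
  have e2 : ∑' h : O, ft q f h * Pl (-l) (ι h) * (gw (x * nr h / nr q) : ℂ) =
      (if l = 0 then ∑ x ∈ res q, f x else 0) +
        thS gw (ftA q f l) ((l.natAbs : ℝ) / 2) (nr q)⁻¹ x := by
    have hs := (summable_thS (δ := (l.natAbs : ℝ) / 2) prof_gw (ThPois_cubeB l q f).polyB
      (inv_pos.2 hq0) hx).of_norm
    rw [thS, ← tsum_ite_eq (0 : O) fun _ => if l = 0 then ∑ x ∈ res q, f x else 0,
      ← (hasSum_ite_eq (0 : O) _).summable.tsum_add hs]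
    refine tsum_congr fun h => ?_
    rcases eq_or_ne h 0 with rfl | hh
    · rw [if_pos rfl, map_zero, Pl_zero_right, LBB.ft_zero]
      simp [ftA]
    · rw [if_neg hh, zero_add, Pl_ι hh, ftA, if_neg hh, Int.natAbs_neg,
        show x * nr h / nr q = (nr q)⁻¹ * nr h * x by ring]
      push_cast
      ring
  have e3 : x ^ (1 + 2 * ((l.natAbs : ℝ) / 2)) = x ^ (1 + l.natAbs) := by
    rw [← Real.rpow_natCast]
    congr 1
    push_cast
    ring
  have e4 : ThPois_om l q * (if l = 0 then ∑ x ∈ res q, f x else 0) =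
      if l = 0 then LBB.avg q f else 0 := by
    split_ifs with hl
    · subst hl
      simp [ThPois_om, Pl_zero_left, LBB.avg, div_eq_inv_mul]
    · exact mul_zero _
  rw [e1, poisson_ang l hq f hf hx, e2, e3, ← e4, Finset.sum_const, Finset.card_univ,
    Fintype.card_unit, one_smul, ThPois_om, div_eq_mul_inv x]
  push_cast
  ring

theorem ThPois_factor (l : ℤ) {q : O} (hq : q ≠ 0) (t D : ℂ) :
    ThPois_om l q * (((1 : ℝ) : ℂ) ^ (1 - t + ((l.natAbs : ℝ) / 2 : ℝ)) *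
      ((Complex.Gamma (1 - t + ((l.natAbs : ℝ) / 2 : ℝ)))⁻¹ *
        (LBB.cc : ℂ) ^ (1 - t + ((l.natAbs : ℝ) / 2 : ℝ))) *
      (Complex.Gamma (t + ((l.natAbs : ℝ) / 2 : ℝ)) *
        (LBB.cc : ℂ) ^ (-(t + ((l.natAbs : ℝ) / 2 : ℝ)))) *
      (((nr q)⁻¹ : ℝ) : ℂ) ^ (-(t + ((l.natAbs : ℝ) / 2 : ℝ))) * D) =
    (-1) ^ (-l).toNat * arg q ^ l * (LBB.cc : ℂ) ^ (1 - 2 * t) * (nr q : ℂ) ^ (t - 1) *
      gamH l.natAbs t * D := by
  have hq0 := nr_pos hq
  have hN : (nr q : ℂ) ≠ 0 := Complex.ofReal_ne_zero.2 hq0.ne'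
  have hc : (LBB.cc : ℂ) ≠ 0 := Complex.ofReal_ne_zero.2 LBB.cc_pos.ne'
  set δ : ℝ := (l.natAbs : ℝ) / 2 with hδ
  have e1 : (LBB.cc : ℂ) ^ (1 - 2 * t) =
      (LBB.cc : ℂ) ^ (1 - t + δ) * (LBB.cc : ℂ) ^ (-(t + δ)) := by
    rw [← Complex.cpow_add _ _ hc]
    congr 1
    ring
  have e2 : gamH l.natAbs t = Complex.Gamma (t + δ) * (Complex.Gamma (1 - t + δ))⁻¹ := by
    rw [gamH, gamR, ← hδ, show t - 1 / 2 + ((1 / 2 + δ : ℝ) : ℂ) = t + δ by push_cast; ring,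
      show 1 / 2 - t + ((1 / 2 + δ : ℝ) : ℂ) = 1 - t + δ by push_cast; ring]
  have e3 : (nr q : ℂ) ^ (t - 1) = (((nr q)⁻¹ : ℝ) : ℂ) ^ (1 + l.natAbs) *
      ((nr q ^ δ : ℝ) : ℂ) * (((nr q)⁻¹ : ℝ) : ℂ) ^ (-(t + δ)) := by
    rw [Complex.ofReal_cpow hq0.le, Complex.ofReal_inv, Complex.inv_cpow _ _ (by
        rw [Complex.arg_ofReal_of_nonneg hq0.le]; exact Real.pi_pos.ne), ← Complex.cpow_neg, neg_neg,
      inv_pow, ← Complex.cpow_natCast, ← Complex.cpow_neg, ← Complex.cpow_add _ _ hN,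
      ← Complex.cpow_add _ _ hN]
    congr 1
    rw [hδ]
    push_cast
    ring
  rw [e1, e2, e3, ThPois_om, Pl_ι hq, ← hδ, Complex.ofReal_one, Complex.one_cpow]
  ring

theorem ThPois_lineI_mul (σ : ℝ) (c : ℂ) (F : ℂ → ℂ) :
    lineI σ (fun s => c * F s) = c * lineI σ F := by
  rw [lineI, lineI, integral_const_mul]
  ring

theorem ThPois_hg (l : ℤ) (c : ℂ) : (if l = 0 then c else 0) = 0 ∨ (l.natAbs : ℝ) / 2 ≤ 0 := by
  split_ifs with hl
  · right
    simp [hl]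
  · exact Or.inl rfl

/-- **Continuation and functional equation** of `∑ f(n) α(n)^l N(n)^{-s}` (`fe_abs`, `prof_gw`). -/
theorem hecke_fe (l : ℤ) {q : O} (hq : q ≠ 0) {f : O → ℂ} (hf : ∀ x y, q ∣ x - y → f x = f y)
    (h0 : f 0 = 0) :
    ∃ L₀ : ℂ → ℂ, Differentiable ℂ L₀ ∧
      (∀ a b : ℝ, ∃ C : ℝ, ∀ s : ℂ, a ≤ s.re → s.re ≤ b → ‖L₀ s‖ ≤ C * Real.exp (8 * |s.im|)) ∧
      (∀ s : ℂ, 7 / 6 < s.re → Dser (fun n => f n * arg n ^ l) s = L₀ s +
        (if l = 0 then LBB.avg q f else 0) * (LBB.cc : ℂ) ^ s * (Complex.Gamma s)⁻¹ / (s - 1)) ∧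
      ∀ t : ℂ, 7 / 6 < t.re → L₀ (1 - t) + (if l = 0 then LBB.avg q f else 0) *
          (LBB.cc : ℂ) ^ (1 - t) * (Complex.Gamma (1 - t))⁻¹ / (1 - t - 1) =
        (-1) ^ (-l).toNat * arg q ^ l * (LBB.cc : ℂ) ^ (1 - 2 * t) * (nr q : ℂ) ^ (t - 1) *
          gamH l.natAbs t * Dser (ftA q f l) t := by
  obtain ⟨L₀, h1, h2, h3, h4⟩ := fe_abs prof_gw (δ := (l.natAbs : ℝ) / 2)
    (le_trans (by norm_num) (by positivity : (0 : ℝ) ≤ _)) (Finset.univ : Finset Unit)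
    (b := fun _ => ftA q f l) (ThPois_polyB l hq hf h0) (fun _ _ => (ThPois_cubeB l q f).polyB)
    one_pos (B := fun _ => (nr q)⁻¹) (fun _ _ => inv_pos.2 (nr_pos hq)) (fun _ => ThPois_om l q)
    (ThPois_hg l (LBB.avg q f)) (ThPois_rel l hq hf h0)
  have key : ∀ s : ℂ, (if l = 0 then LBB.avg q f else 0) * (LBB.cc : ℂ) ^ s *
      (Complex.Gamma s)⁻¹ / (s - 1) = (if l = 0 then LBB.avg q f else 0) *
        ((1 : ℝ) : ℂ) ^ (s + ((l.natAbs : ℝ) / 2 : ℝ)) *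
        ((Complex.Gamma (s + ((l.natAbs : ℝ) / 2 : ℝ)))⁻¹ *
          (LBB.cc : ℂ) ^ (s + ((l.natAbs : ℝ) / 2 : ℝ))) / (s - (1 + ((l.natAbs : ℝ) / 2 : ℝ))) := by
    intro s
    split_ifs with hl
    · subst hl
      simp only [Int.natAbs_zero, Nat.cast_zero, zero_div, Complex.ofReal_zero, add_zero,
        Complex.ofReal_one, Complex.one_cpow]
      ring
    · simp
  refine ⟨L₀, h1, h2, fun s hs => ?_, fun t ht => ?_⟩
  · rw [key]
    exact h3 s hs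
  · rw [key, ← ThPois_factor l hq]
    simpa only [Finset.sum_const, Finset.card_univ, Fintype.card_unit, one_smul] using h4 t ht

/-- **Voronoi / Poisson formula** for a general test function (`vor_abs`, `lineI_dual`). -/
theorem hecke_vor (l : ℤ) {q : O} (hq : q ≠ 0) {f : O → ℂ} (hf : ∀ x y, q ∣ x - y → f x = f y)
    (h0 : f 0 = 0) {Φ : ℂ → ℂ} (hΦ : StripDecay Φ) {σ₁ : ℝ} (hσ : 7 / 6 < σ₁) :
    lineI σ₁ (fun s => Φ s * Dser (fun n => f n * arg n ^ l) s) =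
      (if l = 0 then (LBB.cc : ℂ) * LBB.avg q f * Φ 1 else 0) +
        (-1) ^ (-l).toNat * arg q ^ l * ((LBB.cc / nr q : ℝ) : ℂ) *
          ∑' h : O, ftA q f l h * kerV Φ (gamH l.natAbs) (LBB.cc ^ 2 / nr q * nr h) := by
  have hq0 := nr_pos hq
  have hc := LBB.cc_pos
  have h1 := vor_abs prof_gw (δ := (l.natAbs : ℝ) / 2)
    (le_trans (by norm_num) (by positivity : (0 : ℝ) ≤ _)) (Finset.univ : Finset Unit)
    (b := fun _ => ftA q f l) (ThPois_polyB l hq hf h0) (fun _ _ => (ThPois_cubeB l q f).polyB)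
    one_pos (B := fun _ => (nr q)⁻¹) (fun _ _ => inv_pos.2 (nr_pos hq)) (fun _ => ThPois_om l q)
    (ThPois_hg l (LBB.avg q f)) (ThPois_rel l hq hf h0) hΦ hσ
  rw [h1, Finset.sum_const, Finset.card_univ, Fintype.card_unit, one_smul,
    ← lineI_dual (gamOK_H l.natAbs) hΦ (ThPois_cubeB l q f).polyB (by positivity),
    ← ThPois_lineI_mul, ← ThPois_lineI_mul]
  congr 1
  · split_ifs with hl
    · subst hl
      simp only [Int.natAbs_zero, Nat.cast_zero, zero_div, mul_zero, add_zero, Complex.ofReal_one,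
        Complex.Gamma_one, Complex.cpow_one]
      ring
    · simp
  · congr 1
    funext t
    rw [mul_left_comm, ThPois_factor l hq]
    have e : (LBB.cc : ℂ) ^ (1 - 2 * t) * (nr q : ℂ) ^ (t - 1) =
        ((LBB.cc / nr q : ℝ) : ℂ) * ((LBB.cc ^ 2 / nr q : ℝ) : ℂ) ^ (-t) := by
      have hN : (nr q : ℂ) ≠ 0 := Complex.ofReal_ne_zero.2 hq0.ne'
      have hc' : (LBB.cc : ℂ) ≠ 0 := Complex.ofReal_ne_zero.2 hc.ne'
      rw [div_eq_mul_inv (LBB.cc ^ 2), sq, Complex.ofReal_mul, Complex.ofReal_mul,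
        ← Complex.ofReal_mul LBB.cc, Complex.mul_cpow_ofReal_nonneg (by positivity) (by positivity),
        Complex.ofReal_mul, Complex.mul_cpow_ofReal_nonneg hc.le hc.le, Complex.ofReal_inv,
        Complex.inv_cpow _ _ (by
          rw [Complex.arg_ofReal_of_nonneg hq0.le]; exact Real.pi_pos.ne), ← Complex.cpow_neg,
        neg_neg, show 1 - 2 * t = 1 + -t + -t by ring, Complex.cpow_add _ _ hc',
        Complex.cpow_add _ _ hc', Complex.cpow_sub _ _ hN, Complex.cpow_one, Complex.cpow_one]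
      push_cast
      ring
    linear_combination (Φ (1 - t) * (-1) ^ (-l).toNat * arg q ^ l * gamH l.natAbs t *
      Dser (ftA q f l) t) * e

open Classical in
/-- The model coefficients `1_{z ∣ n} α(n)^l N(n)^{-1/6}` on primary elements. -/
def md (l : ℤ) (z n : O) : ℂ :=
  if Primary n ∧ z ∣ n then arg n ^ l * ((nr n ^ (-(1 / 6 : ℝ)) : ℝ) : ℂ) else 0

theorem ThPois_Dser_md (l : ℤ) {z : O} (hz : Primary z) (s : ℂ) :
    Dser (md l z) s = arg z ^ l * (nr z : ℂ) ^ (-(s + (1 / 6 : ℝ))) *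
      Dser (fun n => E2.pri n * arg n ^ l) (s + (1 / 6 : ℝ)) := by
  classical
  have hz0 := hz.ne_zero
  rw [Dser, Dser, ← tsum_mul_left, ← (mul_right_injective₀ hz0).tsum_eq]
  · refine tsum_congr fun n => ?_
    unfold md E2.pri
    by_cases hn : Primary n
    · have h1 := nr_pos (mul_ne_zero hz0 hn.ne_zero)
      have h2 : ((nr (z * n) ^ (-(1 / 6 : ℝ)) : ℝ) : ℂ) * (nr (z * n) : ℂ) ^ (-s) =
          (nr z : ℂ) ^ (-(s + (1 / 6 : ℝ))) * (nr n : ℂ) ^ (-(s + (1 / 6 : ℝ))) := by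
        rw [Complex.ofReal_cpow h1.le, ← Complex.cpow_add _ _ (Complex.ofReal_ne_zero.2 h1.ne'),
          ← Complex.mul_cpow_ofReal_nonneg (Nat.cast_nonneg _) (Nat.cast_nonneg _),
          ← Complex.ofReal_mul, ← nr_mul]
        congr 1
        push_cast
        ring
      rw [if_pos ⟨hz.mul hn, dvd_mul_right _ _⟩, if_pos hn, mul_assoc, h2, arg_mul, mul_zpow]
      ring
    · rw [if_neg fun h => hn (hz.of_mul h.1), if_neg hn]
      simp
  · intro n hn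
    by_contra h
    apply hn
    have : ¬ z ∣ n := fun ⟨c, hc⟩ => h ⟨c, hc.symm⟩
    simp [md, this]

theorem ThPois_strip {Φ : ℂ → ℂ} (hΦ : StripDecay Φ) {N : ℝ} (hN : 1 ≤ N) :
    StripDecay fun s => Φ (s - (1 / 6 : ℝ)) * (N : ℂ) ^ (-s) := by
  have hN0 : 0 < N := by linarith
  refine ⟨(hΦ.1.comp (differentiable_id.sub_const _)).mul
    (differentiable_id.neg.const_cpow (Or.inl (Complex.ofReal_ne_zero.2 hN0.ne'))), fun a b => ?_⟩
  obtain ⟨C, hC⟩ := hΦ.2 (a - 1 / 6) (b - 1 / 6)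
  refine ⟨C * N ^ (-a), fun s ha hb => ?_⟩
  have h1 := hC (s - (1 / 6 : ℝ)) (by simp only [Complex.sub_re, Complex.ofReal_re]; linarith)
    (by simp only [Complex.sub_re, Complex.ofReal_re]; linarith)
  simp only [Complex.sub_im, Complex.ofReal_im, sub_zero] at h1
  rw [norm_mul, Complex.norm_cpow_eq_rpow_re_of_pos hN0, mul_right_comm]
  refine mul_le_mul h1 (Real.rpow_le_rpow_of_exponent_le hN ?_) (by positivity)
    ((norm_nonneg _).trans h1)
  rw [Complex.neg_re]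
  linarith

theorem ThPois_Mom (Φ : ℂ → ℂ) {N : ℝ} (hN : 0 < N) (σ σ' : ℝ) (h : σ' = σ - 1 / 6) (k : ℕ) :
    Mom (fun s => Φ (s - (1 / 6 : ℝ)) * (N : ℂ) ^ (-s)) σ k = N ^ (-σ) * Mom Φ σ' k := by
  rw [Mom, Mom, ← integral_const_mul]
  refine integral_congr_ae (Eventually.of_forall fun u => ?_)
  have e : (σ : ℂ) + u * Complex.I - (1 / 6 : ℝ) = (σ' : ℂ) + u * Complex.I := by
    rw [h]
    push_cast
    ring
  beta_reduce
  rw [norm_mul, Complex.norm_cpow_eq_rpow_re_of_pos hN, e]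
  simp only [Complex.neg_re, Complex.add_re, Complex.ofReal_re, Complex.mul_re, Complex.I_re,
    Complex.ofReal_im, Complex.I_im, mul_zero, zero_mul, sub_zero, add_zero]
  ring

theorem ThPois_nr_three : nr (3 : O) = 9 := by
  have : nm (3 : O) = 9 := by decide
  rw [nr, this]
  norm_num

theorem ThPois_avg : (LBB.cc : ℂ) * LBB.avg 3 E2.pri = rho0 := by
  have h := E2.sum_pri (m := 1) one_ne_zero
  rw [mul_one, nm_one] at h
  rw [LBB.avg, h, ThPois_nr_three, LBB.cc, rho0]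
  push_cast
  ring

/-- **Type I estimate for the model** (`hecke_vor` with `q = 3`, test function
`Φ(s - 1/6) N(z)^{-s}`). -/
theorem typeI_md (l : ℤ) {j : ℕ} (hj : 1 ≤ j) : ∃ C : ℝ, 0 < C ∧
    ∀ z : O, Primary z → ∀ Φ : ℂ → ℂ, StripDecay Φ → ∀ σ₁ : ℝ, 7 / 6 < σ₁ →
      ‖lineI σ₁ (fun s => Φ s * Dser (md l z) s) -
          (if l = 0 then ((rho0 / nr z : ℝ) : ℂ) * Φ (5 / 6) else 0)‖ ≤
        C * min (Real.sqrt (Mom Φ (1 / 3) 0 * Mom Φ (-(2 / 3)) 2))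
          (nr z ^ (j - 1 / 2 : ℝ) * Mom Φ (1 / 3 - j) (2 * j)) := by
  obtain ⟨C, hC, hd⟩ := dual_le (gamOK_H l.natAbs) hj
  have hc := LBB.cc_pos
  have h3 : 0 < nr (3 : O) := nr_pos E2.three_ne
  obtain ⟨Cb, hCb⟩ : ∃ Cb, CubeB (ftA 3 E2.pri l) Cb := ⟨_, ThPois_cubeB l 3 E2.pri⟩
  have hCb0 : 0 ≤ Cb := hCb.1
  obtain ⟨B, hB⟩ : ∃ B : ℝ, LBB.cc ^ 2 / nr (3 : O) = B := ⟨_, rfl⟩
  have hB0 : 0 < B := hB ▸ div_pos (pow_pos hc 2) h3
  obtain ⟨A, hA⟩ : ∃ A : ℝ, LBB.cc / nr (3 : O) = A := ⟨_, rfl⟩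
  have hA0 : 0 < A := hA ▸ div_pos hc h3
  set K : ℝ := B⁻¹ + B ^ (-(1 / 2 + j : ℝ)) with hK
  have hK0 : 0 < K := by positivity
  refine ⟨A * (C * (Cb + 1) * K), by positivity, fun z hz Φ hΦ σ₁ hσ => ?_⟩
  have hN := one_le_nr hz.ne_zero
  have hN0 := nr_pos hz.ne_zero
  have hΨ := ThPois_strip hΦ hN
  have h1 := hecke_vor l E2.three_ne E2.pri_per (by
    rw [E2.pri, if_neg fun h => h.ne_zero rfl]) hΨ (σ₁ := σ₁ + 1 / 6) (by linarith)
  rw [hA, hB] at h1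
  have h2 := hd _ _ _ B hΨ hCb hB0
  rw [ThPois_Mom Φ hN0 (1 / 2) (1 / 3) (by norm_num), ThPois_Mom Φ hN0 (-(1 / 2)) (-(2 / 3))
    (by norm_num), ThPois_Mom Φ hN0 (1 / 2 - j) (1 / 3 - j) (by ring), neg_sub, neg_neg,
    mul_mul_mul_comm, ← Real.rpow_add hN0, neg_add_cancel, Real.rpow_zero, one_mul] at h2
  have e1 : lineI σ₁ (fun s => Φ s * Dser (md l z) s) = arg z ^ l * lineI (σ₁ + 1 / 6)
      (fun s => Φ (s - (1 / 6 : ℝ)) * (nr z : ℂ) ^ (-s) *
        Dser (fun n => E2.pri n * arg n ^ l) s) := by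
    rw [← ThPois_lineI_mul, lineI, lineI]
    congr 2
    funext u
    have e : ((σ₁ + 1 / 6 : ℝ) : ℂ) + u * Complex.I = σ₁ + u * Complex.I + (1 / 6 : ℝ) := by
      push_cast
      ring
    rw [e, ThPois_Dser_md l hz, add_sub_cancel_right]
    ring
  have e2 : arg z ^ l * (if l = 0 then (LBB.cc : ℂ) * LBB.avg 3 E2.pri *
      (Φ (1 - (1 / 6 : ℝ)) * (nr z : ℂ) ^ (-1 : ℂ)) else 0) =
      if l = 0 then ((rho0 / nr z : ℝ) : ℂ) * Φ (5 / 6) else 0 := by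
    split_ifs with hl
    · rw [hl, zpow_zero, ThPois_avg, Complex.cpow_neg_one,
        show (1 : ℂ) - (1 / 6 : ℝ) = 5 / 6 by push_cast; ring]
      push_cast
      ring
    · exact mul_zero _
  rw [e1, h1, mul_add, e2, add_sub_cancel_left, norm_mul, norm_mul, norm_mul, norm_mul, norm_pow,
    norm_neg, norm_one, one_pow, one_mul, Complex.norm_real, Real.norm_of_nonneg hA0.le]
  have m1 := Mom_nonneg Φ (1 / 3) 0
  have m2 := Mom_nonneg Φ (-(2 / 3)) 2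
  have m3 := Mom_nonneg Φ (1 / 3 - j) (2 * j)
  set X := Mom Φ (1 / 3) 0 * Mom Φ (-(2 / 3)) 2
  set Y := nr z ^ (j - 1 / 2 : ℝ) * Mom Φ (1 / 3 - j) (2 * j)
  have hY : 0 ≤ Y := by positivity
  have h4 : min (Real.sqrt X / B) (Y * B ^ (-(1 / 2 + j : ℝ))) ≤ K * min (Real.sqrt X) Y := by
    rw [mul_min_of_nonneg _ _ hK0.le]
    refine min_le_min ?_ ?_
    · rw [div_eq_inv_mul]
      exact mul_le_mul_of_nonneg_right (le_add_of_nonneg_right (by positivity)) (Real.sqrt_nonneg _)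
    · rw [mul_comm]
      exact mul_le_mul_of_nonneg_right (le_add_of_nonneg_left (by positivity)) hY
  have h5 : 0 ≤ min (Real.sqrt X) Y := le_min (Real.sqrt_nonneg _) hY
  calc _ ≤ 1 * (1 * A * (C * (Cb + 1) * (K * min (Real.sqrt X) Y))) := by
        gcongr
        · exact norm_arg_zpow_le _ _
        · exact norm_arg_zpow_le _ _
        · refine h2.trans (mul_le_mul ?_ h4 (le_min (by positivity) (by positivity))
            (by positivity))
          gcongr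
          linarith
    _ = _ := by ring

end Crest.Agent.R12
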