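import Crest.Agent.R12.Defs
import Crest.Agent.R12.ThPois

/-!
# Row 12, analytic half: the Fourier transform of the log-Gaussian
-/

set_option autoImplicit false

noncomputable section

namespace Crest.Agent.R12

open Crest.Agent.R17
open scoped ComplexConjugate Topology
open Filter MeasureTheory

theorem DspA0_gamH (t : ℂ) : gamH 0 t = Complex.Gamma t * (Complex.Gamma (1 - t))⁻¹ := by
  rw [gamH, gamR]
  congr 2
  · push_cast; ring
  · congr 1; push_cast; ring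

theorem DspA0_rpow_le {ρ a y b : ℝ} (hρ : 0 < ρ) (h1 : a ≤ y) (h2 : y ≤ b) :
    ρ ^ y ≤ ρ ^ a + ρ ^ b := by
  have ha := Real.rpow_pos_of_pos hρ a
  have hb := Real.rpow_pos_of_pos hρ b
  rcases le_total ρ 1 with h | h
  · linarith [Real.rpow_le_rpow_of_exponent_ge hρ h h1]
  · linarith [Real.rpow_le_rpow_of_exponent_le h h2]

theorem differentiableOn_kM : DifferentiableOn ℂ kM {t | 0 < t.re} := by
  intro t ht
  have ht : 0 < t.re := ht
  have hc : (LBB.cc : ℂ) ≠ 0 := by exact_mod_cast LBB.cc_pos.ne'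
  have h1 : DifferentiableAt ℂ (fun t : ℂ => (LBB.cc : ℂ) ^ (1 - 2 * t)) t :=
    DifferentiableAt.const_cpow (by fun_prop) (Or.inl hc)
  have h2 : DifferentiableAt ℂ (fun t : ℂ => Wm (1 - t)) t :=
    (differentiable_Wm (1 - t)).comp (f := fun t : ℂ => 1 - t) t (by fun_prop)
  have h3 : DifferentiableAt ℂ Complex.Gamma t :=
    Complex.differentiableAt_Gamma t fun m hm => by
      have := congrArg Complex.re hm
      have hm := Nat.cast_nonneg (α := ℝ) m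
      simp at this
      linarith
  have h4 : DifferentiableAt ℂ (fun t : ℂ => (Complex.Gamma (1 - t))⁻¹) t :=
    (Complex.differentiable_one_div_Gamma (1 - t)).comp (f := fun t : ℂ => 1 - t) t (by fun_prop)
  have e : kM = fun t => (LBB.cc : ℂ) ^ (1 - 2 * t) * Wm (1 - t) *
      (Complex.Gamma t * (Complex.Gamma (1 - t))⁻¹) := by
    funext t
    rw [kM, DspA0_gamH]
  rw [e]
  exact ((h1.mul h2).mul (h3.mul h4)).differentiableWithinAt
/-- `norm_Wm`, `|Γ(t)| ≤ Γ(Re t)` (or `norm_Gamma_le_exp`), `norm_inv_Gamma_le`. -/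
theorem norm_kM_le : ∃ C : ℝ, 0 < C ∧ ∀ t : ℂ, 1 / 4 ≤ t.re → t.re ≤ 3 / 2 →
    ‖kM t‖ ≤ C * Real.exp (-t.im ^ 2 / 8) := by
  obtain ⟨M, hM, h₁⟩ := RMA.norm_Gamma_bd (a := 1 / 4) (by norm_num) (3 / 2)
  obtain ⟨C, hC, h₂⟩ := norm_inv_Gamma_le (-1) 1
  have hcc := LBB.cc_pos
  have hπ : 0 < Real.sqrt Real.pi := Real.sqrt_pos.2 Real.pi_pos
  have hK : 0 < LBB.cc ^ (-2 : ℝ) + LBB.cc ^ (1 : ℝ) := by positivity
  refine ⟨(LBB.cc ^ (-2 : ℝ) + LBB.cc ^ (1 : ℝ)) * Real.sqrt Real.pi * (M * C) * Real.exp 33,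
    by positivity, fun t h0 h1 => ?_⟩
  have a1 := h₁ t h0 h1
  have a2 := h₂ (1 - t) (by simp; linarith) (by simp; linarith)
  have i2 : |(1 - t).im| = |t.im| := by simp
  rw [i2] at a2
  have a3 : ‖(LBB.cc : ℂ) ^ (1 - 2 * t)‖ ≤ LBB.cc ^ (-2 : ℝ) + LBB.cc ^ (1 : ℝ) := by
    rw [Complex.norm_cpow_eq_rpow_re_of_pos hcc]
    exact DspA0_rpow_le hcc (by simp; linarith) (by simp; linarith)
  have a4 : ‖Wm (1 - t)‖ ≤ Real.sqrt Real.pi * Real.exp (1 - t.im ^ 2 / 4) := by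
    rw [norm_Wm]
    refine mul_le_mul_of_nonneg_left (Real.exp_le_exp.2 ?_) hπ.le
    simp only [Complex.sub_re, Complex.one_re, Complex.sub_im, Complex.one_im, zero_sub, neg_sq]
    nlinarith
  have a5 : Real.exp (1 - t.im ^ 2 / 4) * Real.exp (4 * |t.im|) ≤
      Real.exp 33 * Real.exp (-t.im ^ 2 / 8) := by
    rw [← Real.exp_add, ← Real.exp_add]
    refine Real.exp_le_exp.2 ?_
    nlinarith [sq_nonneg (|t.im| - 16), sq_abs t.im]
  rw [kM, DspA0_gamH, norm_mul, norm_mul, norm_mul]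
  calc _ ≤ (LBB.cc ^ (-2 : ℝ) + LBB.cc ^ (1 : ℝ)) *
        (Real.sqrt Real.pi * Real.exp (1 - t.im ^ 2 / 4)) * (M * (C * Real.exp (4 * |t.im|))) :=
        mul_le_mul (mul_le_mul a3 a4 (norm_nonneg _) hK.le)
          (mul_le_mul a1 a2 (norm_nonneg _) hM.le) (by positivity) (by positivity)
    _ = (LBB.cc ^ (-2 : ℝ) + LBB.cc ^ (1 : ℝ)) * Real.sqrt Real.pi * (M * C) *
        (Real.exp (1 - t.im ^ 2 / 4) * Real.exp (4 * |t.im|)) := by ring
    _ ≤ (LBB.cc ^ (-2 : ℝ) + LBB.cc ^ (1 : ℝ)) * Real.sqrt Real.pi * (M * C) *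
        (Real.exp 33 * Real.exp (-t.im ^ 2 / 8)) := mul_le_mul_of_nonneg_left a5 (by positivity)
    _ = _ := by ring
theorem kW_eq {ρ σ : ℝ} (hρ : 0 < ρ) (h1 : 1 / 4 ≤ σ) (h2 : σ ≤ 3 / 2) :
    kW ρ = lineI σ fun t => kM t * (ρ : ℂ) ^ (-t) := by
  obtain ⟨C, hC, h⟩ := norm_kM_le
  have hρ' : (ρ : ℂ) ≠ 0 := by exact_mod_cast hρ.ne'
  rw [kW, if_neg hρ.ne', lineI, lineI]
  congr 1
  symm
  refine integral_vertical_shift (F := fun t => kM t * (ρ : ℂ) ^ (-t)) h2 ?_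
    (C := C * Real.exp 2 * (ρ ^ (-(3 / 2) : ℝ) + ρ ^ (0 : ℝ))) one_pos fun s hs1 hs2 => ?_
  · refine (differentiableOn_kM.mono fun s hs => ?_).mul ?_
    · have := hs.1
      change 0 < s.re
      linarith
    · exact (Differentiable.const_cpow differentiable_neg (Or.inl hρ')).differentiableOn
  · have a1 := h s (h1.trans hs1) hs2
    have a2 : ‖(ρ : ℂ) ^ (-s)‖ ≤ ρ ^ (-(3 / 2) : ℝ) + ρ ^ (0 : ℝ) := by
      rw [Complex.norm_cpow_eq_rpow_re_of_pos hρ]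
      exact DspA0_rpow_le hρ (by simp; linarith) (by simp; linarith)
    have a3 : Real.exp (-s.im ^ 2 / 8) ≤ Real.exp 2 * Real.exp (-1 * |s.im|) := by
      rw [← Real.exp_add]
      refine Real.exp_le_exp.2 ?_
      nlinarith [sq_nonneg (|s.im| - 4), sq_abs s.im]
    rw [norm_mul]
    calc _ ≤ C * (Real.exp 2 * Real.exp (-1 * |s.im|)) * (ρ ^ (-(3 / 2) : ℝ) + ρ ^ (0 : ℝ)) :=
          mul_le_mul (a1.trans (mul_le_mul_of_nonneg_left a3 hC.le)) a2 (norm_nonneg _)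
            (by positivity)
      _ = _ := by ring
theorem norm_kW_le : ∃ C : ℝ, 0 < C ∧ ∀ ρ σ : ℝ, 0 < ρ → 1 / 4 ≤ σ → σ ≤ 3 / 2 →
    ‖kW ρ‖ ≤ C * ρ ^ (-σ) := by
  obtain ⟨C, hC, h⟩ := norm_kM_le
  have hI : Integrable fun u : ℝ => Real.exp (-(1 / 8) * u ^ 2) :=
    integrable_exp_neg_mul_sq (by norm_num)
  have hI0 : 0 ≤ ∫ u : ℝ, Real.exp (-(1 / 8) * u ^ 2) := integral_nonneg fun u => (Real.exp_pos _).le
  refine ⟨‖(1 / (2 * Real.pi) : ℂ)‖ * (C * ∫ u : ℝ, Real.exp (-(1 / 8) * u ^ 2)) + 1, by positivity,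
    fun ρ σ hρ h1 h2 => ?_⟩
  have hr : 0 < ρ ^ (-σ) := Real.rpow_pos_of_pos hρ _
  rw [kW_eq hρ h1 h2, lineI, norm_mul]
  have a1 : ‖∫ u : ℝ, kM (σ + u * Complex.I) * (ρ : ℂ) ^ (-(σ + u * Complex.I))‖ ≤
      ∫ u : ℝ, C * ρ ^ (-σ) * Real.exp (-(1 / 8) * u ^ 2) := by
    refine norm_integral_le_of_norm_le (hI.const_mul _) (Eventually.of_forall fun u => ?_)
    have b1 := h (σ + u * Complex.I) (by simpa using h1) (by simpa using h2)
    have b2 : ((σ : ℂ) + u * Complex.I).im = u := by simp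
    have b3 : (-((σ : ℂ) + u * Complex.I)).re = -σ := by simp
    rw [b2] at b1
    rw [norm_mul, Complex.norm_cpow_eq_rpow_re_of_pos hρ, b3, mul_right_comm,
      show -(1 / 8) * u ^ 2 = -u ^ 2 / 8 by ring]
    exact mul_le_mul_of_nonneg_right b1 hr.le
  rw [integral_const_mul] at a1
  have a2 := mul_le_mul_of_nonneg_left a1 (norm_nonneg (1 / (2 * Real.pi) : ℂ))
  refine a2.trans ?_
  nlinarith

end Crest.Agent.R12
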