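import Crest.Agent.R12.DspA0

/-!
# Row 12, analytic half: the Fourier transform of the log-Gaussian
-/

set_option autoImplicit false

noncomputable section

namespace Crest.Agent.R12

open Crest.Agent.R17
open scoped ComplexConjugate Topology
open Filter MeasureTheory

theorem DspA1_summable {F : O → ℝ} {C σ : ℝ} (hσ : 1 < σ)
    (h : ∀ n : O, n ≠ 0 → ‖F n‖ ≤ C * nr n ^ (-σ)) : Summable F := by
  refine Summable.of_norm_bounded_eventually ((summable_nr_rpow hσ).mul_left C) ?_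
  filter_upwards [(Set.finite_singleton (0 : O)).compl_mem_cofinite] with n hn
  exact h n hn

theorem DspA1_sum1 (Y : ℝ) (hY : 0 < Y) : Summable fun a : O => ‖Wc (nr a / Y) 0‖ := by
  obtain ⟨C, hC, h⟩ := norm_Wc_le_rpow (-2) 0
  refine DspA1_summable (C := C * Y ^ (2 : ℝ)) (σ := 2) one_lt_two fun n hn => ?_
  have hn0 := nr_pos hn
  rw [norm_norm]
  refine (h _ 0 (div_pos hn0 hY) (by simp)).trans_eq ?_
  rw [Real.div_rpow hn0.le hY.le, Real.rpow_neg hY.le, div_inv_eq_mul]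
  ring

theorem DspA1_sum2 (ρ : ℝ) (hρ : 0 < ρ) : Summable fun h : O => ‖kW (ρ * nr h)‖ := by
  obtain ⟨C, hC, h⟩ := norm_kW_le
  refine DspA1_summable (C := C * ρ ^ (-(3 / 2) : ℝ)) (σ := 3 / 2) (by norm_num) fun n hn => ?_
  have hn0 := nr_pos hn
  rw [norm_norm]
  refine (h _ (3 / 2) (mul_pos hρ hn0) (by norm_num) le_rfl).trans_eq ?_
  rw [Real.mul_rpow hρ.le hn0.le]
  ring

theorem DspA1_ker {Y N M : ℝ} (hY : 0 < Y) (hN : 0 < N) (hM : 0 < M) :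
    ((LBB.cc / N : ℝ) : ℂ) *
        kerV (fun s => Wm (s + 0) * (Y : ℂ) ^ s) (gamH 0) (LBB.cc ^ 2 / N * M) =
      ((Y / N : ℝ) : ℂ) * kW (Y / N * M) := by
  have hc := LBB.cc_pos
  have hρ : 0 < Y / N * M := by positivity
  have hc' : (LBB.cc : ℂ) ≠ 0 := Complex.ofReal_ne_zero.2 hc.ne'
  have hY' : (Y : ℂ) ≠ 0 := Complex.ofReal_ne_zero.2 hY.ne'
  rw [kW, if_neg hρ.ne', kerV, ← ThPois_lineI_mul, ← ThPois_lineI_mul]
  congr 1
  funext t
  have hNM : 0 ≤ M / N := by positivity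
  have e1 : ((LBB.cc ^ 2 / N * M : ℝ) : ℂ) ^ (-t) =
      (LBB.cc : ℂ) ^ (-t) * (LBB.cc : ℂ) ^ (-t) * ((M / N : ℝ) : ℂ) ^ (-t) := by
    rw [show LBB.cc ^ 2 / N * M = LBB.cc * LBB.cc * (M / N) by ring, Complex.ofReal_mul,
      Complex.mul_cpow_ofReal_nonneg (by positivity) hNM, Complex.ofReal_mul,
      Complex.mul_cpow_ofReal_nonneg hc.le hc.le]
  have e2 : ((Y / N * M : ℝ) : ℂ) ^ (-t) = (Y : ℂ) ^ (-t) * ((M / N : ℝ) : ℂ) ^ (-t) := by
    rw [show Y / N * M = Y * (M / N) by ring, Complex.ofReal_mul,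
      Complex.mul_cpow_ofReal_nonneg hY.le hNM]
  have e3 : (Y : ℂ) ^ (1 - t) = Y * (Y : ℂ) ^ (-t) := by
    rw [sub_eq_add_neg, Complex.cpow_add _ _ hY', Complex.cpow_one]
  have e4 : (LBB.cc : ℂ) ^ (1 - 2 * t) =
      LBB.cc * (LBB.cc : ℂ) ^ (-t) * (LBB.cc : ℂ) ^ (-t) := by
    rw [show 1 - 2 * t = 1 + -t + -t by ring, Complex.cpow_add _ _ hc', Complex.cpow_add _ _ hc',
      Complex.cpow_one]
  rw [e1, e2, e3, kM, e4, add_zero]
  push_cast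
  ring

/-- `Sm_eq_lineI`, `hecke_vor` with `l = 0`. -/
theorem pp_W : PP (fun y => Wc y 0) kW := by
  classical
  refine ⟨DspA1_sum1, DspA1_sum2, fun q f Y hq hf h0 hY => ?_⟩
  have hq0 := nr_pos hq
  have hP := ThPois_polyB 0 hq hf h0
  have h1 := Sm_eq_lineI hP hY 0
  have h2 := hecke_vor 0 hq hf h0 (stripDecay_Wm hY 0) (σ₁ := 2) (by norm_num)
  have h3 : ∑' a : O, f a * Wc (nr a / Y) 0 = Sm (fun n => f n * arg n ^ (0 : ℤ)) Y 0 := by
    simp [Sm]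
  have hS : Summable fun h : O => ft q f h * kW (Y / nr q * nr h) := by
    refine Summable.of_norm_bounded
      ((DspA1_sum2 _ (div_pos hY hq0)).mul_left (∑ x ∈ res q, ‖f x‖)) fun h => ?_
    rw [norm_mul]
    exact mul_le_mul_of_nonneg_right (LBB.norm_ft_le q f h) (norm_nonneg _)
  have h4 : ft q f 0 * kW (Y / nr q * nr (0 : O)) =
      (∑ x ∈ res q, f x) * ((LBB.cc : ℂ) * Wm 1) := by
    have : nr (0 : O) = 0 := by simp [nr]
    rw [this, mul_zero, kW, if_pos rfl, ft]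
    simp [eq_zero_left]
  have h5 : ((LBB.cc / nr q : ℝ) : ℂ) * ∑' h : O, ftA q f 0 h *
      kerV (fun s => Wm (s + 0) * (Y : ℂ) ^ s) (gamH 0) (LBB.cc ^ 2 / nr q * nr h) =
      ((Y / nr q : ℝ) : ℂ) *
        ∑' h : O, if h = 0 then 0 else ft q f h * kW (Y / nr q * nr h) := by
    rw [← tsum_mul_left, ← tsum_mul_left]
    refine tsum_congr fun h => ?_
    by_cases hh : h = 0
    · simp [ftA, hh]
    · rw [ftA, if_neg hh, if_neg hh, mul_left_comm, DspA1_ker hY hq0 (nr_pos hh)]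
      simp only [neg_zero, zpow_zero, mul_one]
      ring
  rw [h3, h1, h2, hS.tsum_eq_add_tsum_ite 0, h4, mul_add, ← h5, if_pos rfl, LBB.avg]
  simp only [neg_zero, Int.toNat_zero, pow_zero, zpow_zero, one_mul, Int.natAbs_zero, add_zero,
    Complex.cpow_one]
  push_cast
  ring

/-- `Γ(1/3) Γ(2/3) = 2π/√3` (`Real.Gamma_mul_Gamma_one_sub`). -/
theorem kM_third : ((LBB.cc * (9 : ℝ) ^ (1 / 3 : ℝ) / 81 : ℝ) : ℂ) * kM (1 / 3) =
    ((cP ^ 2 * rho0 : ℝ) : ℂ) * Wm (2 / 3) := by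
  have hc := LBB.cc_pos
  have h3 : 0 < Real.sqrt 3 := Real.sqrt_pos.2 (by norm_num)
  have hG : 0 < Real.Gamma (2 / 3) := Real.Gamma_pos_of_pos (by norm_num)
  have hπ := Real.pi_pos
  have e1 : Real.Gamma (1 / 3) = LBB.cc / Real.Gamma (2 / 3) := by
    have h := Real.Gamma_mul_Gamma_one_sub (1 / 3)
    rw [show (1 : ℝ) - 1 / 3 = 2 / 3 by norm_num, show Real.pi * (1 / 3) = Real.pi / 3 by ring,
      Real.sin_pi_div_three] at h
    rw [eq_div_iff hG.ne', h, LBB.cc]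
    field_simp
  have e2 : kM (1 / 3) = ((LBB.cc ^ (1 / 3 : ℝ) * (Real.Gamma (1 / 3) *
      (Real.Gamma (2 / 3))⁻¹) : ℝ) : ℂ) * Wm (2 / 3) := by
    rw [kM, DspA0_gamH, show (1 : ℂ) - 1 / 3 = 2 / 3 by norm_num,
      show (1 : ℂ) - 2 * (1 / 3) = ((1 / 3 : ℝ) : ℂ) by push_cast; norm_num,
      ← Complex.ofReal_cpow hc.le, Complex.ofReal_mul, Complex.ofReal_mul, Complex.ofReal_inv,
      ← Complex.Gamma_ofReal, ← Complex.Gamma_ofReal]
    push_cast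
    ring
  have e3 : rho0 = LBB.cc / 9 := by
    rw [rho0, LBB.cc]
    field_simp
  have e4 : ((2 * Real.pi) ^ ((2 : ℝ) / 3)) ^ 2 =
      LBB.cc * LBB.cc ^ (1 / 3 : ℝ) * (9 : ℝ) ^ (1 / 3 : ℝ) := by
    have a1 : 2 * Real.pi = LBB.cc * Real.sqrt 3 := by
      rw [LBB.cc]
      field_simp
    have a2 : (Real.sqrt 3 ^ ((2 : ℝ) / 3)) ^ 2 = (9 : ℝ) ^ (1 / 3 : ℝ) := by
      rw [Real.sqrt_eq_rpow, ← Real.rpow_mul (by norm_num), ← Real.rpow_natCast,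
        ← Real.rpow_mul (by norm_num), show (9 : ℝ) = 3 ^ (2 : ℝ) by norm_num,
        ← Real.rpow_mul (by norm_num)]
      norm_num
    have a3 : (LBB.cc ^ ((2 : ℝ) / 3)) ^ 2 = LBB.cc * LBB.cc ^ (1 / 3 : ℝ) := by
      rw [← Real.rpow_natCast, ← Real.rpow_mul hc.le, ← Real.rpow_one_add' hc.le (by norm_num)]
      norm_num
    rw [a1, Real.mul_rpow hc.le h3.le, mul_pow, a2, a3]
  rw [e2, ← mul_assoc, ← Complex.ofReal_mul]
  congr 2
  rw [cP, div_pow, e4, e3, e1]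
  field_simp
  norm_num

end Crest.Agent.R12
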