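import Crest.Agent.R12.DspB0

/-!
# Row 12, analytic half: the cube rows
-/

set_option autoImplicit false

noncomputable section

namespace Crest.Agent.R12

open Crest.Agent.R17
open scoped ComplexConjugate Topology
open Filter MeasureTheory

theorem DspB_main {A G N c : ℝ} (hA : 0 < A) (hG : 0 < G) (hN : 0 < N) :
    A / (27 * Real.sqrt N) * (c / 3 * (A * G / (9 * N)) ^ (-(1 / 3 : ℝ))) =
      c * (9 : ℝ) ^ (1 / 3 : ℝ) / 81 * (A ^ (2 / 3 : ℝ) * (G * G * N) ^ (-(1 / 6 : ℝ))) := by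
  obtain ⟨a, rfl⟩ : ∃ a, A = Real.exp a := ⟨_, (Real.exp_log hA).symm⟩
  obtain ⟨g, rfl⟩ : ∃ a, G = Real.exp a := ⟨_, (Real.exp_log hG).symm⟩
  obtain ⟨n, rfl⟩ : ∃ a, N = Real.exp a := ⟨_, (Real.exp_log hN).symm⟩
  obtain ⟨L, hL⟩ : ∃ L, (9 : ℝ) = Real.exp L := ⟨_, (Real.exp_log (by norm_num)).symm⟩
  have h : Real.exp a * Real.exp ((a + g - (L + n)) * (-(1 / 3))) = Real.exp (n / 2) *
      (Real.exp (L * (1 / 3)) * (Real.exp (a * (2 / 3)) * Real.exp ((g + g + n) * (-(1 / 6))))) := by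
    simp only [← Real.exp_add]
    congr 1
    ring
  rw [hL, ← Real.exp_half, ← Real.exp_add, ← Real.exp_add, ← Real.exp_sub, ← Real.exp_add,
    ← Real.exp_add, ← Real.exp_mul, ← Real.exp_mul, ← Real.exp_mul, ← Real.exp_mul]
  rw [div_mul_eq_mul_div, div_eq_iff (by positivity)]
  linear_combination c / 3 * h

theorem DspB_err {A G N : ℝ} (hA : 0 < A) (hG : 0 < G) (hN : 0 < N) :
    A / (27 * Real.sqrt N) * (A * G / (9 * N)) ^ (-(1 / 4 : ℝ)) =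
      (9 : ℝ) ^ (1 / 4 : ℝ) / 27 *
        (A ^ (3 / 4 : ℝ) * (G * G * N) ^ (-(1 / 4 : ℝ)) * G ^ (1 / 4 : ℝ)) := by
  obtain ⟨a, rfl⟩ : ∃ a, A = Real.exp a := ⟨_, (Real.exp_log hA).symm⟩
  obtain ⟨g, rfl⟩ : ∃ a, G = Real.exp a := ⟨_, (Real.exp_log hG).symm⟩
  obtain ⟨n, rfl⟩ : ∃ a, N = Real.exp a := ⟨_, (Real.exp_log hN).symm⟩
  obtain ⟨L, hL⟩ : ∃ L, (9 : ℝ) = Real.exp L := ⟨_, (Real.exp_log (by norm_num)).symm⟩
  have h : Real.exp a * Real.exp ((a + g - (L + n)) * (-(1 / 4))) = Real.exp (n / 2) *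
      (Real.exp (L * (1 / 4)) * (Real.exp (a * (3 / 4)) * Real.exp ((g + g + n) * (-(1 / 4))) *
        Real.exp (g * (1 / 4)))) := by
    simp only [← Real.exp_add]
    congr 1
    ring
  rw [hL, ← Real.exp_half, ← Real.exp_add, ← Real.exp_add, ← Real.exp_sub, ← Real.exp_add,
    ← Real.exp_add, ← Real.exp_mul, ← Real.exp_mul, ← Real.exp_mul, ← Real.exp_mul, ← Real.exp_mul]
  rw [div_mul_eq_mul_div, div_eq_iff (by positivity)]
  linear_combination h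

open Classical in
theorem DspB_cub {c : O} (hc : Primary c) (x : O) :
    cub c (x ^ 3) = if IsCoprime c x then 1 else 0 := by
  rw [cub_pow_right]
  split_ifs with h
  · exact cub_pow_three hc h
  · rw [(cub_eq_zero_iff hc).2 h, zero_pow three_ne_zero]

open Classical in
theorem DspB_tsum_dvd {e : O} (he : e ≠ 0) (F : O → ℂ) :
    ∑' m : O, (if e ∣ m then F m else 0) = ∑' m : O, F (e * m) := by
  rw [← (mul_right_injective₀ he).tsum_eq (f := fun m => if e ∣ m then F m else 0)]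
  · simp
  · intro m hm
    by_contra h
    apply hm
    have : ¬ e ∣ m := fun ⟨c, hc⟩ => h ⟨c, hc.symm⟩
    simp [this]

open Classical in
/-- Möbius inversion of the coprimality condition. -/
theorem DspB_moebius {q : O} (hq : Primary q) {f : O → ℂ} (hf : Summable fun m => ‖f m‖) :
    (∑' m : O, if m = 0 then 0 else if IsCoprime q m then f m else 0) =
      ∑ d ∈ pdiv q, mu d * ∑' m : O, if m = 0 then 0 else f (d * m) := by
  have h1 : ∀ m : O, (if m = 0 then 0 else if IsCoprime q m then f m else 0) =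
      ∑ d ∈ pdiv q, mu d * (if d ∣ m then (if m = 0 then 0 else f m) else 0) := by
    intro m
    by_cases hm : m = 0
    · simp [hm]
    · have := sum_mu_coprime hq hm
      rw [Finset.sum_filter] at this
      simp only [if_neg hm, mul_ite, mul_zero]
      calc (if IsCoprime q m then f m else 0) = (if IsCoprime q m then 1 else 0) * f m := by
            split_ifs <;> simp
        _ = _ := by
            rw [← this, Finset.sum_mul]
            exact Finset.sum_congr rfl fun d _ => by split_ifs <;> simp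
  rw [tsum_congr h1, Summable.tsum_finsetSum]
  · refine Finset.sum_congr rfl fun d hd => ?_
    have hd0 := ((mem_pdiv hq.ne_zero).1 hd).1.ne_zero
    rw [tsum_mul_left, DspB_tsum_dvd hd0]
    simp [hd0]
  · intro d _
    refine Summable.mul_left _ (Summable.of_norm_bounded hf fun m => ?_)
    split_ifs <;> simp

open Classical in
/-- The sum over `m` prime to `q`. -/
theorem DspB_sieved : ∃ C : ℝ, 0 < C ∧ ∀ (ρ : ℝ) (q : O), 0 < ρ → PS q →
    (Summable fun m : O => ‖kW (ρ * nr m ^ 3)‖) ∧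
    ‖(∑' m : O, if m = 0 then 0 else if IsCoprime q m then kW (ρ * nr m ^ 3) else 0) -
      ((phi q * (LBB.cc / 3 * ρ ^ (-(1 / 3 : ℝ))) : ℝ) : ℂ) * kM (1 / 3)‖ ≤
      2 ^ (pf q).card * (C * ρ ^ (-(1 / 4 : ℝ))) := by
  obtain ⟨C, hC, h⟩ := cube_sum
  refine ⟨C, hC, fun ρ q hρ hq => ⟨(h ρ hρ).1, ?_⟩⟩
  rw [DspB_moebius hq.1 (f := fun m => kW (ρ * nr m ^ 3)) (h ρ hρ).1, Complex.ofReal_mul,
    ← hq.sum_mu_div, Finset.sum_mul, Finset.sum_mul, ← Finset.sum_sub_distrib, ← hq.card_pdiv,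
    ← nsmul_eq_mul]
  refine (norm_sum_le _ _).trans (Finset.sum_le_card_nsmul _ _ _ fun d hd => ?_)
  have hd0 := ((mem_pdiv hq.ne_zero).1 hd).1.ne_zero
  have h1 := one_le_nr hd0
  have h0 : 0 < nr d := nr_pos hd0
  have h2 := (h (ρ * nr d ^ 3) (by positivity)).2
  have h3 : (ρ * nr d ^ 3) ^ (-(1 / 3 : ℝ)) = (nr d)⁻¹ * ρ ^ (-(1 / 3 : ℝ)) := by
    rw [Real.mul_rpow hρ.le (by positivity), ← Real.rpow_natCast, ← Real.rpow_mul h0.le]
    norm_num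
    rw [Real.rpow_neg_one, mul_comm]
  have h4 : (ρ * nr d ^ 3) ^ (-(1 / 4 : ℝ)) ≤ ρ ^ (-(1 / 4 : ℝ)) :=
    Real.rpow_le_rpow_of_nonpos hρ (le_mul_of_one_le_right hρ.le (one_le_pow₀ h1)) (by norm_num)
  have h5 : ∀ m : O, ρ * nr (d * m) ^ 3 = ρ * nr d ^ 3 * nr m ^ 3 := fun m => by
    rw [nr_mul]; ring
  simp only [h5]
  rw [h3] at h2
  have h6 : (mu d * ∑' m : O, if m = 0 then 0 else kW (ρ * nr d ^ 3 * nr m ^ 3)) -
      mu d * ((nr d)⁻¹ : ℝ) * ((LBB.cc / 3 * ρ ^ (-(1 / 3 : ℝ)) : ℝ) : ℂ) * kM (1 / 3) =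
      mu d * ((∑' m : O, if m = 0 then 0 else kW (ρ * nr d ^ 3 * nr m ^ 3)) -
        ((LBB.cc / 3 * ((nr d)⁻¹ * ρ ^ (-(1 / 3 : ℝ))) : ℝ) : ℂ) * kM (1 / 3)) := by
    push_cast
    ring
  rw [h6, norm_mul]
  exact (mul_le_of_le_one_left (norm_nonneg _) (norm_mu_le d)).trans
    (h2.trans (mul_le_mul_of_nonneg_left h4 hC.le))

open Classical in
theorem DspB_term {A : ℝ} {g c₁ c₂ e : O} (hg : PS g) (h₁ : Primary c₁) (h₂ : Primary c₂)
    (hg₁ : IsCoprime g c₁) (hg₂ : IsCoprime g c₂) (hc : pgcd (g * c₁) (g * c₂) = g)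
    (he : e ∈ pdiv g) (m : O) :
    term kW A (g * c₁) (g * c₂) e (e ^ 2 * (g / e) * m ^ 3) =
      mu e * ((nr e)⁻¹ : ℝ) * ((A / (9 * Real.sqrt (nr c₁ * nr c₂)) : ℝ) : ℂ) *
        if IsCoprime (c₁ * c₂) m then kW (A * nr g / (9 * (nr c₁ * nr c₂)) * nr m ^ 3) else 0 := by
  obtain ⟨he1, he2, -, he3⟩ := hg.div he
  have hr : row g e (e ^ 2 * (g / e) * m ^ 3) = (g * m) ^ 3 := by
    rw [row]
    conv_rhs => rw [← he3]
    ring
  have hN : nr g = nr e * nr (g / e) := by rw [← nr_mul, he3]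
  have h0 := nr_pos he1.ne_zero
  have ha : A / (9 * nr e * (nr c₁ * nr c₂)) * nr (e ^ 2 * (g / e) * m ^ 3) =
      A * nr g / (9 * (nr c₁ * nr c₂)) * nr m ^ 3 := by
    rw [nr_mul, nr_mul, nr_pow, nr_pow, hN]
    field_simp
  have hb : A / (9 * nr e * Real.sqrt (nr c₁ * nr c₂)) =
      (nr e)⁻¹ * (A / (9 * Real.sqrt (nr c₁ * nr c₂))) := by
    field_simp
  rw [term, hc, mul_div_cancel_left₀ _ hg.ne_zero, mul_div_cancel_left₀ _ hg.ne_zero, hr,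
    eq_cube_three _ _ ((he1.1.pow 2).mul he2.1), DspB_cub h₁, DspB_cub h₂, ha, hb,
    Complex.ofReal_mul]
  simp only [IsCoprime.mul_right_iff, IsCoprime.mul_left_iff, hg₁.symm, hg₂.symm, true_and]
  by_cases k₁ : IsCoprime c₁ m <;> by_cases k₂ : IsCoprime c₂ m <;> simp [k₁, k₂, mul_assoc]

open Classical in
theorem DspB_pair {A : ℝ} {g c₁ c₂ : O} (hg : PS g) (h₁ : Primary c₁) (h₂ : Primary c₂)
    (hg₁ : IsCoprime g c₁) (hg₂ : IsCoprime g c₂) (hc : pgcd (g * c₁) (g * c₂) = g)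
    (hs : Summable fun m : O => ‖kW (A * nr g / (9 * (nr c₁ * nr c₂)) * nr m ^ 3)‖) :
    pairSum kW A (fun g e k => k ≠ 0 ∧ Cube (row g e k)) (g * c₁) (g * c₂) =
      ((phi g * (A / (27 * Real.sqrt (nr c₁ * nr c₂))) : ℝ) : ℂ) *
        ∑' m : O, if m = 0 then 0 else if IsCoprime (c₁ * c₂) m then
          kW (A * nr g / (9 * (nr c₁ * nr c₂)) * nr m ^ 3) else 0 := by
  rw [pairSum, hc, Complex.ofReal_mul, ← hg.sum_mu_div, Finset.sum_mul, Finset.sum_mul]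
  refine Finset.sum_congr rfl fun e he => ?_
  obtain ⟨he1, he2, -, -⟩ := hg.div he
  have h3 := tsum_cube (c := e ^ 2 * (g / e)) ((he1.1.pow 2).mul he2.1).ne_zero
    (term kW A (g * c₁) (g * c₂) e) (by
      simp only [DspB_term hg h₁ h₂ hg₁ hg₂ hc he, norm_mul]
      refine Summable.mul_left _ (Summable.of_nonneg_of_le (fun _ => norm_nonneg _)
        (fun m => ?_) hs)
      split_ifs <;> simp)
  simp only [DspB_term hg h₁ h₂ hg₁ hg₂ hc he] at h3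
  refine (tsum_congr fun k => ?_).trans (h3.trans ?_)
  · simp only [cube_row_iff hg he]
  · rw [← tsum_mul_left, ← tsum_mul_left]
    refine tsum_congr fun m => ?_
    by_cases hm : m = 0
    · simp [hm]
    · rw [if_neg hm, if_neg hm]
      push_cast
      ring

/-- **The cube rows give the main term.**  The argument of the kernel is
`A N(g) N(m)³ / (9 N(b₁' b₂'))`, independent of `e`; `(m, b₁' b₂') = 1` is removed by Möbius;
`cube_sum`, `PS.sum_mu_div` (twice), `phi_mul`, `kM_third`. -/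
theorem cube_rows : ∃ C : ℝ, 0 < C ∧ ∀ (A : ℝ) (b₁ b₂ : O), 0 < A → PS b₁ → PS b₂ →
    ‖pairSum kW A (fun g e k => k ≠ 0 ∧ Cube (row g e k)) b₁ b₂ - MT A b₁ b₂‖ ≤
      C * 2 ^ (pf b₁).card * 2 ^ (pf b₂).card * A ^ (3 / 4 : ℝ) *
        (nr b₁ * nr b₂) ^ (-(1 / 4 : ℝ)) * nr (pgcd b₁ b₂) ^ (1 / 4 : ℝ) := by
  obtain ⟨C, hC, h⟩ := DspB_sieved
  refine ⟨C * ((9 : ℝ) ^ (1 / 4 : ℝ) / 27), by positivity, fun A b₁ b₂ hA hb₁ hb₂ => ?_⟩
  obtain ⟨g, hc⟩ : ∃ g, pgcd b₁ b₂ = g := ⟨_, rfl⟩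
  have hgp : Primary g := hc ▸ primary_pgcd b₁ b₂
  obtain ⟨⟨c₁, rfl⟩, ⟨c₂, rfl⟩⟩ := (dvd_pgcd_iff hb₁.ne_zero hb₂.ne_zero hgp).1 (hc ▸ dvd_rfl)
  have h₁ : Primary c₁ := hgp.of_mul hb₁.1
  have h₂ : Primary c₂ := hgp.of_mul hb₂.1
  obtain ⟨hg, hc₁, hg₁⟩ := PS.of_mul hgp h₁ hb₁
  obtain ⟨-, hc₂, hg₂⟩ := PS.of_mul hgp h₂ hb₂
  have h12 : IsCoprime c₁ c₂ := by
    rw [← pgcd_eq_one_iff h₁ h₂.ne_zero]
    have := hc
    rw [pgcd_mul_left hgp h₁.ne_zero h₂.ne_zero] at this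
    exact mul_left_cancel₀ hgp.ne_zero (this.trans (mul_one g).symm)
  have hq := hc₁.mul hc₂ h12
  have hG := nr_pos hgp.ne_zero
  have hN : 0 < nr c₁ * nr c₂ := mul_pos (nr_pos h₁.ne_zero) (nr_pos h₂.ne_zero)
  obtain ⟨hs, hb⟩ := h (A * nr g / (9 * (nr c₁ * nr c₂))) (c₁ * c₂) (by positivity) hq
  have e1 : nr (g * c₁) * nr (g * c₂) = nr g * nr g * (nr c₁ * nr c₂) := by
    rw [nr_mul, nr_mul]; ring
  have e2 : phi (g * c₁ * (g * c₂)) = phi g * phi (c₁ * c₂) := by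
    rw [← phi_mul hgp.ne_zero hq.ne_zero (hg₁.mul_right hg₂), phi, phi,
      show g * c₁ * (g * c₂) = g * (g * (c₁ * c₂)) by ring,
      pf_mul hgp.ne_zero (mul_ne_zero hgp.ne_zero hq.ne_zero), pf_mul hgp.ne_zero hq.ne_zero,
      ← Finset.union_assoc, Finset.union_self]
  have e3 : MT A (g * c₁) (g * c₂) =
      ((phi g * (A / (27 * Real.sqrt (nr c₁ * nr c₂))) : ℝ) : ℂ) *
      (((phi (c₁ * c₂) * (LBB.cc / 3 * (A * nr g / (9 * (nr c₁ * nr c₂))) ^ (-(1 / 3 : ℝ))) : ℝ) :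
        ℂ) * kM (1 / 3)) := by
    have e4 := congrArg (fun x : ℝ => (x : ℂ)) (DspB_main (c := LBB.cc) hA hG hN)
    have e5 := kM_third
    rw [MT, e1, e2]
    simp only [Complex.ofReal_mul] at e4 e5 ⊢
    linear_combination (-(phi g : ℂ) * phi (c₁ * c₂) * kM (1 / 3)) * e4 -
      (phi g : ℂ) * phi (c₁ * c₂) * ((A ^ (2 / 3 : ℝ) : ℝ) : ℂ) *
        (((nr g * nr g * (nr c₁ * nr c₂)) ^ (-(1 / 6 : ℝ)) : ℝ) : ℂ) * e5
  rw [DspB_pair hg h₁ h₂ hg₁ hg₂ hc hs, e3, ← mul_sub, norm_mul, hc, e1, Complex.norm_real,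
    Real.norm_of_nonneg (mul_nonneg (phi_nonneg g) (by positivity))]
  have e6 := DspB_err hA hG hN
  have e7 : (2 : ℝ) ^ (pf (c₁ * c₂)).card ≤ 2 ^ (pf (g * c₁)).card * 2 ^ (pf (g * c₂)).card := by
    rw [card_pf_mul h₁.ne_zero h₂.ne_zero h12, ← pow_add]
    exact pow_le_pow_right₀ one_le_two (add_le_add
      (card_pf_le_of_dvd hb₁.ne_zero (dvd_mul_left _ _))
      (card_pf_le_of_dvd hb₂.ne_zero (dvd_mul_left _ _)))
  calc _ ≤ (1 * (A / (27 * Real.sqrt (nr c₁ * nr c₂)))) *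
        ((2 ^ (pf (g * c₁)).card * 2 ^ (pf (g * c₂)).card) *
          (C * (A * nr g / (9 * (nr c₁ * nr c₂))) ^ (-(1 / 4 : ℝ)))) :=
        mul_le_mul (mul_le_mul_of_nonneg_right (phi_le_one g) (by positivity))
          (hb.trans (mul_le_mul_of_nonneg_right e7 (by positivity))) (norm_nonneg _)
          (by positivity)
    _ = _ := by
        linear_combination (2 ^ (pf (g * c₁)).card * 2 ^ (pf (g * c₂)).card * C) * e6

end Crest.Agent.R12
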