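import Crest.Agent.R12.ExpA1

/-!
# Row 12, analytic half: Poisson expansion of one pair
-/

set_option autoImplicit false

noncomputable section

namespace Crest.Agent.R12

open Crest.Agent.R17
open scoped ComplexConjugate Topology
open Filter MeasureTheory

theorem pairSum_split {φ κ : ℝ → ℂ} (h : PP φ κ) {A : ℝ} (hA : 0 < A) {b₁ b₂ : O} (h₁ : PS b₁)
    (h₂ : PS b₂) (𝒦 P : O → O → O → Prop) :
    pairSum κ A 𝒦 b₁ b₂ = pairSum κ A (fun g e k => 𝒦 g e k ∧ P g e k) b₁ b₂ +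
      pairSum κ A (fun g e k => 𝒦 g e k ∧ ¬ P g e k) b₁ b₂ := by
  unfold pairSum
  rw [← Finset.sum_add_distrib]
  refine Finset.sum_congr rfl fun e he => ?_
  have hs : ∀ (Q : O → Prop) (i : ∀ k, Decidable (Q k)),
      Summable fun k => @ite ℂ (Q k) (i k) (term κ A b₁ b₂ e k) 0 := fun Q i =>
    Summable.of_norm_bounded (summable_term h hA h₁ h₂ he) fun k => by
      split_ifs
      · exact le_rfl
      · rw [norm_zero]
        exact norm_nonneg _
  rw [← (hs _ _).tsum_add (hs _ _)]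
  refine tsum_congr fun k => ?_
  by_cases h1 : 𝒦 (pgcd b₁ b₂) e k
  · by_cases h2 : P (pgcd b₁ b₂) e k
    · rw [if_pos h1, if_pos ⟨h1, h2⟩, if_neg fun h => h.2 h2, add_zero]
    · rw [if_pos h1, if_neg fun h => h2 h.2, if_pos ⟨h1, h2⟩, zero_add]
  · rw [if_neg h1, if_neg fun h => h1 h.1, if_neg fun h => h1 h.1, add_zero]

theorem pairSum_congr (κ : ℝ → ℂ) (A : ℝ) {𝒦 𝒦' : O → O → O → Prop}
    (h : ∀ g e k, 𝒦 g e k ↔ 𝒦' g e k) (b₁ b₂ : O) : pairSum κ A 𝒦 b₁ b₂ = pairSum κ A 𝒦' b₁ b₂ := by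
  rw [show 𝒦 = 𝒦' from funext fun g => funext fun e => funext fun k => propext (h g e k)]

theorem ExpA_cub_zero {n : O} (hn : Primary n) (h : n ≠ 1) : cub n 0 = 0 :=
  (cub_eq_zero_iff hn).2 fun h' => h (hn.eq_one_of_isUnit (isCoprime_zero_right.1 h'))

open Classical in
/-- The row `k = 0` (`PS.sum_mu_div`). -/
theorem norm_pairSum_zero_le (κ : ℝ → ℂ) {A : ℝ} (hA : 0 < A) {b₁ b₂ : O} (h₁ : PS b₁)
    (h₂ : PS b₂) :
    ‖pairSum κ A (fun _ _ k => k = 0) b₁ b₂‖ ≤ if b₁ = b₂ then A * ‖κ 0‖ else 0 := by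
  have e0 : pairSum κ A (fun _ _ k => k = 0) b₁ b₂ =
      ∑ e ∈ pdiv (pgcd b₁ b₂), term κ A b₁ b₂ e 0 := by
    unfold pairSum
    refine Finset.sum_congr rfl fun e _ => ?_
    refine (tsum_eq_single 0 fun k hk => ?_).trans (if_pos rfl)
    exact if_neg hk
  have hg := primary_pgcd b₁ b₂
  obtain ⟨d1, d2⟩ := (dvd_pgcd_iff h₁.ne_zero h₂.ne_zero hg).1 dvd_rfl
  obtain ⟨-, p1, q1⟩ := AF.primary_div h₁.1 ((mem_pdiv h₁.ne_zero).2 ⟨hg, d1⟩)
  obtain ⟨g2, p2, -, q2⟩ := h₂.div ((mem_pdiv h₂.ne_zero).2 ⟨hg, d2⟩)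
  have hrow : ∀ e, row (pgcd b₁ b₂) e 0 = 0 := fun e => zero_mul _
  rw [e0]
  unfold term
  simp only [hrow]
  by_cases h : b₁ / pgcd b₁ b₂ = 1 ∧ b₂ / pgcd b₁ b₂ = 1
  · have hb : b₁ = b₂ := by rw [← q1, h.1, ← h.2, q2]
    have hn1 : nr (1 : O) = 1 := by
      have := isUnit_iff_nm.1 (isUnit_one (M := O))
      exact_mod_cast this
    have hn0 : nr (0 : O) = 0 := by
      have := nm_eq_zero.2 (rfl : (0 : O) = 0)
      exact_mod_cast this
    rw [if_pos hb, h.1, h.2, cub_one_left, eq_zero_left, hn1, hn0]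
    have e1 : ∀ e : O, mu e * ((A / (9 * nr e * Real.sqrt (1 * 1)) : ℝ) : ℂ) * 1 * 1 * conj (1 : ℂ) *
        κ (A / (9 * nr e * (1 * 1)) * 0) =
        mu e * (((nr e)⁻¹ : ℝ) : ℂ) * (((A / 9 : ℝ) : ℂ) * κ 0) := fun e => by
      rw [mul_zero, map_one, mul_one (1 : ℝ), Real.sqrt_one, mul_one, mul_one, mul_one, mul_one,
        show A / (9 * nr e) = (nr e)⁻¹ * (A / 9) by ring, Complex.ofReal_mul]
      ring
    rw [Finset.sum_congr rfl fun e _ => e1 e, ← Finset.sum_mul, g2.sum_mu_div, norm_mul, norm_mul,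
      Complex.norm_real, Complex.norm_real, Real.norm_of_nonneg (phi_nonneg _),
      Real.norm_of_nonneg (by positivity)]
    refine (mul_le_of_le_one_left (by positivity) (phi_le_one _)).trans ?_
    exact mul_le_mul_of_nonneg_right (by linarith) (norm_nonneg _)
  · rw [Finset.sum_eq_zero, norm_zero]
    · split_ifs
      · positivity
      · exact le_rfl
    · intro e _
      rcases not_and_or.1 h with h | h
      · rw [ExpA_cub_zero p1 h]
        ring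
      · rw [ExpA_cub_zero p2.1 h, map_zero]
        ring

end Crest.Agent.R12
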