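import Crest.Agent.R12.DspA
import Crest.Agent.R12.ExpA
import Crest.Agent.R12.Chr

/-!
# Row 12, analytic half: the cube rows
-/

set_option autoImplicit false

noncomputable section

namespace Crest.Agent.R12

open Crest.Agent.R17
open scoped ComplexConjugate Topology
open Filter MeasureTheory

/-- For `g = e g₁` squarefree the row `k e g₁²` is a cube iff `k = e² g₁ m³`. -/
theorem cube_row_iff {g e k : O} (hg : PS g) (he : e ∈ pdiv g) :
    Cube (row g e k) ↔ ∃ m : O, k = e ^ 2 * (g / e) * m ^ 3 := by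
  obtain ⟨h1, h2, h3⟩ := AF.primary_div hg.1 he
  unfold row
  generalize g / e = g₁ at h2 h3
  subst h3
  constructor
  · rintro ⟨n, hn⟩
    obtain ⟨m, rfl⟩ : e * g₁ ∣ n := (hg.2.dvd_pow_iff_dvd three_ne_zero).1
      ⟨k * g₁, by rw [← hn]; ring⟩
    refine ⟨m, mul_right_cancel₀ (mul_ne_zero h1.ne_zero (pow_ne_zero 2 h2.ne_zero)) ?_⟩
    rw [hn]
    ring
  · rintro ⟨m, rfl⟩
    exact ⟨e * g₁ * m, by ring⟩

theorem eq_cube_three (c m : O) (hc : Primary c) : eq (c * m ^ 3) 3 = 1 := by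
  obtain ⟨t, ht⟩ := hc
  rw [eq_congr (y := m ^ 3) ⟨t * m ^ 3, by linear_combination m ^ 3 * ht⟩,
    eq_eq_one_iff (by decide)]
  refine ⟨m.re * m.im * (m.re - m.im), ?_⟩
  have h1 : nm 3 = 9 := rfl
  have h2 : cj 3 = ⟨3, 0⟩ := rfl
  rw [h1, h2]
  simp only [pow_succ, pow_zero, one_mul, QuadraticAlgebra.re_mul, QuadraticAlgebra.im_mul]
  push_cast
  ring

theorem DspB0_om : om ^ 2 + om + 1 = 0 := by decide
theorem DspB0_ne : (1 : O) ≠ om ∧ (1 : O) ≠ om ^ 2 ∧ om ≠ om ^ 2 := by decide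

theorem DspB0_cube_iff {m n : O} : n ^ 3 = m ^ 3 ↔ n = m ∨ n = om * m ∨ n = om ^ 2 * m := by
  have h : n ^ 3 - m ^ 3 = (n - m) * ((n - om * m) * (n - om ^ 2 * m)) := by
    linear_combination (n - m) * (n * m - (om - 1) * m ^ 2) * DspB0_om
  rw [← sub_eq_zero, h, mul_eq_zero, mul_eq_zero, sub_eq_zero, sub_eq_zero, sub_eq_zero]

open Classical in
/-- The map `m ↦ m³` is three-to-one on the non-zero elements. -/
theorem tsum_cube {c : O} (hc : c ≠ 0) (F : O → ℂ) (hF : Summable fun m => ‖F (c * m ^ 3)‖) :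
    ∑' k : O, (if k ≠ 0 ∧ ∃ m : O, k = c * m ^ 3 then F k else 0) =
      (1 / 3 : ℂ) * ∑' m : O, if m = 0 then 0 else F (c * m ^ 3) := by
  have hs : Summable fun m : O => if m = 0 then 0 else F (c * m ^ 3) :=
    Summable.of_norm_bounded hF fun m => by split_ifs <;> simp
  rw [← (hs.hasSum.tsum_fiberwise fun m => c * m ^ 3).tsum_eq, ← tsum_mul_left]
  refine tsum_congr fun k => ?_
  split_ifs with h
  · obtain ⟨hk, m, rfl⟩ := h
    have hm : m ≠ 0 := fun h => hk (by rw [h]; ring)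
    have e : (fun n : O => c * n ^ 3) ⁻¹' {c * m ^ 3} = ({m, om * m, om ^ 2 * m} : Finset O) := by
      ext n
      simp only [Set.mem_preimage, Set.mem_singleton_iff, mul_right_inj' hc, DspB0_cube_iff,
        Finset.coe_insert, Finset.coe_singleton, Set.mem_insert_iff]
    obtain ⟨n1, n2, n3⟩ := DspB0_ne
    rw [e, Finset.tsum_subtype' _ fun n : O => if n = 0 then 0 else F (c * n ^ 3),
      Finset.sum_congr rfl (g := fun _ => F (c * m ^ 3)) fun n hn => ?_, Finset.sum_const,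
      Finset.card_eq_three.2 ⟨_, _, _, fun h => n1 (mul_right_cancel₀ hm ((one_mul m).trans h)),
        fun h => n2 (mul_right_cancel₀ hm ((one_mul m).trans h)),
        fun h => n3 (mul_right_cancel₀ hm h), rfl⟩, nsmul_eq_mul]
    · push_cast
      ring
    · have h1 : n ∈ (fun n : O => c * n ^ 3) ⁻¹' {c * m ^ 3} := e ▸ Finset.mem_coe.2 hn
      have h2 : c * n ^ 3 = c * m ^ 3 := h1
      rw [if_neg fun h => hk (by rw [← h2, h]; ring), h2]
  · rw [tsum_congr (g := fun _ => 0) fun n => ?_, tsum_zero, mul_zero]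
    have h2 : c * (n : O) ^ 3 = k := n.2
    exact if_pos (by_contra fun h3 =>
      h ⟨h2 ▸ mul_ne_zero hc (pow_ne_zero 3 h3), n, h2.symm⟩)

end Crest.Agent.R12
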