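import Crest.Agent.R12.DspC0

/-!
# Row 12, analytic half: the cross term
-/

set_option autoImplicit false

noncomputable section

namespace Crest.Agent.R12

open Crest.Agent.R17
open scoped ComplexConjugate Topology
open Filter MeasureTheory

theorem DspC_split {b₁ b₂ : O} (h₁ : PS b₁) (h₂ : PS b₂) : ∃ g c : O, PS c ∧ g ∣ b₁ ∧ g * c = b₂ ∧
    IsCoprime b₁ c ∧ phi (b₁ * b₂) = phi b₁ * phi c := by
  have hg := (dvd_pgcd_iff h₁.ne_zero h₂.ne_zero (primary_pgcd b₁ b₂)).1 dvd_rfl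
  obtain ⟨e1, e2, e3, e4⟩ := h₂.div ((mem_pdiv h₂.ne_zero).2 ⟨primary_pgcd b₁ b₂, hg.2⟩)
  have hc : IsCoprime b₁ (b₂ / pgcd b₁ b₂) := by
    have hd := (dvd_pgcd_iff h₁.ne_zero e2.ne_zero (primary_pgcd b₁ _)).1 dvd_rfl
    refine (pgcd_eq_one_iff h₁.1 e2.ne_zero).1 (BasicA.eq_one_of_isUnit (primary_pgcd _ _)
      (e3.isUnit_of_dvd' ?_ hd.2))
    exact (dvd_pgcd_iff h₁.ne_zero h₂.ne_zero (primary_pgcd _ _)).2
      ⟨hd.1, hd.2.trans (Dvd.intro_left _ e4)⟩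
  refine ⟨_, _, e2, hg.1, e4, hc, ?_⟩
  rw [← phi_mul h₁.ne_zero e2.ne_zero hc, phi, phi]
  congr 1
  obtain ⟨k, hk⟩ := hg.1
  have hk0 : k ≠ 0 := fun h => h₁.ne_zero (by rw [hk, h, mul_zero])
  have hs : pf (pgcd b₁ b₂) ⊆ pf b₁ := by
    conv_rhs => rw [hk, pf_mul e1.ne_zero hk0]
    exact Finset.subset_union_left
  conv_lhs => rw [← e4]
  rw [pf_mul h₁.ne_zero (mul_ne_zero e1.ne_zero e2.ne_zero), pf_mul e1.ne_zero e2.ne_zero,
    pf_mul h₁.ne_zero e2.ne_zero, ← Finset.union_assoc, Finset.union_eq_left.2 hs]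

open Classical in
theorem DspC_pt {A : ℝ} (hA : 0 < A) {b₁ g c : O} (h₁ : PS b₁) (hc : PS c) (hg : g ∣ b₁) (a : O) :
    (if Primary a then Wc (nr a / A) 0 * (gk a b₁ * conj (mdl a (g * c))) else 0) =
      ((cP * A ^ (-(1 / 6 : ℝ)) * nr (g * c) ^ (-(1 / 6 : ℝ)) : ℝ) : ℂ) * ∑ f ∈ pdiv c, mu f *
        (if Primary a ∧ IsCoprime a b₁ ∧ f ∣ a then tc (a * b₁) * Wc (nr a / A) (-(1 / 6))
          else 0) := by
  by_cases ha : Primary a
  swap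
  · simp [ha]
  by_cases hab : IsCoprime a b₁
  swap
  · have : cub b₁ a = 0 := (cub_eq_zero_iff h₁.1).2 fun h => hab h.symm
    simp [ha, hab, gk, this]
  have hs : ∑ f ∈ pdiv c, mu f * (if Primary a ∧ IsCoprime a b₁ ∧ f ∣ a then
      tc (a * b₁) * Wc (nr a / A) (-(1 / 6)) else 0) =
      (if IsCoprime c a then 1 else 0) * (tc (a * b₁) * Wc (nr a / A) (-(1 / 6))) := by
    rw [← sum_mu_coprime hc.1 ha.ne_zero, Finset.sum_filter, Finset.sum_mul]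
    refine Finset.sum_congr rfl fun f _ => ?_
    by_cases hf : f ∣ a <;> simp [ha, hab, hf]
  rw [hs, if_pos ha, mdl]
  by_cases hca : IsCoprime c a
  swap
  · rw [if_neg hca, if_neg fun h => hca h.of_mul_right_right.symm]
    simp
  have hy : 0 < nr a / A := div_pos (nr_pos ha.ne_zero) hA
  have hW : Wc (nr a / A) (-(1 / 6)) =
      Wc (nr a / A) 0 * ((nr a ^ (-(1 / 6 : ℝ)) / A ^ (-(1 / 6 : ℝ)) : ℝ) : ℂ) := by
    rw [← Real.div_rpow (by positivity) hA.le, Complex.ofReal_cpow hy.le, ← Wc_add hy]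
    congr 1
    push_cast
    ring
  have hA' : ((A ^ (-(1 / 6 : ℝ)) : ℝ) : ℂ) ≠ 0 :=
    Complex.ofReal_ne_zero.2 (Real.rpow_pos_of_pos hA _).ne'
  rw [if_pos hca, if_pos ((hab.of_isCoprime_of_dvd_right hg).mul_right hca.symm), hW,
    tc_mul ha h₁.1 h₁.2 hab, gk, map_mul, Complex.conj_conj, Complex.conj_ofReal]
  generalize nr a ^ (-(1 / 6 : ℝ)) = x
  generalize nr (g * c) ^ (-(1 / 6 : ℝ)) = y
  generalize A ^ (-(1 / 6 : ℝ)) = z at hA'
  push_cast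
  field_simp

open Classical in
theorem DspC_summable {A : ℝ} (hA : 0 < A) (z f : O) : Summable fun a : O =>
    if Primary a ∧ IsCoprime a z ∧ f ∣ a then tc (a * z) * Wc (nr a / A) (-(1 / 6)) else 0 := by
  have hb : PolyB (fun a => if Primary a ∧ IsCoprime a z ∧ f ∣ a then tc (a * z) else 0)
      (nr z ^ (1 / 6 : ℝ)) (1 / 6) := by
    refine ⟨if_neg fun h => h.1.ne_zero rfl, fun n => ?_⟩
    dsimp only
    split_ifs
    · refine (norm_tc_le _).trans (le_of_eq ?_)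
      rw [nr_mul, Real.mul_rpow (by positivity) (by positivity), mul_comm]
    · rw [norm_zero]
      positivity
  refine (summable_Sm hb hA (-(1 / 6))).of_norm.congr fun a => ?_
  split_ifs <;> simp

theorem DspC_min {A x f : ℝ} (hA : 0 ≤ A) (hx : 0 ≤ x) (hf : 0 < f) :
    min (Real.sqrt (f * x)) (A / f) ≤ A ^ (1 / 3 : ℝ) * x ^ (1 / 3 : ℝ) := by
  rw [← Real.mul_rpow hA hx]
  refine le_of_pow_le_pow_left₀ (n := 3) (by norm_num) (by positivity) ?_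
  rw [← Real.rpow_natCast (_ ^ (1 / 3 : ℝ)), ← Real.rpow_mul (by positivity)]
  have h0 : 0 ≤ min (Real.sqrt (f * x)) (A / f) := by positivity
  calc min (Real.sqrt (f * x)) (A / f) ^ 3
      = min (Real.sqrt (f * x)) (A / f) ^ 2 * min (Real.sqrt (f * x)) (A / f) := by ring
    _ ≤ Real.sqrt (f * x) ^ 2 * (A / f) :=
        mul_le_mul (pow_le_pow_left₀ h0 (min_le_left _ _) 2) (min_le_right _ _) h0 (by positivity)
    _ = (A * x) ^ (1 / 3 * ((3 : ℕ) : ℝ)) := by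
        rw [Real.sq_sqrt (by positivity)]
        norm_num
        field_simp

open Classical in
/-- `tc_mul`; coprimality with `b₂ / (b₁, b₂)` by Möbius; `min (x, y) ≤ x^{2/3} y^{1/3}`. -/
theorem cross_term {ε : ℝ} (hε : 0 < ε) : ∃ C : ℝ, 0 < C ∧ ∀ (A : ℝ) (b₁ b₂ : O), 1 ≤ A → PS b₁ →
    PS b₂ →
    ‖(∑' a : O, if Primary a then Wc (nr a / A) 0 * (gk a b₁ * conj (mdl a b₂)) else 0) -
      MT A b₁ b₂‖ ≤ C * (A * nr b₁ * nr b₂) ^ ε * A ^ (1 / 6 : ℝ) * nr b₁ ^ (1 / 3 : ℝ) *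
        nr b₂ ^ (-(1 / 6 : ℝ)) := by
  obtain ⟨C₁, hC₁, h1⟩ := cross_f (half_pos hε)
  obtain ⟨C₂, hC₂, h2⟩ := card_pdiv_le (half_pos hε)
  have hcP := AFa_cP_pos
  refine ⟨cP * C₁ * C₂, by positivity, fun A b₁ b₂ hA h₁ h₂ => ?_⟩
  obtain ⟨g, c, hc, hg, rfl, hbc, hphi⟩ := DspC_split h₁ h₂
  have hA0 : 0 < A := one_pos.trans_le hA
  have n1 := h₁.one_le
  have n2 := h₂.one_le
  have n3 : nr c ≤ nr (g * c) := Nat.cast_le.2 (nm_le_of_dvd (dvd_mul_left c g) h₂.ne_zero)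
  have hMT : MT A b₁ (g * c) =
      ((cP * A ^ (-(1 / 6 : ℝ)) * nr (g * c) ^ (-(1 / 6 : ℝ)) : ℝ) : ℂ) * ∑ f ∈ pdiv c, mu f *
        (((cP * rho0 * phi b₁ / nr f * A ^ (5 / 6 : ℝ) * nr b₁ ^ (-(1 / 6 : ℝ)) : ℝ) : ℂ) *
          Wm (2 / 3)) := by
    have e1 : ∑ f ∈ pdiv c, mu f *
        (((cP * rho0 * phi b₁ / nr f * A ^ (5 / 6 : ℝ) * nr b₁ ^ (-(1 / 6 : ℝ)) : ℝ) : ℂ) *
          Wm (2 / 3)) = (phi c : ℂ) * (((cP * rho0 * phi b₁ * A ^ (5 / 6 : ℝ) *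
            nr b₁ ^ (-(1 / 6 : ℝ)) : ℝ) : ℂ) * Wm (2 / 3)) := by
      rw [← hc.sum_mu_div, Finset.sum_mul]
      refine Finset.sum_congr rfl fun f _ => ?_
      rw [div_eq_mul_inv]
      simp only [Complex.ofReal_mul]
      ring
    have e2 : A ^ (2 / 3 : ℝ) = A ^ (-(1 / 6 : ℝ)) * A ^ (5 / 6 : ℝ) := by
      rw [← Real.rpow_add hA0]
      norm_num
    rw [e1, MT, hphi, e2, Real.mul_rpow (by positivity) (by positivity)]
    simp only [Complex.ofReal_mul, Complex.ofReal_pow]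
    ring
  rw [tsum_congr (DspC_pt hA0 h₁ hc hg), tsum_mul_left, Summable.tsum_finsetSum
    (fun f _ => (DspC_summable hA0 b₁ f).mul_left _), hMT, ← mul_sub, ← Finset.sum_sub_distrib,
    norm_mul, Complex.norm_real, Real.norm_of_nonneg (by positivity)]
  have hb : ∀ f ∈ pdiv c, ‖(∑' a : O, mu f * (if Primary a ∧ IsCoprime a b₁ ∧ f ∣ a then
      tc (a * b₁) * Wc (nr a / A) (-(1 / 6)) else 0)) - mu f *
        (((cP * rho0 * phi b₁ / nr f * A ^ (5 / 6 : ℝ) * nr b₁ ^ (-(1 / 6 : ℝ)) : ℝ) : ℂ) *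
          Wm (2 / 3))‖ ≤ C₁ * (A * nr b₁ * nr (g * c)) ^ (ε / 2) *
            (A ^ (1 / 3 : ℝ) * nr b₁ ^ (1 / 3 : ℝ)) := by
    intro f hf
    obtain ⟨f1, f2⟩ := (mem_pdiv hc.ne_zero).1 hf
    have hf' := hc.of_dvd f1 f2
    have n4 : nr f ≤ nr (g * c) :=
      (Nat.cast_le.2 (nm_le_of_dvd f2 hc.ne_zero) : nr f ≤ nr c).trans n3
    rw [tsum_mul_left, ← mul_sub, norm_mul]
    refine (mul_le_of_le_one_left (norm_nonneg _) (norm_mu_le f)).trans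
      ((h1 A b₁ f hA h₁ hf' (hbc.of_isCoprime_of_dvd_right f2)).trans ?_)
    have := DspC_min hA0.le (zero_le_one.trans n1) (nr_pos hf'.ne_zero)
    gcongr
  have hcard : ((pdiv c).card : ℝ) ≤ C₂ * (A * nr b₁ * nr (g * c)) ^ (ε / 2) := by
    refine (h2 c hc.ne_zero).trans ?_
    have : nr c ≤ A * nr b₁ * nr (g * c) :=
      n3.trans (le_mul_of_one_le_left (by positivity) (one_le_mul_of_one_le_of_one_le hA n1))
    gcongr
  have e3 : A ^ (1 / 6 : ℝ) = A ^ (-(1 / 6 : ℝ)) * A ^ (1 / 3 : ℝ) := by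
    rw [← Real.rpow_add hA0]
    norm_num
  have e4 : (A * nr b₁ * nr (g * c)) ^ ε =
      (A * nr b₁ * nr (g * c)) ^ (ε / 2) * (A * nr b₁ * nr (g * c)) ^ (ε / 2) := by
    rw [← Real.rpow_add (by positivity), add_halves]
  have e5 := (norm_sum_le _ _).trans (Finset.sum_le_card_nsmul _ _ _ hb)
  rw [nsmul_eq_mul] at e5
  refine (mul_le_mul_of_nonneg_left (e5.trans (mul_le_mul_of_nonneg_right hcard (by positivity)))
    (by positivity)).trans (le_of_eq ?_)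
  rw [e3, e4]
  ring

end Crest.Agent.R12
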