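import Crest.Agent.R12.ThetaA

/-!
# Row 12, theta half: type I estimates for the completed cubic Gauss sums
-/

set_option autoImplicit false

noncomputable section

namespace Crest.Agent.R12

open Crest.Agent.R17
open scoped ComplexConjugate Topology
open Filter MeasureTheory

attribute [local irreducible] res

private theorem ThetaI_lineI_mul (σ : ℝ) (c : ℂ) (F : ℂ → ℂ) :
    lineI σ (fun t => c * F t) = c * lineI σ F := by
  unfold lineI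
  rw [integral_const_mul]; ring

private theorem ThetaI_integrand (m : ℕ) {A B : ℝ} (hA : 0 < A) (hB : 0 < B) (t D : ℂ) :
    (A : ℂ) ^ (1 - t + ((m : ℝ) / 2 - 1 / 6 : ℝ)) *
        ((Complex.Gamma (1 - t + ((m : ℝ) / 2 - 1 / 6 : ℝ)))⁻¹ *
          (Complex.Gamma (1 - t + ((m : ℝ) / 2 - 1 / 6 : ℝ) + 1 / 3))⁻¹) *
        (Complex.Gamma (t + ((m : ℝ) / 2 - 1 / 6 : ℝ)) *
          Complex.Gamma (t + ((m : ℝ) / 2 - 1 / 6 : ℝ) + 1 / 3)) *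
        (B : ℂ) ^ (-(t + ((m : ℝ) / 2 - 1 / 6 : ℝ))) * D =
      ((A ^ (1 + ((m : ℝ) / 2 - 1 / 6)) * B ^ (-((m : ℝ) / 2 - 1 / 6)) : ℝ) : ℂ) *
        (gamT m t * ((A * B : ℝ) : ℂ) ^ (-t) * D) := by
  set δ : ℝ := (m : ℝ) / 2 - 1 / 6 with hδ
  have hA' : (A : ℂ) ≠ 0 := by exact_mod_cast hA.ne'
  have hB' : (B : ℂ) ≠ 0 := by exact_mod_cast hB.ne'
  have e1 : (A : ℂ) ^ (1 - t + δ) = ((A ^ (1 + δ) : ℝ) : ℂ) * (A : ℂ) ^ (-t) := by
    rw [Complex.ofReal_cpow hA.le, ← Complex.cpow_add _ _ hA']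
    congr 1; push_cast; ring
  have e2 : (B : ℂ) ^ (-(t + δ)) = ((B ^ (-δ) : ℝ) : ℂ) * (B : ℂ) ^ (-t) := by
    rw [Complex.ofReal_cpow hB.le, ← Complex.cpow_add _ _ hB']
    congr 1; push_cast; ring
  have e3 : ((A * B : ℝ) : ℂ) ^ (-t) = (A : ℂ) ^ (-t) * (B : ℂ) ^ (-t) := by
    rw [Complex.ofReal_mul, Complex.mul_cpow_ofReal_nonneg hA.le hB.le]
  have g1 : t - 1 / 2 + ((1 / 3 + (m : ℝ) / 2 : ℝ) : ℂ) = t + δ := by
    rw [hδ]; push_cast; ring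
  have g2 : 1 / 2 - t + ((1 / 3 + (m : ℝ) / 2 : ℝ) : ℂ) = 1 - t + δ := by
    rw [hδ]; push_cast; ring
  have g3 : t - 1 / 2 + ((2 / 3 + (m : ℝ) / 2 : ℝ) : ℂ) = t + δ + 1 / 3 := by
    rw [hδ]; push_cast; ring
  have g4 : 1 / 2 - t + ((2 / 3 + (m : ℝ) / 2 : ℝ) : ℂ) = 1 - t + δ + 1 / 3 := by
    rw [hδ]; push_cast; ring
  rw [e1, e2, e3, gamT, gamR, gamR, g1, g2, g3, g4, Complex.ofReal_mul]
  ring

private theorem ThetaI_polar {z : O} (hz : Primary z) :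
    ((Real.Gamma (1 / 3) / (9 * cP * nr z) : ℝ) : ℂ) * ((9 * b1 : ℝ) : ℂ) ^ ((2 / 3 : ℝ) : ℂ) *
        ((Complex.Gamma ((2 / 3 : ℝ) : ℂ))⁻¹ * (Complex.Gamma (((2 / 3 : ℝ) : ℂ) + 1 / 3))⁻¹) =
      ((cP * rho0 / nr z : ℝ) : ℂ) := by
  have h1 : ((2 / 3 : ℝ) : ℂ) + 1 / 3 = 1 := by push_cast; ring
  have hA : (0 : ℝ) ≤ 9 * b1 := by have := b1_pos; positivity
  rw [h1, Complex.Gamma_one, Complex.Gamma_ofReal, ← Complex.ofReal_cpow hA, inv_one, mul_one,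
    ← Complex.ofReal_inv, ← Complex.ofReal_mul, ← Complex.ofReal_mul]
  congr 1
  have h2 := cP_rho
  have h3 := cP_pos
  have h4 := nr_pos hz.ne_zero
  have h5 : 0 < Real.Gamma (2 / 3) := Real.Gamma_pos_of_pos (by norm_num)
  calc Real.Gamma (1 / 3) / (9 * cP * nr z) * (9 * b1) ^ (2 / 3 : ℝ) * (Real.Gamma (2 / 3))⁻¹
      = ((9 * b1) ^ (2 / 3 : ℝ) * Real.Gamma (1 / 3) / Real.Gamma (2 / 3)) / (9 * cP * nr z) := by
        field_simp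
    _ = cP * rho0 / nr z := by rw [h2]; field_simp

/-- **Exact Voronoi formula with marks.** -/
theorem typeI_exact (l : ℤ) : ∃ (C : ℝ) (ω : O → O → ℂ), 0 < C ∧
    (∀ t za, Primary za → Squarefree za → ‖ω t za‖ ≤ C * (Real.sqrt (nr za))⁻¹) ∧
    ∀ z : O, Primary z → Squarefree z → ∀ Φ : ℂ → ℂ, StripDecay Φ → ∀ σ₁ : ℝ, 7 / 6 < σ₁ →
      lineI σ₁ (fun s => Φ s * Dser (tm l z) s) =
        (if l = 0 then ((cP * rho0 / nr z : ℝ) : ℂ) * Φ (5 / 6) else 0) +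
          (((nr z)⁻¹ : ℝ) : ℂ) * ∑ p ∈ res 9 ×ˢ pdiv z, ω p.1 p.2 *
            ∑' ν : O, bD (rep p.1 (p.2 % 9)) l p.2 ν *
              kerV Φ (gamT l.natAbs) (9 * b1 ^ 2 / nr p.2 ^ 2 * nr ν) := by
  obtain ⟨C, ω, hC, hω, hrel⟩ := theta_rel l
  obtain ⟨Cb, -, hbD⟩ := cubeB_bD
  have hb1 := b1_pos
  have hA : (0 : ℝ) < 9 * b1 := by positivity
  set δ : ℝ := (l.natAbs : ℝ) / 2 - 1 / 6 with hδ
  have hδ0 : -(1 / 6) ≤ δ := by
    have : (0 : ℝ) ≤ (l.natAbs : ℝ) := Nat.cast_nonneg _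
    rw [hδ]; linarith
  refine ⟨C * ((9 * b1) ^ (1 + δ) * b1 ^ (-δ)),
    fun t za => ω t za * (((9 * b1) ^ (1 + δ) * (b1 / nr za ^ 2) ^ (-δ) : ℝ) : ℂ),
    by positivity, fun t za hza hsq => ?_, fun z hz hsq Φ hΦ σ₁ hσ => ?_⟩
  · have hN := nr_pos hza.ne_zero
    rw [norm_mul, Complex.norm_real, Real.norm_of_nonneg (by positivity)]
    have e1 : (b1 / nr za ^ 2) ^ (-δ) = b1 ^ (-δ) * nr za ^ (2 * δ) := by
      rw [Real.div_rpow hb1.le (by positivity), ← Real.rpow_natCast, ← Real.rpow_mul hN.le,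
        div_eq_mul_inv, ← Real.rpow_neg hN.le]
      congr 2; push_cast; ring
    have e2 : nr za ^ (-(1 / 6 + l.natAbs : ℝ)) * nr za ^ (2 * δ) = (Real.sqrt (nr za))⁻¹ := by
      rw [← Real.rpow_add hN, Real.sqrt_eq_rpow, ← Real.rpow_neg hN.le]
      congr 1; rw [hδ]; ring
    calc ‖ω t za‖ * ((9 * b1) ^ (1 + δ) * (b1 / nr za ^ 2) ^ (-δ))
        ≤ C * nr za ^ (-(1 / 6 + l.natAbs : ℝ)) * ((9 * b1) ^ (1 + δ) * (b1 / nr za ^ 2) ^ (-δ)) :=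
          mul_le_mul_of_nonneg_right (hω t za hza hsq) (by positivity)
      _ = C * ((9 * b1) ^ (1 + δ) * b1 ^ (-δ)) *
            (nr za ^ (-(1 / 6 + l.natAbs : ℝ)) * nr za ^ (2 * δ)) := by rw [e1]; ring
      _ = _ := by rw [e2]
  · have hB : ∀ p ∈ res 9 ×ˢ pdiv z, 0 < b1 / nr p.2 ^ 2 := fun p hp => by
      have := nr_pos ((mem_pdiv hz.ne_zero).1 (Finset.mem_product.1 hp).2).1.ne_zero
      positivity
    have key := vor_abs prof_W0 hδ0 (res 9 ×ˢ pdiv z) (a := tm l z)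
      (b := fun p => bD (rep p.1 (p.2 % 9)) l p.2) (cubeB_tm l z).polyB (H' := fun _ => Cb)
      (fun p _ => (hbD _ l _).polyB) hA (B := fun p => b1 / nr p.2 ^ 2) hB
      (fun p => (((nr z)⁻¹ : ℝ) : ℂ) * ω p.1 p.2)
      (g₀ := if l = 0 then ((Real.Gamma (1 / 3) / (9 * cP * nr z) : ℝ) : ℂ) else 0)
      (by
        by_cases hl : l = 0
        · right; rw [hδ, hl]; norm_num
        · left; exact if_neg hl)
      (hrel z hz hsq) hΦ hσ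
    rw [key]
    congr 1
    · by_cases hl : l = 0
      · have d1 : 1 + 2 * δ = 2 / 3 := by rw [hδ, hl]; norm_num
        have d2 : ((1 + δ : ℝ) : ℂ) = 5 / 6 := by rw [hδ, hl]; push_cast; norm_num
        rw [if_pos hl, if_pos hl, d1, d2, ThetaI_polar hz]
      · rw [if_neg hl, if_neg hl]; simp
    · rw [Finset.mul_sum]
      refine Finset.sum_congr rfl fun p hp => ?_
      have hBp := hB p hp
      have e : (fun t : ℂ => Φ (1 - t) * (((9 * b1 : ℝ) : ℂ) ^ (1 - t + δ) *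
          ((Complex.Gamma (1 - t + δ))⁻¹ * (Complex.Gamma (1 - t + δ + 1 / 3))⁻¹) *
          (Complex.Gamma (t + δ) * Complex.Gamma (t + δ + 1 / 3)) *
          ((b1 / nr p.2 ^ 2 : ℝ) : ℂ) ^ (-(t + δ)) * Dser (bD (rep p.1 (p.2 % 9)) l p.2) t)) =
          fun t : ℂ => (((9 * b1) ^ (1 + δ) * (b1 / nr p.2 ^ 2) ^ (-δ) : ℝ) : ℂ) *
            (Φ (1 - t) * (gamT l.natAbs t * ((9 * b1 * (b1 / nr p.2 ^ 2) : ℝ) : ℂ) ^ (-t) *
              Dser (bD (rep p.1 (p.2 % 9)) l p.2) t)) := by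
        funext t
        rw [hδ, ThetaI_integrand l.natAbs hA hBp]; ring
      rw [e, ThetaI_lineI_mul, lineI_dual (gamOK_T _) hΦ (hbD _ l _).polyB (mul_pos hA hBp),
        show 9 * b1 * (b1 / nr p.2 ^ 2) = 9 * b1 ^ 2 / nr p.2 ^ 2 by ring]
      ring

theorem sum_pdiv_rpow_le : ∃ K : ℝ, 0 < K ∧ ∀ (z : O) (e : ℝ), Primary z → 3 / 2 ≤ e →
    ∑ d ∈ pdiv z, nr d ^ e ≤ K * nr z ^ e := by
  classical
  have hs := summable_nr_rpow (σ := 3 / 2) (by norm_num)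
  have h0 : 0 ≤ ∑' n : O, nr n ^ (-(3 / 2 : ℝ)) := tsum_nonneg fun _ => by positivity
  refine ⟨∑' n : O, nr n ^ (-(3 / 2 : ℝ)) + 1, by positivity, fun z e hz he => ?_⟩
  have hz0 := hz.ne_zero
  have hmul : ∀ d ∈ pdiv z, d * (z / d) = z := fun d hd =>
    EuclideanDomain.mul_div_cancel' ((mem_pdiv hz0).1 hd).1.ne_zero ((mem_pdiv hz0).1 hd).2
  have hq : ∀ d ∈ pdiv z, z / d ≠ 0 := fun d hd h => by
    have := hmul d hd
    rw [h, mul_zero] at this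
    exact hz0 this.symm
  have hinj : Set.InjOn (fun d => z / d) (pdiv z : Set O) := fun d hd d' hd' h => by
    have h' : z / d = z / d' := h
    have e : d * (z / d) = d' * (z / d) := by rw [hmul d hd, h', hmul d' hd']
    exact mul_right_cancel₀ (hq d hd) e
  have h1 : ∀ d ∈ pdiv z, nr d ^ e ≤ nr (z / d) ^ (-(3 / 2 : ℝ)) * nr z ^ e := fun d hd => by
    have a1 := one_le_nr (hq d hd)
    have a2 := nr_pos ((mem_pdiv hz0).1 hd).1.ne_zero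
    have a3 : nr z = nr d * nr (z / d) := by rw [← nr_mul, hmul d hd]
    rw [a3, Real.mul_rpow a2.le (by linarith), mul_left_comm, ← Real.rpow_add (by linarith)]
    exact le_mul_of_one_le_right (by positivity) (Real.one_le_rpow a1 (by linarith))
  calc ∑ d ∈ pdiv z, nr d ^ e ≤ ∑ d ∈ pdiv z, nr (z / d) ^ (-(3 / 2 : ℝ)) * nr z ^ e :=
        Finset.sum_le_sum h1
    _ = (∑ q ∈ (pdiv z).image (fun d => z / d), nr q ^ (-(3 / 2 : ℝ))) * nr z ^ e := by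
        rw [Finset.sum_image hinj, Finset.sum_mul]
    _ ≤ _ := by
        refine mul_le_mul_of_nonneg_right ?_ (by positivity)
        have := hs.sum_le_tsum ((pdiv z).image (fun d => z / d)) (fun _ _ => by positivity)
        linarith

private theorem ThetaI_sum {z : O} (hz : Primary z) {K : ℝ}
    (hK : ∀ (z : O) (e : ℝ), Primary z → 3 / 2 ≤ e → ∑ d ∈ pdiv z, nr d ^ e ≤ K * nr z ^ e)
    {f : O × O → ℂ} {c e : ℝ} (hc : 0 ≤ c) (he : 3 / 2 ≤ e)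
    (hf : ∀ p ∈ res 9 ×ˢ pdiv z, ‖f p‖ ≤ c * nr p.2 ^ e) :
    ‖(((nr z)⁻¹ : ℝ) : ℂ) * ∑ p ∈ res 9 ×ˢ pdiv z, f p‖ ≤
      ((res 9).card : ℝ) * K * c * nr z ^ (e - 1) := by
  have hN := nr_pos hz.ne_zero
  rw [norm_mul, Complex.norm_real, Real.norm_of_nonneg (by positivity)]
  have h1 : ‖∑ p ∈ res 9 ×ˢ pdiv z, f p‖ ≤ ((res 9).card : ℝ) * (c * (K * nr z ^ e)) := by
    calc ‖∑ p ∈ res 9 ×ˢ pdiv z, f p‖ ≤ ∑ p ∈ res 9 ×ˢ pdiv z, c * nr p.2 ^ e :=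
          (norm_sum_le _ _).trans (Finset.sum_le_sum hf)
      _ = ((res 9).card : ℝ) * (c * ∑ d ∈ pdiv z, nr d ^ e) := by
          rw [Finset.sum_product]
          simp only [← Finset.mul_sum, Finset.sum_const, nsmul_eq_mul]
          ring
      _ ≤ _ := by gcongr; exact hK z e hz he
  calc (nr z)⁻¹ * ‖∑ p ∈ res 9 ×ˢ pdiv z, f p‖
      ≤ (nr z)⁻¹ * (((res 9).card : ℝ) * (c * (K * nr z ^ e))) := by gcongr
    _ = _ := by rw [Real.rpow_sub_one hN.ne']; field_simp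

/-- **Type I estimate.** -/
theorem typeI (l : ℤ) {j : ℕ} (hj : 1 ≤ j) : ∃ C : ℝ, 0 < C ∧
    ∀ z : O, Primary z → Squarefree z → ∀ Φ : ℂ → ℂ, StripDecay Φ → ∀ σ₁ : ℝ, 7 / 6 < σ₁ →
      ‖lineI σ₁ (fun s => Φ s * Dser (tm l z) s) -
          (if l = 0 then ((cP * rho0 / nr z : ℝ) : ℂ) * Φ (5 / 6) else 0)‖ ≤
        C * min (Real.sqrt (nr z) * Real.sqrt (Mom Φ (1 / 2) 0 * Mom Φ (-(1 / 2)) 4))
          (nr z ^ (2 * j - 1 / 2 : ℝ) * Mom Φ (1 / 2 - j) (4 * j)) := by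
  obtain ⟨C, ω, hC, hω, hex⟩ := typeI_exact l
  obtain ⟨Cb, hCb, hbD⟩ := cubeB_bD
  obtain ⟨Cd, hCd, hd⟩ := dual_le (gamOK_T l.natAbs) hj
  obtain ⟨K, hK0, hK⟩ := sum_pdiv_rpow_le
  have hb1 := b1_pos
  set c₁ : ℝ := (9 * b1 ^ 2)⁻¹ with hc₁
  set c₂ : ℝ := (9 * b1 ^ 2) ^ (-(1 / 2 + j : ℝ)) with hc₂
  have hc₁0 : 0 < c₁ := by positivity
  have hc₂0 : 0 < c₂ := by positivity
  refine ⟨(((res 9).card : ℝ) + 1) * K * (C * Cd * Cb * (c₁ + c₂)), by positivity,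
    fun z hz hsq Φ hΦ σ₁ hσ => ?_⟩
  rw [hex z hz hsq Φ hΦ σ₁ hσ, add_sub_cancel_left]
  set a : ℝ := Real.sqrt (Mom Φ (1 / 2) 0 * Mom Φ (-(1 / 2)) 4) with ha
  set b : ℝ := Mom Φ (1 / 2 - j) (4 * j) with hb
  have ha0 : 0 ≤ a := Real.sqrt_nonneg _
  have hb0 : 0 ≤ b := Mom_nonneg _ _ _
  have hN := nr_pos hz.ne_zero
  have hterm : ∀ p ∈ res 9 ×ˢ pdiv z,
      ‖ω p.1 p.2 * ∑' ν : O, bD (rep p.1 (p.2 % 9)) l p.2 ν *
          kerV Φ (gamT l.natAbs) (9 * b1 ^ 2 / nr p.2 ^ 2 * nr ν)‖ ≤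
        C * Cd * Cb * (c₁ + c₂) * a * nr p.2 ^ (3 / 2 : ℝ) ∧
      ‖ω p.1 p.2 * ∑' ν : O, bD (rep p.1 (p.2 % 9)) l p.2 ν *
          kerV Φ (gamT l.natAbs) (9 * b1 ^ 2 / nr p.2 ^ 2 * nr ν)‖ ≤
        C * Cd * Cb * (c₁ + c₂) * b * nr p.2 ^ (2 * j + 1 / 2 : ℝ) := by
    intro p hp
    obtain ⟨hp1, hp2⟩ := (mem_pdiv hz.ne_zero).1 (Finset.mem_product.1 hp).2
    have n1 := one_le_nr hp1.ne_zero
    have n0 : 0 < nr p.2 := by linarith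
    have h1 := hω p.1 p.2 hp1 (hsq.squarefree_of_dvd hp2)
    have h2 := hd Φ _ Cb (9 * b1 ^ 2 / nr p.2 ^ 2) hΦ (hbD (rep p.1 (p.2 % 9)) l p.2)
      (by positivity)
    have e1 : Real.sqrt (Mom Φ (1 / 2) 0 * Mom Φ (-(1 / 2)) 4) / (9 * b1 ^ 2 / nr p.2 ^ 2) =
        a * (c₁ * nr p.2 ^ 2) := by
      rw [hc₁, ← ha]
      field_simp
    have e2 : (9 * b1 ^ 2 / nr p.2 ^ 2) ^ (-(1 / 2 + j : ℝ)) = c₂ * nr p.2 ^ (1 + 2 * j : ℝ) := by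
      rw [Real.div_rpow (by positivity) (by positivity), ← Real.rpow_natCast (nr p.2),
        ← Real.rpow_mul n0.le, div_eq_mul_inv, ← Real.rpow_neg n0.le]
      congr 2; push_cast; ring
    rw [e1, e2] at h2
    have e3 : (Real.sqrt (nr p.2))⁻¹ * nr p.2 ^ 2 = nr p.2 ^ (3 / 2 : ℝ) := by
      rw [Real.sqrt_eq_rpow, ← Real.rpow_neg n0.le, ← Real.rpow_natCast, ← Real.rpow_add n0]
      congr 1; push_cast; ring
    have e4 : (Real.sqrt (nr p.2))⁻¹ * nr p.2 ^ (1 + 2 * j : ℝ) = nr p.2 ^ (2 * j + 1 / 2 : ℝ) := by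
      rw [Real.sqrt_eq_rpow, ← Real.rpow_neg n0.le, ← Real.rpow_add n0]
      congr 1; ring
    rw [norm_mul]
    constructor
    · calc _ ≤ (C * (Real.sqrt (nr p.2))⁻¹) * (Cd * Cb * (a * (c₁ * nr p.2 ^ 2))) :=
            mul_le_mul h1 (h2.trans (by gcongr; exact min_le_left _ _)) (norm_nonneg _)
              (by positivity)
        _ = C * Cd * Cb * c₁ * a * ((Real.sqrt (nr p.2))⁻¹ * nr p.2 ^ 2) := by ring
        _ ≤ _ := by rw [e3]; gcongr; linarith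
    · calc _ ≤ (C * (Real.sqrt (nr p.2))⁻¹) * (Cd * Cb * (b * (c₂ * nr p.2 ^ (1 + 2 * j : ℝ)))) :=
            mul_le_mul h1 (h2.trans (by gcongr; exact min_le_right _ _)) (norm_nonneg _)
              (by positivity)
        _ = C * Cd * Cb * c₂ * b * ((Real.sqrt (nr p.2))⁻¹ * nr p.2 ^ (1 + 2 * j : ℝ)) := by ring
        _ ≤ _ := by rw [e4]; gcongr; linarith
  have hj' : (1 : ℝ) ≤ j := by exact_mod_cast hj
  have s1 := ThetaI_sum hz hK (by positivity) le_rfl fun p hp => (hterm p hp).1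
  have s2 := ThetaI_sum hz hK (by positivity) (by linarith) fun p hp => (hterm p hp).2
  rw [mul_min_of_nonneg _ _ (by positivity)]
  refine le_min (s1.trans ?_) (s2.trans ?_)
  · rw [show (3 / 2 - 1 : ℝ) = 1 / 2 by norm_num, ← Real.sqrt_eq_rpow]
    calc _ = ((res 9).card : ℝ) * K * (C * Cd * Cb * (c₁ + c₂)) * (Real.sqrt (nr z) * a) := by ring
      _ ≤ _ := by gcongr; linarith
  · rw [show (2 * j + 1 / 2 - 1 : ℝ) = 2 * j - 1 / 2 by ring]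
    calc _ = ((res 9).card : ℝ) * K * (C * Cd * Cb * (c₁ + c₂)) *
          (nr z ^ (2 * j - 1 / 2 : ℝ) * b) := by ring
      _ ≤ _ := by gcongr; linarith

/-- The same for the log-Gaussian weights. -/
theorem typeI_Wc (l : ℤ) {j : ℕ} (hj : 1 ≤ j) (B : ℝ) : ∃ C : ℝ, 0 < C ∧
    ∀ z : O, Primary z → Squarefree z → ∀ (X : ℝ) (s : ℂ), 0 < X → |s.re| ≤ B →
      ‖Sm (tm l z) X s - (if l = 0 then
          ((cP * rho0 / nr z * X ^ (5 / 6 : ℝ) : ℝ) : ℂ) * Wm (5 / 6 + s) else 0)‖ ≤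
        C * min (Real.sqrt (nr z) * (1 + |s.im|) ^ 2)
          (Real.sqrt (X / nr z) * (nr z ^ 2 * (1 + |s.im|) ^ 4 / X) ^ j) := by
  obtain ⟨C, hC, h⟩ := typeI l hj
  obtain ⟨C₀, hC₀, h₀⟩ := Mom_Wm_le (1 / 2) B 0
  obtain ⟨C₁, hC₁, h₁⟩ := Mom_Wm_le (-(1 / 2)) B 4
  obtain ⟨C₂, hC₂, h₂⟩ := Mom_Wm_le (1 / 2 - j) B (4 * j)
  refine ⟨C * (Real.sqrt (C₀ * C₁) + C₂), by positivity, fun z hz hsq X s hX hs => ?_⟩
  have hN := nr_pos hz.ne_zero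
  have key := h z hz hsq _ (stripDecay_Wm hX s) 2 (by norm_num)
  rw [← Sm_eq_lineI (cubeB_tm l z).polyB hX s] at key
  have e : (if l = 0 then ((cP * rho0 / nr z * X ^ (5 / 6 : ℝ) : ℝ) : ℂ) * Wm (5 / 6 + s) else 0) =
      if l = 0 then ((cP * rho0 / nr z : ℝ) : ℂ) * (Wm (5 / 6 + s) * (X : ℂ) ^ (5 / 6 : ℂ))
        else 0 := by
    split_ifs
    · rw [Complex.ofReal_mul, Complex.ofReal_cpow hX.le,
        show ((5 / 6 : ℝ) : ℂ) = 5 / 6 by push_cast; rfl]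
      ring
    · rfl
  rw [e]
  refine key.trans ?_
  set T : ℝ := 1 + |s.im| with hT
  have hT0 : 0 < T := by positivity
  have a1 : Real.sqrt (Mom (fun s' => Wm (s' + s) * (X : ℂ) ^ s') (1 / 2) 0 *
      Mom (fun s' => Wm (s' + s) * (X : ℂ) ^ s') (-(1 / 2)) 4) ≤ Real.sqrt (C₀ * C₁) * T ^ 2 := by
    have b1 := mul_le_mul (h₀ X s hX hs) (h₁ X s hX hs) (Mom_nonneg _ _ _) (by positivity)
    have b2 : C₀ * T ^ 0 * X ^ (1 / 2 : ℝ) * (C₁ * T ^ 4 * X ^ (-(1 / 2) : ℝ)) =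
        C₀ * C₁ * (T ^ 2) ^ 2 := by
      rw [Real.rpow_neg hX.le]
      have : X ^ (1 / 2 : ℝ) ≠ 0 := by positivity
      field_simp
    rw [b2] at b1
    calc _ ≤ Real.sqrt (C₀ * C₁ * (T ^ 2) ^ 2) := Real.sqrt_le_sqrt b1
      _ = _ := by rw [Real.sqrt_mul (by positivity), Real.sqrt_sq (by positivity)]
  have a2 : nr z ^ (2 * j - 1 / 2 : ℝ) * (T ^ (4 * j) * X ^ (1 / 2 - j : ℝ)) =
      Real.sqrt (X / nr z) * (nr z ^ 2 * T ^ 4 / X) ^ j := by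
    rw [Real.sqrt_div hX.le, Real.rpow_sub hN, Real.rpow_sub hX, ← Real.sqrt_eq_rpow,
      ← Real.sqrt_eq_rpow, Real.rpow_natCast, show (2 * j : ℝ) = ((2 * j : ℕ) : ℝ) by push_cast; rfl,
      Real.rpow_natCast, div_pow, mul_pow, ← pow_mul, ← pow_mul]
    ring
  rw [mul_assoc C]
  refine mul_le_mul_of_nonneg_left ?_ hC.le
  rw [mul_min_of_nonneg _ _ (by positivity)]
  refine min_le_min ?_ ?_
  · calc _ ≤ Real.sqrt (nr z) * (Real.sqrt (C₀ * C₁) * T ^ 2) := by gcongr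
      _ = Real.sqrt (C₀ * C₁) * (Real.sqrt (nr z) * T ^ 2) := by ring
      _ ≤ _ := by gcongr; linarith
  · calc _ ≤ nr z ^ (2 * j - 1 / 2 : ℝ) * (C₂ * T ^ (4 * j) * X ^ (1 / 2 - j : ℝ)) := by
          gcongr; exact h₂ X s hX hs
      _ = C₂ * (nr z ^ (2 * j - 1 / 2 : ℝ) * (T ^ (4 * j) * X ^ (1 / 2 - j : ℝ))) := by ring
      _ ≤ _ := by
          rw [a2]; gcongr
          have := Real.sqrt_nonneg (C₀ * C₁); linarith

end Crest.Agent.R12
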