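import Crest.Agent.R12.Cnt
import Crest.Agent.R12.ThetaI

/-!
# Row 12, analytic half: the cross term
-/

set_option autoImplicit false

noncomputable section

namespace Crest.Agent.R12

open Crest.Agent.R17
open scoped ComplexConjugate Topology
open Filter MeasureTheory

theorem DspC0_polyB (d : O) : PolyB (tm 0 d) 1 (1 / 6) := by
  refine ⟨by simp [tm, tc_zero], fun n => ?_⟩
  rw [one_mul, tm]
  split_ifs
  · rw [zpow_zero, mul_one]; exact norm_tc_le n
  · rw [norm_zero]; positivity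

open Classical in
theorem DspC0_point {z f : O} (hz : PS z) (h : IsCoprime z f) (n : O) :
    (if z ∣ n ∧ IsCoprime (n / z) z ∧ f ∣ n then tc n else 0) =
      ∑ e ∈ pdiv z, if e ^ 3 ∣ n then
        mu e * (Real.sqrt (nr e) : ℂ) * tm 0 (f * (z / e)) (n / e ^ 3) else 0 := by
  by_cases hn : Primary n
  · have h1 := exact_eq_sum hz.1 hz.2 hn
    have h2 : (if z ∣ n ∧ IsCoprime (n / z) z ∧ f ∣ n then tc n else 0) =
        (if f ∣ n then 1 else 0) * (if z ∣ n ∧ IsCoprime (n / z) z then tc n else 0) := by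
      by_cases a : f ∣ n <;> by_cases b : z ∣ n <;> by_cases c : IsCoprime (n / z) z <;>
        simp [a, b, c]
    rw [h2, h1, Finset.mul_sum]
    refine Finset.sum_congr rfl fun e he => ?_
    obtain ⟨e1, -, -, e4⟩ := hz.div he
    by_cases h3 : e ^ 3 ∣ n
    · obtain ⟨m, rfl⟩ := h3
      have h4 : e ^ 3 * m / e ^ 3 = m := mul_div_cancel_left₀ _ (pow_ne_zero 3 e1.ne_zero)
      have c1 : IsCoprime f e := (show IsCoprime (e * (z / e)) f by rwa [e4]).of_mul_left_left.symm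
      have c2 : IsCoprime f (z / e) := (show IsCoprime (e * (z / e)) f by rwa [e4]).of_mul_left_right.symm
      have h5 : f ∣ e ^ 3 * m ↔ f ∣ m :=
        ⟨fun h => (c1.pow_right (n := 3)).dvd_of_dvd_mul_left h, fun h => h.mul_left _⟩
      have h6 : f * (z / e) ∣ m ↔ f ∣ m ∧ z / e ∣ m :=
        ⟨fun h => ⟨dvd_of_mul_right_dvd h, dvd_of_mul_left_dvd h⟩, fun h => c2.mul_dvd h.1 h.2⟩
      rw [h4, tm, h5, h6]
      by_cases a : f ∣ m <;> by_cases b : z / e ∣ m <;> simp [a, b]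
    · simp [h3]
  · rw [tc_of_not hn, ite_self]
    refine (Finset.sum_eq_zero fun e he => ?_).symm
    obtain ⟨e1, -, -, -⟩ := hz.div he
    split_ifs with h3
    · obtain ⟨m, rfl⟩ := h3
      have h4 : e ^ 3 * m / e ^ 3 = m := mul_div_cancel_left₀ _ (pow_ne_zero 3 e1.ne_zero)
      rw [h4, tm, tc_of_not (fun hm => hn ((e1.1.pow 3).mul hm))]
      simp
    · rfl

open Classical in
theorem DspC0_exact {A : ℝ} (hA : 0 < A) {z f : O} (hz : PS z) (h : IsCoprime z f) (s : ℂ) :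
    (∑' a : O, if Primary a ∧ IsCoprime a z ∧ f ∣ a then tc (a * z) * Wc (nr a / A) s else 0) =
      ∑ e ∈ pdiv z, mu e * (Real.sqrt (nr e) : ℂ) *
        Sm (tm 0 (f * (z / e))) (A * nr z / nr e ^ 3) s := by
  have hz0 := nr_pos hz.ne_zero
  have h1 : (∑' a : O, if Primary a ∧ IsCoprime a z ∧ f ∣ a then tc (a * z) * Wc (nr a / A) s
      else 0) = ∑' n : O, (if z ∣ n ∧ IsCoprime (n / z) z ∧ f ∣ n then tc n else 0) *
        Wc (nr n / (A * nr z)) s := by
    rw [← (mul_left_injective₀ hz.ne_zero).tsum_eq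
      (f := fun n => (if z ∣ n ∧ IsCoprime (n / z) z ∧ f ∣ n then tc n else 0) *
        Wc (nr n / (A * nr z)) s)]
    · refine tsum_congr fun a => ?_
      have e1 : a * z / z = a := mul_div_cancel_right₀ _ hz.ne_zero
      have e2 : nr (a * z) / (A * nr z) = nr a / A := by
        rw [nr_mul]; field_simp
      have e3 : f ∣ a * z ↔ f ∣ a := ⟨fun h' => h.symm.dvd_of_dvd_mul_right h', fun h' => h'.mul_right _⟩
      simp only [e1, e2, e3]
      by_cases ha : Primary a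
      · by_cases b : IsCoprime a z ∧ f ∣ a <;> simp [ha, b]
      · rw [tc_of_not (fun hm => ha (hz.1.of_mul (mul_comm a z ▸ hm)))]
        simp
    · intro n hn
      by_contra hc
      refine hn ?_
      have : ¬ z ∣ n := fun ⟨d, hd⟩ => hc ⟨d, by rw [hd, mul_comm]⟩
      simp [this]
  have h2 : ∀ e ∈ pdiv z, HasSum (fun n : O => (if e ^ 3 ∣ n then
      mu e * (Real.sqrt (nr e) : ℂ) * tm 0 (f * (z / e)) (n / e ^ 3) else 0) *
        Wc (nr n / (A * nr z)) s)
      (mu e * (Real.sqrt (nr e) : ℂ) * Sm (tm 0 (f * (z / e))) (A * nr z / nr e ^ 3) s) := by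
    intro e he
    obtain ⟨e1, -, -, -⟩ := hz.div he
    have he0 := nr_pos e1.ne_zero
    have he3 := pow_ne_zero 3 e1.ne_zero
    rw [← (mul_right_injective₀ he3).hasSum_iff]
    · have h3 := ((summable_Sm (DspC0_polyB (f * (z / e))) (X := A * nr z / nr e ^ 3)
        (by positivity) s).of_norm.hasSum).mul_left (mu e * (Real.sqrt (nr e) : ℂ))
      refine h3.congr_fun ?_
      intro m
      have h4 : e ^ 3 * m / e ^ 3 = m := mul_div_cancel_left₀ _ he3
      have h5 : nr (e ^ 3 * m) / (A * nr z) = nr m / (A * nr z / nr e ^ 3) := by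
        rw [nr_mul, nr_pow]; field_simp
      simp only [Function.comp, h4, h5, dvd_mul_right, if_true]
      ring
    · intro n hn
      have : ¬ e ^ 3 ∣ n := fun ⟨d, hd⟩ => hn ⟨d, hd.symm⟩
      simp [this]
  rw [h1, ← (hasSum_sum h2).tsum_eq]
  refine tsum_congr fun n => ?_
  rw [DspC0_point hz h, Finset.sum_mul]

theorem DspC0_main {A : ℝ} (hA : 0 < A) {z f e : O} (hz : PS z) (hf : PS f) (he : e ∈ pdiv z) :
    Real.sqrt (nr e) * (cP * rho0 / nr (f * (z / e)) * (A * nr z / nr e ^ 3) ^ (5 / 6 : ℝ)) =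
      (nr e)⁻¹ * (cP * rho0 / nr f * A ^ (5 / 6 : ℝ) * nr z ^ (-(1 / 6 : ℝ))) := by
  obtain ⟨e1, e2, -, e4⟩ := hz.div he
  have he0 := nr_pos e1.ne_zero
  have hz0 := nr_pos hz.ne_zero
  have hf0 := nr_pos hf.ne_zero
  have h1 : nr (z / e) = nr z / nr e := by
    rw [eq_div_iff he0.ne', mul_comm, ← nr_mul, e4]
  have h2 : (nr e ^ 3) ^ (5 / 6 : ℝ) = nr e ^ 2 * Real.sqrt (nr e) := by
    rw [← Real.rpow_natCast, ← Real.rpow_mul he0.le, Real.sqrt_eq_rpow, ← Real.rpow_natCast,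
      ← Real.rpow_add he0]
    norm_num
  have h3 : nr z ^ (5 / 6 : ℝ) = nr z * nr z ^ (-(1 / 6 : ℝ)) := by
    rw [show (5 / 6 : ℝ) = 1 + -(1 / 6) by norm_num, Real.rpow_add hz0, Real.rpow_one]
  have h4 := Real.sqrt_pos.2 he0
  rw [nr_mul, h1, Real.div_rpow (by positivity) (by positivity), Real.mul_rpow hA.le hz0.le, h2, h3]
  field_simp

open Classical in
theorem DspC0_first {ε : ℝ} (hε : 0 < ε) : ∃ C : ℝ, 0 < C ∧ ∀ (A : ℝ) (z f : O), 0 < A → PS z →
    PS f → IsCoprime z f →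
    ‖(∑' a : O, if Primary a ∧ IsCoprime a z ∧ f ∣ a then
        tc (a * z) * Wc (nr a / A) (-(1 / 6)) else 0) -
      ((cP * rho0 * phi z / nr f * A ^ (5 / 6 : ℝ) * nr z ^ (-(1 / 6 : ℝ)) : ℝ) : ℂ) * Wm (2 / 3)‖ ≤
      C * nr z ^ ε * Real.sqrt (nr f * nr z) := by
  obtain ⟨C₁, hC₁, h₁⟩ := typeI_Wc 0 (j := 1) le_rfl 1
  obtain ⟨C₂, hC₂, h₂⟩ := card_pdiv_le hε
  refine ⟨C₂ * C₁, by positivity, fun A z f hA hz hf h => ?_⟩
  have hz0 := nr_pos hz.ne_zero
  have hM : ((cP * rho0 * phi z / nr f * A ^ (5 / 6 : ℝ) * nr z ^ (-(1 / 6 : ℝ)) : ℝ) : ℂ) *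
      Wm (2 / 3) = ∑ e ∈ pdiv z, mu e * (Real.sqrt (nr e) : ℂ) *
        (((cP * rho0 / nr (f * (z / e)) * (A * nr z / nr e ^ 3) ^ (5 / 6 : ℝ) : ℝ) : ℂ) *
          Wm (5 / 6 + -(1 / 6))) := by
    have e1 : ∀ e ∈ pdiv z, mu e * (Real.sqrt (nr e) : ℂ) *
        (((cP * rho0 / nr (f * (z / e)) * (A * nr z / nr e ^ 3) ^ (5 / 6 : ℝ) : ℝ) : ℂ) *
          Wm (5 / 6 + -(1 / 6))) = mu e * ((nr e)⁻¹ : ℝ) *
        (((cP * rho0 / nr f * A ^ (5 / 6 : ℝ) * nr z ^ (-(1 / 6 : ℝ)) : ℝ) : ℂ) * Wm (2 / 3)) := by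
      intro e he
      have e2 := congrArg (fun x : ℝ => (x : ℂ)) (DspC0_main hA hz hf he)
      simp only [Complex.ofReal_mul (Real.sqrt _), Complex.ofReal_mul (nr e)⁻¹] at e2
      rw [show (5 / 6 + -(1 / 6) : ℂ) = 2 / 3 by norm_num]
      linear_combination mu e * Wm (2 / 3) * e2
    rw [Finset.sum_congr rfl e1, ← Finset.sum_mul, hz.sum_mu_div, ← mul_assoc, ← Complex.ofReal_mul]
    congr 2
    ring
  rw [DspC0_exact hA hz h, hM, ← Finset.sum_sub_distrib]
  refine (norm_sum_le _ _).trans ((Finset.sum_le_card_nsmul _ _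
    (C₁ * Real.sqrt (nr f * nr z)) fun e he => ?_).trans ?_)
  · obtain ⟨e1, e2, -, e4⟩ := hz.div he
    have he0 := nr_pos e1.ne_zero
    have c2 : IsCoprime f (z / e) := (show IsCoprime (e * (z / e)) f by rwa [e4]).of_mul_left_right.symm
    have hd := hf.mul e2 c2
    have b1 := h₁ _ hd.1 hd.2 (A * nr z / nr e ^ 3) (-(1 / 6)) (by positivity) (by
      have : (-(1 / 6) : ℂ).re = -(1 / 6) := by simp
      rw [this, abs_neg, abs_of_pos (by norm_num)]
      norm_num)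
    have b2 : (-(1 / 6) : ℂ).im = 0 := by simp
    rw [if_pos rfl, b2, abs_zero, add_zero, one_pow, mul_one] at b1
    have b3 := b1.trans (mul_le_mul_of_nonneg_left (min_le_left _ _) hC₁.le)
    have b4 : Real.sqrt (nr e) * Real.sqrt (nr (f * (z / e))) = Real.sqrt (nr f * nr z) := by
      rw [← Real.sqrt_mul he0.le, nr_mul, mul_left_comm, ← nr_mul e, e4]
    rw [← mul_sub, norm_mul, norm_mul, Complex.norm_real, Real.norm_of_nonneg (Real.sqrt_nonneg _),
      ← b4]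
    calc _ ≤ 1 * Real.sqrt (nr e) * (C₁ * Real.sqrt (nr (f * (z / e)))) :=
          mul_le_mul (mul_le_mul_of_nonneg_right (norm_mu_le e) (Real.sqrt_nonneg _)) b3
            (norm_nonneg _) (by positivity)
      _ = _ := by ring
  · rw [nsmul_eq_mul]
    refine (mul_le_mul_of_nonneg_right (h₂ z hz.ne_zero) (by positivity)).trans (le_of_eq ?_)
    ring

open Classical in
theorem DspC0_second {ε : ℝ} (hε : 0 < ε) : ∃ C : ℝ, 0 < C ∧ ∀ (A : ℝ) (z f : O), 1 ≤ A → PS z →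
    PS f →
    ‖∑' a : O, if Primary a ∧ IsCoprime a z ∧ f ∣ a then
        tc (a * z) * Wc (nr a / A) (-(1 / 6)) else 0‖ ≤ C * (A * nr z * nr f) ^ ε * (A / nr f) := by
  obtain ⟨C, hC, h⟩ := tm_thin hε
  refine ⟨Real.exp 2 * C, by positivity, fun A z f hA hz hf => ?_⟩
  have hz1 := hz.one_le
  have hf1 := hf.one_le
  have r1 : 1 ≤ A * nr z := one_le_mul_of_one_le_of_one_le hA hz1
  obtain ⟨s1, s2⟩ := h 0 f (A * nr z * nr f) 1 A hf (one_le_mul_of_one_le_of_one_le r1 hf1)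
    (le_mul_of_one_le_left (by positivity) r1) le_rfl (by linarith)
    (by rw [mul_assoc]
        exact le_mul_of_one_le_right (by linarith) (one_le_mul_of_one_le_of_one_le hz1 hf1))
  have s3 := s2.trans (mul_le_mul_of_nonneg_left (min_le_right _ _) (by positivity))
  refine (tsum_of_norm_bounded (s1.hasSum.mul_left (Real.exp 2)) fun a => ?_).trans ?_
  · split_ifs with ha
    · have b1 : ‖tc (a * z)‖ ≤ ‖tm 0 f a‖ := by
        rw [tm, if_pos ha.2.2, zpow_zero, mul_one, tc_mul ha.1 hz.1 hz.2 ha.2.1, norm_mul, norm_mul,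
          norm_Gn hz.1 hz.2, mul_one, Complex.norm_conj]
        exact mul_le_of_le_one_right (norm_nonneg _) (norm_cub_le _ _)
      have b2 : ‖Wc (nr a / A) (-(1 / 6))‖ ≤
          Real.exp 2 * Real.exp (-(1 + 1) * |Real.log (nr a / A)|) := by
        have : (-(1 / 6) : ℂ).re = -(1 / 6) := by simp
        rw [norm_Wc, this, ← Real.exp_add]
        refine Real.exp_le_exp.2 ?_
        nlinarith [sq_nonneg (|Real.log (nr a / A)| - 13 / 12), sq_abs (Real.log (nr a / A)),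
          neg_abs_le (Real.log (nr a / A))]
      rw [norm_mul, mul_left_comm]
      exact mul_le_mul b1 b2 (norm_nonneg _) (norm_nonneg _)
    · rw [norm_zero]; positivity
  · rw [mul_assoc, mul_assoc, ← mul_assoc C]
    exact mul_le_mul_of_nonneg_left s3 (Real.exp_pos _).le

open Classical in
/-- For `z` squarefree, `f` squarefree and coprime to `z`: the sum over `(a, z) = 1`, `f ∣ a` of
`tc (a z)`.  `exact_eq_sum`, `typeI_Wc` with the mark `f z / e` at scale `A N(z) / N(e)³`,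
`PS.sum_mu_div`; the second bound is trivial (`tm_thin` with `T = 1`, `|tc (a z)| ≤ |tc a|`). -/
theorem cross_f {ε : ℝ} (hε : 0 < ε) : ∃ C : ℝ, 0 < C ∧ ∀ (A : ℝ) (z f : O), 1 ≤ A → PS z → PS f →
    IsCoprime z f →
    ‖(∑' a : O, if Primary a ∧ IsCoprime a z ∧ f ∣ a then
        tc (a * z) * Wc (nr a / A) (-(1 / 6)) else 0) -
      ((cP * rho0 * phi z / nr f * A ^ (5 / 6 : ℝ) * nr z ^ (-(1 / 6 : ℝ)) : ℝ) : ℂ) * Wm (2 / 3)‖ ≤
      C * (A * nr z * nr f) ^ ε * min (Real.sqrt (nr f * nr z)) (A / nr f) := by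
  obtain ⟨C₁, hC₁, h₁⟩ := DspC0_first hε
  obtain ⟨C₂, hC₂, h₂⟩ := DspC0_second hε
  have hcP := AFa_cP_pos
  have hρ : 0 < rho0 := by
    have := Real.pi_pos
    unfold rho0
    positivity
  have hK : 0 ≤ cP * rho0 * ‖Wm (2 / 3)‖ := by positivity
  refine ⟨C₁ + C₂ + cP * rho0 * ‖Wm (2 / 3)‖, by positivity, fun A z f hA hz hf h => ?_⟩
  have hz1 := hz.one_le
  have hf1 := hf.one_le
  have r1 : 1 ≤ A * nr z := one_le_mul_of_one_le_of_one_le hA hz1
  have r2 : 1 ≤ (A * nr z * nr f) ^ ε :=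
    Real.one_le_rpow (one_le_mul_of_one_le_of_one_le r1 hf1) hε.le
  have r3 : nr z ^ ε ≤ (A * nr z * nr f) ^ ε := by
    refine Real.rpow_le_rpow (by positivity) ?_ hε.le
    rw [mul_right_comm]
    exact le_mul_of_one_le_left (by positivity) (one_le_mul_of_one_le_of_one_le hA hf1)
  rw [mul_min_of_nonneg _ _ (by positivity)]
  refine le_min ((h₁ A z f (by linarith) hz hf h).trans ?_) ((norm_sub_le _ _).trans ?_)
  · refine mul_le_mul_of_nonneg_right (mul_le_mul (by linarith) r3 (by positivity) (by positivity))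
      (Real.sqrt_nonneg _)
  · have b1 := h₂ A z f hA hz hf
    have p1 := phi_nonneg z
    have b2 : ‖((cP * rho0 * phi z / nr f * A ^ (5 / 6 : ℝ) * nr z ^ (-(1 / 6 : ℝ)) : ℝ) : ℂ) *
        Wm (2 / 3)‖ ≤ cP * rho0 * ‖Wm (2 / 3)‖ * (A * nr z * nr f) ^ ε * (A / nr f) := by
      have a1 : A ^ (5 / 6 : ℝ) ≤ A := by
        simpa using Real.rpow_le_rpow_of_exponent_le hA (show (5 / 6 : ℝ) ≤ 1 by norm_num)
      have a2 : nr z ^ (-(1 / 6 : ℝ)) ≤ 1 := Real.rpow_le_one_of_one_le_of_nonpos hz1 (by norm_num)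
      have a3 : phi z * A ^ (5 / 6 : ℝ) * nr z ^ (-(1 / 6 : ℝ)) ≤ 1 * A * (A * nr z * nr f) ^ ε :=
        mul_le_mul (mul_le_mul (phi_le_one z) a1 (by positivity) zero_le_one) (a2.trans r2)
          (by positivity) (by positivity)
      rw [norm_mul, Complex.norm_real, Real.norm_of_nonneg (by positivity)]
      calc _ = cP * rho0 * ‖Wm (2 / 3)‖ / nr f *
            (phi z * A ^ (5 / 6 : ℝ) * nr z ^ (-(1 / 6 : ℝ))) := by ring
        _ ≤ cP * rho0 * ‖Wm (2 / 3)‖ / nr f * (1 * A * (A * nr z * nr f) ^ ε) :=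
            mul_le_mul_of_nonneg_left a3 (by positivity)
        _ = _ := by ring
    have b3 : 0 ≤ C₁ * (A * nr z * nr f) ^ ε * (A / nr f) := by positivity
    refine (add_le_add b1 b2).trans ?_
    linarith

end Crest.Agent.R12
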