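import Crest.Agent.R12.DspD0

/-!
# Row 12, analytic half: the square of the model
-/

set_option autoImplicit false

noncomputable section

namespace Crest.Agent.R12

open Crest.Agent.R17
open scoped ComplexConjugate Topology
open Filter MeasureTheory

theorem DspD_coprime_rad {q a : O} (hq : Primary q) (ha : Primary a) :
    IsCoprime (rad q) a ↔ IsCoprime a q := by
  constructor
  · intro h
    have h1 := disjoint_pf h
    rw [pf_rad] at h1
    exact (isCoprime_of_disjoint_pf hq ha.ne_zero h1).symm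
  · intro h
    exact (h.of_isCoprime_of_dvd_right (rad_dvd q)).symm

theorem DspD_summable_W {A : ℝ} (hA : 0 < A) (P : O → Prop) [DecidablePred P]
    (hP : ∀ a, P a → Primary a) :
    Summable fun a : O => if P a then Wc (nr a / A) (-(1 / 3)) else 0 := by
  have h := summable_Sm (b := fun a => if P a then 1 else 0) (H := 1) (B := 0)
    ⟨if_neg fun h => (hP 0 h).ne_zero rfl, fun n => by beta_reduce; split_ifs <;> simp⟩ hA (-(1 / 3))
  refine h.of_norm.congr fun a => ?_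
  split_ifs <;> simp

open Classical in
/-- The smooth count of the multiples of `z` which are coprime to `q`. -/
theorem DspD_count : ∃ C : ℝ, 0 < C ∧ ∀ (A : ℝ) (q z : O), 1 ≤ A → Primary q → Primary z →
    IsCoprime z q →
    ‖(∑' a : O, if Primary a ∧ IsCoprime a q ∧ z ∣ a then Wc (nr a / A) (-(1 / 3)) else 0) -
      ((rho0 * A * phi q / nr z : ℝ) : ℂ) * Wm (2 / 3)‖ ≤
      C * (pdiv (rad q)).card * (A / nr z) ^ (5 / 6 : ℝ) := by
  obtain ⟨C, hC, H⟩ := smooth_count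
  refine ⟨C, hC, fun A q z hA hq hz hzq => ?_⟩
  have hA0 : 0 < A := by linarith
  have hr : PS (rad q) := ⟨primary_rad q, squarefree_rad q⟩
  have h1 : ∀ a : O, (if Primary a ∧ IsCoprime a q ∧ z ∣ a then Wc (nr a / A) (-(1 / 3)) else 0) =
      ∑ e ∈ pdiv (rad q), mu e *
        if Primary a ∧ z * e ∣ a then Wc (nr a / A) (-(1 / 3)) else 0 := by
    intro a
    by_cases ha : Primary a ∧ z ∣ a
    · have h2 := sum_mu_coprime hr.1 ha.1.ne_zero
      rw [Finset.sum_filter] at h2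
      have h3 : ∀ e ∈ pdiv (rad q), (mu e *
          if Primary a ∧ z * e ∣ a then Wc (nr a / A) (-(1 / 3)) else 0) =
          (if e ∣ a then mu e else 0) * Wc (nr a / A) (-(1 / 3)) := by
        intro e he
        have h4 : IsCoprime z e := hzq.of_isCoprime_of_dvd_right
          (((mem_pdiv hr.ne_zero).1 he).2.trans (rad_dvd q))
        by_cases h5 : e ∣ a
        · rw [if_pos h5, if_pos ⟨ha.1, h4.mul_dvd ha.2 h5⟩]
        · rw [if_neg h5, if_neg fun h => h5 ((dvd_mul_left e z).trans h.2), mul_zero, zero_mul]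
      rw [Finset.sum_congr rfl h3, ← Finset.sum_mul, h2]
      by_cases h6 : IsCoprime a q
      · rw [if_pos ⟨ha.1, h6, ha.2⟩, if_pos ((DspD_coprime_rad hq ha.1).2 h6), one_mul]
      · rw [if_neg fun h => h6 h.2.1, if_neg fun h => h6 ((DspD_coprime_rad hq ha.1).1 h),
          zero_mul]
    · rw [if_neg fun h => ha ⟨h.1, h.2.2⟩]
      refine (Finset.sum_eq_zero fun e _ => ?_).symm
      rw [if_neg fun h => ha ⟨h.1, (dvd_mul_right z e).trans h.2⟩, mul_zero]
  have h2 : ((rho0 * A * phi q / nr z : ℝ) : ℂ) * Wm (2 / 3) =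
      ∑ e ∈ pdiv (rad q), mu e * (((rho0 * A / nr (z * e) : ℝ) : ℂ) * Wm (2 / 3)) := by
    have h3 : phi q = phi (rad q) := by rw [phi, phi, pf_rad]
    have h4 : ((rho0 * A * phi q / nr z : ℝ) : ℂ) =
        ((rho0 * A / nr z : ℝ) : ℂ) * (phi (rad q) : ℂ) := by
      rw [h3]
      push_cast
      ring
    rw [h4, ← hr.sum_mu_div, Finset.mul_sum, Finset.sum_mul]
    refine Finset.sum_congr rfl fun e _ => ?_
    rw [nr_mul]
    push_cast
    ring
  simp only [h1]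
  rw [Summable.tsum_finsetSum fun e _ => (DspD_summable_W hA0 _ fun a h => h.1).mul_left _, h2,
    ← Finset.sum_sub_distrib]
  refine (norm_sum_le _ _).trans ((Finset.sum_le_card_nsmul _ _ (C * (A / nr z) ^ (5 / 6 : ℝ))
    fun e he => ?_).trans (le_of_eq ?_))
  · have he' := ((mem_pdiv hr.ne_zero).1 he).1
    rw [tsum_mul_left, ← mul_sub, norm_mul]
    refine (mul_le_of_le_one_left (norm_nonneg _) (norm_mu_le e)).trans
      ((H A (z * e) hA (hz.mul he')).trans ?_)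
    have h5 := nr_pos hz.ne_zero
    have h6 := one_le_nr he'.ne_zero
    rw [nr_mul]
    gcongr
    exact le_mul_of_one_le_right h5.le h6
  · rw [nsmul_eq_mul]
    ring

open Classical in
/-- The terms of the triple series. -/
def DspD_F (A : ℝ) (q : O) (p : O × O) (a : O) : ℂ :=
  if (Primary p.1 ∧ IsCoprime p.1 q) ∧ Primary p.2 ∧ IsCoprime p.2 q then
    mu p.1 * (nr p.2 : ℂ) *
      if Primary a ∧ IsCoprime a q ∧ p.1 ^ 2 * p.2 ^ 3 ∣ a then Wc (nr a / A) (-(1 / 3)) else 0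
  else 0

open Classical in
theorem DspD_expand (A : ℝ) (q a : O) : ∑' p, DspD_F A q p a =
    if Primary a ∧ IsCoprime a q then ((‖tc a‖ ^ 2 : ℝ) : ℂ) * Wc (nr a / A) (-(1 / 3)) else 0 := by
  split_ifs with h
  · have d1 : ∀ p : O × O, p.1 ^ 2 * p.2 ^ 3 ∣ a → p.1 ∣ a ∧ p.2 ∣ a := fun p hp =>
      ⟨((dvd_pow_self _ two_ne_zero).mul_right _).trans hp,
        ((dvd_pow_self _ three_ne_zero).mul_left _).trans hp⟩
    rw [tsum_eq_sum (s := pdiv a ×ˢ pdiv a), Finset.sum_product_right, normSq_tc h.1,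
      Finset.sum_mul]
    · refine Finset.sum_congr rfl fun c hc => ?_
      rw [Finset.sum_mul]
      refine Finset.sum_congr rfl fun f hf => ?_
      obtain ⟨c1, c2⟩ := (mem_pdiv h.1.ne_zero).1 hc
      obtain ⟨f1, f2⟩ := (mem_pdiv h.1.ne_zero).1 hf
      rw [DspD_F, if_pos ⟨⟨f1, h.2.of_isCoprime_of_dvd_left f2⟩, c1,
        h.2.of_isCoprime_of_dvd_left c2⟩]
      by_cases hd : f ^ 2 * c ^ 3 ∣ a
      · rw [if_pos hd, if_pos ⟨h.1, h.2, hd⟩]
      · rw [if_neg hd, if_neg fun h => hd h.2.2, mul_zero, zero_mul]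
    · intro p hp
      rw [DspD_F]
      split_ifs with h1 h2
      · exact absurd (Finset.mem_product.2 ⟨(mem_pdiv h.1.ne_zero).2 ⟨h1.1.1, (d1 p h2.2.2).1⟩,
          (mem_pdiv h.1.ne_zero).2 ⟨h1.2.1, (d1 p h2.2.2).2⟩⟩) hp
      · exact mul_zero _
      · rfl
  · refine (tsum_congr fun p => ?_).trans tsum_zero
    rw [DspD_F, if_neg (c := Primary a ∧ _) fun h' => h ⟨h'.1, h'.2.1⟩, mul_zero, ite_self]

theorem DspD_summable {A : ℝ} (hA : 0 < A) (q : O) :
    Summable (Function.uncurry (DspD_F A q)) := by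
  obtain ⟨C, hC, H⟩ := norm_Wc_le_rpow (-3) 1
  have s0 := summable_nr_rpow (σ := 2) one_lt_two
  have n0 : ∀ n : O, 0 ≤ nr n ^ (-2 : ℝ) := fun n => by positivity
  have s1 := (s0.mul_of_nonneg s0 n0 n0).mul_of_nonneg s0 (fun p => mul_nonneg (n0 _) (n0 _)) n0
  refine Summable.of_norm_bounded (s1.mul_left (C * A ^ 3)) ?_
  rintro ⟨⟨f, c⟩, a⟩
  simp only [Function.uncurry_apply_pair, DspD_F]
  split_ifs with h1 h2
  · have hf := nr_pos h1.1.1.ne_zero
    have hc := nr_pos h1.2.1.ne_zero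
    have ha := nr_pos h2.1.ne_zero
    have h3 : nr f ^ 2 * nr c ^ 3 ≤ nr a := by
      rw [← nr_pow, ← nr_pow, ← nr_mul]
      exact_mod_cast nm_le_of_dvd h2.2.2 h2.1.ne_zero
    have h4 := H (nr a / A) (-(1 / 3)) (by positivity) (by
      rw [Complex.neg_re, abs_neg]
      norm_num [abs_le])
    rw [norm_mul, norm_mul, Complex.norm_real, Real.norm_of_nonneg hc.le]
    have h5 : ‖mu f‖ * nr c * ‖Wc (nr a / A) (-(1 / 3))‖ ≤ 1 * nr c * (C * (nr a / A) ^ (-3 : ℝ)) := by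
      gcongr
      exact norm_mu_le f
    refine h5.trans ?_
    rw [Real.rpow_neg (by positivity), Real.rpow_neg hf.le, Real.rpow_neg hc.le,
      Real.rpow_neg ha.le, Real.rpow_ofNat, Real.rpow_ofNat, Real.rpow_ofNat, Real.rpow_ofNat]
    have h6 : 1 * nr c * (C * ((nr a / A) ^ 3)⁻¹) =
        C * A ^ 3 * ((nr f ^ 2)⁻¹ * (nr c ^ 2)⁻¹ * (nr a ^ 2)⁻¹) *
          (nr f ^ 2 * nr c ^ 3 / nr a) := by
      field_simp
    rw [h6]
    exact mul_le_of_le_one_right (by positivity) ((div_le_one ha).2 h3)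
  · rw [mul_zero, norm_zero]
    positivity
  · rw [norm_zero]
    positivity

open Classical in
theorem DspD_main : ∃ C : ℝ, 0 < C ∧ ∀ (A : ℝ) (q : O), 1 ≤ A → Primary q →
    ‖(∑' a : O, if Primary a ∧ IsCoprime a q then
        ((‖tc a‖ ^ 2 : ℝ) : ℂ) * Wc (nr a / A) (-(1 / 3)) else 0) -
      ((rho0 * A * phi q : ℝ) : ℂ) * Wm (2 / 3)‖ ≤
      C * (pdiv (rad q)).card * A ^ (5 / 6 : ℝ) := by
  obtain ⟨C, hC, H⟩ := DspD_count
  have s1 := summable_nr_rpow (σ := 5 / 3) (by norm_num)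
  have s2 := summable_nr_rpow (σ := 3 / 2) (by norm_num)
  have s3 := s1.mul_of_nonneg s2 (fun n => by positivity) fun n => by positivity
  set K := ∑' p : O × O, nr p.1 ^ (-(5 / 3) : ℝ) * nr p.2 ^ (-(3 / 2) : ℝ) with hK
  have hK0 : 0 ≤ K := tsum_nonneg fun p => by positivity
  refine ⟨C * (K + 1), by positivity, fun A q hA hq => ?_⟩
  have hA0 : 0 < A := by linarith
  have hT : 0 ≤ C * (pdiv (rad q)).card * A ^ (5 / 6 : ℝ) :=
    mul_nonneg (mul_nonneg hC.le (Nat.cast_nonneg _)) (Real.rpow_nonneg hA0.le _)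
  have hs := DspD_summable hA0 q
  simp only [← DspD_expand]
  rw [hs.tsum_comm]
  set u : O → ℂ := fun f =>
    if Primary f ∧ IsCoprime f q then mu f * (((nr f)⁻¹ ^ 2 : ℝ) : ℂ) else 0 with hu
  set v : O → ℂ := fun c =>
    if Primary c ∧ IsCoprime c q then (((nr c)⁻¹ ^ 2 : ℝ) : ℂ) else 0 with hv
  have s0 : Summable fun n : O => (nr n)⁻¹ ^ 2 :=
    (summable_nr_rpow (σ := 2) one_lt_two).congr fun n => by
      rw [Real.rpow_neg (by positivity), Real.rpow_ofNat, inv_pow]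
  have su : Summable fun f => ‖u f‖ := by
    refine s0.of_nonneg_of_le (fun _ => norm_nonneg _) fun f => ?_
    simp only [hu]
    split_ifs
    · rw [norm_mul, Complex.norm_real, Real.norm_of_nonneg (by positivity)]
      exact mul_le_of_le_one_left (by positivity) (norm_mu_le f)
    · rw [norm_zero]
      positivity
  have sv : Summable fun c => ‖v c‖ := by
    refine s0.of_nonneg_of_le (fun _ => norm_nonneg _) fun f => ?_
    simp only [hv]
    split_ifs
    · rw [Complex.norm_real, Real.norm_of_nonneg (by positivity)]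
    · rw [norm_zero]
      positivity
  have h1 : ((rho0 * A * phi q : ℝ) : ℂ) * Wm (2 / 3) =
      ∑' p : O × O, u p.1 * v p.2 * (((rho0 * A * phi q : ℝ) : ℂ) * Wm (2 / 3)) := by
    rw [tsum_mul_right, ← tsum_mul_tsum_of_summable_norm su sv, sum_mu_zeta hq, one_mul]
  have hp : Summable fun p : O × O => ∑' a, DspD_F A q p a := hs.prod
  rw [h1, ← hp.tsum_sub ((summable_mul_of_summable_norm su sv).mul_right _)]
  refine (tsum_of_norm_bounded
    (s3.hasSum.mul_left (C * (pdiv (rad q)).card * A ^ (5 / 6 : ℝ))) ?_).trans ?_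
  · rintro ⟨f, c⟩
    simp only [DspD_F, hu, hv]
    by_cases h : (Primary f ∧ IsCoprime f q) ∧ Primary c ∧ IsCoprime c q
    · have hf := nr_pos h.1.1.ne_zero
      have hc := nr_pos h.2.1.ne_zero
      have h2 := H A q (f ^ 2 * c ^ 3) hA hq ((h.1.1.pow 2).mul (h.2.1.pow 3))
        (h.1.2.pow_left.mul_left h.2.2.pow_left)
      simp only [if_pos h, if_pos h.1, if_pos h.2]
      rw [tsum_mul_left]
      have h3 : mu f * (((nr f)⁻¹ ^ 2 : ℝ) : ℂ) * (((nr c)⁻¹ ^ 2 : ℝ) : ℂ) *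
          (((rho0 * A * phi q : ℝ) : ℂ) * Wm (2 / 3)) = mu f * (nr c : ℂ) *
          (((rho0 * A * phi q / nr (f ^ 2 * c ^ 3) : ℝ) : ℂ) * Wm (2 / 3)) := by
        have e : (nr f)⁻¹ ^ 2 * (nr c)⁻¹ ^ 2 * (rho0 * A * phi q) =
            nr c * (rho0 * A * phi q / nr (f ^ 2 * c ^ 3)) := by
          rw [nr_mul, nr_pow, nr_pow]
          field_simp
        have e' := congrArg (fun x : ℝ => (x : ℂ)) e
        simp only [Complex.ofReal_mul (_ * _ ^ 2), Complex.ofReal_mul (_ ^ 2),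
          Complex.ofReal_mul (nr c)] at e'
        linear_combination mu f * Wm (2 / 3) * e'
      rw [h3, ← mul_sub, norm_mul, norm_mul, Complex.norm_real, Real.norm_of_nonneg hc.le]
      have h4 : nr c * (A / nr (f ^ 2 * c ^ 3)) ^ (5 / 6 : ℝ) =
          A ^ (5 / 6 : ℝ) * (nr f ^ (-(5 / 3) : ℝ) * nr c ^ (-(3 / 2) : ℝ)) := by
        rw [nr_mul, nr_pow, nr_pow, Real.div_rpow hA0.le (by positivity),
          Real.mul_rpow (by positivity) (by positivity), ← Real.rpow_natCast, ← Real.rpow_natCast,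
          ← Real.rpow_mul hf.le, ← Real.rpow_mul hc.le, Real.rpow_neg hf.le,
          show (-(3 / 2) : ℝ) = 1 - (3 : ℕ) * (5 / 6) by norm_num, Real.rpow_sub hc, Real.rpow_one,
          show (5 / 3 : ℝ) = (2 : ℕ) * (5 / 6) by norm_num]
        field_simp
      calc _ ≤ 1 * nr c * (C * (pdiv (rad q)).card * (A / nr (f ^ 2 * c ^ 3)) ^ (5 / 6 : ℝ)) := by
            gcongr
            exact norm_mu_le f
        _ = _ := by linear_combination C * (pdiv (rad q)).card * h4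
    · have h2 : (if Primary f ∧ IsCoprime f q then mu f * (((nr f)⁻¹ ^ 2 : ℝ) : ℂ) else 0) *
          (if Primary c ∧ IsCoprime c q then (((nr c)⁻¹ ^ 2 : ℝ) : ℂ) else 0) = 0 := by
        split_ifs with h3 h4
        · exact absurd ⟨h3, h4⟩ h
        all_goals simp
      simp only [if_neg h, tsum_zero, h2, zero_mul, sub_zero, norm_zero]
      exact mul_nonneg hT (mul_nonneg (Real.rpow_nonneg (Nat.cast_nonneg _) _)
        (Real.rpow_nonneg (Nat.cast_nonneg _) _))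
  · rw [← hK]
    linarith

open Classical in
theorem DspD_term {A : ℝ} (hA : 0 < A) (b₁ b₂ a : O) :
    (if Primary a then Wc (nr a / A) 0 * (mdl a b₁ * conj (mdl a b₂)) else 0) =
      ((cP ^ 2 * A ^ (-(1 / 3 : ℝ)) * (nr b₁ * nr b₂) ^ (-(1 / 6 : ℝ)) : ℝ) : ℂ) *
        if Primary a ∧ IsCoprime a (b₁ * b₂) then
          ((‖tc a‖ ^ 2 : ℝ) : ℂ) * Wc (nr a / A) (-(1 / 3)) else 0 := by
  by_cases ha : Primary a
  swap
  · rw [if_neg ha, if_neg fun h => ha h.1, mul_zero]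
  by_cases hc : IsCoprime a (b₁ * b₂)
  · have h0 := nr_pos ha.ne_zero
    have h1 : Wc (nr a / A) (-(1 / 3)) =
        Wc (nr a / A) 0 * (((nr a / A) ^ (-(1 / 3 : ℝ)) : ℝ) : ℂ) := by
      rw [Complex.ofReal_cpow (by positivity), ← Wc_add (by positivity), zero_add]
      push_cast
      rfl
    have e : cP * nr a ^ (-(1 / 6 : ℝ)) * nr b₁ ^ (-(1 / 6 : ℝ)) *
        (cP * nr a ^ (-(1 / 6 : ℝ)) * nr b₂ ^ (-(1 / 6 : ℝ))) =
        cP ^ 2 * A ^ (-(1 / 3 : ℝ)) * (nr b₁ * nr b₂) ^ (-(1 / 6 : ℝ)) *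
          (nr a / A) ^ (-(1 / 3 : ℝ)) := by
      have h2 : nr a ^ (-(1 / 3 : ℝ)) = nr a ^ (-(1 / 6 : ℝ)) * nr a ^ (-(1 / 6 : ℝ)) := by
        rw [← Real.rpow_add h0]
        norm_num
      have h3 : 0 < A ^ (-(1 / 3 : ℝ)) := by positivity
      rw [Real.div_rpow h0.le hA.le, Real.mul_rpow (by positivity) (by positivity), h2]
      field_simp
    have e' := (Complex.ofReal_mul _ _).symm.trans
      ((congrArg Complex.ofReal e).trans (Complex.ofReal_mul _ _))
    rw [if_pos ha, if_pos ⟨ha, hc⟩, mdl, mdl, if_pos hc.of_mul_right_left,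
      if_pos hc.of_mul_right_right, h1, map_mul, Complex.conj_conj, Complex.conj_ofReal,
      Complex.ofReal_pow ‖tc a‖, ← Complex.conj_mul']
    linear_combination Wc (nr a / A) 0 * conj (tc a) * tc a * e'
  · rw [if_pos ha, if_neg fun h => hc h.2, mul_zero, mdl, mdl]
    split_ifs with h1 h2
    · exact absurd (h1.mul_right h2) hc
    all_goals simp

open Classical in
/-- `a = f² c³ e n` with `e ∣ rad (b₁ b₂)`, `(f c, b₁ b₂) = 1`. -/
theorem model_term {ε : ℝ} (hε : 0 < ε) : ∃ C : ℝ, 0 < C ∧ ∀ (A : ℝ) (b₁ b₂ : O), 1 ≤ A → PS b₁ →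
    PS b₂ →
    ‖(∑' a : O, if Primary a then Wc (nr a / A) 0 * (mdl a b₁ * conj (mdl a b₂)) else 0) -
      MT A b₁ b₂‖ ≤ C * (nr b₁ * nr b₂) ^ ε * A ^ (1 / 2 : ℝ) *
        (nr b₁ * nr b₂) ^ (-(1 / 6 : ℝ)) := by
  obtain ⟨C, hC, H⟩ := DspD_main
  obtain ⟨D, hD, H'⟩ := card_pdiv_le hε
  have hP := AFa_cP_pos
  refine ⟨cP ^ 2 * C * D, by positivity, fun A b₁ b₂ hA h₁ h₂ => ?_⟩
  have hA0 : 0 < A := by linarith
  have hq := h₁.1.mul h₂.1
  have h1 : MT A b₁ b₂ =
      ((cP ^ 2 * A ^ (-(1 / 3 : ℝ)) * (nr b₁ * nr b₂) ^ (-(1 / 6 : ℝ)) : ℝ) : ℂ) *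
        (((rho0 * A * phi (b₁ * b₂) : ℝ) : ℂ) * Wm (2 / 3)) := by
    rw [MT, ← mul_assoc, ← Complex.ofReal_mul,
      show (2 / 3 : ℝ) = -(1 / 3) + 1 by norm_num, Real.rpow_add hA0, Real.rpow_one]
    congr 2
    ring
  have h2 : ((pdiv (rad (b₁ * b₂))).card : ℝ) ≤ D * (nr b₁ * nr b₂) ^ ε := by
    refine (H' _ (primary_rad _).ne_zero).trans ?_
    rw [← nr_mul]
    gcongr
    exact_mod_cast nm_le_of_dvd (rad_dvd _) hq.ne_zero
  have h3 : A ^ (1 / 2 : ℝ) = A ^ (-(1 / 3 : ℝ)) * A ^ (5 / 6 : ℝ) := by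
    rw [← Real.rpow_add hA0]
    norm_num
  simp only [DspD_term hA0]
  rw [tsum_mul_left, h1, ← mul_sub, norm_mul, Complex.norm_real,
    Real.norm_of_nonneg (by positivity), h3]
  calc _ ≤ cP ^ 2 * A ^ (-(1 / 3 : ℝ)) * (nr b₁ * nr b₂) ^ (-(1 / 6 : ℝ)) *
        (C * (D * (nr b₁ * nr b₂) ^ ε) * A ^ (5 / 6 : ℝ)) := by
        refine mul_le_mul_of_nonneg_left ((H A _ hA hq).trans ?_) (by positivity)
        gcongr
    _ = _ := by ring

end Crest.Agent.R12
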