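import Crest.Agent.R12.AFa
import Crest.Agent.R12.ThPois

/-!
# Row 12, analytic half: the square of the model
-/

set_option autoImplicit false

noncomputable section

namespace Crest.Agent.R12

open Crest.Agent.R17
open scoped ComplexConjugate Topology
open Filter MeasureTheory

open Classical in
/-- `∑_{j² ∣ m} μ(j) = μ²(m)`. -/
theorem DspD0_sum_mu_sq {m a : O} (hm : Primary m) (ha : a ≠ 0) (hma : m ∣ a) :
    ∑ j ∈ pdiv a, (if j ^ 2 ∣ m then mu j else 0) = if Squarefree m then 1 else 0 := by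
  set d := ∏ p ∈ (pf m).filter (fun p => 2 ≤ vp p m), p with hd
  have hp : ∀ q ∈ (pf m).filter (fun p => 2 ≤ vp p m), Prime q ∧ Primary q :=
    fun q hq => BasicB.pf_sub (Finset.mem_filter.1 hq).1
  obtain ⟨d1, d2, d3⟩ := squarefree_prod_primes hp
  have d4 : d ∣ m := BasicB.prod_dvd_of_subset hm.ne_zero (Finset.filter_subset _ _)
  rw [← hd] at d1 d2 d3
  have h1 : ∀ j ∈ pdiv a, (if j ^ 2 ∣ m then mu j else 0) = if j ∈ pdiv d then mu j else 0 := by
    intro j hja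
    have hj' := ((mem_pdiv ha).1 hja).1
    by_cases hj : Squarefree j
    swap
    · simp [BasicB.mu_of_not hj]
    refine if_congr ?_ rfl rfl
    rw [mem_pdiv d2.ne_zero, and_iff_right hj', (hj'.pow 2).dvd_iff_vp hm.ne_zero,
      hj'.dvd_iff_vp d2.ne_zero, pf_pow two_ne_zero]
    refine forall₂_congr fun p hp' => ?_
    obtain ⟨p1, p2⟩ := BasicB.pf_sub hp'
    rw [vp_pow p1 hj'.ne_zero, (hj'.squarefree_iff.1 hj) p hp', Nat.one_le_iff_ne_zero,
      ← BasicB.mem_pf_iff d2.ne_zero p1 p2, d3, Finset.mem_filter,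
      BasicB.mem_pf_iff hm.ne_zero p1 p2]
    omega
  have h2 : pdiv a ∩ pdiv d = pdiv d := Finset.inter_eq_right.2 fun j hj =>
    (mem_pdiv ha).2 ⟨((mem_pdiv d2.ne_zero).1 hj).1,
      ((mem_pdiv d2.ne_zero).1 hj).2.trans (d4.trans hma)⟩
  rw [Finset.sum_congr rfl h1, Finset.sum_ite_mem, h2, sum_mu_pdiv d2.ne_zero, d3]
  refine if_congr ?_ rfl rfl
  rw [hm.squarefree_iff, Finset.filter_eq_empty_iff]
  refine forall₂_congr fun p hp' => ?_
  have := BasicB.vp_ne_zero hp'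
  omega

open Classical in
theorem DspD0_inner {a c : O} (ha : Primary a) (hc : Primary c) :
    ∑ f ∈ pdiv a, (if f ^ 2 * c ^ 3 ∣ a then mu f * (nr c : ℂ) else 0) =
      if ∃ m, Primary m ∧ Squarefree m ∧ a = m * c ^ 3 then (nr c : ℂ) else 0 := by
  have hc3 : c ^ 3 ≠ 0 := (hc.pow 3).ne_zero
  by_cases h : c ^ 3 ∣ a
  · obtain ⟨m, hm⟩ := h
    rw [mul_comm] at hm
    have hm' : Primary m := (hc.pow 3).of_mul (by rw [mul_comm, ← hm]; exact ha)
    have h1 : ∀ f, (if f ^ 2 * c ^ 3 ∣ a then mu f * (nr c : ℂ) else 0) =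
        (if f ^ 2 ∣ m then mu f else 0) * (nr c : ℂ) := by
      intro f
      rw [ite_mul, zero_mul]
      refine if_congr ?_ rfl rfl
      rw [hm, mul_dvd_mul_iff_right hc3]
    simp only [h1]
    rw [← Finset.sum_mul, DspD0_sum_mu_sq hm' ha.ne_zero (Dvd.intro _ hm.symm), ite_mul, one_mul,
      zero_mul]
    refine if_congr ⟨fun hs => ⟨m, hm', hs, hm⟩, fun ⟨m', _, hs, h'⟩ => ?_⟩ rfl rfl
    rwa [mul_right_cancel₀ hc3 (hm.symm.trans h')]
  · rw [if_neg fun ⟨m, _, _, h'⟩ => h (Dvd.intro_left m h'.symm)]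
    exact Finset.sum_eq_zero fun f _ => if_neg fun h' => h ((dvd_mul_left _ _).trans h')

open Classical in
theorem normSq_tc {a : O} (ha : Primary a) : ((‖tc a‖ ^ 2 : ℝ) : ℂ) =
    ∑ c ∈ pdiv a, ∑ f ∈ pdiv a, if f ^ 2 * c ^ 3 ∣ a then mu f * (nr c : ℂ) else 0 := by
  rw [Finset.sum_congr rfl fun c hc => DspD0_inner ha ((mem_pdiv ha.ne_zero).1 hc).1]
  rcases ThExact.cases a with ⟨h1, h2⟩ | ⟨m, d, hm, hs, hd, rfl⟩
  · rw [h2, Finset.sum_eq_zero]
    · simp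
    · intro c hc
      refine if_neg fun ⟨m, hm, hs, h⟩ => h1 ⟨ha, ?_⟩
      rw [h]
      exact (sq1_cu hm hs ((mem_pdiv ha.ne_zero).1 hc).1).2.2
  · rw [Finset.sum_eq_single d, if_pos ⟨m, hm, hs, rfl⟩, tc_eq hm hs hd, norm_mul, norm_Gn hm hs,
      one_mul, Complex.norm_real, Real.norm_eq_abs, sq_abs, Real.sq_sqrt (nr_pos hd.ne_zero).le]
    · intro c hc hcd
      refine if_neg fun ⟨m', hm', hs', h⟩ => hcd ?_
      have e1 := (sq1_cu hm hs hd).2.1
      rw [h, (sq1_cu hm' hs' ((mem_pdiv ha.ne_zero).1 hc).1).2.1] at e1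
      exact e1
    · intro h
      exact absurd ((mem_pdiv ha.ne_zero).2
        ⟨hd, (dvd_pow_self d three_ne_zero).trans (dvd_mul_left _ _)⟩) h

theorem DspD0_polyB_md : PolyB (md 0 1) 1 (1 / 6) := by
  classical
  refine ⟨if_neg fun h => h.1.ne_zero rfl, fun n => ?_⟩
  unfold md
  split_ifs with h
  · have h1 := one_le_nr h.1.ne_zero
    rw [zpow_zero, one_mul, one_mul, Complex.norm_real, Real.norm_of_nonneg (by positivity)]
    exact Real.rpow_le_rpow_of_exponent_le h1 (by norm_num)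
  · rw [norm_zero]
    positivity

theorem DspD0_polyB_pri : PolyB E2.pri 1 0 := by
  classical
  refine ⟨if_neg fun h => h.ne_zero rfl, fun n => ?_⟩
  unfold E2.pri
  split_ifs <;> simp

theorem DspD0_Sm_md {Y : ℝ} (hY : 0 < Y) :
    Sm E2.pri Y (-(1 / 3)) = ((Y ^ (1 / 6 : ℝ) : ℝ) : ℂ) * Sm (md 0 1) Y (-(1 / 6)) := by
  classical
  rw [Sm, Sm, ← tsum_mul_left]
  refine tsum_congr fun n => ?_
  unfold md E2.pri
  by_cases hn : Primary n
  · have h1 := nr_pos hn.ne_zero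
    have h2 : (-(1 / 3) : ℂ) = -(1 / 6) + ((-(1 / 6) : ℝ) : ℂ) := by push_cast; ring
    rw [if_pos hn, if_pos ⟨hn, one_dvd _⟩, zpow_zero, one_mul, one_mul, h2,
      Wc_add (div_pos h1 hY), ← Complex.ofReal_cpow (div_pos h1 hY).le, Real.div_rpow h1.le hY.le,
      Real.rpow_neg hY.le, div_inv_eq_mul]
    push_cast
    ring
  · rw [if_neg hn, if_neg fun h => hn h.1]
    simp

theorem DspD0_large : ∃ C : ℝ, 0 < C ∧ ∀ Y : ℝ, 0 < Y →
    ‖Sm E2.pri Y (-(1 / 3)) - ((rho0 * Y : ℝ) : ℂ) * Wm (2 / 3)‖ ≤ C := by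
  obtain ⟨C, hC, h⟩ := typeI_md 0 (j := 1) le_rfl
  obtain ⟨C₁, hC₁, h₁⟩ := Mom_Wm_le (1 / 3) 1 0
  obtain ⟨C₂, hC₂, h₂⟩ := Mom_Wm_le (-(2 / 3)) 1 2
  refine ⟨C * Real.sqrt (C₁ * C₂), by positivity, fun Y hY => ?_⟩
  have hre : |(-(1 / 6) : ℂ).re| ≤ 1 := by
    rw [show (-(1 / 6) : ℂ) = ((-(1 / 6) : ℝ) : ℂ) by push_cast; ring, Complex.ofReal_re]
    norm_num [abs_le]
  have him : (-(1 / 6) : ℂ).im = 0 := by
    rw [show (-(1 / 6) : ℂ) = ((-(1 / 6) : ℝ) : ℂ) by push_cast; ring, Complex.ofReal_im]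
  have a1 := h₁ Y _ hY hre
  have a2 := h₂ Y _ hY hre
  rw [him, abs_zero, add_zero, one_pow, mul_one] at a1 a2
  have a3 := (h 1 primary_one _ (stripDecay_Wm hY (-(1 / 6))) 2 (by norm_num)).trans
    (mul_le_mul_of_nonneg_left (min_le_left _ _) hC.le)
  rw [← Sm_eq_lineI DspD0_polyB_md hY, if_pos rfl] at a3
  have a4 : Real.sqrt (Mom (fun s => Wm (s + -(1 / 6)) * (Y : ℂ) ^ s) (1 / 3) 0 *
      Mom (fun s => Wm (s + -(1 / 6)) * (Y : ℂ) ^ s) (-(2 / 3)) 2) ≤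
      Real.sqrt (C₁ * C₂) * Y ^ (-(1 / 6) : ℝ) := by
    have e : (Y ^ (-(1 / 6) : ℝ)) ^ 2 = Y ^ (1 / 3 : ℝ) * Y ^ (-(2 / 3) : ℝ) := by
      rw [← Real.rpow_add hY, ← Real.rpow_natCast, ← Real.rpow_mul hY.le]
      norm_num
    rw [Real.sqrt_le_left (by positivity), mul_pow, Real.sq_sqrt (by positivity), e,
      mul_mul_mul_comm]
    exact mul_le_mul a1 a2 (integral_nonneg fun u => by positivity) (by positivity)
  have e1 : ((rho0 * Y : ℝ) : ℂ) * Wm (2 / 3) = ((Y ^ (1 / 6 : ℝ) : ℝ) : ℂ) *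
      (((rho0 / nr 1 : ℝ) : ℂ) * (Wm (5 / 6 + -(1 / 6)) * (Y : ℂ) ^ (5 / 6 : ℂ))) := by
    have e2 : (Y : ℂ) ^ (5 / 6 : ℂ) = ((Y ^ (5 / 6 : ℝ) : ℝ) : ℂ) := by
      rw [Complex.ofReal_cpow hY.le]
      push_cast
      rfl
    have e3 : Y = Y ^ (1 / 6 : ℝ) * Y ^ (5 / 6 : ℝ) := by
      rw [← Real.rpow_add hY]
      norm_num
    have e4 : nr 1 = 1 := by simp [nr]
    rw [e2, e4, div_one, show (5 / 6 + -(1 / 6) : ℂ) = 2 / 3 by norm_num]
    conv_lhs => rw [e3]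
    push_cast
    ring
  rw [DspD0_Sm_md hY, e1, ← mul_sub, norm_mul, Complex.norm_real,
    Real.norm_of_nonneg (by positivity)]
  calc _ ≤ Y ^ (1 / 6 : ℝ) * (C * (Real.sqrt (C₁ * C₂) * Y ^ (-(1 / 6) : ℝ))) :=
        mul_le_mul_of_nonneg_left (a3.trans (mul_le_mul_of_nonneg_left a4 hC.le)) (by positivity)
    _ = _ := by
        rw [Real.rpow_neg hY.le]
        field_simp

open Classical in
/-- `typeI_md` (first bound) against the trivial bound: the error is `≤ C min (1, A / N z)`. -/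
theorem smooth_count : ∃ C : ℝ, 0 < C ∧ ∀ (A : ℝ) (z : O), 1 ≤ A → Primary z →
    ‖(∑' a : O, if Primary a ∧ z ∣ a then Wc (nr a / A) (-(1 / 3)) else 0) -
      ((rho0 * A / nr z : ℝ) : ℂ) * Wm (2 / 3)‖ ≤ C * (A / nr z) ^ (5 / 6 : ℝ) := by
  obtain ⟨C₁, hC₁, h₁⟩ := DspD0_large
  obtain ⟨C₂, hC₂, h₂⟩ := tsum_norm_Sm_le 0 0 1 le_rfl
  refine ⟨C₁ + (C₂ + |rho0| * ‖Wm (2 / 3)‖), by positivity, fun A z hA hz => ?_⟩
  have hz0 := hz.ne_zero
  have hN := nr_pos hz0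
  have hA0 : 0 < A := by linarith
  have hY : 0 < A / nr z := div_pos hA0 hN
  have e : (∑' a : O, if Primary a ∧ z ∣ a then Wc (nr a / A) (-(1 / 3)) else 0) =
      Sm E2.pri (A / nr z) (-(1 / 3)) := by
    rw [Sm, ← (mul_right_injective₀ hz0).tsum_eq]
    · refine tsum_congr fun n => ?_
      unfold E2.pri
      by_cases hn : Primary n
      · rw [if_pos ⟨hz.mul hn, dvd_mul_right _ _⟩, if_pos hn, one_mul, nr_mul, div_div_eq_mul_div,
          mul_comm]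
      · rw [if_neg fun h => hn (hz.of_mul h.1), if_neg hn, zero_mul]
    · intro n hn
      by_contra h
      exact hn (if_neg fun h' => h (h'.2.imp fun c hc => hc.symm))
  rw [e, mul_div_assoc]
  generalize A / nr z = Y at hY
  have h0 : 0 ≤ C₂ + |rho0| * ‖Wm (2 / 3)‖ := by positivity
  rcases le_total 1 Y with h | h
  · have h1 : 1 ≤ Y ^ (5 / 6 : ℝ) := Real.one_le_rpow h (by norm_num)
    refine (h₁ Y hY).trans ?_
    nlinarith
  · have h1 : Y ≤ Y ^ (5 / 6 : ℝ) := by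
      have := Real.rpow_le_rpow_of_exponent_ge hY h (show (5 / 6 : ℝ) ≤ 1 by norm_num)
      rwa [Real.rpow_one] at this
    have hre : |(-(1 / 3) : ℂ).re| ≤ 1 := by
      rw [show (-(1 / 3) : ℂ) = ((-(1 / 3) : ℝ) : ℂ) by push_cast; ring, Complex.ofReal_re]
      norm_num [abs_le]
    have h2 := (norm_tsum_le_tsum_norm (summable_Sm DspD0_polyB_pri hY (-(1 / 3)))).trans
      ((h₂ _ 1 Y _ DspD0_polyB_pri hY hre).trans
        (mul_le_mul_of_nonneg_left (min_le_left _ _) (by positivity)))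
    rw [mul_one, zero_add, Real.rpow_one] at h2
    have h3 : ‖((rho0 * Y : ℝ) : ℂ) * Wm (2 / 3)‖ = |rho0| * ‖Wm (2 / 3)‖ * Y := by
      rw [norm_mul, Complex.norm_real, Real.norm_eq_abs, abs_mul, abs_of_pos hY]
      ring
    refine (norm_sub_le _ _).trans ?_
    rw [h3]
    calc _ ≤ (C₂ + |rho0| * ‖Wm (2 / 3)‖) * Y := by
          rw [add_mul]
          exact add_le_add h2 le_rfl
      _ ≤ _ := mul_le_mul (by linarith) h1 hY.le (by positivity)

open Classical in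
theorem DspD0_cm (q : O) :
    LBA.CM fun c => if Primary c ∧ IsCoprime c q then (((nr c)⁻¹ ^ 2 : ℝ) : ℂ) else 0 where
  zero n hn := if_neg fun h => hn h.1
  one := by
    rw [if_pos ⟨primary_one, isCoprime_one_left⟩]
    simp [nr]
  mul m n hm hn := by
    simp only [hm, hn, hm.mul hn, true_and, IsCoprime.mul_left_iff, nr_mul]
    by_cases h1 : IsCoprime m q <;> by_cases h2 : IsCoprime n q <;> simp [h1, h2]
    ring
  summable := by
    refine Summable.of_nonneg_of_le (fun _ => norm_nonneg _) (fun n => ?_)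
      (summable_nr_rpow one_lt_two)
    split_ifs with h
    · rw [Complex.norm_real, Real.norm_of_nonneg (by positivity),
        Real.rpow_neg (nr_pos h.1.ne_zero).le, Real.rpow_two, inv_pow]
    · rw [norm_zero]
      positivity

open Classical in
/-- `∑_{(f, q) = 1} μ(f) N(f)^{-2} · ∑_{(c, q) = 1} N(c)^{-2} = 1`. -/
theorem sum_mu_zeta {q : O} (hq : Primary q) :
    (∑' f : O, if Primary f ∧ IsCoprime f q then mu f * (((nr f)⁻¹ ^ 2 : ℝ) : ℂ) else 0) *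
      (∑' c : O, if Primary c ∧ IsCoprime c q then (((nr c)⁻¹ ^ 2 : ℝ) : ℂ) else 0) = 1 := by
  have _ := hq
  have h := (DspD0_cm q).conv
  simp only [mul_ite, mul_zero] at h
  rw [mul_comm]
  exact h

end Crest.Agent.R12
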