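import Crest.Agent.R12.DspE0

/-!
# Row 12, analytic half: the dispersion estimate
-/

set_option autoImplicit false

noncomputable section

namespace Crest.Agent.R12

open Crest.Agent.R17
open scoped ComplexConjugate Topology
open Filter MeasureTheory

theorem DspE_pow {ε A B Λ n₁ n₂ : ℝ} (hε : 0 < ε) (hA : 1 ≤ A) (hB : 1 ≤ B) (hΛ : 1 ≤ Λ)
    (h₁ : B / Λ ≤ n₁ ∧ n₁ ≤ Λ * B) (h₂ : B / Λ ≤ n₂ ∧ n₂ ≤ Λ * B) :
    (n₁ * n₂) ^ (-(1 / 4 : ℝ)) ≤ Λ ^ 2 * B ^ (1 / 2 : ℝ) / (Λ * B) ∧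
    (A * n₁ * n₂) ^ (ε / 2) * A ^ (1 / 6 : ℝ) * n₁ ^ (1 / 3 : ℝ) * n₂ ^ (-(1 / 6 : ℝ)) ≤
      Λ ^ 2 * ((A * Λ * B) ^ ε * ((A * B) ^ (1 / 6 : ℝ) * B)) / (Λ * B) ∧
    (n₁ * n₂) ^ (ε / 2) * A ^ (1 / 2 : ℝ) * (n₁ * n₂) ^ (-(1 / 6 : ℝ)) ≤
      Λ ^ 2 * ((A * Λ * B) ^ ε * (A ^ (1 / 2 : ℝ) * B ^ (2 / 3 : ℝ))) / (Λ * B) := by
  have hx : 0 < B / Λ := by positivity
  obtain ⟨u₁, rfl⟩ : ∃ u, n₁ = Real.exp u := ⟨_, (Real.exp_log (hx.trans_le h₁.1)).symm⟩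
  obtain ⟨u₂, rfl⟩ : ∃ u, n₂ = Real.exp u := ⟨_, (Real.exp_log (hx.trans_le h₂.1)).symm⟩
  obtain ⟨a, rfl⟩ : ∃ u, A = Real.exp u := ⟨_, (Real.exp_log (by positivity)).symm⟩
  obtain ⟨b, rfl⟩ : ∃ u, B = Real.exp u := ⟨_, (Real.exp_log (by positivity)).symm⟩
  obtain ⟨l, rfl⟩ : ∃ u, Λ = Real.exp u := ⟨_, (Real.exp_log (by positivity)).symm⟩
  simp only [sq, ← Real.exp_add, ← Real.exp_sub, ← Real.exp_mul, Real.exp_le_exp,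
    Real.one_le_exp_iff] at *
  have e1 := mul_le_mul_of_nonneg_left h₁.2 hε.le
  have e2 := mul_le_mul_of_nonneg_left h₂.2 hε.le
  have e3 := mul_nonneg hε.le hA
  refine ⟨?_, ?_, ?_⟩ <;> linarith [h₁.1, h₁.2, h₂.1, h₂.2]

theorem DspE_W (y : ℝ) : ((‖Wc y 0‖ : ℝ) : ℂ) = Wc y 0 := by
  rw [norm_Wc, Wc, Complex.ofReal_exp]
  congr 1
  simp

open Classical in
/-- One term of the expanded square. -/
def DspE_F (A : ℝ) (u v : O → O → ℂ) (b₁ b₂ a : O) : ℂ :=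
  if Primary a then Wc (nr a / A) 0 * (u a b₁ * conj (v a b₂)) else 0

theorem DspE_summable {A : ℝ} (hA : 0 < A) {u v : O → O → ℂ} {b₁ b₂ : O} {M₁ M₂ : ℝ}
    (h₁ : ∀ a, ‖u a b₁‖ ≤ M₁) (h₂ : ∀ a, ‖v a b₂‖ ≤ M₂) : Summable (DspE_F A u v b₁ b₂) := by
  refine Summable.of_norm_bounded ((pp_W.sum₁ A hA).mul_right (M₁ * M₂)) fun a => ?_
  have p₁ := (norm_nonneg _).trans (h₁ a)
  have p₂ := (norm_nonneg _).trans (h₂ a)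
  unfold DspE_F
  split_ifs
  · rw [norm_mul, norm_mul, Complex.norm_conj]
    exact mul_le_mul_of_nonneg_left (mul_le_mul (h₁ a) (h₂ a) (norm_nonneg _) p₁) (norm_nonneg _)
  · rw [norm_zero]
    positivity

theorem DspE_conj (A : ℝ) (u v : O → O → ℂ) (b₁ b₂ : O) :
    conj (∑' a, DspE_F A u v b₁ b₂ a) = ∑' a, DspE_F A v u b₂ b₁ a := by
  rw [Complex.conj_tsum]
  refine tsum_congr fun a => ?_
  unfold DspE_F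
  split_ifs
  · rw [map_mul, map_mul, Complex.conj_conj, conj_Wc, map_zero, mul_comm (v a b₂)]
  · exact map_zero _

theorem DspE_expand {A : ℝ} (hA : 0 < A) {S : Finset O} (hS : ∀ b ∈ S, PS b) (γ : O → ℂ) :
    (Disp A S γ : ℂ) = ∑ b₁ ∈ S, ∑ b₂ ∈ S, γ b₁ * conj (γ b₂) *
      ((∑' a, DspE_F A gk gk b₁ b₂ a) - (∑' a, DspE_F A gk mdl b₁ b₂ a) -
        (∑' a, DspE_F A mdl gk b₁ b₂ a) + ∑' a, DspE_F A mdl mdl b₁ b₂ a) := by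
  have hg : ∀ b ∈ S, ∀ a, ‖gk a b‖ ≤ 1 := fun b hb a => norm_gk_le a (hS b hb)
  have hm : ∀ b ∈ S, ∀ a, ‖mdl a b‖ ≤ _ := fun b hb a => norm_mdl_le a (hS b hb)
  have hs : ∀ b₁ ∈ S, ∀ b₂ ∈ S, HasSum (fun a => γ b₁ * conj (γ b₂) *
      (DspE_F A gk gk b₁ b₂ a - DspE_F A gk mdl b₁ b₂ a - DspE_F A mdl gk b₁ b₂ a +
        DspE_F A mdl mdl b₁ b₂ a)) _ := fun b₁ h₁ b₂ h₂ =>
    ((((DspE_summable hA (hg _ h₁) (hg _ h₂)).hasSum.sub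
      (DspE_summable hA (hg _ h₁) (hm _ h₂)).hasSum).sub
      (DspE_summable hA (hm _ h₁) (hg _ h₂)).hasSum).add
      (DspE_summable hA (hm _ h₁) (hm _ h₂)).hasSum).mul_left _
  rw [← (hasSum_sum fun b₁ h₁ => hasSum_sum fun b₂ h₂ => hs b₁ h₁ b₂ h₂).tsum_eq, Disp,
    Complex.ofReal_tsum]
  refine tsum_congr fun a => ?_
  unfold DspE_F
  split_ifs
  · have : ((‖EE S γ a‖ ^ 2 : ℝ) : ℂ) = EE S γ a * conj (EE S γ a) := by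
      rw [Complex.mul_conj, Complex.normSq_eq_norm_sq]
    rw [Complex.ofReal_mul, DspE_W, this, EE, map_sum, Finset.sum_mul_sum, Finset.mul_sum]
    refine Finset.sum_congr rfl fun b₁ _ => ?_
    rw [Finset.mul_sum]
    refine Finset.sum_congr rfl fun b₂ _ => ?_
    rw [map_mul, map_sub]
    ring
  · simp

/-- The sum of the four error terms. -/
def DspE_T (A : ℝ) (b₁ b₂ : O) : ℂ :=
  (pairSum kW A (fun g e k => k ≠ 0 ∧ Cube (row g e k)) b₁ b₂ - MT A b₁ b₂) -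
    ((∑' a, DspE_F A gk mdl b₁ b₂ a) - MT A b₁ b₂) -
    conj ((∑' a, DspE_F A gk mdl b₂ b₁ a) - MT A b₂ b₁) +
    ((∑' a, DspE_F A mdl mdl b₁ b₂ a) - MT A b₁ b₂)

theorem DspE_split {A : ℝ} (hA : 0 < A) {S : Finset O} (hS : ∀ b ∈ S, PS b) (γ : O → ℂ) :
    (Disp A S γ : ℂ) = NCs A S γ + RowSum kW A S γ (fun _ _ k => k = 0) +
      ∑ b₁ ∈ S, ∑ b₂ ∈ S, γ b₁ * conj (γ b₂) * DspE_T A b₁ b₂ := by
  rw [DspE_expand hA hS, NCs, RowSum, RowSum, ← Finset.sum_add_distrib, ← Finset.sum_add_distrib]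
  refine Finset.sum_congr rfl fun b₁ h₁ => ?_
  rw [← Finset.sum_add_distrib, ← Finset.sum_add_distrib]
  refine Finset.sum_congr rfl fun b₂ h₂ => ?_
  have e1 : ∑' a, DspE_F A gk gk b₁ b₂ a = pairSum kW A (fun _ _ _ => True) b₁ b₂ :=
    pair_expand pp_W hA (hS _ h₁) (hS _ h₂)
  rw [pairSum_split pp_W hA (hS _ h₁) (hS _ h₂) _ (fun _ _ k => k = 0),
    pairSum_split pp_W hA (hS _ h₁) (hS _ h₂) (fun _ _ k => True ∧ ¬ k = 0)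
      (fun g e k => Cube (row g e k))] at e1
  simp only [true_and] at e1
  rw [e1, DspE_T, map_sub, DspE_conj, conj_MT]
  simp only [ne_eq]
  ring

theorem DspE_T_le {ε : ℝ} (hε : 0 < ε) : ∃ C : ℝ, 0 < C ∧ ∀ (A B Λ : ℝ) (b₁ b₂ : O),
    1 ≤ A → 1 ≤ B → 1 ≤ Λ → (PS b₁ ∧ B / Λ ≤ nr b₁ ∧ nr b₁ ≤ Λ * B) →
    (PS b₂ ∧ B / Λ ≤ nr b₂ ∧ nr b₂ ≤ Λ * B) →
    ‖DspE_T A b₁ b₂‖ ≤ C * (Λ ^ 2 * (A ^ (3 / 4 : ℝ) * B ^ (1 / 2 : ℝ) +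
      (A * Λ * B) ^ ε * ((A * B) ^ (1 / 6 : ℝ) * B + A ^ (1 / 2 : ℝ) * B ^ (2 / 3 : ℝ))) / (Λ * B)) *
      (2 ^ (pf b₁).card * 2 ^ (pf b₂).card * nr (pgcd b₁ b₂) ^ (1 / 4 : ℝ)) := by
  obtain ⟨C₁, hC₁, c₁⟩ := cube_rows
  obtain ⟨C₂, hC₂, c₂⟩ := cross_term (half_pos hε)
  obtain ⟨C₃, hC₃, c₃⟩ := model_term (half_pos hε)
  refine ⟨C₁ + 2 * C₂ + C₃, by positivity, fun A B Λ b₁ b₂ hA hB hΛ h₁ h₂ => ?_⟩
  have hA0 : 0 < A := by positivity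
  obtain ⟨p₁, p₂, p₃⟩ := DspE_pow hε hA hB hΛ h₁.2 h₂.2
  obtain ⟨-, p₄, -⟩ := DspE_pow hε hA hB hΛ h₂.2 h₁.2
  set w : ℝ := 2 ^ (pf b₁).card * 2 ^ (pf b₂).card * nr (pgcd b₁ b₂) ^ (1 / 4 : ℝ) with hw
  have hw1 : 1 ≤ w := one_le_mul_of_one_le_of_one_le
    (one_le_mul_of_one_le_of_one_le (one_le_pow₀ one_le_two) (one_le_pow₀ one_le_two))
    (Real.one_le_rpow (one_le_nr (primary_pgcd b₁ b₂).ne_zero) (by norm_num))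
  set X₁ : ℝ := Λ ^ 2 * B ^ (1 / 2 : ℝ) / (Λ * B) with hX₁
  set X₂ : ℝ := Λ ^ 2 * ((A * Λ * B) ^ ε * ((A * B) ^ (1 / 6 : ℝ) * B)) / (Λ * B) with hX₂
  set X₃ : ℝ := Λ ^ 2 * ((A * Λ * B) ^ ε * (A ^ (1 / 2 : ℝ) * B ^ (2 / 3 : ℝ))) / (Λ * B) with hX₃
  have n₁ : 0 ≤ A ^ (3 / 4 : ℝ) * X₁ := by positivity
  have n₂ : 0 ≤ X₂ := by positivity
  have n₃ : 0 ≤ X₃ := by positivity
  have e : Λ ^ 2 * (A ^ (3 / 4 : ℝ) * B ^ (1 / 2 : ℝ) +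
      (A * Λ * B) ^ ε * ((A * B) ^ (1 / 6 : ℝ) * B + A ^ (1 / 2 : ℝ) * B ^ (2 / 3 : ℝ))) / (Λ * B) =
      A ^ (3 / 4 : ℝ) * X₁ + X₂ + X₃ := by
    rw [hX₁, hX₂, hX₃]
    ring
  rw [e]
  set Y : ℝ := A ^ (3 / 4 : ℝ) * X₁ + X₂ + X₃ with hY
  have hY0 : 0 ≤ Y := by positivity
  have hYw : Y ≤ Y * w := le_mul_of_one_le_right hY0 hw1
  have a₁ : ‖pairSum kW A (fun g e k => k ≠ 0 ∧ Cube (row g e k)) b₁ b₂ - MT A b₁ b₂‖ ≤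
      C₁ * (Y * w) := by
    refine (c₁ A b₁ b₂ hA0 h₁.1 h₂.1).trans ?_
    calc _ = C₁ * (A ^ (3 / 4 : ℝ) * (nr b₁ * nr b₂) ^ (-(1 / 4 : ℝ)) * w) := by rw [hw]; ring
      _ ≤ _ := mul_le_mul_of_nonneg_left (mul_le_mul_of_nonneg_right
        ((mul_le_mul_of_nonneg_left p₁ (by positivity)).trans (by linarith)) (by linarith)) hC₁.le
  have a₂ : ‖(∑' a, DspE_F A gk mdl b₁ b₂ a) - MT A b₁ b₂‖ ≤ C₂ * (Y * w) := by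
    refine (c₂ A b₁ b₂ hA h₁.1 h₂.1).trans ?_
    simp only [mul_assoc C₂]
    exact mul_le_mul_of_nonneg_left (p₂.trans (by linarith)) hC₂.le
  have a₃ : ‖conj ((∑' a, DspE_F A gk mdl b₂ b₁ a) - MT A b₂ b₁)‖ ≤ C₂ * (Y * w) := by
    rw [Complex.norm_conj]
    refine (c₂ A b₂ b₁ hA h₂.1 h₁.1).trans ?_
    simp only [mul_assoc C₂]
    exact mul_le_mul_of_nonneg_left (p₄.trans (by linarith)) hC₂.le
  have a₄ : ‖(∑' a, DspE_F A mdl mdl b₁ b₂ a) - MT A b₁ b₂‖ ≤ C₃ * (Y * w) := by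
    refine (c₃ A b₁ b₂ hA h₁.1 h₂.1).trans ?_
    simp only [mul_assoc C₃]
    exact mul_le_mul_of_nonneg_left (p₃.trans (by linarith)) hC₃.le
  refine (norm_add_le_of_le (norm_sub_le_of_le (norm_sub_le_of_le a₁ a₂) a₃) a₄).trans_eq ?_
  ring

/-- **Dispersion estimate**: expand the square; `pair_expand` with `pp_W`, rows `k = 0`, cube rows,
non-cube rows; the three main terms cancel (`MT - MT - MT + MT`). -/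
theorem disp_le {ε : ℝ} (hε : 0 < ε) : ∃ C : ℝ, 0 < C ∧ ∀ (A B Λ : ℝ) (S : Finset O) (γ : O → ℂ),
    1 ≤ A → 1 ≤ B → 1 ≤ Λ → (∀ b ∈ S, PS b ∧ B / Λ ≤ nr b ∧ nr b ≤ Λ * B) →
    Disp A S γ ≤ ‖NCs A S γ‖ + C * Λ ^ 2 * ((A + A ^ (3 / 4 : ℝ) * B ^ (1 / 2 : ℝ)) +
      (A * Λ * B) ^ ε * ((A * B) ^ (1 / 6 : ℝ) * B + A ^ (1 / 2 : ℝ) * B ^ (2 / 3 : ℝ))) *
        NW 8 S γ := by
  obtain ⟨C, hC, h⟩ := DspE_T_le hε
  refine ⟨‖kW 0‖ + 7 * C, by positivity, fun A B Λ S γ hA hB hΛ hS => ?_⟩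
  have hA0 : 0 < A := by positivity
  have hy : 0 < Λ * B := by positivity
  have hS' : ∀ b ∈ S, PS b := fun b hb => (hS b hb).1
  have hN := NW_nonneg (k := 8) (by norm_num) S γ
  set Y : ℝ := A ^ (3 / 4 : ℝ) * B ^ (1 / 2 : ℝ) +
    (A * Λ * B) ^ ε * ((A * B) ^ (1 / 6 : ℝ) * B + A ^ (1 / 2 : ℝ) * B ^ (2 / 3 : ℝ)) with hY
  have hY0 : 0 ≤ Y := by positivity
  have a₁ : ‖RowSum kW A S γ (fun _ _ k => k = 0)‖ ≤ ‖kW 0‖ * (Λ ^ 2 * (A + Y) * NW 8 S γ) := by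
    refine (norm_rowSum_zero_le kW hA0 hS' γ).trans ?_
    rw [mul_comm A, mul_assoc]
    refine mul_le_mul_of_nonneg_left (mul_le_mul ?_ (N2_le_NW (by norm_num) S γ)
      (Finset.sum_nonneg fun _ _ => by positivity) (by positivity)) (norm_nonneg _)
    exact (le_add_of_nonneg_right hY0).trans
      (le_mul_of_one_le_left (by positivity) (one_le_pow₀ hΛ))
  have a₂ : ‖∑ b₁ ∈ S, ∑ b₂ ∈ S, γ b₁ * conj (γ b₂) * DspE_T A b₁ b₂‖ ≤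
      7 * C * (Λ ^ 2 * (A + Y) * NW 8 S γ) := by
    have h1 := mul_le_mul_of_nonneg_left
      (sum_gcd_le hy.le (fun b hb => ⟨(hS b hb).1, (hS b hb).2.2⟩) γ)
      (show 0 ≤ C * (Λ ^ 2 * Y / (Λ * B)) by positivity)
    refine le_trans ?_ (h1.trans ?_)
    · rw [Finset.mul_sum]
      refine (norm_sum_le _ _).trans (Finset.sum_le_sum fun b₁ h₁ => ?_)
      rw [Finset.mul_sum]
      refine (norm_sum_le _ _).trans (Finset.sum_le_sum fun b₂ h₂ => ?_)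
      rw [norm_mul, norm_mul, Complex.norm_conj, mul_left_comm]
      exact mul_le_mul_of_nonneg_left (h A B Λ b₁ b₂ hA hB hΛ (hS _ h₁) (hS _ h₂)) (by positivity)
    · calc _ = 7 * C * (Λ ^ 2 * Y * NW 8 S γ) := by field_simp
        _ ≤ _ := by gcongr; linarith
  have a₃ := norm_add_le_of_le (norm_add_le_of_le (le_refl ‖NCs A S γ‖) a₁) a₂
  rw [← DspE_split hA0 hS', Complex.norm_real] at a₃
  refine (le_abs_self _).trans (a₃.trans_eq ?_)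
  rw [add_assoc A, ← hY]
  ring

end Crest.Agent.R12
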