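import Crest.Agent.R12.ExpB1

/-!
# Row 12, analytic half: the dual expansion of a mean square
-/

set_option autoImplicit false

noncomputable section

namespace Crest.Agent.R12

open Crest.Agent.R17
open scoped ComplexConjugate Topology
open Filter MeasureTheory

theorem mem_DS {S : Finset O} (hS : ∀ b ∈ S, PS b) {d : O} (hd : d ∈ DS S) : PS d := by
  classical
  obtain ⟨b, hb, hd⟩ := Finset.mem_biUnion.1 hd
  exact ((hS b hb).div hd).1
theorem mem_Sd {S : Finset O} {d b : O} : b ∈ Sd S d ↔ b ∈ S ∧ d ∣ b := by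
  classical
  unfold Sd
  exact Finset.mem_filter

open Classical in
theorem ExpB_count {S : Finset O} (hS : ∀ b ∈ S, PS b) {b : O} (hb : PS b) :
    ∑ g ∈ DS S, ∑ _e ∈ pdiv g, ∑ k₀ ∈ DS S, (if g * k₀ ∣ b then (1 : ℝ) else 0) ≤
      4 ^ (pf b).card := by
  have h1 : ∀ g ∈ DS S, ∑ _e ∈ pdiv g, ∑ k₀ ∈ DS S, (if g * k₀ ∣ b then (1 : ℝ) else 0) ≤
      if g ∈ pdiv b then 2 ^ (pf g).card * 2 ^ (pf (b / g)).card else 0 := by
    intro g hg
    have hg' := mem_DS hS hg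
    split_ifs with h
    · obtain ⟨-, h2, -, h4⟩ := hb.div h
      rw [Finset.sum_const, nsmul_eq_mul, hg'.card_pdiv, Finset.sum_boole, ← h2.card_pdiv]
      refine mul_le_mul_of_nonneg_left (Nat.cast_le.2 (Finset.card_le_card fun k hk => ?_))
        (by positivity)
      rw [Finset.mem_filter] at hk
      refine (mem_pdiv h2.ne_zero).2 ⟨(mem_DS hS hk.1).1, ?_⟩
      have h5 := hk.2
      rw [← h4] at h5
      exact (mul_dvd_mul_iff_left hg'.ne_zero).1 h5
    · refine le_of_eq (Finset.sum_eq_zero fun e _ => Finset.sum_eq_zero fun k _ => if_neg ?_)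
      exact fun h5 => h ((mem_pdiv hb.ne_zero).2 ⟨hg'.1, (dvd_mul_right g k).trans h5⟩)
  refine (Finset.sum_le_sum h1).trans ?_
  rw [← Finset.sum_filter, show (4 : ℝ) = 2 + 2 by norm_num, ← hb.sum_pdiv_pow]
  exact Finset.sum_le_sum_of_subset_of_nonneg (fun g hg => (Finset.mem_filter.1 hg).2)
    fun _ _ _ => by positivity

/-- The number of triples `(g, e, h)` with `e ∣ g`, `g h ∣ b` is `4^{ω(b)}`. -/
theorem sum_N2_Sd_le {S : Finset O} (hS : ∀ b ∈ S, PS b) (γ : O → ℂ) :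
    ∑ g ∈ DS S, ∑ _e ∈ pdiv g, ∑ k₀ ∈ DS S, N2 (Sd S (g * k₀)) γ ≤ NW 4 S γ := by
  classical
  have h1 : ∀ d : O, N2 (Sd S d) γ = ∑ b ∈ S, ‖γ b‖ ^ 2 * (if d ∣ b then (1 : ℝ) else 0) := by
    intro d
    unfold N2 Sd
    rw [Finset.sum_filter]
    refine Finset.sum_congr rfl fun b _ => ?_
    split_ifs <;> simp
  have h2 : ∑ g ∈ DS S, ∑ _e ∈ pdiv g, ∑ k₀ ∈ DS S, N2 (Sd S (g * k₀)) γ =
      ∑ b ∈ S, ‖γ b‖ ^ 2 *
        ∑ g ∈ DS S, ∑ _e ∈ pdiv g, ∑ k₀ ∈ DS S, (if g * k₀ ∣ b then (1 : ℝ) else 0) := by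
    simp only [h1, Finset.mul_sum]
    rw [Finset.sum_comm]
    refine Finset.sum_congr rfl fun g _ => ?_
    rw [Finset.sum_comm (s := S)]
    refine Finset.sum_congr rfl fun e _ => ?_
    rw [Finset.sum_comm]
  rw [h2, NW]
  exact Finset.sum_le_sum fun b hb =>
    mul_le_mul_of_nonneg_left (ExpB_count hS (hS b hb)) (by positivity)

open Classical in
/-- A column sum over the multiples of `d` as a `col` (with the fixed part `c` of the row absorbed
in the coefficients). -/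
theorem sum_Sd_eq_col {S : Finset O} (hS : ∀ b ∈ S, PS b) {d : O} (hd : Primary d) (γ : O → ℂ)
    (k c : O) : ∑ b ∈ Sd S d, γ b * cub (b / d) (k * c) =
      col ((Sd S d).image (· / d)) (fun b => γ (d * b) * cub b c) k ∧
    N2 ((Sd S d).image (· / d)) (fun b => γ (d * b) * cub b c) ≤ N2 (Sd S d) γ ∧
    ∀ b ∈ (Sd S d).image (· / d), PS b ∧ d * b ∈ S := by
  have h1 : ∀ b ∈ Sd S d, d * (b / d) = b := fun b hb =>
    EuclideanDomain.mul_div_cancel' hd.ne_zero (mem_Sd.1 hb).2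
  have h2 : Set.InjOn (· / d) (Sd S d : Set O) := fun a ha b hb hab => by
    have hab' : a / d = b / d := hab
    rw [← h1 a ha, ← h1 b hb, hab']
  refine ⟨?_, ?_, fun b hb => ?_⟩
  · rw [col, Finset.sum_image h2]
    refine Finset.sum_congr rfl fun b hb => ?_
    rw [h1 b hb, cub_mul_right]
    ring
  · rw [N2, N2, Finset.sum_image h2]
    refine Finset.sum_le_sum fun b hb => ?_
    rw [h1 b hb, norm_mul]
    exact pow_le_pow_left₀ (by positivity)
      (mul_le_of_le_one_right (norm_nonneg _) (norm_cub_le _ _)) 2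
  · obtain ⟨a, ha, rfl⟩ := Finset.mem_image.1 hb
    obtain ⟨ha1, ha2⟩ := mem_Sd.1 ha
    have h3 := hS a ha1
    exact ⟨(h3.div ((mem_pdiv h3.ne_zero).2 ⟨hd, ha2⟩)).2.1, (h1 a ha).symm ▸ ha1⟩

end Crest.Agent.R12
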