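import Crest.Agent.R12.DspB
import Crest.Agent.R12.DspC
import Crest.Agent.R12.DspD
import Crest.Agent.R12.ExpB

/-!
# Row 12, analytic half: the dispersion estimate
-/

set_option autoImplicit false

noncomputable section

namespace Crest.Agent.R12

open Crest.Agent.R17
open scoped ComplexConjugate Topology
open Filter MeasureTheory

theorem norm_EE_le {S : Finset O} (hS : ∀ b ∈ S, PS b) (γ : O → ℂ) (a : O) :
    ‖EE S γ a‖ ≤ (1 + cP) * ∑ b ∈ S, ‖γ b‖ := by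
  have hc := AFa_cP_pos
  rw [EE, Finset.mul_sum]
  refine (norm_sum_le _ _).trans (Finset.sum_le_sum fun b hb => ?_)
  rw [norm_mul, mul_comm]
  refine mul_le_mul_of_nonneg_right ((norm_sub_le _ _).trans (add_le_add (norm_gk_le a (hS b hb))
    ((norm_mdl_le a (hS b hb)).trans ?_))) (norm_nonneg _)
  exact mul_le_of_le_one_right hc.le
    (Real.rpow_le_one_of_one_le_of_nonpos (hS b hb).one_le (by norm_num))

open Classical in
theorem summable_Disp {A : ℝ} (hA : 0 < A) {S : Finset O} (hS : ∀ b ∈ S, PS b) (γ : O → ℂ) :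
    Summable fun a : O => if Primary a then ‖Wc (nr a / A) 0‖ * ‖EE S γ a‖ ^ 2 else 0 := by
  refine Summable.of_nonneg_of_le (fun a => by split_ifs <;> positivity) (fun a => ?_)
    ((pp_W.sum₁ A hA).mul_right (((1 + cP) * ∑ b ∈ S, ‖γ b‖) ^ 2))
  split_ifs
  · exact mul_le_mul_of_nonneg_left (pow_le_pow_left₀ (norm_nonneg _) (norm_EE_le hS γ a) 2)
      (norm_nonneg _)
  · positivity

theorem sum_EE_le_Disp : ∃ C : ℝ, 0 < C ∧ ∀ (A : ℝ) (Sa S : Finset O) (γ : O → ℂ), 0 < A →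
    (∀ b ∈ S, PS b) → (∀ a ∈ Sa, Primary a ∧ A ≤ nr a ∧ nr a ≤ 16 * A) →
    ∑ a ∈ Sa, ‖EE S γ a‖ ^ 2 ≤ C * Disp A S γ := by
  classical
  refine ⟨Real.exp (Real.log 16 ^ 2), Real.exp_pos _, fun A Sa S γ hA hS hSa => ?_⟩
  refine le_trans ?_ (mul_le_mul_of_nonneg_left ((summable_Disp hA hS γ).sum_le_tsum Sa
    fun a _ => by split_ifs <;> positivity) (Real.exp_pos _).le)
  rw [Finset.mul_sum]
  refine Finset.sum_le_sum fun a ha => ?_
  obtain ⟨h1, h2, h3⟩ := hSa a ha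
  rw [if_pos h1, ← mul_assoc, norm_Wc, ← Real.exp_add]
  refine le_mul_of_one_le_left (by positivity) (Real.one_le_exp ?_)
  have h4 : 1 ≤ nr a / A := (one_le_div hA).2 h2
  have h5 : Real.log (nr a / A) ≤ Real.log 16 :=
    Real.log_le_log (by linarith) ((div_le_iff₀ hA).2 h3)
  have h6 := pow_le_pow_left₀ (Real.log_nonneg h4) h5 2
  rw [Complex.zero_re, zero_mul]
  linarith

theorem conj_MT (A : ℝ) (b₁ b₂ : O) : conj (MT A b₁ b₂) = MT A b₂ b₁ := by
  have h : conj (Wm (2 / 3)) = Wm (2 / 3) := by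
    rw [Wm, map_mul, Complex.conj_ofReal, ← Complex.exp_conj]
    simp [map_ofNat]
  rw [MT, MT, map_mul, Complex.conj_ofReal, h, mul_comm (nr b₁), mul_comm b₁]

theorem DspE0_card {S : Finset O} {y : ℝ} (hy : 0 ≤ y) (hS : ∀ b ∈ S, PS b ∧ nr b ≤ y) {d : O}
    (hd : d ≠ 0) : nr d * (Sd S d).card ≤ 7 * y := by
  classical
  have h0 := nr_pos hd
  have h1 : ∀ b ∈ Sd S d, d * (b / d) = b := fun b hb =>
    EuclideanDomain.mul_div_cancel' hd (Finset.mem_filter.1 hb).2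
  have h2 := AFa0_card (K := (Sd S d).image (· / d)) (M := y / nr d) (by positivity) fun k hk => by
    obtain ⟨b, hb, rfl⟩ := Finset.mem_image.1 hk
    obtain ⟨h3, h4⟩ := hS b (Finset.mem_filter.1 hb).1
    refine ⟨fun h => h3.ne_zero (by rw [← h1 b hb, h, mul_zero]), ?_⟩
    rw [le_div_iff₀' h0, ← nr_mul, h1 b hb]
    exact h4
  rw [Finset.card_image_of_injOn fun a ha b hb h => by
    rw [← h1 a ha, ← h1 b hb, show a / d = b / d from h]] at h2
  rwa [← mul_div_assoc, le_div_iff₀' h0] at h2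

/-- `N(g)^{1/4} ≤ ∑_{d ∣ b₁, d ∣ b₂} N(d)^{1/4}` and Cauchy–Schwarz for each `d`. -/
theorem sum_gcd_le {S : Finset O} {y : ℝ} (hy : 0 ≤ y) (hS : ∀ b ∈ S, PS b ∧ nr b ≤ y)
    (γ : O → ℂ) : ∑ b₁ ∈ S, ∑ b₂ ∈ S, ‖γ b₁‖ * ‖γ b₂‖ *
      (2 ^ (pf b₁).card * 2 ^ (pf b₂).card * nr (pgcd b₁ b₂) ^ (1 / 4 : ℝ)) ≤
        7 * y * NW 8 S γ := by
  classical
  have hS' : ∀ b ∈ S, PS b := fun b hb => (hS b hb).1
  obtain ⟨x, hx⟩ : ∃ x : O → ℝ, ∀ b, x b = ‖γ b‖ * 2 ^ (pf b).card := ⟨_, fun _ => rfl⟩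
  have hx0 : ∀ b, 0 ≤ x b := fun b => by rw [hx]; positivity
  calc _ ≤ ∑ b₁ ∈ S, ∑ b₂ ∈ S, ∑ d ∈ DS S,
        nr d * ((if d ∣ b₁ then x b₁ else 0) * if d ∣ b₂ then x b₂ else 0) := by
        refine Finset.sum_le_sum fun b₁ h₁ => Finset.sum_le_sum fun b₂ h₂ => ?_
        have hg := primary_pgcd b₁ b₂
        have hd := (dvd_pgcd_iff (hS' b₁ h₁).ne_zero (hS' b₂ h₂).ne_zero hg).1 dvd_rfl
        refine le_trans ?_ (Finset.single_le_sum (fun d _ => mul_nonneg (Nat.cast_nonneg _)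
          (mul_nonneg (by split_ifs; exacts [hx0 _, le_rfl])
            (by split_ifs; exacts [hx0 _, le_rfl])))
          ((ExpB1_mem_DS hS').2 ⟨hg, b₁, h₁, hd.1⟩))
        rw [if_pos hd.1, if_pos hd.2, hx, hx]
        have := Real.rpow_le_self_of_one_le (one_le_nr hg.ne_zero) (show (1 / 4 : ℝ) ≤ 1 by norm_num)
        calc _ ≤ ‖γ b₁‖ * ‖γ b₂‖ * (2 ^ (pf b₁).card * 2 ^ (pf b₂).card * nr (pgcd b₁ b₂)) := by
              gcongr
          _ = _ := by ring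
    _ = ∑ d ∈ DS S, nr d * (∑ b ∈ Sd S d, x b) ^ 2 := by
        rw [Finset.sum_congr rfl fun _ _ => Finset.sum_comm, Finset.sum_comm]
        refine Finset.sum_congr rfl fun d _ => ?_
        rw [Sd, Finset.sum_filter, sq, Finset.sum_mul_sum]
        simp only [Finset.mul_sum]
    _ ≤ ∑ d ∈ DS S, 7 * y * ∑ b ∈ S, if d ∣ b then x b ^ 2 else 0 := by
        refine Finset.sum_le_sum fun d hd => ?_
        have h0 := ((ExpB1_mem_DS hS').1 hd).1.ne_zero
        refine (mul_le_mul_of_nonneg_left sq_sum_le_card_mul_sum_sq (nr_pos h0).le).trans ?_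
        rw [← mul_assoc, ← Finset.sum_filter]
        exact mul_le_mul_of_nonneg_right (DspE0_card hy hS h0)
          (Finset.sum_nonneg fun _ _ => sq_nonneg _)
    _ = _ := by
        rw [← Finset.mul_sum, Finset.sum_comm, NW]
        refine congrArg _ (Finset.sum_congr rfl fun b hb => ?_)
        have : (DS S).filter (· ∣ b) = pdiv b := by
          ext d
          rw [Finset.mem_filter, ExpB1_mem_DS hS', mem_pdiv (hS' b hb).ne_zero]
          exact ⟨fun h => ⟨h.1.1, h.2⟩, fun h => ⟨⟨h.1, b, hb, h.2⟩, h.2⟩⟩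
        rw [← Finset.sum_filter, this, Finset.sum_const, nsmul_eq_mul, (hS' b hb).card_pdiv, hx,
          show (8 : ℝ) = 2 * 2 * 2 by norm_num, mul_pow, mul_pow, mul_pow]
        ring

end Crest.Agent.R12
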