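import Crest.Agent.R12.DspF0

/-!
# Row 12, analytic half: the non-cube rows: Mellin separation
-/

set_option autoImplicit false

noncomputable section

namespace Crest.Agent.R12

open Crest.Agent.R17
open scoped ComplexConjugate Topology
open Filter MeasureTheory

theorem DspF_gauss : Integrable fun u : ℝ => Real.exp (-u ^ 2 / 16) := by
  simpa only [show ∀ u : ℝ, -(1 / 16) * u ^ 2 = -u ^ 2 / 16 from fun u => by ring] using
    integrable_exp_neg_mul_sq (b := 1 / 16) (by norm_num)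

theorem DspF_integrable {B : ℝ} (hB : 0 < B) {S : Finset O} (hS : ∀ b ∈ S, b ≠ 0) (γ : O → ℂ)
    (d κ : O) (c : ℝ) : Integrable fun u : ℝ => Real.exp (-u ^ 2 / 8) *
      ‖cl S γ d κ B ((c : ℝ) + u * Complex.I)‖ ^ 2 := by
  have hp : ∀ b ∈ Sd S d, 0 < nr b / B := fun b hb => div_pos (nr_pos (hS b (mem_Sd.1 hb).1)) hB
  have hc : Continuous fun u : ℝ => cl S γ d κ B ((c : ℝ) + u * Complex.I) :=
    continuous_finsetSum _ fun b hb => continuous_const.mul (Continuous.const_cpow (by fun_prop)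
      (Or.inl (Complex.ofReal_ne_zero.2 (hp b hb).ne')))
  refine (DspF_gauss.mul_const
    ((∑ b ∈ Sd S d, ‖γ b * cub (b / d) κ‖ * (nr b / B) ^ c) ^ 2)).mono'
    (Continuous.aestronglyMeasurable (by fun_prop)) (Eventually.of_forall fun u => ?_)
  rw [Real.norm_of_nonneg (by positivity)]
  refine mul_le_mul (Real.exp_le_exp.2 (by nlinarith [sq_nonneg u]))
    (pow_le_pow_left₀ (norm_nonneg _) ((norm_sum_le _ _).trans_eq ?_) 2) (by positivity)
    (Real.exp_pos _).le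
  refine Finset.sum_congr rfl fun b hb => ?_
  rw [norm_mul, Complex.norm_cpow_eq_rpow_re_of_pos (hp b hb)]
  simp

theorem DspF_pt (J : ℕ) {R R' U : ℝ} (hR : 0 ≤ R) (hR' : 0 ≤ R') (hU : 0 ≤ U) (u : ℝ) :
    Real.exp (-u ^ 2 / 8) * (R * (1 + |u|) ^ J + if U ≤ |u| then R' else 0) ≤
      Real.exp (4 * J ^ 2) * (R + Real.exp (-U ^ 2 / 16) * R') * Real.exp (-u ^ 2 / 16) := by
  have h1 : Real.exp (-u ^ 2 / 8) * (1 + |u|) ^ J ≤
      Real.exp (4 * J ^ 2) * Real.exp (-u ^ 2 / 16) := by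
    have h2 : (1 + |u|) ^ J ≤ Real.exp (J * |u|) := by
      rw [Real.exp_nat_mul]
      exact pow_le_pow_left₀ (by positivity) (by linarith [Real.add_one_le_exp |u|]) J
    refine (mul_le_mul_of_nonneg_left h2 (Real.exp_pos _).le).trans ?_
    rw [← Real.exp_add, ← Real.exp_add]
    refine Real.exp_le_exp.2 ?_
    nlinarith [sq_nonneg (|u| - 8 * J), sq_abs u]
  have h2 : Real.exp (-u ^ 2 / 8) * (if U ≤ |u| then R' else 0) ≤
      Real.exp (4 * J ^ 2) * (Real.exp (-U ^ 2 / 16) * R') * Real.exp (-u ^ 2 / 16) := by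
    split_ifs with h
    · have h3 : Real.exp (-u ^ 2 / 8) ≤
          Real.exp (4 * J ^ 2) * Real.exp (-U ^ 2 / 16) * Real.exp (-u ^ 2 / 16) := by
        rw [← Real.exp_add, ← Real.exp_add]
        refine Real.exp_le_exp.2 ?_
        nlinarith [pow_le_pow_left₀ hU h 2, sq_abs u, sq_nonneg (J : ℝ)]
      nlinarith [mul_le_mul_of_nonneg_right h3 hR']
    · rw [mul_zero]
      positivity
  nlinarith [mul_le_mul_of_nonneg_left h1 hR]

theorem DspF_sum (J : ℕ) {B R R' U G c : ℝ} (hB : 0 < B) (hR : 0 ≤ R) (hR' : 0 ≤ R') (hU : 0 ≤ U)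
    (hG : 0 ≤ G) {S : Finset O} (hS : ∀ b ∈ S, b ≠ 0) (γ : O → ℂ) (d : O) (r : O → O)
    (K : Finset O)
    (h : ∀ u : ℝ, ∑ k ∈ K, ‖cl S γ d (r k) B ((c : ℝ) + u * Complex.I)‖ ^ 2 ≤
      (R * (1 + |u|) ^ J + if U ≤ |u| then R' else 0) * G) :
    ∑ k ∈ K, ∫ u : ℝ, Real.exp (-u ^ 2 / 8) * ‖cl S γ d (r k) B ((c : ℝ) + u * Complex.I)‖ ^ 2 ≤
      Real.exp (4 * J ^ 2) * (∫ u : ℝ, Real.exp (-u ^ 2 / 16)) *
        (R + Real.exp (-U ^ 2 / 16) * R') * G := by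
  rw [← integral_finsetSum _ fun k _ => DspF_integrable hB hS γ d (r k) c]
  refine (integral_mono (integrable_finsetSum _ fun k _ => DspF_integrable hB hS γ d (r k) c)
    (DspF_gauss.const_mul (G * (Real.exp (4 * J ^ 2) * (R + Real.exp (-U ^ 2 / 16) * R'))))
    fun u => ?_).trans_eq ?_
  · simp only
    rw [← Finset.mul_sum]
    refine (mul_le_mul_of_nonneg_left (h u) (Real.exp_pos _).le).trans ?_
    rw [← mul_assoc, mul_comm _ G, mul_assoc G]
    exact mul_le_mul_of_nonneg_left (DspF_pt J hR hR' hU u) hG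
  · rw [integral_const_mul]
    ring

open Classical in
/-- **The non-cube rows** in terms of bounds for row sums (`norm_rowSum_le`; `σ = 1/4` for
`N k ≤ K'`, `σ = 3/2` for `N k > K'`, `K' = N(e) B² / (N(g)² A)`). -/
theorem nc_le (J : ℕ) : ∃ C : ℝ, 0 < C ∧ ∀ (A B U : ℝ) (S : Finset O) (γ : O → ℂ)
    (R R' : O → O → O → ℝ), 0 < A → 0 < B → 0 ≤ U → (∀ b ∈ S, PS b) →
    (∀ g e k₀, 0 ≤ R g e k₀ ∧ 0 ≤ R' g e k₀) →
    (∀ g ∈ DS S, ∀ e ∈ pdiv g, ∀ k₀ ∈ DS S, PS (g * k₀) → ∀ (M : ℝ) (s : ℂ) (K : Finset O),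
      1 ≤ M → |s.re| ≤ 1 → (∀ k ∈ K, k ≠ 0 ∧ nr k ≤ M ∧ ¬ Cube (row g e k)) →
      ∑ k ∈ K, ‖cl S γ (g * k₀) (row g e k) B s‖ ^ 2 ≤
        (R g e k₀ * (1 + |s.im|) ^ J + if U ≤ |s.im| then R' g e k₀ else 0) *
          gr (nr e * B ^ 2 / (nr g ^ 2 * A)) M) →
    ‖NCs A S γ‖ ≤ C * ∑ g ∈ DS S, ∑ e ∈ pdiv g, ∑ k₀ ∈ DS S,
      A * nr g / (nr e * B) * (R g e k₀ + Real.exp (-U ^ 2 / 16) * R' g e k₀) := by
  obtain ⟨C₁, hC₁, h₁⟩ := dyadic_rows
  obtain ⟨C₂, hC₂, h₂⟩ := norm_QQ_le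
  obtain ⟨c, hc⟩ : ∃ c : ℝ, c = Real.exp (4 * J ^ 2) * ∫ u : ℝ, Real.exp (-u ^ 2 / 16) := ⟨_, rfl⟩
  have hc0 : 0 ≤ c := hc ▸ mul_nonneg (Real.exp_pos _).le
    (integral_nonneg fun u => (Real.exp_pos _).le)
  refine ⟨C₂ * C₁ * (2 * c) + 1, by positivity, fun A B U S γ R R' hA hB hU hS hR h => ?_⟩
  refine (norm_rowSum_le pp_W hA hS γ _).trans ?_
  simp only [Finset.mul_sum]
  refine Finset.sum_le_sum fun g hg => Finset.sum_le_sum fun e he =>
    Finset.sum_le_sum fun k₀ hk₀ => ?_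
  have hg' := mem_DS hS hg
  have hg0 := hg'.ne_zero
  have he0 := ((mem_pdiv hg0).1 he).1.ne_zero
  have hgp := nr_pos hg0
  have hep := nr_pos he0
  have hS0 : ∀ b ∈ S, b ≠ 0 := fun b hb => (hS b hb).ne_zero
  obtain ⟨hR1, hR2⟩ := hR g e k₀
  obtain ⟨T, hT⟩ : ∃ T : ℝ, T = R g e k₀ + Real.exp (-U ^ 2 / 16) * R' g e k₀ := ⟨_, rfl⟩
  have hT0 : 0 ≤ T := by rw [hT]; positivity
  have key : (∑' k : O, if k ≠ 0 ∧ ¬ Cube (row g e k) then ‖QQ kW A S γ g e k₀ k‖ else 0) ≤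
      C₂ * (nr g / B) * (C₁ * (2 * c * T)) := by
    by_cases hps : PS (g * k₀)
    swap
    · have h0 : Sd S (g * k₀) = ∅ := Finset.eq_empty_of_forall_notMem fun b hb =>
        hps ((hS b (mem_Sd.1 hb).1).of_dvd (hg'.1.mul (mem_DS hS hk₀).1) (mem_Sd.1 hb).2)
      simp only [QQ, h0, Finset.sum_empty, norm_zero, ite_self, tsum_zero]
      positivity
    have hK' : 0 < nr e * B ^ 2 / (nr g ^ 2 * A) := by positivity
    obtain ⟨I, hI⟩ : ∃ I : ℝ → O → ℝ, ∀ σ k, I σ k = ∫ u : ℝ, Real.exp (-u ^ 2 / 8) *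
        ‖cl S γ (g * k₀) (row g e k) B ((σ - 1 / 2 : ℝ) + u * Complex.I)‖ ^ 2 :=
      ⟨_, fun _ _ => rfl⟩
    have hI0 : ∀ σ k, 0 ≤ I σ k := fun σ k => by
      rw [hI]
      exact integral_nonneg fun u => by positivity
    refine Real.tsum_le_of_sum_le (fun k => by
      simp only [Pi.zero_apply]
      split_ifs
      exacts [norm_nonneg _, le_rfl]) fun s => ?_
    rw [← Finset.sum_filter]
    have hK : ∀ k ∈ s.filter fun k => k ≠ 0 ∧ ¬ Cube (row g e k), k ≠ 0 ∧ ¬ Cube (row g e k) :=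
      fun k hk => (Finset.mem_filter.1 hk).2
    have h3 := h₁ _ (2 * c * T) (fun k => I (1 / 4) k + I (3 / 2) k) _ hK' (by positivity)
      (fun k => add_nonneg (hI0 _ k) (hI0 _ k)) (fun k hk => (hK k hk).1)
      fun M K₁ hM hK₁ hK₂ => by
        have hG : 0 ≤ gr (nr e * B ^ 2 / (nr g ^ 2 * A)) M :=
          le_max_of_le_left (Real.rpow_nonneg (by positivity) _)
        have h4 : ∀ σ : ℝ, |σ - 1 / 2| ≤ 1 → ∑ k ∈ K₁, I σ k ≤
            c * T * gr (nr e * B ^ 2 / (nr g ^ 2 * A)) M := by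
          intro σ hσ
          simp only [hI]
          rw [hc, hT]
          refine DspF_sum J hB hR1 hR2 hU hG hS0 γ _ (row g e) K₁ fun u => ?_
          have h5 := h g hg e he k₀ hk₀ hps M ((σ - 1 / 2 : ℝ) + u * Complex.I) K₁ hM
            (by simpa using hσ) fun k hk => ⟨(hK k (hK₁ hk)).1, hK₂ k hk, (hK k (hK₁ hk)).2⟩
          have h6 : (((σ - 1 / 2 : ℝ) : ℂ) + u * Complex.I).im = u := by simp
          rwa [h6] at h5
        have h5 := h4 (1 / 4) (by norm_num [abs_le])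
        have h6 := h4 (3 / 2) (by norm_num)
        rw [Finset.sum_add_distrib]
        linarith
    refine le_trans ?_ (mul_le_mul_of_nonneg_left h3 (by positivity))
    rw [Finset.mul_sum]
    refine Finset.sum_le_sum fun k hk => ?_
    have h4 := h₂ A B (1 / 4) S γ g e k₀ k hA hB le_rfl (by norm_num) hS0 hg0 he0 (hK k hk).1
    have h5 := h₂ A B (3 / 2) S γ g e k₀ k hA hB (by norm_num) le_rfl hS0 hg0 he0 (hK k hk).1
    rw [← hI, mul_assoc] at h4 h5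
    rcases min_choice ((nr k / (nr e * B ^ 2 / (nr g ^ 2 * A))) ^ (-(1 / 4 : ℝ)))
      ((nr k / (nr e * B ^ 2 / (nr g ^ 2 * A))) ^ (-(3 / 2 : ℝ))) with h6 | h6 <;> rw [h6]
    · exact h4.trans (mul_le_mul_of_nonneg_left (mul_le_mul_of_nonneg_left
        (le_add_of_nonneg_right (hI0 _ k)) (by positivity)) (by positivity))
    · exact h5.trans (mul_le_mul_of_nonneg_left (mul_le_mul_of_nonneg_left
        (le_add_of_nonneg_left (hI0 _ k)) (by positivity)) (by positivity))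
  rw [← hT]
  refine le_trans (mul_le_mul_of_nonneg_left (le_trans (le_of_eq ?_) key) (by positivity)) ?_
  · exact tsum_congr fun k => by congr
  · have h3 : A / (9 * nr e) * (C₂ * (nr g / B) * (C₁ * (2 * c * T))) =
        C₂ * C₁ * (2 * c) / 9 * (A * nr g / (nr e * B) * T) := by
      field_simp
    rw [h3]
    refine mul_le_mul_of_nonneg_right ?_ (by positivity)
    have : 0 ≤ C₂ * C₁ * (2 * c) := by positivity
    linarith

end Crest.Agent.R12
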