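import Crest.Agent.R12.DspA
import Crest.Agent.R12.ExpB

/-!
# Row 12, analytic half: the non-cube rows: Mellin separation
-/

set_option autoImplicit false

noncomputable section

namespace Crest.Agent.R12

open Crest.Agent.R17
open scoped ComplexConjugate Topology
open Filter MeasureTheory

/-- The growth allowed for the row sums. -/
def gr (K' M : ℝ) : ℝ := max ((M / K') ^ (1 / 3 : ℝ)) ((M / K') ^ (7 / 5 : ℝ))

theorem DspF0_geo {c : ℝ} (hc : 0 < c) : ∃ C : ℝ, 0 < C ∧ ∀ (lam : ℝ) (J : Finset ℕ),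
    ∑ j ∈ J, Real.exp (-(c * |(j : ℝ) - lam|)) ≤ C := by
  have hq : Summable fun n : ℕ => Real.exp (-(c * |(n : ℝ)|)) := by
    refine (summable_geometric_of_lt_one (Real.exp_pos (-c)).le
      (Real.exp_lt_one_iff.2 (by linarith))).congr fun n => ?_
    rw [← Real.exp_nat_mul, Nat.abs_cast]
    congr 1
    ring
  have hs : Summable fun i : ℤ => Real.exp (-(c * |(i : ℝ)|)) :=
    Summable.of_nat_of_neg (by simpa using hq) (by simpa using hq)
  refine ⟨Real.exp c * ∑' i : ℤ, Real.exp (-(c * |(i : ℝ)|)), mul_pos (Real.exp_pos _)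
    (hs.tsum_pos (fun _ => (Real.exp_pos _).le) 0 (Real.exp_pos _)), fun lam J => ?_⟩
  have h1 : ∀ j ∈ J, Real.exp (-(c * |(j : ℝ) - lam|)) ≤
      Real.exp c * Real.exp (-(c * |(((j : ℤ) - ⌊lam⌋ : ℤ) : ℝ)|)) := by
    intro j _
    rw [← Real.exp_add]
    refine Real.exp_le_exp.2 ?_
    have h2 : |(((j : ℤ) - ⌊lam⌋ : ℤ) : ℝ)| ≤ |(j : ℝ) - lam| + 1 := by
      push_cast
      have h3 := Int.floor_le lam
      have h4 := Int.lt_floor_add_one lam
      have h5 := le_abs_self ((j : ℝ) - lam)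
      have h6 := neg_abs_le ((j : ℝ) - lam)
      exact abs_le.2 ⟨by linarith, by linarith⟩
    nlinarith
  refine (Finset.sum_le_sum h1).trans ?_
  rw [← Finset.mul_sum]
  refine mul_le_mul_of_nonneg_left ?_ (Real.exp_pos _).le
  have hinj : Set.InjOn (fun j : ℕ => (j : ℤ) - ⌊lam⌋) J := fun a _ b _ h => by
    have h' : (a : ℤ) - ⌊lam⌋ = (b : ℤ) - ⌊lam⌋ := h
    omega
  rw [← Finset.sum_image (f := fun i : ℤ => Real.exp (-(c * |(i : ℝ)|))) hinj]
  exact hs.sum_le_tsum _ fun _ _ => (Real.exp_pos _).le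

theorem DspF0_wt {u v : ℝ} (hu : 0 < u) (huv : u ≤ v) :
    min (v ^ (-(1 / 4 : ℝ))) (v ^ (-(3 / 2 : ℝ))) *
      max ((2 * u) ^ (1 / 3 : ℝ)) ((2 * u) ^ (7 / 5 : ℝ)) ≤ 4 * Real.exp (-(|Real.log u| / 12)) := by
  have hv : 0 < v := hu.trans_le huv
  have h2 : ∀ p : ℝ, p ≤ 2 → (2 * u) ^ p ≤ 4 * u ^ p := fun p hp => by
    rw [Real.mul_rpow (by norm_num) hu.le]
    refine mul_le_mul_of_nonneg_right ?_ (by positivity)
    refine (Real.rpow_le_rpow_of_exponent_le (by norm_num) hp).trans_eq ?_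
    norm_num
  have h3 : ∀ p : ℝ, 0 ≤ p → v ^ (-p) ≤ u ^ (-p) := fun p hp =>
    Real.rpow_le_rpow_of_nonpos hu huv (by linarith)
  rcases le_total u 1 with h | h
  · have h4 : max ((2 * u) ^ (1 / 3 : ℝ)) ((2 * u) ^ (7 / 5 : ℝ)) ≤ 4 * u ^ (1 / 3 : ℝ) :=
      max_le (h2 _ (by norm_num)) ((h2 _ (by norm_num)).trans (mul_le_mul_of_nonneg_left
        (Real.rpow_le_rpow_of_exponent_ge hu h (by norm_num)) (by norm_num)))
    refine (mul_le_mul ((min_le_left _ _).trans (h3 _ (by norm_num))) h4 (by positivity)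
      (by positivity)).trans ?_
    rw [mul_left_comm, ← Real.rpow_add hu, Real.rpow_def_of_pos hu,
      abs_of_nonpos (Real.log_nonpos hu.le h)]
    refine mul_le_mul_of_nonneg_left (Real.exp_le_exp.2 (le_of_eq ?_)) (by norm_num)
    ring
  · have h4 : max ((2 * u) ^ (1 / 3 : ℝ)) ((2 * u) ^ (7 / 5 : ℝ)) ≤ 4 * u ^ (7 / 5 : ℝ) :=
      max_le ((h2 _ (by norm_num)).trans (mul_le_mul_of_nonneg_left
        (Real.rpow_le_rpow_of_exponent_le h (by norm_num)) (by norm_num))) (h2 _ (by norm_num))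
    refine (mul_le_mul ((min_le_right _ _).trans (h3 _ (by norm_num))) h4 (by positivity)
      (by positivity)).trans ?_
    rw [mul_left_comm, ← Real.rpow_add hu, Real.rpow_def_of_pos hu,
      abs_of_nonneg (Real.log_nonneg h)]
    refine mul_le_mul_of_nonneg_left (Real.exp_le_exp.2 ?_) (by norm_num)
    nlinarith [Real.log_nonneg h]

/-- Dyadic summation. -/
theorem dyadic_rows : ∃ C : ℝ, 0 < C ∧ ∀ (K' R : ℝ) (x : O → ℝ) (K : Finset O), 0 < K' → 0 ≤ R →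
    (∀ k, 0 ≤ x k) → (∀ k ∈ K, k ≠ 0) →
    (∀ (M : ℝ) (K₁ : Finset O), 1 ≤ M → K₁ ⊆ K → (∀ k ∈ K₁, nr k ≤ M) →
      ∑ k ∈ K₁, x k ≤ R * gr K' M) →
    ∑ k ∈ K, min ((nr k / K') ^ (-(1 / 4 : ℝ))) ((nr k / K') ^ (-(3 / 2 : ℝ))) * x k ≤ C * R := by
  have hl : 0 < Real.log 2 := Real.log_pos (by norm_num)
  obtain ⟨C, hC, h⟩ := DspF0_geo (c := Real.log 2 / 12) (by positivity)
  refine ⟨4 * C, by positivity, fun K' R x K hK' hR hx hK hrow => ?_⟩
  classical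
  rw [← Finset.sum_fiberwise_of_maps_to (t := K.image fun k => Nat.log 2 (nm k))
    (g := fun k => Nat.log 2 (nm k)) (fun k hk => Finset.mem_image_of_mem _ hk)]
  refine le_trans (Finset.sum_le_sum (g := fun j : ℕ => 4 * R *
    Real.exp (-(Real.log 2 / 12 * |(j : ℝ) - Real.log K' / Real.log 2|))) fun j _ => ?_) ?_
  · have hu : (0 : ℝ) < 2 ^ j / K' := by positivity
    have hb : ∀ k ∈ K.filter fun k => Nat.log 2 (nm k) = j,
        (2 : ℝ) ^ j ≤ nr k ∧ nr k ≤ 2 * 2 ^ j := by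
      intro k hk
      rw [Finset.mem_filter] at hk
      have h0 : nm k ≠ 0 := fun h0 => hK k hk.1 (nm_eq_zero.1 h0)
      have h1 := Nat.pow_log_le_self 2 h0
      have h2 := Nat.lt_pow_succ_log_self (b := 2) (by norm_num) (nm k)
      rw [hk.2] at h1 h2
      rw [Nat.succ_eq_add_one, pow_succ'] at h2
      unfold nr
      exact ⟨by exact_mod_cast h1, by exact_mod_cast h2.le⟩
    have h1 := hrow (2 * 2 ^ j) _ (by linarith [one_le_pow₀ (M₀ := ℝ) one_le_two (n := j)])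
      (Finset.filter_subset _ _) fun k hk => (hb k hk).2
    have h2 : ∑ k ∈ K.filter fun k => Nat.log 2 (nm k) = j,
        min ((nr k / K') ^ (-(1 / 4 : ℝ))) ((nr k / K') ^ (-(3 / 2 : ℝ))) * x k ≤
        min ((2 ^ j / K') ^ (-(1 / 4 : ℝ))) ((2 ^ j / K') ^ (-(3 / 2 : ℝ))) *
          ∑ k ∈ K.filter fun k => Nat.log 2 (nm k) = j, x k := by
      rw [Finset.mul_sum]
      refine Finset.sum_le_sum fun k hk => mul_le_mul_of_nonneg_right ?_ (hx k)
      have h3 : 2 ^ j / K' ≤ nr k / K' := div_le_div_of_nonneg_right (hb k hk).1 hK'.le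
      exact min_le_min (Real.rpow_le_rpow_of_nonpos hu h3 (by norm_num))
        (Real.rpow_le_rpow_of_nonpos hu h3 (by norm_num))
    refine h2.trans ((mul_le_mul_of_nonneg_left h1 (by positivity)).trans ?_)
    have h4 := DspF0_wt hu le_rfl
    have e1 : |Real.log (2 ^ j / K')| / 12 =
        Real.log 2 / 12 * |(j : ℝ) - Real.log K' / Real.log 2| := by
      rw [Real.log_div (by positivity) hK'.ne', Real.log_pow,
        show (j : ℝ) * Real.log 2 - Real.log K' =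
          Real.log 2 * ((j : ℝ) - Real.log K' / Real.log 2) by field_simp, abs_mul, abs_of_pos hl]
      ring
    rw [e1] at h4
    rw [gr, mul_div_assoc, mul_left_comm, mul_comm 4 R, mul_assoc]
    exact mul_le_mul_of_nonneg_left h4 hR
  · rw [← Finset.mul_sum, mul_right_comm]
    rw [mul_right_comm]
    exact (mul_le_mul_of_nonneg_left (h _ _) (by positivity)).trans_eq (by ring)

theorem DspF0_cpow {ρ r₁ r₂ : ℝ} (hρ : 0 < ρ) (h₁ : 0 < r₁) (h₂ : 0 < r₂) (σ u : ℝ) :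
    (((Real.sqrt (r₁ * r₂))⁻¹ : ℝ) : ℂ) * ((ρ / (r₁ * r₂) : ℝ) : ℂ) ^ (-((σ : ℂ) + u * Complex.I)) =
      (ρ : ℂ) ^ (-((σ : ℂ) + u * Complex.I)) *
        ((r₁ : ℂ) ^ (((σ - 1 / 2 : ℝ) : ℂ) + u * Complex.I) *
          conj ((r₂ : ℂ) ^ (((σ - 1 / 2 : ℝ) : ℂ) + (-u : ℝ) * Complex.I))) := by
  have key : ∀ {x : ℝ}, 0 < x → ∀ s : ℂ, (x : ℂ) ^ s = Complex.exp ((Real.log x : ℂ) * s) := by
    intro x hx s
    rw [Complex.cpow_def_of_ne_zero (by exact_mod_cast hx.ne'), Complex.ofReal_log hx.le]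
  have e : (Real.sqrt (r₁ * r₂))⁻¹ = Real.exp (-(Real.log r₁ + Real.log r₂) / 2) := by
    rw [Real.sqrt_eq_rpow, ← Real.rpow_neg (by positivity), Real.rpow_def_of_pos (by positivity),
      Real.log_mul h₁.ne' h₂.ne']
    congr 1
    ring
  rw [key (by positivity), key hρ, key h₁, key h₂, e, Complex.ofReal_exp, ← Complex.exp_conj,
    ← Complex.exp_add, ← Complex.exp_add, ← Complex.exp_add, Real.log_div hρ.ne' (by positivity),
    Real.log_mul h₁.ne' h₂.ne']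
  congr 1
  simp only [map_mul, map_add, Complex.conj_ofReal, Complex.conj_I]
  push_cast
  ring

theorem DspF0_sep : ∃ C : ℝ, 0 < C ∧ ∀ (T : Finset O) (c : O → ℂ) (r : O → ℝ) (ρ σ : ℝ),
    (∀ b ∈ T, 0 < r b) → 0 < ρ → 1 / 4 ≤ σ → σ ≤ 3 / 2 →
    ‖∑ b₁ ∈ T, ∑ b₂ ∈ T, c b₁ * conj (c b₂) * (((Real.sqrt (r b₁ * r b₂))⁻¹ : ℝ) : ℂ) *
      kW (ρ / (r b₁ * r b₂))‖ ≤ C * ρ ^ (-σ) * ∫ u : ℝ, Real.exp (-u ^ 2 / 8) *
        ‖∑ b ∈ T, c b * (r b : ℂ) ^ (((σ - 1 / 2 : ℝ) : ℂ) + u * Complex.I)‖ ^ 2 := by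
  obtain ⟨C, hC, hk⟩ := norm_kM_le
  refine ⟨C, hC, fun T c r ρ σ hr hρ h1 h2 => ?_⟩
  set F : ℝ → ℂ := fun u => ∑ b ∈ T, c b * (r b : ℂ) ^ (((σ - 1 / 2 : ℝ) : ℂ) + u * Complex.I)
    with hF
  have hline : Continuous fun u : ℝ => (σ : ℂ) + u * Complex.I := by fun_prop
  have hkc : Continuous fun u : ℝ => kM ((σ : ℂ) + u * Complex.I) :=
    differentiableOn_kM.continuousOn.comp_continuous hline fun u => by
      change 0 < ((σ : ℂ) + u * Complex.I).re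
      simp
      linarith
  have hkb : ∀ u : ℝ, ‖kM ((σ : ℂ) + u * Complex.I)‖ ≤ C * Real.exp (-u ^ 2 / 8) := fun u => by
    simpa using hk ((σ : ℂ) + u * Complex.I) (by simpa using h1) (by simpa using h2)
  have hG : Integrable fun u : ℝ => Real.exp (-u ^ 2 / 8) := by
    refine (integrable_exp_neg_mul_sq (b := 1 / 8) (by norm_num)).congr
      (Eventually.of_forall fun u => ?_)
    simp only
    congr 1
    ring
  have hki : Integrable fun u : ℝ => kM ((σ : ℂ) + u * Complex.I) :=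
    (hG.const_mul C).mono' hkc.aestronglyMeasurable (Eventually.of_forall hkb)
  have hint : ∀ {x : ℝ}, 0 < x → Integrable fun u : ℝ =>
      kM ((σ : ℂ) + u * Complex.I) * (x : ℂ) ^ (-((σ : ℂ) + u * Complex.I)) := by
    intro x hx
    refine hki.mul_bdd (c := x ^ (-σ))
      (hline.neg.const_cpow (Or.inl (by exact_mod_cast hx.ne'))).aestronglyMeasurable
      (Eventually.of_forall fun u => ?_)
    rw [Complex.norm_cpow_eq_rpow_re_of_pos hx]
    simp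
  have hFc : Continuous F := by
    refine continuous_finsetSum _ fun b hb => continuous_const.mul ?_
    exact Continuous.const_cpow (by fun_prop) (Or.inl (by exact_mod_cast (hr b hb).ne'))
  have hFb : ∀ u, ‖F u‖ ≤ ∑ b ∈ T, ‖c b‖ * r b ^ (σ - 1 / 2) := fun u => by
    refine (norm_sum_le _ _).trans (le_of_eq (Finset.sum_congr rfl fun b hb => ?_))
    rw [norm_mul, Complex.norm_cpow_eq_rpow_re_of_pos (hr b hb)]
    simp
  have hI : Integrable fun u : ℝ => Real.exp (-u ^ 2 / 8) * ‖F u‖ ^ 2 := by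
    refine hG.mul_bdd (c := (∑ b ∈ T, ‖c b‖ * r b ^ (σ - 1 / 2)) ^ 2)
      (hFc.norm.pow 2).aestronglyMeasurable (Eventually.of_forall fun u => ?_)
    rw [Real.norm_of_nonneg (by positivity)]
    exact pow_le_pow_left₀ (norm_nonneg _) (hFb u) 2
  have hI' : Integrable fun u : ℝ => Real.exp (-u ^ 2 / 8) * ‖F (-u)‖ ^ 2 := by
    simpa using hI.comp_neg
  have hsym : ∫ u : ℝ, Real.exp (-u ^ 2 / 8) * ‖F (-u)‖ ^ 2 =
      ∫ u : ℝ, Real.exp (-u ^ 2 / 8) * ‖F u‖ ^ 2 := by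
    rw [← integral_neg_eq_self (fun u : ℝ => Real.exp (-u ^ 2 / 8) * ‖F u‖ ^ 2) volume]
    refine integral_congr_ae (Eventually.of_forall fun u => ?_)
    simp only [neg_sq]
  have e1 : ∑ b₁ ∈ T, ∑ b₂ ∈ T, c b₁ * conj (c b₂) * (((Real.sqrt (r b₁ * r b₂))⁻¹ : ℝ) : ℂ) *
      kW (ρ / (r b₁ * r b₂)) = (1 / (2 * Real.pi) : ℂ) * ∫ u : ℝ, kM ((σ : ℂ) + u * Complex.I) *
        (ρ : ℂ) ^ (-((σ : ℂ) + u * Complex.I)) * (F u * conj (F (-u))) := by
    have e2 : ∀ u : ℝ, kM ((σ : ℂ) + u * Complex.I) * (ρ : ℂ) ^ (-((σ : ℂ) + u * Complex.I)) *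
        (F u * conj (F (-u))) = ∑ b₁ ∈ T, ∑ b₂ ∈ T,
          c b₁ * conj (c b₂) * (((Real.sqrt (r b₁ * r b₂))⁻¹ : ℝ) : ℂ) *
            (kM ((σ : ℂ) + u * Complex.I) *
              ((ρ / (r b₁ * r b₂) : ℝ) : ℂ) ^ (-((σ : ℂ) + u * Complex.I))) := by
      intro u
      simp only [hF, map_sum, Finset.sum_mul_sum]
      simp only [Finset.mul_sum]
      refine Finset.sum_congr rfl fun b₁ hb₁ => Finset.sum_congr rfl fun b₂ hb₂ => ?_
      have e3 := DspF0_cpow hρ (hr b₁ hb₁) (hr b₂ hb₂) σ u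
      rw [map_mul]
      linear_combination -(c b₁ * conj (c b₂) * kM ((σ : ℂ) + u * Complex.I)) * e3
    have hpos : ∀ b₁ ∈ T, ∀ b₂ ∈ T, 0 < ρ / (r b₁ * r b₂) := fun b₁ hb₁ b₂ hb₂ =>
      div_pos hρ (mul_pos (hr b₁ hb₁) (hr b₂ hb₂))
    simp only [e2]
    rw [integral_finsetSum _ fun b₁ hb₁ => integrable_finsetSum _ fun b₂ hb₂ =>
      (hint (hpos b₁ hb₁ b₂ hb₂)).const_mul _, Finset.mul_sum]
    refine Finset.sum_congr rfl fun b₁ hb₁ => ?_
    rw [integral_finsetSum _ fun b₂ hb₂ => (hint (hpos b₁ hb₁ b₂ hb₂)).const_mul _, Finset.mul_sum]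
    refine Finset.sum_congr rfl fun b₂ hb₂ => ?_
    rw [integral_const_mul, kW_eq (hpos b₁ hb₁ b₂ hb₂) h1 h2, lineI]
    ring
  have hp : ‖(1 / (2 * Real.pi) : ℂ)‖ ≤ 1 := by
    have := Real.pi_gt_three
    rw [norm_div, norm_mul, Complex.norm_real, Real.norm_of_nonneg Real.pi_pos.le]
    simp only [norm_one, Complex.norm_ofNat]
    rw [div_le_one (by linarith)]
    linarith
  rw [e1, norm_mul]
  refine (mul_le_of_le_one_left (norm_nonneg _) hp).trans ?_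
  refine (norm_integral_le_of_norm_le ((hI.add hI').const_mul (C * ρ ^ (-σ) / 2))
    (Eventually.of_forall fun u => ?_)).trans_eq ?_
  · rw [norm_mul, norm_mul, norm_mul, Complex.norm_conj, Complex.norm_cpow_eq_rpow_re_of_pos hρ]
    have e4 : (-((σ : ℂ) + u * Complex.I)).re = -σ := by simp
    rw [e4]
    have h3 : ‖F u‖ * ‖F (-u)‖ ≤ (‖F u‖ ^ 2 + ‖F (-u)‖ ^ 2) / 2 := by
      nlinarith [sq_nonneg (‖F u‖ - ‖F (-u)‖)]
    refine (mul_le_mul (mul_le_mul_of_nonneg_right (hkb u) (by positivity)) h3 (by positivity)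
      (by positivity)).trans_eq ?_
    simp only [Pi.add_apply]
    ring
  · simp only [Pi.add_apply]
    rw [integral_const_mul, integral_add hI hI', hsym]
    ring

/-- `kW_eq` on the line `σ`; `|C(σ - 1/2 + iu)| |C(σ - 1/2 - iu)| ≤` mean of the squares. -/
theorem norm_QQ_le : ∃ C : ℝ, 0 < C ∧ ∀ (A B σ : ℝ) (S : Finset O) (γ : O → ℂ) (g e k₀ k : O),
    0 < A → 0 < B → 1 / 4 ≤ σ → σ ≤ 3 / 2 → (∀ b ∈ S, b ≠ 0) → g ≠ 0 → e ≠ 0 → k ≠ 0 →
    ‖QQ kW A S γ g e k₀ k‖ ≤ C * (nr g / B) * (nr k / (nr e * B ^ 2 / (nr g ^ 2 * A))) ^ (-σ) *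
      ∫ u : ℝ, Real.exp (-u ^ 2 / 8) *
        ‖cl S γ (g * k₀) (row g e k) B ((σ - 1 / 2 : ℝ) + u * Complex.I)‖ ^ 2 := by
  obtain ⟨C, hC, h⟩ := DspF0_sep
  refine ⟨27 * C, by positivity, fun A B σ S γ g e k₀ k hA hB h1 h2 hS hg he hk => ?_⟩
  have hg' := nr_pos hg
  have he' := nr_pos he
  have hk' := nr_pos hk
  have hb : ∀ b ∈ Sd S (g * k₀), 0 < nr b := fun b hb => nr_pos (hS b (mem_Sd.1 hb).1)
  set v : ℝ := nr k / (nr e * B ^ 2 / (nr g ^ 2 * A)) with hv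
  have hv0 : 0 < v := by positivity
  have h3 := h (Sd S (g * k₀)) (fun b => γ b * cub (b / (g * k₀)) (row g e k)) (fun b => nr b / B)
    (v / 9) σ (fun b hb' => div_pos (hb b hb') hB) (by positivity) h1 h2
  have e1 : QQ kW A S γ g e k₀ k = ((nr g / B : ℝ) : ℂ) *
      ∑ b₁ ∈ Sd S (g * k₀), ∑ b₂ ∈ Sd S (g * k₀), γ b₁ * cub (b₁ / (g * k₀)) (row g e k) *
        conj (γ b₂ * cub (b₂ / (g * k₀)) (row g e k)) *
        (((Real.sqrt (nr b₁ / B * (nr b₂ / B)))⁻¹ : ℝ) : ℂ) *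
        kW (v / 9 / (nr b₁ / B * (nr b₂ / B))) := by
    simp only [QQ, Finset.mul_sum]
    refine Finset.sum_congr rfl fun b₁ hb₁ => Finset.sum_congr rfl fun b₂ hb₂ => ?_
    have p1 := hb b₁ hb₁
    have p2 := hb b₂ hb₂
    have e2 : A * nr g ^ 2 / (9 * nr e * (nr b₁ * nr b₂)) * nr k =
        v / 9 / (nr b₁ / B * (nr b₂ / B)) := by
      rw [hv]
      field_simp
    have e3 : nr g / Real.sqrt (nr b₁ * nr b₂) =
        nr g / B * (Real.sqrt (nr b₁ / B * (nr b₂ / B)))⁻¹ := by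
      rw [div_mul_div_comm, Real.sqrt_div (by positivity), Real.sqrt_mul_self hB.le]
      field_simp
    rw [e2, e3, Complex.ofReal_mul]
    ring
  have h4 : (v / 9) ^ (-σ) ≤ 27 * v ^ (-σ) := by
    rw [Real.div_rpow hv0.le (by norm_num), Real.rpow_neg (by norm_num : (0 : ℝ) ≤ 9),
      div_inv_eq_mul, mul_comm]
    refine mul_le_mul_of_nonneg_right ?_ (by positivity)
    refine (Real.rpow_le_rpow_of_exponent_le (by norm_num) h2).trans_eq ?_
    rw [show (9 : ℝ) = 3 ^ (2 : ℝ) by norm_num, ← Real.rpow_mul (by norm_num)]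
    norm_num
  rw [e1, norm_mul, Complex.norm_real, Real.norm_of_nonneg (by positivity)]
  refine (mul_le_mul_of_nonneg_left (h3.trans (mul_le_mul_of_nonneg_right
    (mul_le_mul_of_nonneg_left h4 hC.le) (integral_nonneg fun u => by positivity)))
    (by positivity)).trans_eq ?_
  simp only [cl]
  ring

end Crest.Agent.R12
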