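import Crest.Agent.R12.DspG1

/-!
# Row 12, analytic half: the non-cube rows for rough coefficients
-/

set_option autoImplicit false

noncomputable section

namespace Crest.Agent.R12

open Crest.Agent.R17
open scoped ComplexConjugate Topology
open Filter MeasureTheory

theorem DspG_rpow {x y : ℝ} (j : ℕ) (hx : 0 ≤ x) (hy : 0 ≤ y) (h : x ^ j ≤ y ^ 3) :
    x ^ ((j : ℝ) / 3) ≤ y := by
  rw [← pow_le_pow_iff_left₀ (by positivity) hy three_ne_zero, ← Real.rpow_natCast,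
    ← Real.rpow_mul hx, show (j : ℝ) / 3 * ((3 : ℕ) : ℝ) = j by push_cast; ring, Real.rpow_natCast]
  exact h

theorem DspG_cube {x : ℝ} (hx : 0 ≤ x) : (x ^ (1 / 3 : ℝ)) ^ 3 = x := by
  rw [← Real.rpow_natCast, ← Real.rpow_mul hx]
  norm_num

theorem DspG_num {a b n G h z Z : ℝ} (ha : 0 < a) (hb : 0 < b) (hn : 1 ≤ n) (hG : n ≤ G)
    (hh : 1 ≤ h) (hz : 0 < z) (hZ : 0 < Z) (hzZ : z ^ 3 ≤ Z * (G * h) ^ 2) :
    a ^ 3 * G / (n * b ^ 3) * ((n * (b ^ 3) ^ 2 / (G ^ 2 * a ^ 3) / Z) ^ (1 / 3 : ℝ) *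
      (2 * b ^ 3 / (G * h))) ≤ 2 * ((a * b) ^ 2 / z) ∧
    a ^ 3 * G / (n * b ^ 3) * (n * (b ^ 3) ^ 2 / (G ^ 2 * a ^ 3)) ≤ b ^ 3 ∧
    a ^ 3 * G / (n * b ^ 3) * (n * (b ^ 3) ^ 2 / (G ^ 2 * a ^ 3) * (2 * b ^ 3 / (G * h))) ^
      (2 / 3 : ℝ) ≤ 2 * (a * b ^ 3) := by
  have hG1 : 1 ≤ G := hn.trans hG
  have hn0 : 0 < n := by linarith
  have hG0 : 0 < G := by linarith
  have hh0 : 0 < h := by linarith
  refine ⟨?_, ?_, ?_⟩
  · have h1 := DspG_rpow (x := n * (b ^ 3) ^ 2 / (G ^ 2 * a ^ 3) / Z)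
      (y := b ^ 2 * n * h / (a * z)) 1 (by positivity) (by positivity) (by
        rw [pow_one, show n * (b ^ 3) ^ 2 / (G ^ 2 * a ^ 3) / Z =
            (n * b ^ 6 * h ^ 2 / a ^ 3) / (Z * (G * h) ^ 2) by field_simp,
          show (b ^ 2 * n * h / (a * z)) ^ 3 =
            (n ^ 2 * h) * ((n * b ^ 6 * h ^ 2 / a ^ 3) / z ^ 3) by field_simp]
        exact (div_le_div_of_nonneg_left (by positivity) (by positivity) hzZ).trans
          (le_mul_of_one_le_left (by positivity)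
            (one_le_mul_of_one_le_of_one_le (one_le_pow₀ hn) hh)))
    rw [Nat.cast_one] at h1
    calc _ ≤ a ^ 3 * G / (n * b ^ 3) * (b ^ 2 * n * h / (a * z) * (2 * b ^ 3 / (G * h))) := by
          gcongr
      _ = _ := by field_simp
  · calc _ = b ^ 3 / G := by field_simp
      _ ≤ _ := div_le_self (by positivity) hG1
  · have h1 := DspG_rpow (x := n * (b ^ 3) ^ 2 / (G ^ 2 * a ^ 3) * (2 * b ^ 3 / (G * h)))
      (y := 2 * n * b ^ 6 / (a ^ 2 * G)) 2 (by positivity) (by positivity) (by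
        rw [show (2 * n * b ^ 6 / (a ^ 2 * G)) ^ 3 =
            (2 * n) * (4 * n ^ 2 * b ^ 18 / (a ^ 6 * G ^ 3)) by field_simp; ring,
          show (n * (b ^ 3) ^ 2 / (G ^ 2 * a ^ 3) * (2 * b ^ 3 / (G * h))) ^ 2 =
            (4 * n ^ 2 * b ^ 18 / (a ^ 6 * G ^ 3)) / (G ^ 3 * h ^ 2) by field_simp; ring]
        exact (div_le_self (by positivity) (one_le_mul_of_one_le_of_one_le (one_le_pow₀ hG1)
          (one_le_pow₀ hh))).trans (le_mul_of_one_le_left (by positivity) (by linarith)))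
    rw [Nat.cast_ofNat] at h1
    calc _ ≤ a ^ 3 * G / (n * b ^ 3) * (2 * n * b ^ 6 / (a ^ 2 * G)) := by gcongr
      _ = _ := by field_simp

theorem DspG_gr_nonneg {K' M : ℝ} (hK : 0 < K') (hM : 0 ≤ M) : 0 ≤ gr K' M :=
  le_max_of_le_left (by positivity)

theorem DspG_le_gr {K' M : ℝ} (hK : 0 < K') (hM : 0 < M) : M / K' ≤ gr K' M := by
  have hu : 0 < M / K' := by positivity
  rcases le_total (M / K') 1 with h | h
  · exact le_max_of_le_left (by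
      simpa using Real.rpow_le_rpow_of_exponent_ge hu h (by norm_num : (1 / 3 : ℝ) ≤ 1))
  · exact le_max_of_le_right (by
      simpa using Real.rpow_le_rpow_of_exponent_le h (by norm_num : (1 : ℝ) ≤ 7 / 5))

theorem DspG_third {K' M : ℝ} (hK : 0 < K') (hM : 0 < M) :
    M ^ (1 / 3 : ℝ) ≤ K' ^ (1 / 3 : ℝ) * gr K' M := by
  calc M ^ (1 / 3 : ℝ) = K' ^ (1 / 3 : ℝ) * (M / K') ^ (1 / 3 : ℝ) := by
        rw [← Real.mul_rpow hK.le (by positivity), mul_div_cancel₀ _ hK.ne']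
    _ ≤ _ := mul_le_mul_of_nonneg_left (le_max_left _ _) (by positivity)

theorem DspG_log_gr {K' M X : ℝ} (hK : 0 < K') (hM : 0 < M) (hX : K' ≤ X) (hL : 1 ≤ Real.log X) :
    M ^ (1 / 3 : ℝ) * (1 + Real.log M) ≤ 3 * Real.log X * (K' ^ (1 / 3 : ℝ) * gr K' M) := by
  have hu : 0 < M / K' := by positivity
  have e1 : M ^ (1 / 3 : ℝ) = K' ^ (1 / 3 : ℝ) * (M / K') ^ (1 / 3 : ℝ) := by
    rw [← Real.mul_rpow hK.le (by positivity), mul_div_cancel₀ _ hK.ne']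
  have e2 : Real.log M = Real.log K' + Real.log (M / K') := by
    rw [← Real.log_mul hK.ne' hu.ne', mul_div_cancel₀ _ hK.ne']
  have h1 : Real.log K' ≤ Real.log X := Real.log_le_log hK hX
  have h2 : (M / K') ^ (1 / 3 : ℝ) ≤ gr K' M := le_max_left _ _
  have h0 := DspG_gr_nonneg hK hM.le
  have hp : 0 < (M / K') ^ (1 / 3 : ℝ) := by positivity
  have h3 : (M / K') ^ (1 / 3 : ℝ) * Real.log (M / K') ≤ gr K' M := by
    rcases le_total (M / K') 1 with h | h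
    · exact (mul_nonpos_of_nonneg_of_nonpos hp.le (Real.log_nonpos hu.le h)).trans h0
    · refine le_max_of_le_right ?_
      calc _ ≤ (M / K') ^ (1 / 3 : ℝ) * (M / K') ^ (1 : ℝ) := by
            rw [Real.rpow_one]
            exact mul_le_mul_of_nonneg_left (Real.log_le_self hu.le) hp.le
        _ = (M / K') ^ (4 / 3 : ℝ) := by rw [← Real.rpow_add hu]; norm_num
        _ ≤ _ := Real.rpow_le_rpow_of_exponent_le h (by norm_num)
  have h4 : (M / K') ^ (1 / 3 : ℝ) * (1 + Real.log M) ≤ 3 * Real.log X * gr K' M := by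
    rw [e2]
    have a1 : (M / K') ^ (1 / 3 : ℝ) * (1 + Real.log K') ≤ gr K' M * (2 * Real.log X) :=
      (mul_le_mul_of_nonneg_left (by linarith : 1 + Real.log K' ≤ 2 * Real.log X) hp.le).trans
        (mul_le_mul_of_nonneg_right h2 (by linarith))
    have a2 : gr K' M ≤ Real.log X * gr K' M := le_mul_of_one_le_left h0 hL
    nlinarith
  calc _ = K' ^ (1 / 3 : ℝ) * ((M / K') ^ (1 / 3 : ℝ) * (1 + Real.log M)) := by rw [e1]; ring
    _ ≤ K' ^ (1 / 3 : ℝ) * (3 * Real.log X * gr K' M) :=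
        mul_le_mul_of_nonneg_left h4 (by positivity)
    _ = _ := by ring

theorem DspG_cpow {B : ℝ} (hB : 0 < B) {b : O} (hb : b ∈ dy B) {s : ℂ} (hs : |s.re| ≤ 1) :
    ‖((nr b / B : ℝ) : ℂ) ^ s‖ ≤ 2 := by
  obtain ⟨-, h1, h2⟩ := mem_dy.1 hb
  have h3 : 1 ≤ nr b / B := (one_le_div hB).2 h1.le
  rw [Complex.norm_cpow_eq_rpow_re_of_pos (by linarith)]
  calc _ ≤ (nr b / B) ^ (1 : ℝ) := Real.rpow_le_rpow_of_exponent_le h3 (abs_le.1 hs).2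
    _ ≤ 2 := by rw [Real.rpow_one, div_le_iff₀ hB]; exact h2

/-- The trivial bound. -/
theorem DspG_triv {B K' M : ℝ} (hB : 0 < B) (hK : 0 < K') (hM : 0 < M) (γ : O → ℂ) (d : O)
    (κ : O → O) {s : ℂ} (hs : |s.re| ≤ 1) (K : Finset O) (h : ∀ k ∈ K, k ≠ 0 ∧ nr k ≤ M) :
    ∑ k ∈ K, ‖cl (dy B) γ d (κ k) B s‖ ^ 2 ≤ 392 * K' * B * N2 (Sd (dy B) d) γ * gr K' M := by
  classical
  have hN := N2_nonneg (Sd (dy B) d) γ
  have h1 : ∀ k, ‖cl (dy B) γ d (κ k) B s‖ ^ 2 ≤ 56 * B * N2 (Sd (dy B) d) γ := fun k => by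
    have a1 : ‖cl (dy B) γ d (κ k) B s‖ ≤ 2 * ∑ b ∈ Sd (dy B) d, ‖γ b‖ := by
      rw [cl, Finset.mul_sum]
      refine (norm_sum_le _ _).trans (Finset.sum_le_sum fun b hb => ?_)
      rw [norm_mul, norm_mul, mul_comm 2]
      exact mul_le_mul (mul_le_of_le_one_right (norm_nonneg _) (norm_cub_le _ _))
        (DspG_cpow hB (mem_Sd.1 hb).1 hs) (norm_nonneg _) (norm_nonneg _)
    have a2 : ((Sd (dy B) d).card : ℝ) ≤ 14 * B :=
      le_trans (Nat.cast_le.2 (Finset.card_le_card fun b hb => (mem_Sd.1 hb).1)) (card_dy_le hB.le)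
    have a3 := (sq_sum_norm_le (Sd (dy B) d) γ).trans (mul_le_mul_of_nonneg_right a2 hN)
    calc _ ≤ (2 * ∑ b ∈ Sd (dy B) d, ‖γ b‖) ^ 2 := pow_le_pow_left₀ (norm_nonneg _) a1 2
      _ ≤ _ := by rw [mul_pow]; linarith
  have h2 := AFa0_card hM.le h
  have h3 : M ≤ K' * gr K' M := (div_le_iff₀' hK).1 (DspG_le_gr hK hM)
  calc _ ≤ ∑ _k ∈ K, 56 * B * N2 (Sd (dy B) d) γ := Finset.sum_le_sum fun k _ => h1 k
    _ = K.card * (56 * B * N2 (Sd (dy B) d) γ) := by rw [Finset.sum_const, nsmul_eq_mul]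
    _ ≤ 7 * (K' * gr K' M) * (56 * B * N2 (Sd (dy B) d) γ) := by
        gcongr
        linarith
    _ = _ := by ring

/-- The large sieve bound for the rows attached to `g`, `e`, `h`. -/
theorem DspG_LS {ε : ℝ} (hε : 0 < ε) : ∃ C : ℝ, 0 < C ∧ ∀ (X a b z Z M : ℝ) (γ : O → ℂ)
    (g e h : O) (s : ℂ) (K : Finset O), 3 ≤ X → 1 ≤ a → 1 ≤ b → 2 * b ^ 3 ≤ X →
    (b ^ 3) ^ 2 ≤ X → 0 < z → 1 ≤ Z → 1 ≤ M → |s.re| ≤ 1 → PS g → e ∈ pdiv g → PS h →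
    nr g * nr h ≤ 2 * b ^ 3 → z ^ 3 ≤ Z * (nr g * nr h) ^ 2 →
    (∀ k ∈ K, k ≠ 0 ∧ nr k ≤ M ∧ Z ≤ cnd k) →
    ∑ k ∈ K, ‖cl (dy (b ^ 3)) γ (g * h) (row g e k) (b ^ 3) s‖ ^ 2 ≤
      (a ^ 3 * nr g / (nr e * b ^ 3))⁻¹ *
        (C * ((a * b) ^ 2 / z * Real.log X ^ 3 + X ^ ε * (a * b ^ 3)) *
          N2 (Sd (dy (b ^ 3)) (g * h)) γ) * gr (nr e * (b ^ 3) ^ 2 / (nr g ^ 2 * a ^ 3)) M := by
  classical
  obtain ⟨C, hC, H⟩ := rows_LS hε
  refine ⟨12 * C, by positivity,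
    fun X a b z Z M γ g e h s K hX ha hb hbX hbX2 hz hZ hM hs hg he hh hd hzZ hK => ?_⟩
  have ha0 : 0 < a := by linarith
  have hb0 : 0 < b := by linarith
  have hX0 : 0 < X := by linarith
  have hL : 0 ≤ Real.log X := Real.log_nonneg (by linarith)
  obtain ⟨he1, he2⟩ := (mem_pdiv hg.ne_zero).1 he
  have hn1 := one_le_nr he1.ne_zero
  have hnG : nr e ≤ nr g := Nat.cast_le.2 (nm_le_of_dvd he2 hg.ne_zero)
  have hG1 := hg.one_le
  have hh1 := hh.one_le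
  obtain ⟨n1, n2, n3⟩ := DspG_num ha0 hb0 hn1 hnG hh1 hz (by linarith) hzZ
  have hP : ∀ x ∈ dy (b ^ 3), PS x := fun x hx => (mem_dy.1 hx).1
  set K' := nr e * (b ^ 3) ^ 2 / (nr g ^ 2 * a ^ 3) with hK'
  set B' := 2 * b ^ 3 / (nr g * nr h) with hB'
  set w := a ^ 3 * nr g / (nr e * b ^ 3) with hw
  have hw0 : 0 < w := by positivity
  have hK0 : 0 < K' := by positivity
  have hKX : K' ≤ X := by
    refine le_trans ?_ hbX2
    rw [hK', div_le_iff₀ (by positivity), mul_comm]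
    refine mul_le_mul_of_nonneg_left ?_ (by positivity)
    exact hnG.trans ((le_self_pow₀ hG1 two_ne_zero).trans
      (le_mul_of_one_le_right (by positivity) (one_le_pow₀ ha)))
  have hB'1 : 1 ≤ B' := (one_le_div (by positivity)).2 hd
  have hB'X : B' ≤ X :=
    (div_le_self (by positivity) (one_le_mul_of_one_le_of_one_le hG1 hh1)).trans hbX
  set γ' : O → ℂ := fun x => γ x * ((nr x / b ^ 3 : ℝ) : ℂ) ^ s with hγ'
  have hc := fun k => sum_Sd_eq_col hP (hg.1.mul hh.1) γ' k (e * (g / e) ^ 2)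
  have e1 : ∀ k, cl (dy (b ^ 3)) γ (g * h) (row g e k) (b ^ 3) s =
      col ((Sd (dy (b ^ 3)) (g * h)).image (· / (g * h)))
        (fun x => γ' (g * h * x) * cub x (e * (g / e) ^ 2)) k := fun k => by
    rw [← (hc k).1, cl, row]
    exact Finset.sum_congr rfl fun x _ => by rw [hγ']; ring
  have hN := N2_nonneg (Sd (dy (b ^ 3)) (g * h)) γ
  have hN' : N2 (Sd (dy (b ^ 3)) (g * h)) γ' ≤ 4 * N2 (Sd (dy (b ^ 3)) (g * h)) γ := by
    rw [N2, N2, Finset.mul_sum]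
    refine Finset.sum_le_sum fun x hx => ?_
    have := DspG_cpow (by positivity) (mem_Sd.1 hx).1 hs
    rw [hγ', norm_mul, mul_pow, mul_comm 4]
    refine mul_le_mul_of_nonneg_left ?_ (by positivity)
    nlinarith [norm_nonneg (((nr x / b ^ 3 : ℝ) : ℂ) ^ s)]
  simp only [e1]
  have hgr := DspG_gr_nonneg hK0 (by linarith : 0 ≤ M)
  refine (H X K' B' Z M _ K _ hX hK0 hKX hB'1 hB'X hZ hM (fun x hx => ?_) hK).trans
    (mul_le_mul_of_nonneg_right ?_ hgr)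
  · obtain ⟨a1, a2⟩ := (hc 0).2.2 x hx
    refine ⟨a1, (le_div_iff₀ (by positivity)).2 ?_⟩
    rw [← nr_mul, ← nr_mul, mul_comm]
    exact (mem_dy.1 a2).2.2
  · rw [le_inv_mul_iff₀ hw0]
    have hab : b ^ 3 ≤ a * b ^ 3 := le_mul_of_one_le_left (by positivity) ha
    calc _ ≤ w * (C * ((K' / Z) ^ (1 / 3 : ℝ) * B' * Real.log X ^ 3 +
          X ^ ε * (K' + (K' * B') ^ (2 / 3 : ℝ))) * (4 * N2 (Sd (dy (b ^ 3)) (g * h)) γ)) := by
          gcongr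
          exact (hc 0).2.1.trans hN'
      _ = 4 * C * (w * ((K' / Z) ^ (1 / 3 : ℝ) * B') * Real.log X ^ 3 +
          X ^ ε * (w * K' + w * (K' * B') ^ (2 / 3 : ℝ))) * N2 (Sd (dy (b ^ 3)) (g * h)) γ := by ring
      _ ≤ 4 * C * (3 * ((a * b) ^ 2 / z) * Real.log X ^ 3 +
          X ^ ε * (a * b ^ 3 + 2 * (a * b ^ 3))) * N2 (Sd (dy (b ^ 3)) (g * h)) γ := by
          have m1 : w * ((K' / Z) ^ (1 / 3 : ℝ) * B') ≤ 3 * ((a * b) ^ 2 / z) :=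
            n1.trans (mul_le_mul_of_nonneg_right (by norm_num) (by positivity))
          have m2 : w * K' ≤ a * b ^ 3 := n2.trans hab
          gcongr
      _ = _ := by ring

theorem DspG_NW_tw (l : ℤ) (t : ℝ) (β : O → ℂ) {S : Finset O} (hS : ∀ b ∈ S, PS b) (k : ℝ) :
    NW k S (tw l t β) = NW k S β :=
  Finset.sum_congr rfl fun b hb => by rw [norm_tw l t β (hS b hb).ne_zero]

/-- The rows of small conductor. -/
theorem DspG_SW (l : ℤ) : ∃ C : ℝ, 0 < C ∧ ∀ (X a b Z w Z' Θ t M : ℝ) (β : O → ℂ) (s : ℂ)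
    (K : Finset O), 1 ≤ Real.log X → 1 ≤ a → 1 ≤ b → (b ^ 3) ^ 2 ≤ X → 1 ≤ Z → 1 ≤ w →
    9 * Z ^ 2 ≤ Z' → 1 ≤ M → |s.re| ≤ 1 → |s.im| + |t| ≤ Z' →
    (∀ x ∈ dy (b ^ 3), β x ≠ 0 → Rough w x) → SWb l (dy (b ^ 3)) β (b ^ 3) Z' Θ →
    (∀ k ∈ K, k ≠ 0 ∧ nr k ≤ M ∧ ¬ Cube k ∧ cnd k ≤ Z) →
    ∑ k ∈ K, ‖cl (dy (b ^ 3)) (tw l t β) 1 k (b ^ 3) s‖ ^ 2 ≤
      (a ^ 3 * 1 / (1 * b ^ 3))⁻¹ * (C * (Z ^ 2 * (a ^ 2 / b) *
        (Θ ^ 2 + b ^ 3 * Real.log X / w * NW 4 (dy (b ^ 3)) β))) *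
        gr (1 * (b ^ 3) ^ 2 / (1 ^ 2 * a ^ 3)) M := by
  obtain ⟨C, hC, H⟩ := rows_SW l
  refine ⟨3 * C, by positivity,
    fun X a b Z w Z' Θ t M β s K hL ha hb hbX2 hZ hw hZ' hM hs ht hR hSW hK => ?_⟩
  have ha0 : 0 < a := by linarith
  have hb0 : 0 < b := by linarith
  have hw0 : 0 < w := by linarith
  have hM0 : 0 < M := by linarith
  refine (H w (b ^ 3) Z Z' Θ M t s K β hw (one_le_pow₀ hb) hZ hZ' hM hs ht hR hSW hK).trans ?_
  have e0 : 1 * (b ^ 3) ^ 2 / (1 ^ 2 * a ^ 3) = (b ^ 2 / a) ^ 3 := by field_simp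
  have hK0 : 0 < (b ^ 2 / a) ^ 3 := by positivity
  have hKX : (b ^ 2 / a) ^ 3 ≤ X := by
    refine le_trans ?_ hbX2
    rw [← e0, one_mul, one_pow, one_mul]
    exact div_le_self (by positivity) (one_le_pow₀ ha)
  have e3 : ((b ^ 2 / a) ^ 3) ^ (1 / 3 : ℝ) = b ^ 2 / a := by
    rw [← Real.rpow_natCast, ← Real.rpow_mul (by positivity)]
    norm_num
  have a1 := DspG_third hK0 hM0
  have a2 := DspG_log_gr hK0 hM0 hKX hL
  have hgr := DspG_gr_nonneg hK0 hM0.le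
  rw [e3] at a1 a2
  rw [e0]
  have a3 : N2 (dy (b ^ 3)) β ≤ NW 4 (dy (b ^ 3)) β := N2_le_NW (by norm_num) _ _
  have a4 := N2_nonneg (dy (b ^ 3)) β
  generalize gr ((b ^ 2 / a) ^ 3) M = G at a1 a2 hgr ⊢
  generalize N2 (dy (b ^ 3)) β = N at a3 a4 ⊢
  generalize NW 4 (dy (b ^ 3)) β = W at a3 ⊢
  have a5 : 0 ≤ b ^ 2 / a * G := by positivity
  have a6 : M ^ (1 / 3 : ℝ) ≤ 3 * (b ^ 2 / a * G) := by linarith
  have a7 : 0 ≤ 3 * Real.log X * (b ^ 2 / a * G) := by positivity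
  calc _ = C * Z ^ 2 * (M ^ (1 / 3 : ℝ) * Θ ^ 2 +
        M ^ (1 / 3 : ℝ) * (1 + Real.log M) * (b ^ 3 / w * N)) := by ring
    _ ≤ C * Z ^ 2 * (3 * (b ^ 2 / a * G) * Θ ^ 2 +
        3 * Real.log X * (b ^ 2 / a * G) * (b ^ 3 / w * W)) := by gcongr
    _ = _ := by field_simp

open Classical in
theorem DspG_sum {S : Finset O} (hS : ∀ x ∈ S, PS x) (γ : O → ℂ) {A B Λ Ξ E : ℝ} (hA : 0 < A)
    (hB : 0 < B) (hΛ : 0 ≤ Λ) (hΞ : 0 ≤ Ξ) (hE : 0 ≤ E) :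
    ∑ g ∈ DS S, ∑ e ∈ pdiv g, ∑ h ∈ DS S, A * nr g / (nr e * B) *
      ((A * nr g / (nr e * B))⁻¹ * (Λ * N2 (Sd S (g * h)) γ + if g = 1 ∧ h = 1 then Ξ else 0) +
        E * (392 * (nr e * B ^ 2 / (nr g ^ 2 * A)) * B * N2 (Sd S (g * h)) γ)) ≤
      (Λ + E * (392 * B ^ 2)) * NW 4 S γ + Ξ := by
  have hone : ∑ g ∈ DS S, ∑ _e ∈ pdiv g, ∑ h ∈ DS S, (if g = 1 ∧ h = 1 then Ξ else 0) ≤ Ξ := by
    calc _ ≤ ∑ g ∈ DS S, (if g = 1 then Ξ else 0) := by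
          refine Finset.sum_le_sum fun g _ => ?_
          split_ifs with hg1
          · subst hg1
            have : (pdiv (1 : O)).card = 1 := by
              have := ps_one.card_pdiv
              rw [pf_one, Finset.card_empty, pow_zero] at this
              exact_mod_cast this
            rw [Finset.sum_const, this, one_smul]
            simp only [true_and, Finset.sum_ite_eq']
            split_ifs
            exact le_rfl
          · simp [hg1]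
      _ ≤ _ := by
          rw [Finset.sum_ite_eq']
          split_ifs
          · exact le_rfl
          · exact hΞ
  calc _ ≤ ∑ g ∈ DS S, ∑ _e ∈ pdiv g, ∑ h ∈ DS S,
        ((Λ + E * (392 * B ^ 2)) * N2 (Sd S (g * h)) γ + if g = 1 ∧ h = 1 then Ξ else 0) := by
        refine Finset.sum_le_sum fun g hg => Finset.sum_le_sum fun e he =>
          Finset.sum_le_sum fun h _ => ?_
        have hg' := mem_DS hS hg
        have hG1 := hg'.one_le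
        have hn1 := one_le_nr ((mem_pdiv hg'.ne_zero).1 he).1.ne_zero
        have hN := N2_nonneg (Sd S (g * h)) γ
        rw [mul_add, mul_inv_cancel_left₀ (by positivity)]
        have h1 : A * nr g / (nr e * B) *
            (E * (392 * (nr e * B ^ 2 / (nr g ^ 2 * A)) * B * N2 (Sd S (g * h)) γ)) ≤
            E * (392 * B ^ 2) * N2 (Sd S (g * h)) γ := by
          calc _ = E * (392 * B ^ 2) * N2 (Sd S (g * h)) γ / nr g := by field_simp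
            _ ≤ _ := div_le_self (by positivity) hG1
        linarith
    _ ≤ _ := by
        simp only [Finset.sum_add_distrib, ← Finset.mul_sum]
        exact add_le_add (mul_le_mul_of_nonneg_left (sum_N2_Sd_le hS γ) (by positivity)) hone

open Classical in
/-- The row sums for `|Im s| ≤ log X`. -/
theorem DspG_rows (l : ℤ) {ε : ℝ} (hε : 0 < ε) : ∃ C₁ C₂ : ℝ, 0 < C₁ ∧ 0 < C₂ ∧
    ∀ (X a b z w Z' Θ t M : ℝ) (β : O → ℂ) (g e h : O) (s : ℂ) (K : Finset O), 3 ≤ X →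
    1 ≤ Real.log X → 1 ≤ a → 1 ≤ b → 2 * b ^ 3 ≤ X → (b ^ 3) ^ 2 ≤ X →
    1 ≤ z → z ^ 3 ≤ w → 9 * (z ^ 3) ^ 2 ≤ Z' → |s.im| + |t| ≤ Z' →
    (∀ x ∈ dy (b ^ 3), β x ≠ 0 → Rough w x) → SWb l (dy (b ^ 3)) β (b ^ 3) Z' Θ →
    PS g → e ∈ pdiv g → PS h → 1 ≤ M → |s.re| ≤ 1 →
    (∀ k ∈ K, k ≠ 0 ∧ nr k ≤ M ∧ ¬ Cube (row g e k)) →
    ∑ k ∈ K, ‖cl (dy (b ^ 3)) (tw l t β) (g * h) (row g e k) (b ^ 3) s‖ ^ 2 ≤
      (a ^ 3 * nr g / (nr e * b ^ 3))⁻¹ *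
        (C₁ * ((a * b) ^ 2 / z * Real.log X ^ 3 + X ^ ε * (a * b ^ 3)) *
          N2 (Sd (dy (b ^ 3)) (g * h)) (tw l t β) + if g = 1 ∧ h = 1 then
            C₂ * ((z ^ 3) ^ 2 * (a ^ 2 / b) *
              (Θ ^ 2 + b ^ 3 * Real.log X / w * NW 4 (dy (b ^ 3)) β)) else 0) *
        gr (nr e * (b ^ 3) ^ 2 / (nr g ^ 2 * a ^ 3)) M := by
  obtain ⟨C₁, hC₁, H₁⟩ := DspG_LS hε
  obtain ⟨C₂, hC₂, H₂⟩ := DspG_SW l
  refine ⟨C₁, C₂, hC₁, hC₂, fun X a b z w Z' Θ t M β g e h s K hX hL ha hb hbX hbX2 hz hzw hZ' ht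
    hR hSW hg he hh hM hs hK => ?_⟩
  have hz0 : 0 < z := by linarith
  have hz3 : 1 ≤ z ^ 3 := one_le_pow₀ hz
  have hb3 : 1 ≤ b ^ 3 := one_le_pow₀ hb
  have hw1 : 1 ≤ w := hz3.trans hzw
  obtain ⟨he1, he2⟩ := (mem_pdiv hg.ne_zero).1 he
  by_cases h1 : g = 1 ∧ h = 1
  · rw [if_pos h1]
    obtain ⟨rfl, rfl⟩ := h1
    obtain rfl : e = 1 := he1.eq_one_of_isUnit (isUnit_of_dvd_one he2)
    have hn : nr (1 : O) = 1 := by simp [nr]
    rw [← Finset.sum_filter_add_sum_filter_not K (fun k => z ^ 3 ≤ cnd k), mul_add, add_mul]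
    refine add_le_add (H₁ X a b z (z ^ 3) M _ 1 1 1 s _ hX ha hb hbX hbX2 hz0 hz3 hM hs hg he
      hh (by rw [hn]; linarith) (by rw [hn]; linarith) fun k hk => ?_) ?_
    · obtain ⟨k1, k2⟩ := Finset.mem_filter.1 hk
      exact ⟨(hK k k1).1, (hK k k1).2.1, k2⟩
    · have hrow : ∀ k : O, row 1 1 k = k := fun k => by simp [row]
      simp only [hrow] at hK ⊢
      rw [mul_one, hn]
      refine H₂ X a b (z ^ 3) w Z' Θ t M β s _ hL ha hb hbX2 hz3 hw1 hZ' hM hs ht hR hSW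
        fun k hk => ?_
      obtain ⟨k1, k2⟩ := Finset.mem_filter.1 hk
      exact ⟨(hK k k1).1, (hK k k1).2.1, (hK k k1).2.2, (not_le.1 k2).le⟩
  · rw [if_neg h1, add_zero]
    by_cases hex : ∃ x ∈ Sd (dy (b ^ 3)) (g * h), β x ≠ 0
    · obtain ⟨x, hx, hx0⟩ := hex
      obtain ⟨hxS, hxd⟩ := mem_Sd.1 hx
      have hx1 := (mem_dy.1 hxS).1.ne_zero
      have hne : g * h ≠ 1 := fun h0 => h1 ⟨hg.1.eq_one_of_isUnit (IsUnit.of_mul_eq_one _ h0),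
        hh.1.eq_one_of_isUnit (IsUnit.of_mul_eq_one_right _ h0)⟩
      have hlt := (hR x hxS hx0).lt_of_dvd hx1 (hg.1.mul hh.1) hxd hne
      rw [nr_mul] at hlt
      have hd : nr g * nr h ≤ 2 * b ^ 3 := by
        rw [← nr_mul]
        exact le_trans (Nat.cast_le.2 (nm_le_of_dvd hxd hx1)) (mem_dy.1 hxS).2.2
      refine H₁ X a b z 1 M _ g e h s K hX ha hb hbX hbX2 hz0 le_rfl hM hs hg he hh hd ?_
        fun k hk => ⟨(hK k hk).1, (hK k hk).2.1, one_le_cnd k⟩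
      rw [one_mul]
      exact (hzw.trans hlt.le).trans (le_self_pow₀ (hw1.trans hlt.le) two_ne_zero)
    · have h0 : ∀ k, cl (dy (b ^ 3)) (tw l t β) (g * h) (row g e k) (b ^ 3) s = 0 := fun k =>
        Finset.sum_eq_zero fun x hx => by
          have : β x = 0 := by
            by_contra hne
            exact hex ⟨x, hx, hne⟩
          simp [tw, this]
      simp only [h0, norm_zero, ne_eq, OfNat.ofNat_ne_zero, not_false_eq_true, zero_pow,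
        Finset.sum_const_zero]
      have hG1 := hg.one_le
      have hn1 := one_le_nr he1.ne_zero
      have hN := N2_nonneg (Sd (dy (b ^ 3)) (g * h)) (tw l t β)
      have hgr := DspG_gr_nonneg (K' := nr e * (b ^ 3) ^ 2 / (nr g ^ 2 * a ^ 3)) (M := M)
        (by positivity) (by linarith)
      positivity

/-- The structural bound. -/
theorem DspG_main (l : ℤ) {ε : ℝ} (hε : 0 < ε) : ∃ C : ℝ, 0 < C ∧ ∀ (X a b z w Z' Θ t : ℝ)
    (β : O → ℂ), 3 ≤ X → 1 ≤ Real.log X → 1 ≤ a → 1 ≤ b → 2 * b ^ 3 ≤ X → (b ^ 3) ^ 2 ≤ X →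
    1 ≤ z → z ^ 3 ≤ w → 9 * (z ^ 3) ^ 2 ≤ Z' → Real.log X + |t| ≤ Z' →
    (∀ x ∈ dy (b ^ 3), β x ≠ 0 → Rough w x) → SWb l (dy (b ^ 3)) β (b ^ 3) Z' Θ →
    ‖NCs (a ^ 3) (dy (b ^ 3)) (tw l t β)‖ ≤
      C * (((a * b) ^ 2 / z * Real.log X ^ 3 + X ^ ε * (a * b ^ 3)) * NW 4 (dy (b ^ 3)) β +
        (z ^ 3) ^ 2 * (a ^ 2 / b) * (Θ ^ 2 + b ^ 3 * Real.log X / w * NW 4 (dy (b ^ 3)) β) +
        Real.exp (-Real.log X ^ 2 / 16) * ((b ^ 3) ^ 2 * NW 4 (dy (b ^ 3)) β)) := by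
  classical
  obtain ⟨C₀, hC₀, H₀⟩ := nc_le 0
  obtain ⟨C₁, C₂, hC₁, hC₂, H₁⟩ := DspG_rows l hε
  refine ⟨C₀ * (C₁ + C₂ + 392), by positivity,
    fun X a b z w Z' Θ t β hX hL ha hb hbX hbX2 hz hzw hZ' ht hR hSW => ?_⟩
  have ha0 : 0 < a := by linarith
  have hb0 : 0 < b := by linarith
  have hz0 : 0 < z := by linarith
  have hX0 : 0 < X := by linarith
  have hw0 : 0 < w := lt_of_lt_of_le (by positivity) hzw
  have hP : ∀ x ∈ dy (b ^ 3), PS x := fun x hx => (mem_dy.1 hx).1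
  have hW0 : 0 ≤ NW 4 (dy (b ^ 3)) β := NW_nonneg (by norm_num) _ _
  have hΛ0 : 0 ≤ (a * b) ^ 2 / z * Real.log X ^ 3 + X ^ ε * (a * b ^ 3) := by positivity
  have hΞ0 : 0 ≤ (z ^ 3) ^ 2 * (a ^ 2 / b) *
      (Θ ^ 2 + b ^ 3 * Real.log X / w * NW 4 (dy (b ^ 3)) β) := by positivity
  have H₂ := fun M g e h s K => H₁ X a b z w Z' Θ t M β g e h s K hX hL ha hb hbX hbX2 hz hzw hZ'
  generalize (a * b) ^ 2 / z * Real.log X ^ 3 + X ^ ε * (a * b ^ 3) = Λ at hΛ0 H₂ ⊢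
  generalize (z ^ 3) ^ 2 * (a ^ 2 / b) *
      (Θ ^ 2 + b ^ 3 * Real.log X / w * NW 4 (dy (b ^ 3)) β) = Ξ at hΞ0 H₂ ⊢
  have hnr : ∀ x : O, 0 ≤ nr x := fun x => Nat.cast_nonneg _
  have hR0 : ∀ g e h : O, 0 ≤ (a ^ 3 * nr g / (nr e * b ^ 3))⁻¹ *
      (C₁ * Λ * N2 (Sd (dy (b ^ 3)) (g * h)) (tw l t β) +
        if g = 1 ∧ h = 1 then C₂ * Ξ else 0) := fun g e h => by
    have := N2_nonneg (Sd (dy (b ^ 3)) (g * h)) (tw l t β)
    have := hnr g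
    have := hnr e
    refine mul_nonneg (by positivity) (add_nonneg (by positivity) ?_)
    split_ifs <;> positivity
  have key := H₀ (a ^ 3) (b ^ 3) (Real.log X) (dy (b ^ 3)) (tw l t β)
    (fun g e h => (a ^ 3 * nr g / (nr e * b ^ 3))⁻¹ *
      (C₁ * Λ * N2 (Sd (dy (b ^ 3)) (g * h)) (tw l t β) + if g = 1 ∧ h = 1 then C₂ * Ξ else 0))
    (fun g e h => 392 * (nr e * (b ^ 3) ^ 2 / (nr g ^ 2 * a ^ 3)) * b ^ 3 *
      N2 (Sd (dy (b ^ 3)) (g * h)) (tw l t β))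
    (by positivity) (by positivity) (by linarith) hP (fun g e h => by
      have := N2_nonneg (Sd (dy (b ^ 3)) (g * h)) (tw l t β)
      have := hnr g
      have := hnr e
      exact ⟨hR0 g e h, by positivity⟩) (fun g hg e he h hh hgh M s K hM hs hK => ?_)
  · have hE := Real.exp_pos (-Real.log X ^ 2 / 16)
    refine key.trans ?_
    rw [mul_assoc C₀]
    refine mul_le_mul_of_nonneg_left ((DspG_sum hP _ (by positivity) (by positivity)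
      (by positivity) (by positivity) hE.le).trans ?_) hC₀.le
    rw [DspG_NW_tw l t β hP]
    generalize NW 4 (dy (b ^ 3)) β = W at hW0 ⊢
    have p1 : 0 ≤ Λ * W := by positivity
    have p2 : 0 ≤ Real.exp (-Real.log X ^ 2 / 16) * ((b ^ 3) ^ 2 * W) := by positivity
    have e : (C₁ * Λ + Real.exp (-Real.log X ^ 2 / 16) * (392 * (b ^ 3) ^ 2)) * W + C₂ * Ξ =
        C₁ * (Λ * W) + C₂ * Ξ +
          392 * (Real.exp (-Real.log X ^ 2 / 16) * ((b ^ 3) ^ 2 * W)) := by ring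
    rw [e]
    generalize Real.exp (-Real.log X ^ 2 / 16) * ((b ^ 3) ^ 2 * W) = T₃ at p2 ⊢
    generalize Λ * W = T₁ at p1 ⊢
    nlinarith [mul_nonneg hC₁.le hΞ0, mul_nonneg hC₁.le p2, mul_nonneg hC₂.le p1,
      mul_nonneg hC₂.le p2]
  · have hg' := mem_DS hP hg
    have hG1 := hg'.one_le
    have hn1 := one_le_nr ((mem_pdiv hg'.ne_zero).1 he).1.ne_zero
    have hM0 : 0 < M := by linarith
    have hK0 : 0 < nr e * (b ^ 3) ^ 2 / (nr g ^ 2 * a ^ 3) := by positivity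
    rw [pow_zero, mul_one]
    by_cases hU : Real.log X ≤ |s.im|
    · rw [if_pos hU]
      exact (DspG_triv (by positivity) hK0 hM0 _ (g * h) (row g e) hs K
        fun k hk => ⟨(hK k hk).1, (hK k hk).2.1⟩).trans (mul_le_mul_of_nonneg_right
          (le_add_of_nonneg_left (hR0 g e h)) (DspG_gr_nonneg hK0 hM0.le))
    · rw [if_neg hU, add_zero]
      exact H₂ M g e h s K (by linarith [not_le.1 hU]) hR hSW hg' he (mem_DS hP hh) hM hs hK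

theorem DspG_fin {L a b w W C E F : ℝ} {J A₂ A₁ : ℕ} (hL : 1 ≤ L) (ha : 1 ≤ a) (hb : 1 ≤ b)
    (hC : 0 < C) (hE : 0 ≤ E) (hF : 0 ≤ F) (hW0 : 0 ≤ W) (hW : W ≤ C * (2 * b ^ 3) * L ^ J)
    (hw : L ^ (7 * (J + A₂ + 3)) ≤ w) (h1 : 9 * ((L ^ (J + A₂ + 3)) ^ 3) ^ 2 ≤ L ^ A₁)
    (h2 : A₂ ≤ A₁) (h3 : F * (b / a) * L ^ (J + A₂) ≤ 3) (h4 : E * b ^ 4 * L ^ (J + A₂) ≤ 1) :
    ((a * b) ^ 2 / L ^ (J + A₂ + 3) * L ^ 3 + F * (a * b ^ 3)) * W +
      ((L ^ (J + A₂ + 3)) ^ 3) ^ 2 * (a ^ 2 / b) * ((b ^ 3 / L ^ A₁) ^ 2 + b ^ 3 * L / w * W) +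
      E * ((b ^ 3) ^ 2 * W) ≤ (12 * C + 1) * (a ^ 2 * b ^ 5 / L ^ A₂) := by
  have ha0 : 0 < a := by linarith
  have hb0 : 0 < b := by linarith
  have hL0 : 0 < L := by linarith
  have hw0 : 0 < w := lt_of_lt_of_le (by positivity) hw
  have t1 : (a * b) ^ 2 / L ^ (J + A₂ + 3) * L ^ 3 * W ≤ 2 * C * (a ^ 2 * b ^ 5 / L ^ A₂) := by
    calc _ ≤ (a * b) ^ 2 / L ^ (J + A₂ + 3) * L ^ 3 * (C * (2 * b ^ 3) * L ^ J) := by gcongr
      _ = _ := by field_simp; ring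
  have t2 : F * (a * b ^ 3) * W ≤ 6 * C * (a ^ 2 * b ^ 5 / L ^ A₂) := by
    calc _ ≤ F * (a * b ^ 3) * (C * (2 * b ^ 3) * L ^ J) := by gcongr
      _ = 2 * C * (a ^ 2 * b ^ 5 / L ^ A₂) * (F * (b / a) * L ^ (J + A₂)) := by field_simp; ring
      _ ≤ 2 * C * (a ^ 2 * b ^ 5 / L ^ A₂) * 3 := by gcongr
      _ = _ := by ring
  have t3 : ((L ^ (J + A₂ + 3)) ^ 3) ^ 2 * (a ^ 2 / b) * (b ^ 3 / L ^ A₁) ^ 2 ≤
      a ^ 2 * b ^ 5 / L ^ A₂ := by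
    have h5 : ((L ^ (J + A₂ + 3)) ^ 3) ^ 2 ≤ L ^ A₁ := by
      have : 0 ≤ ((L ^ (J + A₂ + 3)) ^ 3) ^ 2 := by positivity
      linarith
    calc _ ≤ L ^ A₁ * (a ^ 2 / b) * (b ^ 3 / L ^ A₁) ^ 2 := by gcongr
      _ = a ^ 2 * b ^ 5 / L ^ A₁ := by field_simp
      _ ≤ _ := div_le_div_of_nonneg_left (by positivity) (by positivity) (pow_le_pow_right₀ hL h2)
  have t4 : ((L ^ (J + A₂ + 3)) ^ 3) ^ 2 * (a ^ 2 / b) * (b ^ 3 * L / w * W) ≤
      2 * C * (a ^ 2 * b ^ 5 / L ^ A₂) := by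
    have h5 : L ^ (6 * (J + A₂ + 3) + (J + A₂ + 1)) ≤ w :=
      (pow_le_pow_right₀ hL (by omega)).trans hw
    calc _ ≤ ((L ^ (J + A₂ + 3)) ^ 3) ^ 2 * (a ^ 2 / b) *
          (b ^ 3 * L / L ^ (6 * (J + A₂ + 3) + (J + A₂ + 1)) * (C * (2 * b ^ 3) * L ^ J)) := by
          gcongr
      _ = _ := by field_simp; ring
  have t5 : E * ((b ^ 3) ^ 2 * W) ≤ 2 * C * (a ^ 2 * b ^ 5 / L ^ A₂) := by
    calc _ ≤ E * ((b ^ 3) ^ 2 * (C * (2 * b ^ 3) * L ^ J)) := by gcongr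
      _ = 2 * C * (1 * b ^ 5 / L ^ A₂) * (E * b ^ 4 * L ^ (J + A₂)) := by field_simp; ring
      _ ≤ 2 * C * (a ^ 2 * b ^ 5 / L ^ A₂) * 1 := by
          have := one_le_pow₀ (n := 2) ha
          gcongr
      _ = _ := by ring
  rw [add_mul, mul_add (((L ^ (J + A₂ + 3)) ^ 3) ^ 2 * (a ^ 2 / b))]
  linarith

/-- **Non-cube rows.**  `nc_le` with `J = 0`, `U = log X`, `R' = C K' B N2`; for `g h ≠ 1` only
`N(g h) > w` matters (`rows_LS`, `Z = 1`, length `2B / N(g h)`); for `g = h = 1` split the rows at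
`cnd k = Z = (log X)^{A₃}`. -/
theorem nc_rough (l : ℤ) {θ : ℝ} (h0 : 0 < θ) (h1 : θ < 1) (A₂ c : ℕ) : ∃ (A₁ : ℕ) (C X₀ : ℝ),
    0 < C ∧ ∀ X ≥ X₀, ∀ (A B t : ℝ) (β : O → ℂ), X ^ (3 / 10 : ℝ) ≤ B →
    B ≤ X ^ (1 / 2 - 1 / 20000 : ℝ) → X / 16 ≤ A * B → A * B ≤ 2 * X → |t| ≤ Real.log X ^ c →
    (∀ b ∈ dy B, β b ≠ 0 → Rough (wX θ X) b) → (∀ b ∈ dy B, ‖β b‖ ≤ 14 ^ (pf b).card) →
    SWb l (dy B) β B (Real.log X ^ A₁) (B / Real.log X ^ A₁) →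
    ‖NCs A (dy B) (tw l t β)‖ ≤ C * A ^ (2 / 3 : ℝ) * B ^ (5 / 3 : ℝ) / Real.log X ^ A₂ := by
  obtain ⟨C₀, hC₀, H₀⟩ := DspG_main l (ε := 1 / 100000) (by norm_num)
  obtain ⟨C, J, hC, H⟩ := mom_crude 784
  obtain ⟨X₀, hX₀⟩ := wX_ev h0 h1 (κ := 1 / 50000) (by norm_num) (7 * (J + A₂ + 3))
  refine ⟨6 * (J + A₂ + 3) + (c + 2), C₀ * (12 * C + 1), max X₀ (Real.exp 300), by positivity,
    fun X hX A B t β hB1 hB2 hAB1 _ ht hR hβ hSW => ?_⟩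
  obtain ⟨hw1, hw2, -⟩ := hX₀ X (le_of_max_le_left hX)
  have hXe : Real.exp 300 ≤ X := le_of_max_le_right hX
  have hX3 : 301 ≤ X := le_trans (by linarith [Real.add_one_le_exp 300]) hXe
  have hX0 : 0 < X := by linarith
  have hX1 : 1 ≤ X := by linarith
  have hL : 300 ≤ Real.log X := (Real.le_log_iff_exp_le hX0).2 hXe
  have hL1 : 1 ≤ Real.log X := by linarith
  have hB : 1 ≤ B := (Real.one_le_rpow hX1 (by norm_num)).trans hB1
  have hB0 : 0 < B := by linarith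
  have hBB : B ^ 2 ≤ X * X ^ (-(1 / 10000 : ℝ)) := by
    calc B ^ 2 ≤ (X ^ (1 / 2 - 1 / 20000 : ℝ)) ^ 2 := by gcongr
      _ = _ := by
        rw [← Real.rpow_natCast, ← Real.rpow_mul hX0.le, ← Real.rpow_one_add' hX0.le (by norm_num)]
        norm_num
  have hδ : X ^ (-(1 / 10000 : ℝ)) ≤ 1 := Real.rpow_le_one_of_one_le_of_nonpos hX1 (by norm_num)
  have hB2X : B ^ 2 ≤ X := hBB.trans (mul_le_of_le_one_right hX0.le hδ)
  have h16 : 16 * B ≤ X := by nlinarith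
  have hA : 1 ≤ A := le_of_mul_le_mul_right (by linarith : 1 * B ≤ A * B) hB0
  obtain ⟨a, ha, rfl⟩ : ∃ a : ℝ, 1 ≤ a ∧ A = a ^ 3 :=
    ⟨_, Real.one_le_rpow hA (by norm_num), (DspG_cube (by linarith)).symm⟩
  obtain ⟨b, hb, rfl⟩ : ∃ b : ℝ, 1 ≤ b ∧ B = b ^ 3 :=
    ⟨_, Real.one_le_rpow hB (by norm_num), (DspG_cube (by linarith)).symm⟩
  have ha0 : 0 < a := by linarith
  have hb0 : 0 < b := by linarith
  have ea : (a ^ 3) ^ (2 / 3 : ℝ) = a ^ 2 := by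
    rw [← Real.rpow_natCast, ← Real.rpow_mul ha0.le, ← Real.rpow_natCast]
    norm_num
  have eb : (b ^ 3) ^ (5 / 3 : ℝ) = b ^ 5 := by
    rw [← Real.rpow_natCast, ← Real.rpow_mul hb0.le, ← Real.rpow_natCast]
    norm_num
  have hW : NW 4 (dy (b ^ 3)) β ≤ C * (2 * b ^ 3) * Real.log X ^ J := by
    refine le_trans ?_ (H X (2 * b ^ 3) (by linarith) (by linarith) (by linarith)).1
    refine le_trans (Finset.sum_le_sum fun x hx => ?_)
      (Finset.sum_le_sum_of_subset_of_nonneg (fun x hx => ?_) fun _ _ _ => by positivity)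
    · calc ‖β x‖ ^ 2 * 4 ^ (pf x).card ≤ (14 ^ (pf x).card) ^ 2 * 4 ^ (pf x).card := by
            have := hβ x hx
            gcongr
        _ = _ := by rw [← pow_mul, mul_comm _ 2, pow_mul, ← mul_pow]; norm_num
    · obtain ⟨a1, -, a3⟩ := mem_dy.1 hx
      exact mem_rng.2 ⟨a1, a1.one_le, a3⟩
  have hz : 1 ≤ Real.log X ^ (J + A₂ + 3) := one_le_pow₀ hL1
  have hc2 : 9 ≤ Real.log X ^ (c + 2) :=
    le_trans (by nlinarith) (pow_le_pow_right₀ hL1 (by omega : 2 ≤ c + 2))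
  have h9 : 9 * ((Real.log X ^ (J + A₂ + 3)) ^ 3) ^ 2 ≤
      Real.log X ^ (6 * (J + A₂ + 3) + (c + 2)) := by
    rw [pow_add _ (6 * (J + A₂ + 3)), mul_comm, ← pow_mul, ← pow_mul, mul_comm _ (3 * 2)]
    exact mul_le_mul_of_nonneg_left hc2 (by positivity)
  have hLt : Real.log X + |t| ≤ Real.log X ^ (6 * (J + A₂ + 3) + (c + 2)) := by
    have a1 : Real.log X ≤ Real.log X ^ (c + 1) := le_self_pow₀ hL1 (by omega)
    have a2 : Real.log X ^ c ≤ Real.log X ^ (c + 1) := pow_le_pow_right₀ hL1 (by omega)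
    have a3 : Real.log X ^ (c + 1) * 2 ≤ Real.log X ^ (c + 2) := by
      rw [pow_succ _ (c + 1)]
      exact mul_le_mul_of_nonneg_left (by linarith) (by positivity)
    have a4 : Real.log X ^ (c + 2) ≤ Real.log X ^ (6 * (J + A₂ + 3) + (c + 2)) :=
      pow_le_pow_right₀ hL1 (by omega)
    linarith
  have hJ : Real.log X ^ (J + A₂) ≤ X ^ (1 / 50000 : ℝ) :=
    (pow_le_pow_right₀ hL1 (by omega)).trans (hw1.trans hw2)
  have h3 : X ^ (1 / 100000 : ℝ) * (b / a) * Real.log X ^ (J + A₂) ≤ 3 := by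
    have a1 : b / a ≤ 3 * X ^ (-(1 / 30000 : ℝ)) := by
      rw [← pow_le_pow_iff_left₀ (by positivity) (by positivity) three_ne_zero, mul_pow,
        ← Real.rpow_natCast (X ^ _), ← Real.rpow_mul hX0.le,
        show -(1 / 30000 : ℝ) * ((3 : ℕ) : ℝ) = -(1 / 10000) by norm_num,
        show (b / a) ^ 3 = (b ^ 3) ^ 2 / (a ^ 3 * b ^ 3) by field_simp,
        div_le_iff₀ (by positivity)]
      have hp : 0 < X ^ (-(1 / 10000 : ℝ)) := by positivity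
      nlinarith
    calc _ ≤ X ^ (1 / 100000 : ℝ) * (3 * X ^ (-(1 / 30000 : ℝ))) * X ^ (1 / 50000 : ℝ) := by gcongr
      _ = 3 * X ^ (1 / 100000 + -(1 / 30000) + 1 / 50000 : ℝ) := by
          rw [Real.rpow_add hX0, Real.rpow_add hX0]; ring
      _ ≤ 3 * 1 := mul_le_mul_of_nonneg_left
          (Real.rpow_le_one_of_one_le_of_nonpos hX1 (by norm_num)) (by norm_num)
      _ = 3 := by norm_num
  have h4 : Real.exp (-Real.log X ^ 2 / 16) * b ^ 4 * Real.log X ^ (J + A₂) ≤ 1 := by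
    have a1 : b ^ 4 ≤ X := by
      refine le_trans ?_ hB2X
      rw [← pow_mul]
      exact pow_le_pow_right₀ hb (by norm_num)
    have a2 : Real.log X ^ (J + A₂) ≤ X := hJ.trans (by
      simpa using Real.rpow_le_rpow_of_exponent_le hX1 (by norm_num : (1 / 50000 : ℝ) ≤ 1))
    calc _ ≤ Real.exp (-Real.log X ^ 2 / 16) * X * X := by gcongr
      _ = Real.exp (-Real.log X ^ 2 / 16 + Real.log X + Real.log X) := by
          rw [Real.exp_add, Real.exp_add, Real.exp_log hX0]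
      _ ≤ 1 := Real.exp_le_one_iff.2 (by nlinarith)
  refine (H₀ X a b _ _ _ _ t β (by linarith) hL1 ha hb (by linarith) hB2X hz ?_ h9 hLt hR hSW).trans ?_
  · rw [← pow_mul]
    exact (pow_le_pow_right₀ hL1 (by omega)).trans hw1
  · rw [ea, eb, mul_assoc (C₀ * _), mul_div_assoc (C₀ * _), mul_assoc C₀]
    exact mul_le_mul_of_nonneg_left (DspG_fin hL1 ha hb hC (Real.exp_pos _).le (by positivity)
      (NW_nonneg (by norm_num) _ _) hW hw1 h9 (by omega) h3 h4) hC₀.le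

end Crest.Agent.R12
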