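import Crest.Agent.R12.LSBasic
import Crest.Agent.R17.LS2Triv

/-!
# Row 12, cubic large sieve: the bound `B + Q^{2+ε}` for cube-free rows
-/

set_option autoImplicit false

noncomputable section

namespace Crest.Agent.R12

open Crest.Agent.R17
open scoped ComplexConjugate

theorem LSTriv_primary {H₁ H₂ : ℝ} {z : O} (h : CF H₁ H₂ z) : Primary z := by
  obtain ⟨a, b, ha, hb, -, -, -, rfl⟩ := h
  exact ha.1.mul (hb.1.pow 2)

theorem LSTriv_vp_le {H₁ H₂ : ℝ} {z p : O} (h : CF H₁ H₂ z) (hp : Prime p) : vp p z ≤ 2 := by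
  obtain ⟨a, b, ha, hb, hab, -, -, rfl⟩ := h
  rw [vp_mul hp ha.1.ne_zero (pow_ne_zero _ hb.1.ne_zero), vp_pow hp hb.1.ne_zero]
  have h1 := BasicB.vp_le_one ha.2 hp
  have h2 := BasicB.vp_le_one hb.2 hp
  by_cases h3 : p ∣ b
  · have h4 : ¬ p ∣ a := fun h4 => hp.not_isUnit (hab.isUnit_of_dvd' h4 h3)
    rw [(vp_eq_zero_iff hp ha.1.ne_zero).2 h4]
    omega
  · rw [(vp_eq_zero_iff hp hb.1.ne_zero).2 h3]
    omega

theorem LSTriv_pow_ne_one {w : ℂ} (h3 : w ^ 3 = 1) (h1 : w ≠ 1) {k : ℕ} (hk : k % 3 ≠ 0) :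
    w ^ k ≠ 1 := by
  intro h
  have e : w ^ k = w ^ (k % 3) := by
    conv_lhs => rw [← Nat.div_add_mod k 3, pow_add, pow_mul, h3, one_pow, one_mul]
  rw [e] at h
  have : k % 3 = 1 ∨ k % 3 = 2 := by omega
  rcases this with h2 | h2
  · rw [h2, pow_one] at h
    exact h1 h
  · rw [h2] at h
    apply h1
    calc w = w ^ 2 * w := by rw [h, one_mul]
      _ = 1 := by rw [← h3]; ring

/-- Two different cube-free moduli give orthogonal characters. -/
theorem CF_mean {H₁ H₂ : ℝ} {z₁ z₂ : O} (h₁ : CF H₁ H₂ z₁) (h₂ : CF H₁ H₂ z₂) (hne : z₁ ≠ z₂) :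
    ∑ x ∈ res (rad z₁ * rad z₂), cub z₁ x * conj (cub z₂ x) = 0 := by
  classical
  have P1 := LSTriv_primary h₁
  have P2 := LSTriv_primary h₂
  obtain ⟨p, hp, hp', hv⟩ : ∃ p, Prime p ∧ Primary p ∧ vp p z₁ ≠ vp p z₂ := by
    by_contra hc
    push Not at hc
    exact hne (P1.ext_vp P2 hc)
  obtain ⟨g, hg, hg1⟩ := Symbol_exists_cub_ne hp hp'
  set s : Finset O := (pf z₁ ∪ pf z₂).erase p with hs
  have hsp : ∀ q ∈ s, Prime q ∧ Primary q := fun q hq => by
    rcases Finset.mem_union.1 (Finset.mem_of_mem_erase hq) with h | h <;> exact BasicB.pf_sub h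
  obtain ⟨-, hm, hpm⟩ := squarefree_prod_primes hsp
  set m : O := ∏ q ∈ s, q with hmdef
  have hcop : IsCoprime p m := by
    refine isCoprime_of_disjoint_pf hp' hm.ne_zero ?_
    rw [pf_prime hp hp', hpm, Finset.disjoint_singleton_left, hs]
    exact Finset.notMem_erase _ _
  obtain ⟨u, v, huv⟩ := hcop
  set a : O := u * p + g * (v * m) with ha
  have hap : p ∣ a - g := ⟨u - g * u, by rw [ha]; linear_combination g * huv⟩
  have ham : m ∣ a - 1 := ⟨g * v - v, by rw [ha]; linear_combination huv⟩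
  set w : ℂ := cub p g with hw
  have hw3 : w ^ 3 = 1 := cub_pow_three hp' hg.symm
  have hw0 : w ≠ 0 := fun h => by rw [h] at hw3; norm_num at hw3
  have key : ∀ z : O, z ≠ 0 → pf z ⊆ pf z₁ ∪ pf z₂ → cub z a = w ^ vp p z := fun z hz hsub => by
    rw [cub, Finset.prod_eq_single p]
    · rw [SymbolAux.cub1_congr hap, hw, cub_prime hp hp']
    · intro q hq hqp
      have hqs : q ∈ s := Finset.mem_erase.2 ⟨hqp, hsub hq⟩
      have hqm : q ∣ m := Finset.dvd_prod_of_mem _ hqs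
      rw [SymbolAux.cub1_congr (hqm.trans ham), SymbolAux.cub1_one (hsp q hqs).1 (hsp q hqs).2,
        one_pow]
    · intro hpz
      have : vp p z = 0 := by
        by_contra hc
        exact hpz ((BasicB.mem_pf_iff hz hp hp').2 hc)
      rw [this, pow_zero]
  have k1 := key z₁ P1.ne_zero Finset.subset_union_left
  have k2 := key z₂ P2.ne_zero Finset.subset_union_right
  have c1 : IsCoprime z₁ a := by
    by_contra hc
    exact pow_ne_zero _ hw0 (k1.symm.trans ((cub_eq_zero_iff P1).2 hc))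
  have c2 : IsCoprime z₂ a := by
    by_contra hc
    exact pow_ne_zero _ hw0 (k2.symm.trans ((cub_eq_zero_iff P2).2 hc))
  have hq0 : rad z₁ * rad z₂ ≠ 0 := mul_ne_zero (primary_rad _).ne_zero (primary_rad _).ne_zero
  have hac : IsCoprime a (rad z₁ * rad z₂) :=
    (c1.symm.of_isCoprime_of_dvd_right (rad_dvd _)).mul_right
      (c2.symm.of_isCoprime_of_dvd_right (rad_dvd _))
  have hsum := sum_res_affine hq0 (fun x => cub z₁ x * conj (cub z₂ x)) (fun x y hxy => by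
    rw [cub_congr ((dvd_mul_right _ _).trans hxy), cub_congr ((dvd_mul_left _ _).trans hxy)]) hac 0
  have e : ∀ x, cub z₁ (a * x + 0) * conj (cub z₂ (a * x + 0)) =
      w ^ (vp p z₁ + 2 * vp p z₂) * (cub z₁ x * conj (cub z₂ x)) := fun x => by
    rw [add_zero, cub_mul_right, cub_mul_right, map_mul, conj_cub z₂ a, k1, k2]
    ring
  simp only [e] at hsum
  rw [← Finset.mul_sum] at hsum
  have hne1 : w ^ (vp p z₁ + 2 * vp p z₂) ≠ 1 := by
    refine LSTriv_pow_ne_one hw3 hg1 ?_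
    have := LSTriv_vp_le h₁ hp
    have := LSTriv_vp_le h₂ hp
    omega
  by_contra hc
  exact hne1 (mul_right_cancel₀ hc (hsum.trans (one_mul _).symm))

theorem CF.primary {H₁ H₂ : ℝ} {z : O} (h : CF H₁ H₂ z) : Primary z :=
  LSTriv_primary h

theorem CF.nr_rad_le {H₁ H₂ : ℝ} {z : O} (h : CF H₁ H₂ z) : nr (rad z) ≤ H₁ * H₂ := by
  obtain ⟨a, b, ha, hb, -, h1, h2, rfl⟩ := h
  have ha0 := ha.1.ne_zero
  have hb0 := hb.1.ne_zero
  have e : rad (a * b ^ 2) = rad (a * b) := by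
    rw [rad, rad, pf_mul ha0 (pow_ne_zero _ hb0), pf_mul ha0 hb0, pf_pow two_ne_zero]
  have h3 : nr (rad (a * b)) ≤ nr (a * b) :=
    Nat.cast_le.2 (nm_le_of_dvd (rad_dvd _) (mul_ne_zero ha0 hb0))
  rw [e]
  refine h3.trans ?_
  rw [nr_mul]
  exact mul_le_mul h1 h2 (Nat.cast_nonneg _) ((Nat.cast_nonneg _).trans h1)

theorem card_CF_le {H₁ H₂ : ℝ} (h₁ : 0 ≤ H₁) (h₂ : 0 ≤ H₂) {K : Finset O}
    (hK : ∀ k ∈ K, CF H₁ H₂ k) : (K.card : ℝ) ≤ 49 * (H₁ * H₂) := by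
  classical
  set A := (ball ⌊H₁⌋₊).erase 0 with hA
  set B := (ball ⌊H₂⌋₊).erase 0 with hB
  have hsub : K ⊆ (A ×ˢ B).image fun q : O × O => q.1 * q.2 ^ 2 := fun k hk => by
    obtain ⟨a, b, ha, hb, -, h1, h2, rfl⟩ := hK k hk
    refine Finset.mem_image.2 ⟨(a, b), Finset.mem_product.2 ⟨?_, ?_⟩, rfl⟩
    · exact CountAux.mem_erase_ball.2 ⟨ha.1.ne_zero, Nat.le_floor h1⟩
    · exact CountAux.mem_erase_ball.2 ⟨hb.1.ne_zero, Nat.le_floor h2⟩
  have h3 : K.card ≤ A.card * B.card := by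
    rw [← Finset.card_product]
    exact (Finset.card_le_card hsub).trans Finset.card_image_le
  have h4 : (K.card : ℝ) ≤ A.card * B.card := by exact_mod_cast h3
  have h5 : (A.card : ℝ) ≤ 7 * H₁ := by
    have := CountAux.card_erase_le ⌊H₁⌋₊
    have := Nat.floor_le h₁
    linarith
  have h6 : (B.card : ℝ) ≤ 7 * H₂ := by
    have := CountAux.card_erase_le ⌊H₂⌋₊
    have := Nat.floor_le h₂
    linarith
  calc (K.card : ℝ) ≤ A.card * B.card := h4
    _ ≤ 7 * H₁ * (7 * H₂) := mul_le_mul h5 h6 (Nat.cast_nonneg _) (by linarith)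
    _ = 49 * (H₁ * H₂) := by ring

/-- The trivial large sieve, without loss in the term `N`. -/
theorem pairB_triv {ε : ℝ} (hε : 0 < ε) : ∃ C : ℝ, 0 < C ∧ ∀ N H₁ H₂ : ℝ, 1 ≤ N → 1 ≤ H₁ →
    1 ≤ H₂ → PairB N H₁ H₂ (C * (N + (H₁ * H₂) ^ (2 + ε))) := by
  obtain ⟨C, hC, hoff⟩ := norm_tsum_gw_le_of_mean_zero ε⁻¹
  have hg1 := gw_pos 1
  refine ⟨(gw 1)⁻¹ * (8 + 49 * C), by positivity, fun N H₁ H₂ hN hH₁ hH₂ S K β hS hK => ?_⟩
  set Q := H₁ * H₂ with hQ
  have hQ1 : 1 ≤ Q := one_le_mul_of_one_le_of_one_le hH₁ hH₂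
  have hQ0 : 0 < Q := by linarith
  set P := Q ^ ε with hP
  have hP1 : 1 ≤ P := Real.one_le_rpow hQ1 hε.le
  have eQ : Q ^ (2 + ε) = Q ^ 2 * P := by rw [Real.rpow_add hQ0, Real.rpow_two]
  rw [eQ]
  set X := N + Q ^ 2 * P with hX
  have hZP : 0 ≤ Q ^ 2 * P := by positivity
  have hXN : N ≤ X := by linarith
  have hX1 : 1 ≤ X := by linarith
  have hX0 : 0 < X := by linarith
  have hcard := card_CF_le (by linarith) (by linarith) hK
  refine LS2.duality S K (fun b k => cub b k) (by positivity) (fun c => ?_) β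
  have key := LS2.triv_bilinear K (fun z n => cub z n) (fun z n => norm_cub_le z n)
    (fun n => gw (nr n / X)) (fun n => (gw_pos _).le) (summable_gw' hX0) c
    (E := C * X * Q⁻¹) (by positivity) (tsum_gw_le hX0) ?_ S
  · have hS0 : 0 ≤ ∑ z ∈ K, ‖c z‖ ^ 2 := Finset.sum_nonneg fun _ _ => sq_nonneg _
    have h1 : gw 1 * ∑ b ∈ S, ‖∑ z ∈ K, c z * cub b z‖ ^ 2 ≤
        ∑ n ∈ S, gw (nr n / X) * ‖∑ z ∈ K, c z * cub z n‖ ^ 2 := by
      rw [Finset.mul_sum]
      refine Finset.sum_le_sum fun n hn => ?_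
      have e : ∑ z ∈ K, c z * cub n z = ∑ z ∈ K, c z * cub z n :=
        Finset.sum_congr rfl fun z hz => by rw [cub_recip (hS n hn).1.1 (hK z hz).primary]
      rw [e]
      refine mul_le_mul_of_nonneg_right (gw_antitone ?_) (sq_nonneg _)
      rw [div_le_one hX0]
      exact (hS n hn).2.trans hXN
    have h2 : (K.card : ℝ) * (C * X * Q⁻¹) ≤ 49 * C * X := by
      calc _ ≤ 49 * Q * (C * X * Q⁻¹) := by gcongr
        _ = 49 * C * X := by field_simp
    have h4 : 1 + 7 * X + (K.card : ℝ) * (C * X * Q⁻¹) ≤ (8 + 49 * C) * X := by linarith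
    have h5 := (h1.trans key).trans (mul_le_mul_of_nonneg_right h4 hS0)
    rw [← le_inv_mul_iff₀ hg1] at h5
    refine h5.trans (le_of_eq ?_)
    ring
  · intro z₁ h₁ z₂ h₂ hne
    have hq : rad z₁ * rad z₂ ≠ 0 := mul_ne_zero (primary_rad _).ne_zero (primary_rad _).ne_zero
    have hq0 := nr_pos hq
    have hqZ : nr (rad z₁ * rad z₂) ≤ Q ^ 2 := by
      rw [nr_mul, sq]
      exact mul_le_mul (hK z₁ h₁).nr_rad_le (hK z₂ h₂).nr_rad_le (Nat.cast_nonneg _) hQ0.le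
    have hPq : P ≤ X / nr (rad z₁ * rad z₂) := by
      rw [le_div_iff₀ hq0]
      have := mul_le_mul_of_nonneg_left hqZ (show 0 ≤ P by linarith)
      linarith
    have hqX : nr (rad z₁ * rad z₂) ≤ X := by
      have := (le_div_iff₀ hq0).1 (hP1.trans hPq)
      linarith
    refine (hoff (rad z₁ * rad z₂) (fun n => cub z₁ n * conj (cub z₂ n)) X hq ?_ ?_
      (CF_mean (hK z₁ h₁) (hK z₂ h₂) hne) hqX).trans ?_
    · intro x y hxy
      rw [cub_congr ((dvd_mul_right _ _).trans hxy), cub_congr ((dvd_mul_left _ _).trans hxy)]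
    · intro x
      rw [norm_mul, Complex.norm_conj]
      exact mul_le_one₀ (norm_cub_le _ _) (norm_nonneg _) (norm_cub_le _ _)
    · refine mul_le_mul_of_nonneg_left ?_ (by positivity)
      calc _ ≤ P ^ (-ε⁻¹) :=
            Real.rpow_le_rpow_of_nonpos (by linarith) hPq (neg_nonpos.2 (inv_nonneg.2 hε.le))
        _ = Q⁻¹ := by
            rw [hP, ← Real.rpow_mul hQ0.le, mul_neg, mul_inv_cancel₀ hε.ne', Real.rpow_neg_one]

end Crest.Agent.R12
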