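import Crest.Agent.R12.LSStep
import Crest.Agent.R12.LSTriv

/-!
# Row 12, cubic large sieve: the final forms
-/

set_option autoImplicit false

noncomputable section

namespace Crest.Agent.R12

open Crest.Agent.R17
open scoped ComplexConjugate

theorem indQ_base {X ρ : ℝ} (hρ : 1 ≤ ρ) : IndQ X 7 1 ρ := by
  intro M N h1 _ h3 h4
  have hM : 0 ≤ M := le_trans (by positivity) h4
  have : 0 ≤ (M * N) ^ (2 / 3 : ℝ) := by positivity
  exact (bndA_one hM).bnd.mono le_rfl h3 (by linarith)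

theorem LSAux.iter {η : ℝ} (hη : 0 < η) : ∃ C : ℝ, 1 ≤ C ∧ ∀ (X ρ : ℝ) (j : ℕ), 1 ≤ X →
    X ^ η ≤ ρ → IndQ X (7 * (C * X ^ (6 * η)) ^ j) ((ρ / X ^ η) ^ j) ρ := by
  obtain ⟨C, hC, h⟩ := indQ_step hη
  refine ⟨C, hC, fun X ρ j hX hρ => ?_⟩
  have h1 : 1 ≤ C * X ^ (6 * η) :=
    one_le_mul_of_one_le_of_one_le hC (Real.one_le_rpow hX (by positivity))
  induction j with
  | zero => simpa using indQ_base ((Real.one_le_rpow hX hη.le).trans hρ)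
  | succ j ih =>
    have h2 := h X _ _ ρ hX (by nlinarith [one_le_pow₀ (n := j) h1]) hρ ih
    rw [pow_succ', pow_succ', mul_left_comm]
    exact h2

theorem LSAux.cube {x y : ℝ} (hy : 0 ≤ y) (h : x ^ 3 ≤ 64 * y ^ 2) :
    x ≤ 4 * y ^ (2 / 3 : ℝ) := by
  refine le_of_pow_le_pow_left₀ (n := 3) (by norm_num) (by positivity) ?_
  rw [mul_pow, ← Real.rpow_natCast (y ^ (2 / 3 : ℝ)), ← Real.rpow_mul hy]
  norm_num
  exact h

theorem LS_cubic_le {ε : ℝ} (hε : 0 < ε) : ∃ C : ℝ, 0 < C ∧ ∀ M N : ℝ, 1 ≤ N → N ≤ M →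
    Bnd M N (C * N ^ ε * (M + (M * N) ^ (2 / 3 : ℝ))) := by
  set δ := min 1 (ε / 14) with hδ
  have hδ0 : 0 < δ := lt_min one_pos (by positivity)
  have hδ1 : δ ≤ 1 := min_le_left _ _
  have hδ2 : δ ≤ ε / 14 := min_le_right _ _
  obtain ⟨C, hC, h⟩ := LSAux.iter (η := δ ^ 2) (by positivity)
  set j := ⌈1 / δ⌉₊ with hj
  have hj1 : 1 ≤ δ * j := by
    have := Nat.le_ceil (1 / δ)
    rwa [div_le_iff₀' hδ0] at this
  have hj2 : δ * j ≤ 2 := by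
    have h1 : (j : ℝ) < 1 / δ + 1 := Nat.ceil_lt_add_one (by positivity)
    have h2 : δ * j ≤ δ * (1 / δ + 1) := mul_le_mul_of_nonneg_left h1.le hδ0.le
    rw [mul_add, mul_one_div_cancel hδ0.ne'] at h2
    linarith
  refine ⟨7 * C ^ j, by positivity, fun M N hN hM => ?_⟩
  have hN0 : 0 < N := by linarith
  have hM0 : 0 < M := by linarith
  set ρ := N ^ (δ + δ ^ 2) with hρ
  have hρ1 : 1 ≤ ρ := Real.one_le_rpow hN (by positivity)
  have e1 : ρ / N ^ (δ ^ 2) = N ^ δ := by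
    rw [hρ, ← Real.rpow_sub hN0, add_sub_cancel_right]
  have h1 := h N ρ j hN (Real.rpow_le_rpow_of_exponent_le hN (by linarith)) (ρ * M) N hN le_rfl
    (by
      rw [e1, ← Real.rpow_natCast, ← Real.rpow_mul hN0.le]
      exact Real.self_le_rpow_of_one_le hN hj1)
    (mul_le_mul_of_nonneg_left hM (by linarith))
  refine h1.mono (by nlinarith) le_rfl ?_
  have h2 : (ρ * M * N) ^ (2 / 3 : ℝ) ≤ ρ * (M * N) ^ (2 / 3 : ℝ) := by
    rw [mul_assoc, Real.mul_rpow (by linarith) (by positivity)]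
    exact mul_le_mul_of_nonneg_right (Real.rpow_le_self_of_one_le hρ1 (by norm_num))
      (by positivity)
  have h3 : (N ^ (6 * δ ^ 2)) ^ j * ρ ≤ N ^ ε := by
    rw [← Real.rpow_natCast, ← Real.rpow_mul hN0.le, hρ, ← Real.rpow_add hN0]
    refine Real.rpow_le_rpow_of_exponent_le hN ?_
    nlinarith
  calc 7 * (C * N ^ (6 * δ ^ 2)) ^ j * (ρ * M + (ρ * M * N) ^ (2 / 3 : ℝ))
      ≤ 7 * (C * N ^ (6 * δ ^ 2)) ^ j * (ρ * M + ρ * (M * N) ^ (2 / 3 : ℝ)) := by gcongr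
    _ = 7 * C ^ j * ((N ^ (6 * δ ^ 2)) ^ j * ρ) * (M + (M * N) ^ (2 / 3 : ℝ)) := by
        rw [mul_pow]; ring
    _ ≤ _ := by gcongr

/-- **Heath-Brown's cubic large sieve.** -/
theorem LS_cubic {ε : ℝ} (hε : 0 < ε) : ∃ C : ℝ, 0 < C ∧ ∀ M N : ℝ, 1 ≤ M → 1 ≤ N →
    Bnd M N (C * (M * N) ^ ε * (M + N + (M * N) ^ (2 / 3 : ℝ))) := by
  obtain ⟨C, hC, h⟩ := LS_cubic_le hε
  have key : ∀ M N : ℝ, 1 ≤ N → N ≤ M →
      Bnd M N (C * (M * N) ^ ε * (M + N + (M * N) ^ (2 / 3 : ℝ))) := by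
    intro M N hN hM
    refine (h M N hN hM).mono le_rfl le_rfl ?_
    have h0 : 0 ≤ N := by linarith
    have h1 : 0 ≤ M := by linarith
    have h2 : N ≤ M * N := by nlinarith
    gcongr
    linarith
  refine ⟨C, hC, fun M N hM hN => ?_⟩
  rcases le_total N M with h1 | h1
  · exact key M N hN h1
  · have h2 := (key N M hM h1).dual (by positivity)
    rwa [mul_comm N M, add_comm N M] at h2

theorem pairB_final {ε : ℝ} (hε : 0 < ε) : ∃ C : ℝ, 0 < C ∧ ∀ B H H₀ H₁ H₂ : ℝ, 1 ≤ B → 1 ≤ H₀ →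
    1 ≤ H₁ → H₁ ≤ H → 1 ≤ H₂ → H₂ ≤ H → H₁ * H₂ ^ 2 ≤ 8 * H₀ →
    PairB B H₁ H₂ (C * B + 0 * H₀ ^ (1 / 3 : ℝ) +
      C * (H * B) ^ ε * B ^ (2 / 3 : ℝ) * H₀ ^ (2 / 3 : ℝ) + C * (H * B) ^ ε * H₀) := by
  obtain ⟨C₁, hC₁, h₁⟩ := pairB_triv (ε := ε / 2) (by positivity)
  obtain ⟨C₂, hC₂, h₂⟩ := LS_cubic hε
  refine ⟨4 * C₁ + 56 * C₂, by positivity, fun B H H₀ H₁ H₂ hB hH₀ h1 h1' h2 h2' h8 => ?_⟩
  have hB0 : 0 < B := by linarith
  have hH0 : 0 < H := by linarith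
  have h10 : 0 < H₁ := by linarith
  have h20 : 0 < H₂ := by linarith
  have h00 : 0 < H₀ := by linarith
  have hsq : (H₁ * H₂ ^ 2 * B) ^ 2 ≤ 64 * (H₀ * B) ^ 2 := by
    calc (H₁ * H₂ ^ 2 * B) ^ 2 ≤ (8 * H₀ * B) ^ 2 := by gcongr
      _ = _ := by ring
  have e1 : (H * B) ^ ε * B ^ (2 / 3 : ℝ) * H₀ ^ (2 / 3 : ℝ) =
      (H * B) ^ ε * (H₀ * B) ^ (2 / 3 : ℝ) := by
    rw [Real.mul_rpow h00.le hB0.le]; ring
  set u := (H * B) ^ ε with hu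
  set v := (H₀ * B) ^ (2 / 3 : ℝ) with hv
  have hu0 : 0 < u := by positivity
  have hv0 : 0 < v := by positivity
  have e2 : (4 * C₁ + 56 * C₂) * B + 0 * H₀ ^ (1 / 3 : ℝ) +
      (4 * C₁ + 56 * C₂) * u * B ^ (2 / 3 : ℝ) * H₀ ^ (2 / 3 : ℝ) + (4 * C₁ + 56 * C₂) * u * H₀ =
      (4 * C₁ + 56 * C₂) * (B + u * v + u * H₀) := by
    rw [← e1]; ring
  rw [e2]
  have p1 : 0 < u * v := by positivity
  have p2 : 0 < u * H₀ := by positivity
  rcases le_total ((H₁ * H₂) ^ 2) (H₂ * B) with hc | hc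
  · refine BndP.mono (h₁ B H₁ H₂ hB h1 h2) (fun _ hk => hk) le_rfl ?_
    have h3 : (H₁ * H₂) ^ 2 ≤ 4 * v := by
      refine LSAux.cube (by positivity) (le_trans ?_ hsq)
      calc ((H₁ * H₂) ^ 2) ^ 3 = (H₁ * H₂) ^ 2 * ((H₁ * H₂) ^ 2) ^ 2 := by ring
        _ ≤ (H₁ * H₂) ^ 2 * (H₂ * B) ^ 2 := by gcongr
        _ = _ := by ring
    have h4 : (H₁ * H₂) ^ (ε / 2) ≤ u := by
      calc (H₁ * H₂) ^ (ε / 2) ≤ ((H * B) ^ 2) ^ (ε / 2) := by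
            refine Real.rpow_le_rpow (by positivity) ?_ (by positivity)
            have : H ≤ H * B := by nlinarith
            rw [sq]
            exact mul_le_mul (h1'.trans this) (h2'.trans this) h20.le (by positivity)
        _ = u := by
            rw [hu, ← Real.rpow_natCast, ← Real.rpow_mul (by positivity)]
            congr 1
            push_cast
            ring
    have h5 : (H₁ * H₂) ^ (2 + ε / 2) ≤ 4 * v * u := by
      rw [Real.rpow_add (by positivity), Real.rpow_two]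
      gcongr
    calc C₁ * (B + (H₁ * H₂) ^ (2 + ε / 2)) ≤ C₁ * (B + 4 * v * u) := by gcongr
      _ ≤ 4 * C₁ * (B + u * v + u * H₀) := by nlinarith [mul_pos hC₁ hB0, mul_pos hC₁ p2]
      _ ≤ _ := by gcongr; linarith
  · refine BndP.mono (pairB_left (by positivity) h10.le h20.le (h₂ H₁ B h1 hB)) (fun _ hk => hk)
      le_rfl ?_
    have h3 : H₂ * H₁ ≤ 8 * H₀ := by nlinarith [mul_pos h10 h20]
    have h4 : H₂ * B ≤ 4 * v := by
      refine LSAux.cube (by positivity) (le_trans ?_ hsq)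
      calc (H₂ * B) ^ 3 = (H₂ * B) * (H₂ * B) ^ 2 := by ring
        _ ≤ (H₁ * H₂) ^ 2 * (H₂ * B) ^ 2 := by gcongr
        _ = _ := by ring
    have h5 : H₂ * (H₁ * B) ^ (2 / 3 : ℝ) ≤ 4 * v := by
      refine LSAux.cube (by positivity) (le_trans ?_ hsq)
      have e3 : ((H₁ * B) ^ (2 / 3 : ℝ)) ^ 3 = (H₁ * B) ^ 2 := by
        rw [← Real.rpow_natCast, ← Real.rpow_mul (by positivity)]
        norm_num
      rw [mul_pow, e3]
      calc H₂ ^ 3 * (H₁ * B) ^ 2 ≤ H₂ ^ 4 * (H₁ * B) ^ 2 := by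
            gcongr
            norm_num
        _ = _ := by ring
    have h6 : (H₁ * B) ^ ε ≤ u := by rw [hu]; gcongr
    calc 7 * H₂ * (C₂ * (H₁ * B) ^ ε * (H₁ + B + (H₁ * B) ^ (2 / 3 : ℝ)))
        = 7 * C₂ * (H₁ * B) ^ ε * (H₂ * H₁ + H₂ * B + H₂ * (H₁ * B) ^ (2 / 3 : ℝ)) := by ring
      _ ≤ 7 * C₂ * u * (8 * H₀ + 4 * v + 4 * v) := by gcongr
      _ ≤ 56 * C₂ * (B + u * v + u * H₀) := by nlinarith [mul_pos hC₂ hB0]
      _ ≤ _ := by gcongr; linarith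

/-- The large sieve over all rows of conductor at least `Z`. -/
theorem LS_all {eps : ℝ} (h : 0 < eps) : ∃ C : ℝ, 0 < C ∧ ∀ (H B Z : ℝ) (S K : Finset O)
    (be : O → ℂ), 1 ≤ H → 1 ≤ B → 1 ≤ Z → (∀ b ∈ S, PS b ∧ nr b ≤ B) →
    (∀ k ∈ K, k ≠ 0 ∧ nr k ≤ H ∧ Z ≤ cnd k) →
    ∑ k ∈ K, ‖col S be k‖ ^ 2 ≤ C * ((H / Z) ^ (1 / 3 : ℝ) * B * (1 + Real.log H) ^ 3 +
      (H * B) ^ eps * (H + (H * B) ^ (2 / 3 : ℝ))) * N2 S be := by
  obtain ⟨C₀, hC₀, h₀⟩ := rows_all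
  obtain ⟨C₁, hC₁, h₁⟩ := pairB_final (ε := eps / 2) (by positivity)
  refine ⟨C₀ * C₁ * (1 + 6 / eps) ^ 3, by positivity, fun H B Z S K be hH hB hZ hS hK => ?_⟩
  have hB0 : 0 < B := by linarith
  have hH0 : 0 < H := by linarith
  have hZ0 : 0 < Z := by linarith
  have h1 := h₀ B H Z (C₁ * B) 0 (C₁ * (H * B) ^ (eps / 2) * B ^ (2 / 3 : ℝ))
    (C₁ * (H * B) ^ (eps / 2)) hH hZ (by positivity) le_rfl (by positivity) (by positivity)
    (fun H₀ H₁ H₂ a1 _ a3 a4 a5 a6 a7 => h₁ B H H₀ H₁ H₂ hB a1 a3 a4 a5 a6 a7) S K be hS hK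
  refine h1.trans (mul_le_mul_of_nonneg_right ?_ (N2_nonneg S be))
  have hl : 0 ≤ Real.log H := Real.log_nonneg hH
  set u := (H * B) ^ (eps / 2) with hu
  have hu0 : 0 < u := by positivity
  have e1 : (H * B) ^ eps = u * u := by
    rw [hu, ← Real.rpow_add (by positivity), add_halves]
  have h2 : (1 + Real.log H) ^ 3 ≤ (1 + 6 / eps) ^ 3 * u := by
    have h3 : Real.log H ≤ H ^ (eps / 6) / (eps / 6) :=
      Real.log_le_rpow_div hH0.le (by positivity)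
    have h4 : 1 ≤ H ^ (eps / 6) := Real.one_le_rpow hH (by positivity)
    have h5 : 1 + Real.log H ≤ (1 + 6 / eps) * H ^ (eps / 6) := by
      rw [div_div_eq_mul_div, mul_div_assoc] at h3
      linarith
    have h6 : (H ^ (eps / 6)) ^ 3 ≤ u := by
      rw [← Real.rpow_natCast, ← Real.rpow_mul hH0.le, hu,
        show eps / 6 * ((3 : ℕ) : ℝ) = eps / 2 by push_cast; ring]
      exact Real.rpow_le_rpow hH0.le (by nlinarith) (by positivity)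
    calc (1 + Real.log H) ^ 3 ≤ ((1 + 6 / eps) * H ^ (eps / 6)) ^ 3 := by gcongr
      _ = (1 + 6 / eps) ^ 3 * (H ^ (eps / 6)) ^ 3 := mul_pow _ _ _
      _ ≤ _ := by gcongr
  have h7 : 1 ≤ (1 + 6 / eps) ^ 3 := one_le_pow₀ (by linarith [div_pos (by norm_num : (0:ℝ) < 6) h])
  rw [e1, Real.mul_rpow hH0.le hB0.le (z := 2 / 3)]
  set L := (1 + Real.log H) ^ 3 with hL
  set A := (1 + 6 / eps) ^ 3 with hA
  have hL0 : 0 ≤ L := by positivity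
  calc C₀ * L * (C₁ * B * (H / Z) ^ (1 / 3 : ℝ) + 0 * H ^ (1 / 3 : ℝ) +
        C₁ * u * B ^ (2 / 3 : ℝ) * H ^ (2 / 3 : ℝ) + C₁ * u * H)
      = C₀ * C₁ * (1 * ((H / Z) ^ (1 / 3 : ℝ) * B * L) +
          L * (u * (H + H ^ (2 / 3 : ℝ) * B ^ (2 / 3 : ℝ)))) := by ring
    _ ≤ C₀ * C₁ * (A * ((H / Z) ^ (1 / 3 : ℝ) * B * L) +
          A * u * (u * (H + H ^ (2 / 3 : ℝ) * B ^ (2 / 3 : ℝ)))) := by gcongr
    _ = _ := by ring

end Crest.Agent.R12
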