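import Crest.Agent.R12.DspF
import Crest.Agent.R12.LS
import Crest.Agent.R12.Mom
import Crest.Agent.R12.Chr

/-!
# Row 12, analytic half: the non-cube rows for rough coefficients
-/

set_option autoImplicit false

noncomputable section

namespace Crest.Agent.R12

open Crest.Agent.R17
open scoped ComplexConjugate Topology
open Filter MeasureTheory

/-- A non-zero element is `κ₀ c³` with `c` primary and `N κ₀ ≤ 9 (cnd k)²`. -/
theorem exists_cube_part {k : O} (hk : k ≠ 0) :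
    ∃ κ₀ c : O, κ₀ ≠ 0 ∧ Primary c ∧ k = κ₀ * c ^ 3 * lam ^ (3 * (vp lam k / 3)) ∧
      nr κ₀ ≤ 9 * cnd k ^ 2 := by
  obtain ⟨i, j, c, h₁, h₂, hi, hc, a₁, a₂, -, e, e'⟩ := row_decomp hk
  have hu : IsUnit ((-om) ^ i) := isUnit_iff_pow.2 ⟨_, hi, rfl⟩
  have hl := prime_lam
  have hp : Primary (c ^ 3 * (h₁ * h₂ ^ 2)) := (hc.pow 3).mul (a₁.1.mul (a₂.1.pow 2))
  have hv : vp lam k = j := by
    rw [e, mul_assoc, vp_mul hl (mul_ne_zero hu.ne_zero (pow_ne_zero _ hl.ne_zero)) hp.ne_zero,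
      vp_mul hl hu.ne_zero (pow_ne_zero _ hl.ne_zero), BasicB.vp_unit hl hu,
      vp_pow hl hl.ne_zero, vp_self hl, (vp_eq_zero_iff hl hp.ne_zero).2 hp.not_lam_dvd]
    omega
  refine ⟨(-om) ^ i * lam ^ (j % 3) * (h₁ * h₂ ^ 2), c, mul_ne_zero (mul_ne_zero hu.ne_zero
    (pow_ne_zero _ hl.ne_zero)) (a₁.1.mul (a₂.1.pow 2)).ne_zero, hc, ?_, ?_⟩
  · have h1 : lam ^ j = lam ^ (j % 3) * lam ^ (3 * (j / 3)) := by rw [← pow_add, Nat.mod_add_div]
    rw [hv]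
    conv_lhs => rw [e, h1]
    ring
  · have b1 := one_le_nr a₁.1.ne_zero
    have b2 := one_le_nr a₂.1.ne_zero
    have b3 : (3 : ℝ) ^ (j % 3) ≤ 3 ^ 2 := pow_le_pow_right₀ (by norm_num) (by omega)
    rw [e', nr_mul, nr_mul, nr_mul, nr_pow lam, nr_pow h₂, nr, isUnit_iff_nm.1 hu, nr, nm_lam,
      Nat.cast_one, one_mul, Nat.cast_ofNat]
    calc (3 : ℝ) ^ (j % 3) * (nr h₁ * nr h₂ ^ 2) ≤ 3 ^ 2 * (nr h₁ ^ 2 * nr h₂ ^ 2) := by
          gcongr
          exact le_self_pow₀ b1 two_ne_zero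
      _ = _ := by ring

private theorem DspG0_gr {K' M a : ℝ} (hK : 0 < K') (hM : 0 < M) (h1 : 1 / 3 ≤ a) (h2 : a ≤ 7 / 5) :
    (M / K') ^ a ≤ gr K' M := by
  have hu : 0 < M / K' := by positivity
  rcases le_total (M / K') 1 with h | h
  · exact (Real.rpow_le_rpow_of_exponent_ge hu h h1).trans (le_max_left _ _)
  · exact (Real.rpow_le_rpow_of_exponent_le h h2).trans (le_max_right _ _)

private theorem DspG0_log {R K' M : ℝ} (hR : 3 ≤ R) (hK : 0 < K') (hKR : K' ≤ R) (hM : 1 ≤ M) :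
    (M / K') ^ (1 / 3 : ℝ) * (1 + Real.log M) ^ 3 ≤ 125 * Real.log R ^ 3 * gr K' M := by
  have hM0 : 0 < M := by linarith
  have hu : 0 < M / K' := by positivity
  have hL : 1 ≤ Real.log R := by
    rw [Real.le_log_iff_exp_le (by linarith)]
    linarith [Real.exp_one_lt_d9]
  have hM1 := Real.log_nonneg hM
  have h1 : Real.log M ≤ Real.log (M / K') + Real.log R := by
    rw [Real.log_div hM0.ne' hK.ne']
    linarith [Real.log_le_log hK hKR]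
  rcases le_total (M / K') 1 with h | h
  · have h2 := Real.log_nonpos hu.le h
    have h3 := DspG0_gr hK hM0 (le_refl (1 / 3 : ℝ)) (by norm_num)
    calc _ ≤ gr K' M * (5 * Real.log R) ^ 3 := by
          gcongr
          · exact le_trans (by positivity) h3
          · linarith
      _ = _ := by ring
  · have h2 := Real.log_le_rpow_div hu.le (show (0 : ℝ) < 1 / 3 by norm_num)
    have h3 := DspG0_gr hK hM0 (show (1 / 3 : ℝ) ≤ 4 / 3 by norm_num) (by norm_num)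
    have h4 : 1 ≤ (M / K') ^ (1 / 3 : ℝ) := Real.one_le_rpow h (by norm_num)
    have h5 : ((M / K') ^ (1 / 3 : ℝ)) ^ 4 = (M / K') ^ (4 / 3 : ℝ) := by
      rw [← Real.rpow_natCast, ← Real.rpow_mul hu.le]
      norm_num
    calc _ ≤ (M / K') ^ (1 / 3 : ℝ) * (5 * Real.log R * (M / K') ^ (1 / 3 : ℝ)) ^ 3 := by
          gcongr
          nlinarith
      _ = 125 * Real.log R ^ 3 * ((M / K') ^ (1 / 3 : ℝ)) ^ 4 := by ring
      _ ≤ _ := by rw [h5]; gcongr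

/-- `LS_all` in the form required by `nc_le`: `(1 + log M)³` and `M^ε` are absorbed in `gr`. -/
theorem rows_LS {ε : ℝ} (hε : 0 < ε) : ∃ C : ℝ, 0 < C ∧ ∀ (R K' B₁ Z M : ℝ) (S K : Finset O)
    (β : O → ℂ), 3 ≤ R → 0 < K' → K' ≤ R → 1 ≤ B₁ → B₁ ≤ R → 1 ≤ Z → 1 ≤ M →
    (∀ b ∈ S, PS b ∧ nr b ≤ B₁) → (∀ k ∈ K, k ≠ 0 ∧ nr k ≤ M ∧ Z ≤ cnd k) →
    ∑ k ∈ K, ‖col S β k‖ ^ 2 ≤ C * ((K' / Z) ^ (1 / 3 : ℝ) * B₁ * Real.log R ^ 3 +
      R ^ ε * (K' + (K' * B₁) ^ (2 / 3 : ℝ))) * N2 S β * gr K' M := by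
  obtain ⟨e, he, he1, he2⟩ : ∃ e : ℝ, 0 < e ∧ 2 * e ≤ ε ∧ e ≤ 1 / 5 :=
    ⟨min (ε / 2) (1 / 5), by positivity, by linarith [min_le_left (ε / 2) (1 / 5)],
      min_le_right _ _⟩
  obtain ⟨C, hC, h⟩ := LS_all he
  refine ⟨125 * C, by positivity, fun R K' B₁ Z M S K β hR hK hKR hB hBR hZ hM hS hKK => ?_⟩
  refine (h M B₁ Z S K β hM hB hZ hS hKK).trans ?_
  have hN := N2_nonneg S β
  have hM0 : 0 < M := by linarith
  have hB0 : 0 < B₁ := by linarith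
  have hZ0 : 0 < Z := by linarith
  have hu : 0 < M / K' := by positivity
  have hG : 0 ≤ gr K' M := le_trans (by positivity) (le_max_left _ _)
  have e1 : (M / Z) ^ (1 / 3 : ℝ) = (K' / Z) ^ (1 / 3 : ℝ) * (M / K') ^ (1 / 3 : ℝ) := by
    rw [← Real.mul_rpow (by positivity) hu.le]
    congr 1
    field_simp
  have e2 : ∀ a : ℝ, (M * B₁) ^ a = (K' * B₁) ^ a * (M / K') ^ a := fun a => by
    rw [← Real.mul_rpow (by positivity) hu.le]
    congr 1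
    field_simp
  have e3 : (K' * B₁) ^ e ≤ R ^ ε := by
    calc (K' * B₁) ^ e ≤ (R ^ (2 : ℝ)) ^ e := by
          rw [Real.rpow_two, sq]
          gcongr
      _ = R ^ (2 * e) := (Real.rpow_mul (by linarith) _ _).symm
      _ ≤ _ := Real.rpow_le_rpow_of_exponent_le (by linarith) he1
  have t1 : (M / Z) ^ (1 / 3 : ℝ) * B₁ * (1 + Real.log M) ^ 3 ≤
      125 * ((K' / Z) ^ (1 / 3 : ℝ) * B₁ * Real.log R ^ 3) * gr K' M := by
    calc _ = (K' / Z) ^ (1 / 3 : ℝ) * B₁ * ((M / K') ^ (1 / 3 : ℝ) * (1 + Real.log M) ^ 3) := by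
          rw [e1]; ring
      _ ≤ (K' / Z) ^ (1 / 3 : ℝ) * B₁ * (125 * Real.log R ^ 3 * gr K' M) :=
          mul_le_mul_of_nonneg_left (DspG0_log hR hK hKR hM) (by positivity)
      _ = _ := by ring
  have t2 : (M * B₁) ^ e * (M + (M * B₁) ^ (2 / 3 : ℝ)) ≤
      R ^ ε * (K' + (K' * B₁) ^ (2 / 3 : ℝ)) * gr K' M := by
    have g1 := DspG0_gr hK hM0 (show 1 / 3 ≤ e + 1 by linarith) (by linarith)
    have g2 := DspG0_gr hK hM0 (show 1 / 3 ≤ e + 2 / 3 by linarith) (by linarith)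
    have hR0 : 0 ≤ R ^ ε := Real.rpow_nonneg (by linarith) _
    calc _ = (K' * B₁) ^ e * (K' * (M / K') ^ (e + 1) +
          (K' * B₁) ^ (2 / 3 : ℝ) * (M / K') ^ (e + 2 / 3)) := by
          rw [e2, e2, Real.rpow_add_one hu.ne', Real.rpow_add hu]
          field_simp
      _ ≤ R ^ ε * (K' * gr K' M + (K' * B₁) ^ (2 / 3 : ℝ) * gr K' M) := by gcongr
      _ = _ := by ring
  have t3 : 0 ≤ R ^ ε * (K' + (K' * B₁) ^ (2 / 3 : ℝ)) * gr K' M :=
    mul_nonneg (mul_nonneg (Real.rpow_nonneg (by linarith) _) (by positivity)) hG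
  calc _ ≤ C * (125 * ((K' / Z) ^ (1 / 3 : ℝ) * B₁ * Real.log R ^ 3) * gr K' M +
        125 * (R ^ ε * (K' + (K' * B₁) ^ (2 / 3 : ℝ)) * gr K' M)) * N2 S β :=
        mul_le_mul_of_nonneg_right (mul_le_mul_of_nonneg_left (by linarith) hC.le) hN
    _ = _ := by ring

end Crest.Agent.R12
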