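import Crest.Agent.R12.LSRows
import Crest.Agent.R12.Chr

/-!
# Row 12, fourth moment: the nine characters modulo 9

Plan: `M4Chr` (characters modulo 9), `M4Eul` (L-functions: growth, Euler factors, contour),
`M4Gam` (gamma ratio, Hölder), `M4Dual`, `M4FE` (functional equation as an inequality between the
lines `1/2 ± δ`), `M4Gen` (short sums by the large sieve), `M4Abs` (approximate functional
equation and absorption), `M4` (final form).
-/

set_option autoImplicit false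

noncomputable section

namespace Crest.Agent.R12

open Crest.Agent.R17
open scoped ComplexConjugate
open MeasureTheory

/-- The rows `ω^a λ^b`. -/
def vv (a : ZMod 3 × ZMod 3) : O := om ^ a.1.val * lam ^ a.2.val

theorem M4Chr_om_unit : IsUnit om :=
  IsUnit.of_mul_eq_one (om ^ 2) (by rw [← pow_succ', om_cube])

theorem M4Chr_om_pow (i : ℕ) : om ^ (i % 3) = om ^ i := (pow_eq_pow_mod i om_cube).symm

theorem vv_ne_zero (a : ZMod 3 × ZMod 3) : vv a ≠ 0 := by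
  exact mul_ne_zero (pow_ne_zero _ M4Chr_om_unit.ne_zero) (pow_ne_zero _ prime_lam.ne_zero)

theorem nr_vv_le (a : ZMod 3 × ZMod 3) : nr (vv a) ≤ 9 := by
  have h1 : nm (om ^ a.1.val) = 1 := isUnit_iff_nm.1 (M4Chr_om_unit.pow _)
  have h2 : a.2.val ≤ 2 := Nat.lt_succ_iff.1 (ZMod.val_lt a.2)
  have h3 : nm (vv a) ≤ 9 := by
    rw [vv, nm_mul, h1, one_mul, nm_pow, nm_lam]
    exact (Nat.pow_le_pow_right (by norm_num) h2).trans (by norm_num)
  exact_mod_cast h3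

theorem pf_vv (a : ZMod 3 × ZMod 3) : pf (vv a) = ∅ := by
  rw [vv, pf_unit_mul (M4Chr_om_unit.pow _), BasicB.pf_lam_pow]

theorem vv_zero : vv 0 = 1 := by
  simp [vv]

theorem vv_mul (a b : ZMod 3 × ZMod 3) :
    ∃ m : O, m ≠ 0 ∧ pf m = ∅ ∧ vv a * vv b = vv (a + b) * m ^ 3 := by
  refine ⟨lam ^ ((a.2.val + b.2.val) / 3), pow_ne_zero _ prime_lam.ne_zero, BasicB.pf_lam_pow _, ?_⟩
  have h1 : om ^ (a + b).1.val = om ^ a.1.val * om ^ b.1.val := by
    rw [Prod.fst_add, ZMod.val_add, M4Chr_om_pow, pow_add]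
  have h2 : lam ^ (a + b).2.val * (lam ^ ((a.2.val + b.2.val) / 3)) ^ 3 =
      lam ^ a.2.val * lam ^ b.2.val := by
    rw [Prod.snd_add, ZMod.val_add, ← pow_mul, ← pow_add, Nat.mod_add_div', pow_add]
  rw [vv, vv, vv, h1, mul_assoc (_ * _) (lam ^ _), h2]
  ring

/-- `row_decomp`. -/
theorem row_decomp' {k : O} (hk : k ≠ 0) : ∃ (a : ZMod 3 × ZMod 3) (c h₁ h₂ : O), c ≠ 0 ∧ PS h₁ ∧
    PS h₂ ∧ IsCoprime h₁ h₂ ∧ k = h₁ * h₂ ^ 2 * vv a * c ^ 3 ∧ cnd k = nr h₁ * nr h₂ := by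
  obtain ⟨i, j, c, h₁, h₂, -, hc, a₁, a₂, hco, e, e'⟩ := row_decomp hk
  refine ⟨((i : ZMod 3), (j : ZMod 3)), (-1) ^ i * lam ^ (j / 3) * c, h₁, h₂,
    mul_ne_zero (mul_ne_zero (pow_ne_zero _ (by norm_num)) (pow_ne_zero _ prime_lam.ne_zero))
      hc.ne_zero, a₁, a₂, hco, e.trans ?_, e'⟩
  have h1 : lam ^ j = lam ^ (j % 3) * (lam ^ (j / 3)) ^ 3 := by
    rw [← pow_mul, ← pow_add, Nat.mod_add_div']
  have h2 : (-om) ^ i = ((-1) ^ i) ^ 3 * om ^ i := by
    rw [← pow_mul, mul_comm i, pow_mul, ← mul_pow]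
    exact congrArg (· ^ i) (by ring)
  rw [vv, ZMod.val_natCast, ZMod.val_natCast, M4Chr_om_pow, h2, mul_pow, mul_pow]
  conv_lhs => rw [h1]
  ring

theorem not_cube_of_cnd {k : O} (hk : k ≠ 0) (h : 1 < cnd k) (a : ZMod 3 × ZMod 3) :
    ¬ Cube (k * vv a) := by
  rintro ⟨m, hm⟩
  have h0 : m ≠ 0 := by
    rintro rfl
    exact mul_ne_zero hk (vv_ne_zero a) (by rw [hm]; ring)
  have h1 : (pf k).filter (fun p => ¬ 3 ∣ vp p k) = ∅ := by
    refine Finset.filter_eq_empty_iff.2 fun p hp h3 => h3 ?_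
    obtain ⟨hp1, hp2⟩ := BasicB.pf_sub hp
    have h4 : vp p (vv a) = 0 := by
      by_contra h5
      have := (BasicB.mem_pf_iff (vv_ne_zero a) hp1 hp2).2 h5
      rw [pf_vv] at this
      exact Finset.notMem_empty _ this
    have h5 := vp_mul hp1 hk (vv_ne_zero a)
    rw [hm, vp_pow hp1 h0, h4, add_zero] at h5
    exact ⟨_, h5.symm⟩
  rw [cnd, h1, Finset.prod_empty] at h
  exact lt_irrefl _ h

theorem cnd_pair {h₁ h₂ : O} (a₁ : PS h₁) (a₂ : PS h₂) (h : IsCoprime h₁ h₂) :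
    cnd (h₁ * h₂ ^ 2) = nr h₁ * nr h₂ := by
  have n₁ := a₁.1.ne_zero
  have n₂ := a₂.1.ne_zero
  have hd := disjoint_pf h
  have h1 : (pf (h₁ * h₂ ^ 2)).filter (fun p => ¬ 3 ∣ vp p (h₁ * h₂ ^ 2)) = pf (h₁ * h₂ ^ 2) := by
    refine Finset.filter_true_of_mem fun p hp => ?_
    obtain ⟨hp1, hp2⟩ := BasicB.pf_sub hp
    have b1 := BasicB.vp_le_one a₁.2 hp1
    have b2 := BasicB.vp_le_one a₂.2 hp1
    have b3 := BasicB.vp_ne_zero hp
    have b4 : ¬ (vp p h₁ ≠ 0 ∧ vp p h₂ ≠ 0) := fun b => Finset.disjoint_left.1 hd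
      ((BasicB.mem_pf_iff n₁ hp1 hp2).2 b.1) ((BasicB.mem_pf_iff n₂ hp1 hp2).2 b.2)
    rw [vp_mul hp1 n₁ (pow_ne_zero _ n₂), vp_pow hp1 n₂] at b3 ⊢
    omega
  rw [cnd, h1, pf_mul n₁ (pow_ne_zero _ n₂), pf_pow two_ne_zero, Finset.prod_union hd,
    ← LSRows_nr_prod, ← LSRows_nr_prod]
  exact congrArg₂ (· * ·) (congrArg nr (a₁.1.eq_rad a₁.2)) (congrArg nr (a₂.1.eq_rad a₂.2))

theorem cnd_mul_le {k c : O} (hk : k ≠ 0) (hc : c ≠ 0) : cnd (k * c) ≤ nr k * nr (rad c) := by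
  have hr := (primary_rad c).ne_zero
  have h1 : ∏ p ∈ (pf (k * c)).filter (fun p => ¬ 3 ∣ vp p (k * c)), p ∣ k * rad c := by
    refine BasicB.prod_dvd_of_subset (mul_ne_zero hk hr) ((Finset.filter_subset _ _).trans ?_)
    rw [pf_mul hk hc, pf_mul hk hr, pf_rad]
  rw [cnd, ← LSRows_nr_prod, ← nr_mul]
  exact Nat.cast_le.2 (nm_le_of_dvd h1 (mul_ne_zero hk hr))

/-- The supplements separate the primary classes modulo `9`. -/
theorem nine_dvd_of_cub {n : O} (hn : Primary n) (h₁ : cub n om = 1) (h₂ : cub n lam = 1) :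
    (9 : O) ∣ n - 1 := by
  obtain ⟨k, hk, e⟩ := RecipA.cub_om hn
  obtain ⟨k, rfl⟩ : 3 ∣ k := ThCtA_three_dvd RecipA.omC_cube ThCtA_omC_ne (e.symm.trans h₁)
  obtain ⟨c, hc⟩ := hn
  rw [show (3 : O) = ⟨3, 0⟩ from rfl, show (1 : O) = ⟨1, 0⟩ from rfl] at hc
  have hre : n.re = 1 + 3 * c.re := by
    have := congrArg QuadraticAlgebra.re hc
    simp at this
    linarith
  have him : n.im = 3 * c.im := by
    have := congrArg QuadraticAlgebra.im hc
    simp at this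
    linarith
  have h4 := nm_cast n
  rw [hre, him, hk] at h4
  push_cast at h4
  obtain ⟨t, ht⟩ : ∃ t : ℤ, 3 * c.im = 3 * (2 * c.re + 3 * t) :=
    ⟨c.re ^ 2 - c.re * c.im + c.im ^ 2 - k, by linear_combination h4⟩
  have key : ∀ r s : ℤ, c.re = 3 * s + r → (9 : O) ∣ n - ⟨1 + 3 * r, 6 * r⟩ := fun r s h =>
    ⟨⟨s, 2 * s + t⟩, by
      rw [show (9 : O) = ⟨9, 0⟩ from rfl]
      ext <;> simp <;> omega⟩
  have h5 : c.re % 3 = 0 ∨ c.re % 3 = 1 ∨ c.re % 3 = 2 := by omega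
  rcases h5 with h | h | h
  · exact key 0 (c.re / 3) (by omega)
  · exact absurd h₂ (KubC2.cub_lam_ne (key 1 (c.re / 3) (by omega)))
  · exact absurd h₂ (KubC2.cub_lam_ne' (key (-1) (c.re / 3 + 1) (by omega)))

open Classical in
theorem M4Chr_sum {s : ℂ} (hs : s ^ 3 = 1) :
    ∑ i : ZMod 3, s ^ i.val = if s = 1 then 3 else 0 := by
  have h1 : ∑ i : ZMod 3, s ^ i.val = s ^ 0 + s ^ 1 + s ^ 2 :=
    Fin.sum_univ_three (fun i : Fin 3 => s ^ i.val)
  rw [h1]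
  by_cases h : s = 1
  · rw [if_pos h, h]
    norm_num
  · rw [if_neg h]
    refine mul_left_cancel₀ (sub_ne_zero.2 h) ?_
    linear_combination hs

open Classical in
/-- Orthogonality. -/
theorem sum_cub_vv {m n : O} (hm : Primary m) (hn : Primary n) :
    ∑ a : ZMod 3 × ZMod 3, cub m (vv a) * conj (cub n (vv a)) =
      if (9 : O) ∣ n - m then 9 else 0 := by
  have hx : Primary (m * n ^ 2) := hm.mul (hn.pow 2)
  have h1 : ∀ v, cub m v * conj (cub n v) = cub (m * n ^ 2) v := fun v => by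
    rw [conj_cub, cub_mul_left hm.ne_zero (hn.pow 2).ne_zero, cub_pow_left hn.ne_zero]
  have h2 : (9 : O) ∣ n - m ↔ (9 : O) ∣ m * n ^ 2 - 1 := by
    obtain ⟨w, hw⟩ := hn.nine_dvd_cube
    constructor
    · rintro ⟨u, hu⟩
      exact ⟨w - n ^ 2 * u, by linear_combination hw - n ^ 2 * hu⟩
    · rintro ⟨u, hu⟩
      exact ⟨m * w - n * u, by linear_combination m * hw - n * hu⟩
  simp only [h1, h2]
  generalize m * n ^ 2 = x at hx
  have hs : cub x om ^ 3 = 1 := by rw [← cub_pow_right, om_cube, cub_one_right]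
  have ht : cub x lam ^ 3 = 1 :=
    cub_pow_three hx (prime_lam.coprime_iff_not_dvd.2 hx.not_lam_dvd).symm
  simp only [vv, cub_mul_right, cub_pow_right]
  rw [Fintype.sum_prod_type' (fun i j : ZMod 3 => cub x om ^ i.val * cub x lam ^ j.val),
    ← Finset.sum_mul_sum, M4Chr_sum hs, M4Chr_sum ht]
  by_cases h : (9 : O) ∣ x - 1
  · rw [if_pos h, if_pos ((cub_om_congr hx primary_one h).trans (cub_one_left _)),
      if_pos ((cub_lam_congr hx primary_one h).trans (cub_one_left _))]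
    norm_num
  · rw [if_neg h]
    by_cases a₁ : cub x om = 1
    · rw [if_neg fun a₂ => h (nine_dvd_of_cub hx a₁ a₂), mul_zero]
    · rw [if_neg a₁, zero_mul]

/-- Expansion of a function modulo `9` on the primary elements. -/
theorem expand9 {Ψ : O → ℂ} {F : ℝ} (hΨ : ∀ x y, (9 : O) ∣ x - y → Ψ x = Ψ y)
    (hF : ∀ x, ‖Ψ x‖ ≤ F) : ∃ c : ZMod 3 × ZMod 3 → ℂ, (∀ a, ‖c a‖ ≤ 9 * F) ∧
      ∀ n, Primary n → Ψ n = ∑ a, c a * conj (cub n (vv a)) := by
  classical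
  obtain ⟨R, hR, hd⟩ : ∃ R : Finset O, R.card = 81 ∧
      ∀ n, ∑ x ∈ R, (if (9 : O) ∣ n - x then Ψ x else 0) = Ψ n := by
    refine ⟨res 9, (card_res ThCtA_nine_ne).trans ?_, fun n => ?_⟩
    · simpa using nm_natCast 9
    · convert Gauss_delta ThCtA_nine_ne hΨ n
  have hF0 : 0 ≤ F := (norm_nonneg _).trans (hF 0)
  refine ⟨fun a => (1 / 9) * ∑ m ∈ R, if Primary m then Ψ m * cub m (vv a) else 0,
    fun a => ?_, fun n hn => ?_⟩
  · have h1 : ‖∑ m ∈ R, if Primary m then Ψ m * cub m (vv a) else 0‖ ≤ 81 * F := by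
      refine (norm_sum_le _ _).trans ((Finset.sum_le_card_nsmul _ _ F fun m _ => ?_).trans ?_)
      · split_ifs
        · rw [norm_mul]
          exact (mul_le_of_le_one_right (norm_nonneg _) (norm_cub_le _ _)).trans (hF m)
        · rwa [norm_zero]
      · rw [hR, nsmul_eq_mul]
        norm_num
    rw [norm_mul, show ‖(1 / 9 : ℂ)‖ = 1 / 9 by norm_num]
    linarith
  · simp only [mul_assoc, Finset.sum_mul]
    rw [← Finset.mul_sum, Finset.sum_comm, Finset.mul_sum, ← hd n]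
    refine Finset.sum_congr rfl fun m _ => ?_
    by_cases hm : Primary m
    · simp only [if_pos hm, mul_assoc]
      rw [← Finset.mul_sum, sum_cub_vv hm hn]
      split_ifs <;> ring
    · simp only [if_neg hm, zero_mul, Finset.sum_const_zero, mul_zero]
      refine if_neg fun h => hm ?_
      obtain ⟨u, hu⟩ := h
      obtain ⟨w, hw⟩ := hn
      exact ⟨w - 3 * u, by linear_combination hw - hu⟩

end Crest.Agent.R12
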