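import Crest.Agent.R12.DspG0
import Crest.Agent.R12.M4Chr

/-!
# Row 12, analytic half: the non-cube rows for rough coefficients
-/

set_option autoImplicit false

noncomputable section

namespace Crest.Agent.R12

open Crest.Agent.R17
open scoped ComplexConjugate Topology
open Filter MeasureTheory

theorem DspG1_dec {k : O} {Z M : ℝ} (hk : k ≠ 0) (hM : nr k ≤ M) (hZ : cnd k ≤ Z) :
    ∃ κ c : O, κ ≠ 0 ∧ c ≠ 0 ∧ k = κ * c ^ 3 ∧ nr κ ≤ 9 * Z ^ 2 ∧ nr c ≤ M ^ (1 / 3 : ℝ) ∧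
      nr c ≤ M := by
  obtain ⟨a, c, h₁, h₂, hc, a₁, a₂, -, e, e'⟩ := row_decomp' hk
  have h0 : h₁ * h₂ ^ 2 * vv a ≠ 0 :=
    mul_ne_zero (mul_ne_zero a₁.ne_zero (pow_ne_zero _ a₂.ne_zero)) (vv_ne_zero a)
  have b₁ := a₁.one_le
  have b₂ := a₂.one_le
  have bc := one_le_nr hc
  have h3 : nr c ^ 3 ≤ M := by
    refine le_trans ?_ hM
    rw [e, nr_mul, nr_pow]
    exact le_mul_of_one_le_left (by positivity) (one_le_nr h0)
  refine ⟨_, c, h0, hc, e, ?_, ?_, (le_self_pow₀ bc (by norm_num)).trans h3⟩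
  · rw [nr_mul, nr_mul, nr_pow]
    rw [e'] at hZ
    calc nr h₁ * nr h₂ ^ 2 * nr (vv a) ≤ nr h₁ ^ 2 * nr h₂ ^ 2 * 9 := by
          gcongr
          · exact le_self_pow₀ b₁ (by norm_num)
          · exact nr_vv_le a
      _ = 9 * (nr h₁ * nr h₂) ^ 2 := by ring
      _ ≤ 9 * Z ^ 2 := by gcongr
  · rw [one_div]
    refine (Real.le_rpow_inv_iff_of_pos (by positivity) (le_trans (by positivity) h3)
      (by norm_num)).2 ?_
    exact_mod_cast h3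

theorem DspG1_card {K : Finset O} {Z M : ℝ} (hM : 0 ≤ M)
    (hK : ∀ k ∈ K, k ≠ 0 ∧ nr k ≤ M ∧ cnd k ≤ Z) :
    (K.card : ℝ) ≤ 441 * Z ^ 2 * M ^ (1 / 3 : ℝ) := by
  classical
  set A := (ball ⌊9 * Z ^ 2⌋₊).erase 0
  set A' := (ball ⌊M ^ (1 / 3 : ℝ)⌋₊).erase 0
  have h1 : K ⊆ (A ×ˢ A').image fun x => x.1 * x.2 ^ 3 := fun k hk => by
    obtain ⟨κ, c, a, b, e, f, g, -⟩ := DspG1_dec (hK k hk).1 (hK k hk).2.1 (hK k hk).2.2
    exact Finset.mem_image.2 ⟨(κ, c), Finset.mem_product.2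
      ⟨CountAux.mem_erase_ball.2 ⟨a, Nat.le_floor f⟩,
        CountAux.mem_erase_ball.2 ⟨b, Nat.le_floor g⟩⟩, e.symm⟩
  have h2 : (K.card : ℝ) ≤ A.card * A'.card := by
    exact_mod_cast ((Finset.card_le_card h1).trans Finset.card_image_le).trans
      (Finset.card_product _ _).le
  have h3 : (A.card : ℝ) ≤ 7 * (9 * Z ^ 2) :=
    (CountAux.card_erase_le _).trans (by gcongr; exact Nat.floor_le (by positivity))
  have h4 : (A'.card : ℝ) ≤ 7 * M ^ (1 / 3 : ℝ) :=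
    (CountAux.card_erase_le _).trans (by gcongr; exact Nat.floor_le (by positivity))
  calc (K.card : ℝ) ≤ 7 * (9 * Z ^ 2) * (7 * M ^ (1 / 3 : ℝ)) := h2.trans (by gcongr)
    _ = _ := by ring

open Classical in
theorem DspG1_one (l : ℤ) {B : ℝ} (hB : 0 < B) (t : ℝ) {s : ℂ} (hs : s.re ≤ 1) (β : O → ℂ)
    (κ c : O) : ‖cl (dy B) (tw l t β) 1 (κ * c ^ 3) B s‖ ≤
      ‖∑ b ∈ dy B, β b * xi l κ b * ((nr b / B : ℝ) : ℂ) ^ (s - t * Complex.I)‖ +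
        2 * ∑ b ∈ (dy B).filter (fun b => β b ≠ 0 ∧ ¬ IsCoprime b c), ‖β b‖ := by
  have e : cl (dy B) (tw l t β) 1 (κ * c ^ 3) B s = (B : ℂ) ^ (-(t * Complex.I)) *
      (∑ b ∈ dy B, β b * xi l κ b * ((nr b / B : ℝ) : ℂ) ^ (s - t * Complex.I) -
        ∑ b ∈ (dy B).filter (fun b => β b ≠ 0 ∧ ¬ IsCoprime b c),
          β b * xi l κ b * ((nr b / B : ℝ) : ℂ) ^ (s - t * Complex.I)) := by
    rw [cl, Sd, Finset.filter_true_of_mem fun b _ => one_dvd b, Finset.sum_filter,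
      ← Finset.sum_sub_distrib, Finset.mul_sum]
    refine Finset.sum_congr rfl fun b hb => ?_
    have hp := (mem_dy.1 hb).1.1
    have hN : 0 < nr b / B := div_pos (nr_pos hp.ne_zero) hB
    have e1 : (nr b : ℂ) ^ (-(t * Complex.I)) =
        (B : ℂ) ^ (-(t * Complex.I)) * ((nr b / B : ℝ) : ℂ) ^ (-(t * Complex.I)) := by
      rw [← Complex.mul_cpow_ofReal_nonneg hB.le hN.le, ← Complex.ofReal_mul,
        mul_div_cancel₀ _ hB.ne']
    rw [tw, EuclideanDomain.div_one, cub_mul_right, cub_pow_right, e1, xi_of_primary hp,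
      sub_eq_add_neg s, Complex.cpow_add _ _ (Complex.ofReal_ne_zero.2 hN.ne')]
    by_cases h0 : β b = 0
    · simp [h0]
    by_cases h1 : IsCoprime b c
    · rw [if_neg fun h => h.2 h1, cub_pow_three hp h1]; ring
    · rw [if_pos ⟨h0, h1⟩, (cub_eq_zero_iff hp).2 h1]; ring
  have hn : ‖(B : ℂ) ^ (-(t * Complex.I))‖ = 1 := by
    rw [Complex.norm_cpow_eq_rpow_re_of_pos hB]; simp
  rw [e, norm_mul, hn, one_mul, Finset.mul_sum]
  refine (norm_sub_le _ _).trans (add_le_add_right ((norm_sum_le _ _).trans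
    (Finset.sum_le_sum fun b hb => ?_)) _)
  obtain ⟨hp, b1, b2⟩ := mem_dy.1 (Finset.mem_filter.1 hb).1
  have hN : 1 ≤ nr b / B := (one_le_div hB).2 b1.le
  have h2 : ‖((nr b / B : ℝ) : ℂ) ^ (s - t * Complex.I)‖ ≤ 2 := by
    rw [Complex.norm_cpow_eq_rpow_re_of_pos (by linarith)]
    refine (Real.rpow_le_rpow_of_exponent_le hN (z := 1) (by simpa using hs)).trans ?_
    rw [Real.rpow_one, div_le_iff₀ hB]
    exact b2
  rw [norm_mul, norm_mul, mul_comm 2]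
  exact mul_le_mul (mul_le_of_le_one_right (norm_nonneg _) (norm_xi_le _ _ _)) h2 (norm_nonneg _)
    (norm_nonneg _)

theorem DspG1_arith {x Θ y n C Q : ℝ} (hx : 0 ≤ x) (h : x ≤ Θ + 2 * y) (hC : 0 ≤ C) (hQ : 0 ≤ Q)
    (hy : y ^ 2 ≤ n) (hn : n ≤ 4 * C * Q) : x ^ 2 ≤ (2 + 32 * C) * (Θ ^ 2 + Q) := by
  have h1 : x ^ 2 ≤ (Θ + 2 * y) ^ 2 := pow_le_pow_left₀ hx h 2
  nlinarith [sq_nonneg (Θ - 2 * y), mul_nonneg hC (sq_nonneg Θ)]

/-- Rows of small conductor: at most `C Z² M^{1/3} ` rows `κ₀ c³ λ^{3j}`; `(b/κ₀ c³) = (b/κ₀)` unless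
`(b, c) ≠ 1` (`card_bad_le`). -/
theorem rows_SW (l : ℤ) : ∃ C : ℝ, 0 < C ∧ ∀ (w B Z Z' Θ M t : ℝ) (s : ℂ) (K : Finset O)
    (β : O → ℂ), 1 ≤ w → 1 ≤ B → 1 ≤ Z → 9 * Z ^ 2 ≤ Z' → 1 ≤ M → |s.re| ≤ 1 →
    |s.im| + |t| ≤ Z' → (∀ b ∈ dy B, β b ≠ 0 → Rough w b) → SWb l (dy B) β B Z' Θ →
    (∀ k ∈ K, k ≠ 0 ∧ nr k ≤ M ∧ ¬ Cube k ∧ cnd k ≤ Z) →
    ∑ k ∈ K, ‖cl (dy B) (tw l t β) 1 k B s‖ ^ 2 ≤ C * Z ^ 2 * M ^ (1 / 3 : ℝ) *
      (Θ ^ 2 + B * (1 + Real.log M) / w * N2 (dy B) β) := by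
  classical
  obtain ⟨C, hC, hbad⟩ := card_bad_le
  refine ⟨441 * (2 + 32 * C), by positivity, ?_⟩
  intro w B Z Z' Θ M t s K β hw hB hZ hZ' hM hre him hR hSW hK
  have hlog := Real.log_nonneg hM
  have hN := N2_nonneg (dy B) β
  have hQ : 0 ≤ B * (1 + Real.log M) / w * N2 (dy B) β := by positivity
  have key : ∀ k ∈ K, ‖cl (dy B) (tw l t β) 1 k B s‖ ^ 2 ≤
      (2 + 32 * C) * (Θ ^ 2 + B * (1 + Real.log M) / w * N2 (dy B) β) := by
    intro k hk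
    obtain ⟨k0, k1, k2, k3⟩ := hK k hk
    obtain ⟨κ, c, a, b, rfl, f, -, g⟩ := DspG1_dec k0 k1 k3
    have h1 := DspG1_one l (B := B) (by linarith) t (abs_le.1 hre).2 β κ c
    have h2 := hSW κ (s - t * Complex.I) a
      (fun ⟨m, hm⟩ => k2 ⟨m * c, by rw [hm, mul_pow]⟩) (f.trans hZ') (by simpa using hre)
      (by simpa using (abs_sub _ _).trans him)
    set S := (dy B).filter fun b => β b ≠ 0 ∧ ¬ IsCoprime b c
    have h3 := hbad w (2 * B) c S hw (by linarith) b fun n hn => by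
      obtain ⟨n1, n2, n3⟩ := Finset.mem_filter.1 hn
      exact ⟨(mem_dy.1 n1).1.1, hR n n1 n2, (mem_dy.1 n1).2.2, Or.inr n3⟩
    have h4 : 1 + ((pf c).card : ℝ) ≤ 2 * (1 + Real.log M) := by
      have := card_pf_le_log b
      have := Real.log_le_log (nr_pos b) g
      linarith
    have h5 : N2 S β ≤ N2 (dy B) β :=
      Finset.sum_le_sum_of_subset_of_nonneg (Finset.filter_subset _ _) fun _ _ _ => by positivity
    refine DspG1_arith (norm_nonneg _) (h1.trans (add_le_add_left h2 _)) hC.le hQ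
      (sq_sum_norm_le S β) ?_
    calc (S.card : ℝ) * N2 S β ≤ C * (2 * B) * (2 * (1 + Real.log M)) / w * N2 (dy B) β := by
          refine mul_le_mul (h3.trans ?_) h5 (N2_nonneg _ _) (by positivity)
          gcongr
      _ = _ := by ring
  refine (Finset.sum_le_sum key).trans ?_
  rw [Finset.sum_const, nsmul_eq_mul]
  refine (mul_le_mul_of_nonneg_right (DspG1_card (Z := Z) (M := M) (by linarith) fun k hk =>
    ⟨(hK k hk).1, (hK k hk).2.1, (hK k hk).2.2.2⟩) (by positivity)).trans_eq (by ring)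

end Crest.Agent.R12
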