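import Crest.Agent.R12.WinE0

/-!
# Row 12, analytic half: the bilinear estimate for thin weights
-/

set_option autoImplicit false

noncomputable section

namespace Crest.Agent.R12

open Crest.Agent.R17
open scoped ComplexConjugate Topology
open Filter MeasureTheory

theorem WinE_cP : 0 < cP := by
  have := Real.Gamma_pos_of_pos (show (0 : ℝ) < 2 / 3 by norm_num)
  unfold cP
  positivity

/-- The index of the window containing `a`. -/
def WinE_ix (T A : ℝ) (a : O) : ℕ := ⌈T * Real.log (nr a / A)⌉₊ - 1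

/-- The windows. -/
def WinE_S (T A : ℝ) (i : ℕ) : Finset O := (dy A).filter fun a => WinE_ix T A a = i

theorem WinE_spec {T A : ℝ} (hT : 1 ≤ T) (hA : 0 < A) {i : ℕ} {a : O} (h : a ∈ WinE_S T A i) :
    (i : ℝ) < T * Real.log (nr a / A) ∧ T * Real.log (nr a / A) ≤ i + 1 := by
  obtain ⟨h1, h2⟩ := Finset.mem_filter.1 h
  have h3 : 0 < T * Real.log (nr a / A) :=
    mul_pos (by linarith) (Real.log_pos ((one_lt_div hA).2 (mem_dy.1 h1).2.1))
  have h4 := Nat.ceil_pos.2 h3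
  have h5 : ⌈T * Real.log (nr a / A)⌉₊ = i + 1 := by unfold WinE_ix at h2; omega
  have := (Nat.ceil_eq_iff (by omega)).1 h5
  exact ⟨by simpa using this.1, by exact_mod_cast this.2⟩

theorem WinE_lt {T A : ℝ} (hT : 1 ≤ T) (hA : 0 < A) {a : O} (h : a ∈ dy A) :
    WinE_ix T A a ∈ Finset.range ⌈T * Real.log 2⌉₊ := by
  have h1 := WinE_spec hT hA (i := WinE_ix T A a) (Finset.mem_filter.2 ⟨h, rfl⟩)
  have h2 := mem_dy.1 h
  refine Finset.mem_range.2 (Nat.lt_ceil.2 (h1.1.trans_le ?_))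
  have := nr_pos h2.1.ne_zero
  gcongr
  rw [div_le_iff₀ hA]
  exact h2.2.2

theorem WinE_win {T A : ℝ} (hT : 1 ≤ T) (hA : 0 < A) {i : ℕ} {a : O} (h : a ∈ WinE_S T A i) :
    PS a ∧ A * Real.exp (i / T) < nr a ∧ nr a ≤ A * Real.exp (i / T) * Real.exp (1 / T) := by
  obtain ⟨h1, h2⟩ := WinE_spec hT hA h
  have h3 := (mem_dy.1 (Finset.mem_filter.1 h).1).1
  have h4 : 0 < nr a / A := div_pos (nr_pos h3.ne_zero) hA
  have T0 : 0 < T := by linarith
  refine ⟨h3, ?_, ?_⟩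
  · rw [mul_comm, ← lt_div_iff₀ hA, ← Real.lt_log_iff_exp_lt h4, div_lt_iff₀' T0]
    exact h1
  · rw [mul_assoc, ← Real.exp_add, ← div_le_iff₀' hA, ← Real.log_le_iff_le_exp h4, ← add_div,
      le_div_iff₀' T0]
    exact h2

theorem WinE_le {T A : ℝ} (hT : 1 ≤ T) (hA : 0 < A) {i : ℕ}
    (h : i ∈ Finset.range ⌈T * Real.log 2⌉₊) :
    A ≤ A * Real.exp (i / T) ∧ A * Real.exp (i / T) ≤ 2 * A := by
  have T0 : 0 < T := by linarith
  refine ⟨le_mul_of_one_le_right hA.le (Real.one_le_exp (by positivity)), ?_⟩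
  rw [mul_comm 2]
  gcongr
  rw [← Real.le_log_iff_exp_le two_pos, div_le_iff₀' T0]
  exact (Nat.lt_ceil.1 (Finset.mem_range.1 h)).le

theorem WinE_sum {M : Type*} [AddCommMonoid M] {T A : ℝ} (hT : 1 ≤ T) (hA : 0 < A) (f : O → M) :
    ∑ i ∈ Finset.range ⌈T * Real.log 2⌉₊, ∑ a ∈ WinE_S T A i, f a = ∑ a ∈ dy A, f a :=
  Finset.sum_fiberwise_of_maps_to (fun _ h => WinE_lt hT hA h) f

theorem WinE_rpow {x y c r : ℝ} (hx : 0 ≤ x) (hy : 0 ≤ y) (hc : 1 ≤ c) (h : x ≤ c * y) (h0 : 0 ≤ r)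
    (h1 : r ≤ 1) : x ^ r ≤ c * y ^ r := by
  refine (Real.rpow_le_rpow hx h h0).trans ?_
  rw [Real.mul_rpow (by linarith) hy]
  gcongr
  conv_rhs => rw [← Real.rpow_one c]
  exact Real.rpow_le_rpow_of_exponent_le hc h1

/-- Pairs of windows far from the diagonal. -/
theorem WinE_far (l : ℤ) {X A B T T₁ : ℝ} {v : ℝ → ℂ} {Φ : ℂ → ℂ} (α β : O → ℂ) (hX : 0 < X)
    (hv : Adm v Φ T T₁) (hA : 0 < A) (hB : 0 < B) {i j : ℕ}
    (h : Real.log X + 1 ≤ |(i : ℝ) + j - (T₁ * Real.log (X / (A * B)) - 1)|) :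
    ‖Bil l v X (WinE_S T₁ A i) (WinE_S T₁ B j) α β‖ ≤
      (1 + cP) * X⁻¹ * ((∑ a ∈ WinE_S T₁ A i, ‖α a‖) * ∑ b ∈ WinE_S T₁ B j, ‖β b‖) := by
  have hT := hv.one_le
  have hc := WinE_cP
  rw [Finset.sum_mul_sum, Finset.mul_sum]
  refine (norm_sum_le _ _).trans (Finset.sum_le_sum fun a ha => ?_)
  rw [Finset.mul_sum]
  refine (norm_sum_le _ _).trans (Finset.sum_le_sum fun b hb => ?_)
  obtain ⟨a1, a2⟩ := WinE_spec hT hA ha
  obtain ⟨b1, b2⟩ := WinE_spec hT hB hb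
  have a0 := nr_pos (WinE_win hT hA ha).1.ne_zero
  have b0 := nr_pos (WinE_win hT hB hb).1.ne_zero
  have e : Real.log (nr (a * b) / X) =
      Real.log (nr a / A) + Real.log (nr b / B) - Real.log (X / (A * B)) := by
    rw [nr_mul, ← Real.log_mul (by positivity) (by positivity),
      ← Real.log_div (by positivity) (by positivity)]
    congr 1
    field_simp
  have h1 : Real.log X ≤ T₁ * |Real.log (nr (a * b) / X)| := by
    rw [← abs_of_nonneg (show 0 ≤ T₁ by linarith), ← abs_mul, e, mul_sub, mul_add, le_abs]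
    rw [le_abs] at h
    rcases h with h | h
    · left; linarith
    · right; linarith
  have h2 : ‖v (nr (a * b) / X)‖ ≤ X⁻¹ := by
    refine (hv.sp _ (by rw [nr_mul]; positivity)).trans ?_
    rw [← Real.exp_log hX, ← Real.exp_neg, Real.exp_log hX]
    refine Real.exp_le_exp.2 ?_
    linarith [abs_nonneg (Real.log (nr (a * b) / X))]
  rw [norm_mul, norm_mul, norm_mul, mul_comm]
  gcongr
  exact norm_ff_le l _

/-- **Proposition W.**  Windows `A e^{i/T₁} < N a ≤ A e^{(i+1)/T₁}`, the same for `b`; pairs of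
windows with `|i + j + 1 - T₁ log (X / AB)| > 20 log X + 1` contribute `O(X^{-19})` (`Adm.sp`), the
others are summed with `band_le`. -/
theorem propW (l : ℤ) {ε : ℝ} (hε : 0 < ε) : ∃ C : ℝ, 0 < C ∧
    ∀ (X A B T T₁ : ℝ) (v : ℝ → ℂ) (Φ : ℂ → ℂ) (α β : O → ℂ), 3 ≤ X → Adm v Φ T T₁ → T ≤ X →
    1 ≤ B → B ≤ A → A * B ≤ 2 * X → T₁ ^ 2 ≤ B →
    ‖Bil l v X (dy A) (dy B) α β‖ ≤ C * Real.sqrt (N2 (dy A) α) * Real.sqrt (NW 8 (dy B) β) *
      (Real.log X ^ 5 * ((A / T₁) ^ (1 / 2 : ℝ) + (A * B) ^ (1 / 3 : ℝ) * T₁ ^ (-(1 / 3 : ℝ))) +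
        X ^ ε * (B ^ (1 / 2 : ℝ) * T₁ ^ (1 / 4 : ℝ) +
          A ^ (1 / 6 : ℝ) * B ^ (1 / 2 : ℝ) * T₁ ^ (-(1 / 12 : ℝ)))) := by
  obtain ⟨C, hC, h⟩ := bil_window l (half_pos hε)
  have hc := WinE_cP
  refine ⟨28 * C * (1 + 2 / ε) + 14 * (1 + cP), by positivity,
    fun X A B T T₁ v Φ α β hX hv hT hB hBA hAB hTB => ?_⟩
  have T1 := hv.one_le
  have T0 : 0 < T₁ := by linarith
  have X0 : 0 < X := by linarith
  have B0 : 0 < B := by linarith
  have A0 : 0 < A := by linarith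
  have AX : A ≤ 2 * X := (le_mul_of_one_le_right A0.le hB).trans hAB
  have L1 : 1 ≤ Real.log X := by
    rw [Real.le_log_iff_exp_le X0]
    linarith [Real.exp_one_lt_d9]
  have LX : Real.log X ≤ X ^ (ε / 2) / (ε / 2) := Real.log_le_rpow_div X0.le (half_pos hε)
  set L := Real.log X
  set U := (A / T₁) ^ (1 / 2 : ℝ) + (A * B) ^ (1 / 3 : ℝ) * T₁ ^ (-(1 / 3 : ℝ)) with hU
  set V := B ^ (1 / 2 : ℝ) * T₁ ^ (1 / 4 : ℝ) +
    A ^ (1 / 6 : ℝ) * B ^ (1 / 2 : ℝ) * T₁ ^ (-(1 / 12 : ℝ)) with hV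
  have U0 : 0 ≤ U := by positivity
  have V1 : 1 ≤ V := le_add_of_le_of_nonneg (one_le_mul_of_one_le_of_one_le
    (Real.one_le_rpow hB (by norm_num)) (Real.one_le_rpow T1 (by norm_num))) (by positivity)
  set R := Finset.range ⌈T₁ * Real.log 2⌉₊ with hR
  set x₀ := T₁ * Real.log (X / (A * B)) - 1 with hx₀
  set p : ℕ → ℝ := fun i => Real.sqrt (N2 (WinE_S T₁ A i) α) with hp
  set q : ℕ → ℝ := fun j => Real.sqrt (NW 8 (WinE_S T₁ B j) β) with hq
  have n0 : ∀ S γ, 0 ≤ N2 S γ := fun S γ => Finset.sum_nonneg fun _ _ => by positivity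
  have hb := band_le ⌈T₁ * Real.log 2⌉₊ (⌈L⌉₊ + 1) x₀ p q
  have e1 : ∑ i ∈ R, p i ^ 2 = N2 (dy A) α := by
    simp only [hp, Real.sq_sqrt (n0 _ _)]
    exact WinE_sum T1 A0 _
  have e2 : ∑ j ∈ R, q j ^ 2 = NW 8 (dy B) β := by
    simp only [hq, Real.sq_sqrt (NW_nonneg (by norm_num : (0 : ℝ) ≤ 8) _ _)]
    exact WinE_sum T1 B0 _
  rw [← hR, e1, e2] at hb
  have key : ∀ i ∈ R, ∀ j ∈ R, ‖Bil l v X (WinE_S T₁ A i) (WinE_S T₁ B j) α β‖ ≤
      (4 * C * (L ^ 3 * U + X ^ (ε / 2) * V) *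
        if |(i : ℝ) + j - x₀| ≤ (⌈L⌉₊ + 1 : ℕ) then |p i| * |q j| else 0) +
      (1 + cP) * X⁻¹ * ((∑ a ∈ WinE_S T₁ A i, ‖α a‖) * ∑ b ∈ WinE_S T₁ B j, ‖β b‖) := by
    intro i hi j hj
    split_ifs with c
    · obtain ⟨a1, a2⟩ := WinE_le T1 A0 hi
      obtain ⟨b1, b2⟩ := WinE_le T1 B0 hj
      refine le_add_of_le_of_nonneg ((h X _ _ T T₁ v Φ _ _ α β hX hv hT (by linarith) (by linarith)
        (by linarith) (by linarith) (by linarith) (by linarith) (fun _ => WinE_win T1 A0)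
        fun _ => WinE_win T1 B0).trans ?_) (by positivity)
      set A' := A * Real.exp (i / T₁)
      set B' := B * Real.exp (j / T₁)
      have A'0 : 0 ≤ A' := by linarith
      have B'0 : 0 ≤ B' := by linarith
      have r1 : (A' / T₁) ^ (1 / 2 : ℝ) ≤ 4 * (A / T₁) ^ (1 / 2 : ℝ) :=
        WinE_rpow (by positivity) (by positivity) (by norm_num)
          (by rw [← mul_div_assoc]; gcongr; linarith) (by norm_num) (by norm_num)
      have r2 : (A' * B') ^ (1 / 3 : ℝ) ≤ 4 * (A * B) ^ (1 / 3 : ℝ) :=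
        WinE_rpow (by positivity) (by positivity) (by norm_num)
          ((mul_le_mul a2 b2 B'0 (by positivity)).trans_eq (by ring)) (by norm_num) (by norm_num)
      have r3 : A' ^ (1 / 6 : ℝ) ≤ 2 * A ^ (1 / 6 : ℝ) :=
        WinE_rpow A'0 A0.le (by norm_num) a2 (by norm_num) (by norm_num)
      have r4 : B' ^ (1 / 2 : ℝ) ≤ 2 * B ^ (1 / 2 : ℝ) :=
        WinE_rpow B'0 B0.le (by norm_num) b2 (by norm_num) (by norm_num)
      have r5 : B' ^ (1 / 2 : ℝ) ≤ 4 * B ^ (1 / 2 : ℝ) :=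
        WinE_rpow B'0 B0.le (by norm_num) (by linarith) (by norm_num) (by norm_num)
      rw [abs_of_nonneg (Real.sqrt_nonneg _), abs_of_nonneg (Real.sqrt_nonneg _)]
      calc _ ≤ C * p i * q j * (L ^ 3 * (4 * (A / T₁) ^ (1 / 2 : ℝ) +
            4 * (A * B) ^ (1 / 3 : ℝ) * T₁ ^ (-(1 / 3 : ℝ))) +
          X ^ (ε / 2) * (4 * B ^ (1 / 2 : ℝ) * T₁ ^ (1 / 4 : ℝ) +
            2 * A ^ (1 / 6 : ℝ) * (2 * B ^ (1 / 2 : ℝ)) * T₁ ^ (-(1 / 12 : ℝ)))) := by gcongr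
        _ = _ := by rw [hU, hV]; ring
    · rw [mul_zero, zero_add]
      refine WinE_far l α β X0 hv A0 B0 (le_trans ?_ (not_le.1 c).le)
      push_cast
      linarith [Nat.le_ceil L]
  have e3 : Bil l v X (dy A) (dy B) α β =
      ∑ i ∈ R, ∑ j ∈ R, Bil l v X (WinE_S T₁ A i) (WinE_S T₁ B j) α β := by
    rw [Bil, ← WinE_sum T1 A0]
    refine Finset.sum_congr rfl fun i _ => ?_
    simp only [Bil]
    rw [Finset.sum_comm (s := R)]
    exact Finset.sum_congr rfl fun a _ => (WinE_sum T1 B0 _).symm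
  have s1 : ∑ a ∈ dy A, ‖α a‖ ≤ Real.sqrt (14 * A) * Real.sqrt (N2 (dy A) α) := by
    rw [← Real.sqrt_mul (by positivity)]
    refine Real.le_sqrt_of_sq_le ((sq_sum_norm_le _ _).trans ?_)
    exact mul_le_mul_of_nonneg_right (card_dy_le A0.le) (n0 _ _)
  have s2 : ∑ b ∈ dy B, ‖β b‖ ≤ Real.sqrt (14 * B) * Real.sqrt (NW 8 (dy B) β) := by
    rw [← Real.sqrt_mul (by positivity)]
    refine Real.le_sqrt_of_sq_le ((sq_sum_norm_le _ _).trans ?_)
    exact mul_le_mul (card_dy_le B0.le) (N2_le_NW (by norm_num) _ _) (n0 _ _) (by positivity)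
  have s3 : Real.sqrt (14 * A) * Real.sqrt (14 * B) ≤ 14 * X := by
    rw [← Real.sqrt_mul (by positivity)]
    exact Real.sqrt_le_iff.2 ⟨by positivity, by nlinarith⟩
  set P := Real.sqrt (N2 (dy A) α)
  set Q := Real.sqrt (NW 8 (dy B) β)
  have P0 : 0 ≤ P := Real.sqrt_nonneg _
  have Q0 : 0 ≤ Q := Real.sqrt_nonneg _
  have m1 : 2 * ((⌈L⌉₊ + 1 : ℕ) : ℝ) + 1 ≤ 7 * L := by
    push_cast
    linarith [Nat.ceil_lt_add_one (show 0 ≤ L by linarith)]
  have E1 : 1 ≤ X ^ ε := Real.one_le_rpow (by linarith) hε.le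
  have W1 : 1 ≤ L ^ 5 * U + X ^ ε * V :=
    le_add_of_nonneg_of_le (by positivity) (one_le_mul_of_one_le_of_one_le E1 V1)
  have W2 : L * (L ^ 3 * U + X ^ (ε / 2) * V) ≤ (1 + 2 / ε) * (L ^ 5 * U + X ^ ε * V) := by
    have x0 : 0 ≤ 2 / ε := by positivity
    calc _ = 1 * (L ^ 4 * U) + L * X ^ (ε / 2) * V := by ring
      _ ≤ (1 + 2 / ε) * (L ^ 5 * U) + X ^ (ε / 2) / (ε / 2) * X ^ (ε / 2) * V := by
          gcongr
          · linarith
          · norm_num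
      _ = (1 + 2 / ε) * (L ^ 5 * U) + 2 / ε * (X ^ (ε / 2) * X ^ (ε / 2) * V) := by
          field_simp
      _ ≤ (1 + 2 / ε) * (L ^ 5 * U) + (1 + 2 / ε) * (X ^ ε * V) := by
          rw [← Real.rpow_add X0, add_halves]
          gcongr
          linarith
      _ = _ := by ring
  rw [e3]
  clear_value U V P Q p q x₀ L
  calc _ ≤ _ := (norm_sum_le _ _).trans (Finset.sum_le_sum fun i hi =>
        (norm_sum_le _ _).trans (Finset.sum_le_sum (key i hi)))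
    _ = 4 * C * (L ^ 3 * U + X ^ (ε / 2) * V) * (∑ i ∈ R, ∑ j ∈ R.filter
          (fun j : ℕ => |(i : ℝ) + j - x₀| ≤ (⌈L⌉₊ + 1 : ℕ)), |p i| * |q j|) +
        (1 + cP) * X⁻¹ * ((∑ a ∈ dy A, ‖α a‖) * ∑ b ∈ dy B, ‖β b‖) := by
        rw [← WinE_sum T1 A0, ← WinE_sum T1 B0, Finset.sum_mul_sum]
        simp only [Finset.sum_filter]
        simp only [Finset.sum_add_distrib, ← Finset.mul_sum, hR]
    _ ≤ 4 * C * (L ^ 3 * U + X ^ (ε / 2) * V) * (7 * L * P * Q) +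
        (1 + cP) * X⁻¹ * (14 * X * (P * Q)) := by
        gcongr _ * ?_ + _ * ?_
        · exact hb.trans (by gcongr)
        · calc _ ≤ Real.sqrt (14 * A) * P * (Real.sqrt (14 * B) * Q) := by gcongr
            _ = Real.sqrt (14 * A) * Real.sqrt (14 * B) * (P * Q) := by ring
            _ ≤ _ := by gcongr
    _ = 28 * C * P * Q * (L * (L ^ 3 * U + X ^ (ε / 2) * V)) + 14 * (1 + cP) * P * Q * 1 := by
        field_simp
        ring
    _ ≤ 28 * C * P * Q * ((1 + 2 / ε) * (L ^ 5 * U + X ^ ε * V)) +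
        14 * (1 + cP) * P * Q * (L ^ 5 * U + X ^ ε * V) := by gcongr
    _ = _ := by ring

end Crest.Agent.R12
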