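import Crest.Agent.R12.DspE
import Crest.Agent.R12.DspG
import Crest.Agent.R12.WinE

/-!
# Row 12, analytic half: the bilinear estimates of type II
-/

set_option autoImplicit false

noncomputable section

namespace Crest.Agent.R12

open Crest.Agent.R17
open scoped ComplexConjugate Topology
open Filter MeasureTheory

open Classical in
/-- `ff_mul`, `Adm.sum_le`, Cauchy–Schwarz in `a`. -/
theorem bil_le_of_EE (l : ℤ) (J : ℕ) : ∃ C : ℝ, 0 < C ∧ ∀ (X T T₁ E₁ E₃ U : ℝ) (v : ℝ → ℂ)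
    (Φ : ℂ → ℂ) (Sa Sb : Finset O) (α β : O → ℂ), 0 < X → Adm v Φ T T₁ → (∀ a ∈ Sa, PS a) →
    (∀ b ∈ Sb, PS b) → 0 ≤ E₁ → 0 ≤ E₃ → 0 ≤ U →
    (∀ t : ℝ, Real.sqrt (∑ a ∈ Sa, ‖EE Sb (tw l t β) a‖ ^ 2) ≤
      E₁ * (1 + |t|) ^ J + if U ≤ |t| then E₃ else 0) →
    ‖Bil l v X Sa Sb α β‖ ≤ C * Real.sqrt (N2 Sa α) *
      (E₁ * Real.log (2 + T) * T ^ J + E₃ * T * Real.exp (-U / T)) := by
  obtain ⟨C, hC, H⟩ := Adm.sum_le J
  refine ⟨C, hC, fun X T T₁ E₁ E₃ U v Φ Sa Sb α β hX hA ha hb h1 h3 hU hE => ?_⟩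
  have hN : 0 ≤ Real.sqrt (N2 Sa α) := Real.sqrt_nonneg _
  have key := H v Φ T T₁ (O × O) (Sa ×ˢ Sb) (fun p => α p.1 * β p.2 * ff l (p.1 * p.2))
    (fun p => nr (p.1 * p.2) / X) (Real.sqrt (N2 Sa α) * E₁) (Real.sqrt (N2 Sa α) * E₃) U hA
    (fun p hp => by
      obtain ⟨h4, h5⟩ := Finset.mem_product.1 hp
      exact div_pos (nr_pos (mul_ne_zero (ha _ h4).ne_zero (hb _ h5).ne_zero)) hX)
    (by positivity) (by positivity) hU (fun t => by
      have e1 : ∑ p ∈ Sa ×ˢ Sb, α p.1 * β p.2 * ff l (p.1 * p.2) *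
          ((nr (p.1 * p.2) / X : ℝ) : ℂ) ^ (-(t * Complex.I)) =
          ∑ a ∈ Sa, α a * (arg a ^ l * Gn a * ((nr a / X : ℝ) : ℂ) ^ (-(t * Complex.I))) *
            EE Sb (tw l t β) a := by
        rw [Finset.sum_product]
        refine Finset.sum_congr rfl fun a haa => ?_
        rw [EE, Finset.mul_sum]
        refine Finset.sum_congr rfl fun b hbb => ?_
        have e2 : nr (a * b) / X = nr a / X * nr b := by
          rw [nr_mul]
          ring
        dsimp only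
        rw [ff_mul l (ha a haa) (hb b hbb), tw, e2, Complex.ofReal_mul,
          Complex.mul_cpow_ofReal_nonneg (div_pos (nr_pos (ha a haa).ne_zero) hX).le
            (nr_pos (hb b hbb).ne_zero).le]
        ring
      rw [e1]
      calc _ ≤ ∑ a ∈ Sa, ‖α a‖ * ‖EE Sb (tw l t β) a‖ := by
            refine norm_sum_le_of_le _ fun a haa => le_of_eq ?_
            rw [norm_mul, norm_mul, norm_mul, norm_mul, AFa_norm_arg_zpow l (ha a haa).ne_zero,
              norm_Gn (ha a haa).1 (ha a haa).2,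
              Complex.norm_cpow_eq_rpow_re_of_pos (div_pos (nr_pos (ha a haa).ne_zero) hX)]
            simp
        _ ≤ Real.sqrt (N2 Sa α) * Real.sqrt (∑ a ∈ Sa, ‖EE Sb (tw l t β) a‖ ^ 2) :=
            Real.sum_mul_le_sqrt_mul_sqrt _ _ _
        _ ≤ Real.sqrt (N2 Sa α) * (E₁ * (1 + |t|) ^ J + if U ≤ |t| then E₃ else 0) :=
            mul_le_mul_of_nonneg_left (hE t) hN
        _ = _ := by split_ifs <;> ring)
  have e3 : Bil l v X Sa Sb α β = ∑ p ∈ Sa ×ˢ Sb, α p.1 * β p.2 * ff l (p.1 * p.2) *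
      v (nr (p.1 * p.2) / X) := by
    rw [Bil, Finset.sum_product]
    simp only [mul_assoc]
  rw [e3]
  refine key.trans (le_of_eq ?_)
  ring

end Crest.Agent.R12
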