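import Crest.Agent.R12.DspH0

/-!
# Row 12, analytic half: the bilinear estimates of type II
-/

set_option autoImplicit false

noncomputable section

namespace Crest.Agent.R12

open Crest.Agent.R17
open scoped ComplexConjugate Topology
open Filter MeasureTheory

theorem DspH1_ev (n : ℕ) {κ : ℝ} (hκ : 0 < κ) : ∀ᶠ X : ℝ in atTop, Real.log X ^ n ≤ X ^ κ := by
  have h := (isLittleO_log_rpow_rpow_atTop (n : ℝ) hκ).bound one_pos
  filter_upwards [h, eventually_ge_atTop 1] with X h hX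
  rw [one_mul, Real.rpow_natCast, Real.norm_of_nonneg (pow_nonneg (Real.log_nonneg hX) _),
    Real.norm_of_nonneg (by positivity)] at h
  exact h

theorem DspH1_sqrt {x y : ℝ} (hx : 0 ≤ x) (hy : 0 ≤ y) :
    Real.sqrt (x + y) ≤ Real.sqrt x + Real.sqrt y := by
  refine Real.sqrt_le_iff.2 ⟨by positivity, ?_⟩
  have h := mul_nonneg (Real.sqrt_nonneg x) (Real.sqrt_nonneg y)
  rw [add_sq, Real.sq_sqrt hx, Real.sq_sqrt hy]
  linarith

theorem DspH1_NW_tw (l : ℤ) (t k B : ℝ) (β : O → ℂ) :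
    NW k (dy B) (tw l t β) = NW k (dy B) β :=
  Finset.sum_congr rfl fun b hb => by rw [norm_tw l t β (mem_dy.1 hb).1.ne_zero]

/-- Crude bounds for the coefficients. -/
theorem DspH1_crude : ∃ (C : ℝ) (J : ℕ), 0 < C ∧ ∀ (X B : ℝ) (β : O → ℂ), 3 ≤ X → 0 ≤ B →
    2 * B ≤ X → (∀ b ∈ dy B, ‖β b‖ ≤ 14 ^ (pf b).card) →
    NW 8 (dy B) β ≤ C * B * Real.log X ^ J ∧ ∑ b ∈ dy B, ‖β b‖ ≤ C * B * Real.log X ^ J := by
  obtain ⟨C, J, hC, h⟩ := mom_crude 1568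
  refine ⟨2 * C, J, by positivity, fun X B β hX hB hBX hβ => ?_⟩
  have h1 := (h X (2 * B) hX (by positivity) hBX).1
  rw [abs_of_pos (by norm_num)] at h1
  have h2 : ∑ b ∈ dy B, (1568 : ℝ) ^ (pf b).card ≤ 2 * C * B * Real.log X ^ J := by
    refine le_trans (Finset.sum_le_sum_of_subset_of_nonneg (fun b hb => ?_) fun _ _ _ => by
      positivity) (h1.trans_eq (by ring))
    obtain ⟨b1, -, b3⟩ := mem_dy.1 hb
    exact mem_rng.2 ⟨b1, b1.one_le, b3⟩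
  refine ⟨le_trans (Finset.sum_le_sum fun b hb => ?_) h2,
    le_trans (Finset.sum_le_sum fun b hb => ?_) h2⟩
  · calc ‖β b‖ ^ 2 * 8 ^ (pf b).card ≤ (14 ^ (pf b).card) ^ 2 * 8 ^ (pf b).card := by
          gcongr; exact hβ b hb
      _ = 1568 ^ (pf b).card := by rw [← pow_mul, mul_comm _ 2, pow_mul, ← mul_pow]; norm_num
  · exact (hβ b hb).trans (pow_le_pow_left₀ (by norm_num) (by norm_num) _)

/-- The secondary terms of the dispersion estimate. -/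
theorem DspH1_sec {X A B : ℝ} (hX : 256 ≤ X) (hB : 1 ≤ B) (hB' : B ≤ X ^ (1 / 2 - 1 / 20000 : ℝ))
    (h1 : X / 16 ≤ A * B) (h2 : A * B ≤ 2 * X) :
    1 ≤ A ∧ 2 * B ≤ X ∧ (A * 2 * B) ^ (1 / 40000 : ℝ) *
      ((A * B) ^ (1 / 6 : ℝ) * B + A ^ (1 / 2 : ℝ) * B ^ (2 / 3 : ℝ)) * B ≤
        24 * (A ^ (2 / 3 : ℝ) * B ^ (5 / 3 : ℝ)) / X ^ (1 / 40000 : ℝ) := by
  have hX0 : 0 < X := by linarith
  have hX1 : 1 ≤ X := by linarith
  have hB0 : 0 < B := by linarith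
  have hA0 : 0 < A := pos_of_mul_pos_left (lt_of_lt_of_le (by positivity) h1) hB0.le
  set s := X ^ (1 / 2 : ℝ) with hs
  have hss : s * s = X := by rw [hs, ← Real.rpow_add hX0]; norm_num
  have hs0 : 0 < s := by positivity
  have hs16 : 16 ≤ s := by nlinarith
  have hBs : B ≤ s := hB'.trans (Real.rpow_le_rpow_of_exponent_le hX1 (by norm_num))
  have hAs : s / 16 ≤ A := by
    have : s / 16 * s ≤ A * s := by nlinarith
    exact le_of_mul_le_mul_right this hs0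
  refine ⟨by linarith, by nlinarith, ?_⟩
  set y := X ^ (1 / 40000 : ℝ) with hy
  have hy0 : 0 < y := by positivity
  have e1 : (A * 2 * B) ^ (1 / 40000 : ℝ) ≤ 4 * y := by
    calc (A * 2 * B) ^ (1 / 40000 : ℝ) ≤ (4 * X) ^ (1 / 40000 : ℝ) :=
          Real.rpow_le_rpow (by positivity) (by linarith) (by norm_num)
      _ = 4 ^ (1 / 40000 : ℝ) * y := Real.mul_rpow (by norm_num) hX0.le
      _ ≤ 4 ^ (1 : ℝ) * y := by gcongr <;> norm_num
      _ = 4 * y := by norm_num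
  -- `(B / A)^{1/2} ≤ 4 / y²`
  have e2 : (B / A) ^ (1 / 2 : ℝ) ≤ 4 / y ^ 2 := by
    have a1 : B * B ≤ X ^ (1 - 1 / 10000 : ℝ) := by
      calc B * B ≤ X ^ (1 / 2 - 1 / 20000 : ℝ) * X ^ (1 / 2 - 1 / 20000 : ℝ) := by gcongr
        _ = _ := by rw [← Real.rpow_add hX0]; norm_num
    have a2 : X ^ (1 - 1 / 10000 : ℝ) * y ^ 4 = X := by
      rw [hy, ← Real.rpow_natCast, ← Real.rpow_mul hX0.le, ← Real.rpow_add hX0]; norm_num
    have a3 : B / A ≤ (4 / y ^ 2) ^ 2 := by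
      rw [div_pow, div_le_div_iff₀ hA0 (by positivity)]
      have : B * (y ^ 2) ^ 2 * B ≤ 4 ^ 2 * A * B := by
        calc B * (y ^ 2) ^ 2 * B = B * B * y ^ 4 := by ring
          _ ≤ X ^ (1 - 1 / 10000 : ℝ) * y ^ 4 := by gcongr
          _ ≤ _ := by rw [a2]; linarith
      exact le_of_mul_le_mul_right this hB0
    calc (B / A) ^ (1 / 2 : ℝ) ≤ ((4 / y ^ 2) ^ 2) ^ (1 / 2 : ℝ) := by gcongr
      _ = _ := by rw [← Real.sqrt_eq_rpow, Real.sqrt_sq (by positivity)]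
  -- `A^{-1/6} ≤ 2 / y²`
  have e3 : A ^ (-(1 / 6) : ℝ) ≤ 2 / y ^ 2 := by
    have a1 : y ^ 12 ≤ s := by
      rw [hy, ← Real.rpow_natCast, ← Real.rpow_mul hX0.le]
      exact Real.rpow_le_rpow_of_exponent_le hX1 (by norm_num)
    have a2 : (y ^ 2 / 2) ^ 6 ≤ A := by
      calc (y ^ 2 / 2) ^ 6 = y ^ 12 / 64 := by ring
        _ ≤ A := by linarith
    have a3 : y ^ 2 / 2 ≤ A ^ (1 / 6 : ℝ) := by
      calc y ^ 2 / 2 = ((y ^ 2 / 2) ^ 6) ^ (1 / 6 : ℝ) := by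
            rw [← Real.rpow_natCast (y ^ 2 / 2), ← Real.rpow_mul (by positivity)]; norm_num
        _ ≤ _ := by gcongr
    rw [Real.rpow_neg hA0.le, ← inv_div (y ^ 2) 2]
    exact inv_anti₀ (by positivity) a3
  have f1 : (A * B) ^ (1 / 6 : ℝ) * B * B =
      A ^ (2 / 3 : ℝ) * B ^ (5 / 3 : ℝ) * (B / A) ^ (1 / 2 : ℝ) := by
    rw [Real.mul_rpow hA0.le hB0.le, Real.div_rpow hB0.le hA0.le,
      div_eq_mul_inv (B ^ (1 / 2 : ℝ)), ← Real.rpow_neg hA0.le]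
    have a1 : A ^ (1 / 6 : ℝ) = A ^ (2 / 3 : ℝ) * A ^ (-(1 / 2) : ℝ) := by
      rw [← Real.rpow_add hA0]; norm_num
    have a2 : B ^ (1 / 6 : ℝ) * B * B = B ^ (5 / 3 : ℝ) * B ^ (1 / 2 : ℝ) := by
      rw [← Real.rpow_add_one hB0.ne', ← Real.rpow_add_one hB0.ne', ← Real.rpow_add hB0]; norm_num
    rw [a1, mul_assoc _ (B ^ (1 / 6 : ℝ)), mul_assoc _ (B ^ (1 / 6 : ℝ) * B), a2]
    ring
  have f2 : A ^ (1 / 2 : ℝ) * B ^ (2 / 3 : ℝ) * B =
      A ^ (2 / 3 : ℝ) * B ^ (5 / 3 : ℝ) * A ^ (-(1 / 6) : ℝ) := by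
    have a1 : A ^ (1 / 2 : ℝ) = A ^ (2 / 3 : ℝ) * A ^ (-(1 / 6) : ℝ) := by
      rw [← Real.rpow_add hA0]; norm_num
    have a2 : B ^ (2 / 3 : ℝ) * B = B ^ (5 / 3 : ℝ) := by
      rw [← Real.rpow_add_one hB0.ne']; norm_num
    rw [a1, mul_assoc, a2]
    ring
  rw [mul_assoc, add_mul, f1, f2]
  set M := A ^ (2 / 3 : ℝ) * B ^ (5 / 3 : ℝ)
  have hM : 0 ≤ M := by positivity
  calc _ ≤ 4 * y * (M * (4 / y ^ 2) + M * (2 / y ^ 2)) := by gcongr
    _ = 24 * M / y := by field_simp; ring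

/-- **Small `T`**: `bil_le_of_EE` (`J = 0`, `U = (log X)^{c+2}`), `sum_EE_le_Disp`, `disp_le`
(`Λ = 2`), `nc_rough`, `mom_crude`, `norm_EE_le`. -/
theorem propBa (l : ℤ) {θ : ℝ} (h0 : 0 < θ) (h1 : θ < 1) (A₀ c : ℕ) : ∃ (A₁ : ℕ) (Cb X₀ : ℝ),
    0 < Cb ∧ ∀ X ≥ X₀, ∀ (v : ℝ → ℂ) (Φ : ℂ → ℂ) (T T₁ : ℝ), Adm v Φ T T₁ →
    T ≤ Real.log X ^ c → BH l v X θ A₀ A₁ Cb (Real.log (Real.log X)) := by
  obtain ⟨C₁, hC₁, H₁⟩ := bil_le_of_EE l 0
  obtain ⟨C₂, hC₂, H₂⟩ := sum_EE_le_Disp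
  obtain ⟨C₃, hC₃, H₃⟩ := disp_le (ε := 1 / 40000) (by norm_num)
  obtain ⟨A₁, C₄, X₄, hC₄, H₄⟩ := nc_rough l h0 h1 (2 * (A₀ + 1)) (c + 2)
  obtain ⟨C₅, J, hC₅, H₅⟩ := DspH1_crude
  have hc := AFa_cP_pos
  set K₁ := Real.sqrt (4 * C₂ * C₃) with hK₁
  set K₂ := Real.sqrt (C₂ * (C₄ + 96 * C₃ * C₅)) with hK₂
  have hK₁0 : 0 ≤ K₁ := Real.sqrt_nonneg _
  have hK₂0 : 0 ≤ K₂ := Real.sqrt_nonneg _
  clear_value K₁ K₂
  obtain ⟨X₀, hX₀⟩ := eventually_atTop.1 ((DspH1_ev (J + 2 * (A₀ + 1)) (κ := 1 / 40000)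
    (by norm_num)).and ((DspH1_ev (2 * J) one_pos).and ((DspH1_ev (c + A₀) one_pos).and
    ((eventually_ge_atTop (28 * ((1 + cP) * C₅) ^ 2)).and ((eventually_ge_atTop 256).and
    ((eventually_ge_atTop X₄).and (Real.tendsto_log_atTop.eventually_ge_atTop 3)))))))
  refine ⟨A₁, C₁ * ((c + 1) * (K₁ + K₂) + 1), X₀, by positivity, fun X hX v Φ T T₁ hv hT => ?_⟩
  obtain ⟨e1, e2, e3, e4, e5, e6, e7⟩ := hX₀ X hX
  intro A B α β b1 b2 b3 b4 b5 b6 b7
  rw [Real.rpow_one] at e2 e3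
  have hX0 : 0 < X := by linarith
  have hB : 1 ≤ B := (Real.one_le_rpow (by linarith) (by norm_num)).trans b1
  have hB0 : 0 < B := by linarith
  obtain ⟨hA, hBX, hsec⟩ := DspH1_sec e5 hB b2 b3 b4
  have hA0 : 0 < A := by linarith
  obtain ⟨n1, n2⟩ := H₅ X B β (by linarith) hB0.le hBX b6
  have hlog : Real.exp (Real.log X) = X := Real.exp_log hX0
  generalize hL : Real.log X = L at *
  have hL0 : 0 < L := by linarith
  have hT1 := hv.one_le_T
  have hT0 : 0 < T := by linarith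
  have hNW : 0 ≤ NW 8 (dy B) β := Finset.sum_nonneg fun _ _ => by positivity
  set P := (A + A ^ (3 / 4 : ℝ) * B ^ (1 / 2 : ℝ)) with hP
  have hP0 : 0 ≤ P := by positivity
  set m := A ^ (1 / 3 : ℝ) * B ^ (5 / 6 : ℝ) with hm
  have hm1 : 1 ≤ m := one_le_mul_of_one_le_of_one_le (Real.one_le_rpow hA (by norm_num))
    (Real.one_le_rpow hB (by norm_num))
  have hmm : A ^ (2 / 3 : ℝ) * B ^ (5 / 3 : ℝ) = m ^ 2 := by
    rw [hm, mul_pow, WinE0_sq hA0.le, WinE0_sq hB0.le]; norm_num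
  have hS : ∀ b ∈ dy B, PS b := fun b hb => (mem_dy.1 hb).1
  have hm0 : 0 < m := one_pos.trans_le hm1
  clear_value P m
  have key := H₁ X T T₁ (K₁ * Real.sqrt (P * NW 8 (dy B) β) + K₂ * (m / L ^ (A₀ + 1))) (X ^ 2)
    (L ^ (c + 2)) v Φ (dy A) (dy B) α β hX0 hv (fun a ha => (mem_dy.1 ha).1) hS (by positivity)
    (by positivity) (by positivity) fun t => by
      rw [pow_zero, mul_one]
      split_ifs with ht
      · refine le_add_of_nonneg_of_le (by positivity) (Real.sqrt_le_iff.2 ⟨by positivity, ?_⟩)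
        have a1 : ∑ b ∈ dy B, ‖tw l t β b‖ ≤ C₅ * B * L ^ J :=
          (Finset.sum_congr rfl fun b hb => norm_tw l t β (hS b hb).ne_zero).trans_le n2
        have a2 : ∑ a ∈ dy A, ‖EE (dy B) (tw l t β) a‖ ^ 2 ≤
            (dy A).card • ((1 + cP) * (C₅ * B * L ^ J)) ^ 2 :=
          Finset.sum_le_card_nsmul _ _ _ fun a _ => by
            have := norm_EE_le hS (tw l t β) a
            gcongr
            exact this.trans (by gcongr)
        rw [nsmul_eq_mul] at a2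
        calc _ ≤ 14 * A * ((1 + cP) * (C₅ * B * L ^ J)) ^ 2 :=
              a2.trans (by gcongr; exact card_dy_le hA0.le)
          _ = 14 * ((1 + cP) * C₅) ^ 2 * (A * B) * B * L ^ (2 * J) := by ring
          _ ≤ 14 * ((1 + cP) * C₅) ^ 2 * (2 * X) * X * X := by gcongr; linarith
          _ = 28 * ((1 + cP) * C₅) ^ 2 * X ^ 3 := by ring
          _ ≤ X * X ^ 3 := by gcongr
          _ = _ := by ring
      · rw [add_zero]
        have a1 := H₂ A (dy A) (dy B) (tw l t β) hA0 hS fun a ha => by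
          obtain ⟨x1, x2, x3⟩ := mem_dy.1 ha
          exact ⟨x1.1, x2.le, by linarith⟩
        have a2 := H₃ A B 2 (dy B) (tw l t β) hA hB (by norm_num) fun b hb => by
          obtain ⟨x1, x2, x3⟩ := mem_dy.1 hb
          exact ⟨x1, by linarith, x3⟩
        have a3 := H₄ X e6 A B t β b1 b2 b3 b4 (by rw [hL]; exact (not_le.1 ht).le) b5 b6
          (by rw [hL]; exact b7)
        rw [hL, mul_assoc, hmm] at a3
        rw [DspH1_NW_tw, ← hP, mul_assoc] at a2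
        rw [hmm] at hsec
        set Q := (A * 2 * B) ^ (1 / 40000 : ℝ) *
          ((A * B) ^ (1 / 6 : ℝ) * B + A ^ (1 / 2 : ℝ) * B ^ (2 / 3 : ℝ))
        have hQ : 0 ≤ Q := by positivity
        clear_value Q
        have a4 : Q * NW 8 (dy B) β ≤ 24 * C₅ * (m ^ 2 / L ^ (2 * (A₀ + 1))) := by
          calc Q * NW 8 (dy B) β ≤ Q * (C₅ * B * L ^ J) := by gcongr
            _ = C₅ * L ^ J * (Q * B) := by ring
            _ ≤ C₅ * L ^ J * (24 * m ^ 2 / X ^ (1 / 40000 : ℝ)) := by gcongr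
            _ ≤ C₅ * L ^ J * (24 * m ^ 2 / L ^ (J + 2 * (A₀ + 1))) := by gcongr
            _ = _ := by rw [pow_add]; field_simp
        have a5 : ∑ a ∈ dy A, ‖EE (dy B) (tw l t β) a‖ ^ 2 ≤
            4 * C₂ * C₃ * (P * NW 8 (dy B) β) +
              C₂ * (C₄ + 96 * C₃ * C₅) * (m / L ^ (A₀ + 1)) ^ 2 := by
          have a6 : (m / L ^ (A₀ + 1)) ^ 2 = m ^ 2 / L ^ (2 * (A₀ + 1)) := by
            rw [div_pow, ← pow_mul, mul_comm]
          rw [a6]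
          rw [mul_div_assoc] at a3
          calc _ ≤ C₂ * (C₄ * (m ^ 2 / L ^ (2 * (A₀ + 1))) +
                C₃ * 2 ^ 2 * ((P + Q) * NW 8 (dy B) β)) :=
                a1.trans (mul_le_mul_of_nonneg_left (a2.trans (by gcongr)) hC₂.le)
            _ = C₂ * (C₄ * (m ^ 2 / L ^ (2 * (A₀ + 1))) + 4 * C₃ * (P * NW 8 (dy B) β) +
                4 * C₃ * (Q * NW 8 (dy B) β)) := by ring
            _ ≤ C₂ * (C₄ * (m ^ 2 / L ^ (2 * (A₀ + 1))) + 4 * C₃ * (P * NW 8 (dy B) β) +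
                4 * C₃ * (24 * C₅ * (m ^ 2 / L ^ (2 * (A₀ + 1))))) := by gcongr
            _ = _ := by ring
        refine (Real.sqrt_le_sqrt a5).trans ((DspH1_sqrt (by positivity) (by positivity)).trans_eq ?_)
        rw [Real.sqrt_mul (by positivity), Real.sqrt_mul (by positivity) (_ ^ 2),
          Real.sqrt_sq (by positivity), hK₁, hK₂]
  rw [pow_zero, mul_one] at key
  have hlL : 1 ≤ Real.log L := by
    rw [Real.le_log_iff_exp_le hL0]
    exact Real.exp_one_lt_d9.le.trans (by linarith)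
  have l1 : Real.log (2 + T) ≤ (c + 1) * Real.log L := by
    have a1 : 1 ≤ L ^ c := one_le_pow₀ (by linarith)
    have a2 : 2 + T ≤ L ^ (c + 1) := by
      rw [pow_succ]
      have : L ^ c * 3 ≤ L ^ c * L := by gcongr
      linarith
    calc _ ≤ Real.log (L ^ (c + 1)) := Real.log_le_log (by linarith) a2
      _ = _ := by rw [Real.log_pow]; push_cast; ring
  have l2 : Real.log L ≤ L := (Real.log_le_sub_one_of_pos hL0).trans (by linarith)
  have l3 : X ^ 2 * T * Real.exp (-L ^ (c + 2) / T) ≤ m / L ^ A₀ := by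
    have a1 : -L ^ (c + 2) / T ≤ -(3 * L) := by
      rw [neg_div, neg_le_neg_iff, le_div_iff₀ hT0]
      calc 3 * L * T ≤ L * L * L ^ c := by gcongr
        _ = _ := by ring
    have a2 : Real.exp (-(3 * L)) = (X ^ 3)⁻¹ := by
      rw [Real.exp_neg, ← hlog, ← Real.exp_nat_mul]; norm_num
    rw [le_div_iff₀ (by positivity)]
    calc _ ≤ X ^ 2 * L ^ c * (X ^ 3)⁻¹ * L ^ A₀ := by rw [← a2]; gcongr
      _ = L ^ (c + A₀) / X := by rw [pow_add]; field_simp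
      _ ≤ 1 := (div_le_one hX0).2 e3
      _ ≤ m := hm1
  refine key.trans ?_
  clear key H₁ H₂ H₃ H₄ H₅ hX₀
  set s := Real.sqrt (P * NW 8 (dy B) β)
  have hs : 0 ≤ s := Real.sqrt_nonneg _
  clear_value s
  have l4 : m / L ^ (A₀ + 1) * Real.log L ≤ m / L ^ A₀ := by
    calc _ ≤ m / L ^ (A₀ + 1) * L := by gcongr
      _ = _ := by rw [pow_succ]; field_simp
  set r := m / L ^ A₀
  have hr : 0 ≤ r := by positivity
  clear_value r
  have hls : 0 ≤ Real.log L * s := by positivity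
  have l5 : (K₁ * s + K₂ * (m / L ^ (A₀ + 1))) * Real.log (2 + T) +
      X ^ 2 * T * Real.exp (-L ^ (c + 2) / T) ≤
      ((c + 1) * (K₁ + K₂) + 1) * (Real.log L * s + r) := by
    calc _ ≤ (K₁ * s + K₂ * (m / L ^ (A₀ + 1))) * ((c + 1) * Real.log L) + r := by gcongr
      _ = (c + 1) * K₁ * (Real.log L * s) +
          (c + 1) * K₂ * (m / L ^ (A₀ + 1) * Real.log L) + r := by ring
      _ ≤ (c + 1) * K₁ * (Real.log L * s) + (c + 1) * K₂ * r + r := by gcongr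
      _ ≤ _ := by
        have : 0 ≤ (c + 1) * K₁ * r + (c + 1) * K₂ * (Real.log L * s) + Real.log L * s := by
          positivity
        linarith
  calc _ ≤ C₁ * Real.sqrt (N2 (dy A) α) *
        (((c + 1) * (K₁ + K₂) + 1) * (Real.log L * s + r)) := by gcongr
    _ = _ := by ring

end Crest.Agent.R12
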