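import Crest.Agent.R12.LSDefs
import Crest.Agent.R17.LS2Ker

/-!
# Row 12, cubic large sieve: Poisson summation for a pair of columns
-/

set_option autoImplicit false

noncomputable section

namespace Crest.Agent.R12

open Crest.Agent.R17
open scoped ComplexConjugate

theorem LSPair_per (n x y : O) (h : n ∣ x - y) : cub n x = cub n y :=
  cub_congr ((rad_dvd n).trans h)

theorem LSPair_PS_cof (G : Finset O) (n : O) : PS (LS2.cof G n) := by
  refine ⟨LS2.primary_cof G n, ?_⟩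
  have := (squarefree_prod_primes (LS2.cof_primes G n)).1
  rw [LS2.cof]; convert this

theorem LSPair_mul_conj {n : O} (hn : Primary n) (c : O) :
    cub n c * conj (cub n c) = open Classical in if ∀ p ∈ pf n, ¬ p ∣ c then 1 else 0 := by
  split_ifs with h
  · rw [Complex.mul_conj', norm_cub hn ((LS2.isCoprime_iff_pf hn c).2 h)]
    norm_num
  · rw [(cub_eq_zero_iff hn).2 fun h' => h ((LS2.isCoprime_iff_pf hn c).1 h'), zero_mul]

open Classical in
theorem LSPair_coprime (n₁ n₂ : O) :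
    IsCoprime (LS2.cof (pf n₁ ∩ pf n₂) n₁) (LS2.cof (pf n₁ ∩ pf n₂) n₂) := by
  refine isCoprime_of_disjoint_pf (LS2.primary_cof _ _) (LS2.primary_cof _ _).ne_zero ?_
  rw [LS2.pf_cof, LS2.pf_cof, Finset.disjoint_left]
  intro p hp hp'
  exact (Finset.mem_sdiff.1 hp).2
    (Finset.mem_inter.2 ⟨(Finset.mem_sdiff.1 hp).1, (Finset.mem_sdiff.1 hp').1⟩)

/-- The Fourier transform of `χ_{b₁} conj χ_{b₂}`. -/
theorem ft_pair {b₁ b₂ : O} (h₁ : PS b₁) (h₂ : PS b₂) (h : IsCoprime b₁ b₂) (k : O) :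
    ft (b₁ * b₂) (fun x => cub b₁ x * conj (cub b₂ x)) k =
      gc b₁ 1 * conj (cub b₁ k) * conj (gc b₂ 1 * conj (cub b₂ k)) := by
  rw [ft_mul h₁.1.ne_zero h₂.1.ne_zero h (cub b₁) (fun x => conj (cub b₂ x)) (LSPair_per b₁)
    fun x y hxy => by rw [LSPair_per b₂ x y hxy]]
  have e1 : ft b₁ (fun x => cub b₁ (b₂ * x)) k = cub b₁ b₂ * gc b₁ k := by
    simp only [ft, gc, cub_mul_right, Finset.mul_sum, mul_assoc]
  have e2 : ft b₂ (fun y => conj (cub b₂ (b₁ * y))) k = conj (cub b₂ b₁ * gc b₂ (-k)) := by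
    simp only [ft, gc, cub_mul_right, Finset.mul_sum, map_sum, map_mul, neg_mul, eq_neg,
      Complex.conj_conj, mul_assoc]
  have e3 : cub b₂ (-k) = cub b₂ k := by
    rw [← neg_one_mul, cub_mul_right, cub_neg_one, one_mul]
  have e4 : cub b₁ b₂ * conj (cub b₂ b₁) = 1 := by
    rw [cub_recip h₂.1 h₁.1, Complex.mul_conj', norm_cub h₁.1 h]
    norm_num
  rw [e1, e2, gc_sqfree h₁.1 h₁.2 k, gc_sqfree h₂.1 h₂.2 (-k), e3]
  simp only [map_mul]
  linear_combination (conj (cub b₁ k) * gc b₁ 1 * conj (conj (cub b₂ k)) * conj (gc b₂ 1)) * e4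

theorem norm_et_le (G E : Finset O) {n : O} (hn : PS n) (h : O) :
    ‖et G E n h‖ ≤ (Real.sqrt (nr (LS2.cof G n)))⁻¹ := by
  have hb := LSPair_PS_cof G n
  have hN := nr_pos hb.1.ne_zero
  have hs := Real.sqrt_pos.2 hN
  have e : ‖gc (LS2.cof G n) 1 / (nr (LS2.cof G n) : ℂ)‖ = (Real.sqrt (nr (LS2.cof G n)))⁻¹ := by
    rw [norm_div, norm_gc hb.1 hb.2, Complex.norm_real, Real.norm_of_nonneg hN.le,
      div_eq_iff hN.ne', inv_mul_eq_div, eq_div_iff hs.ne', Real.mul_self_sqrt hN.le]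
  rw [et, norm_mul, norm_mul, e, Complex.norm_conj]
  exact (mul_le_of_le_one_right (by positivity) (norm_cub_le _ _)).trans
    (mul_le_of_le_one_left (by positivity) (norm_cub_le _ _))

theorem summable_dt {M : ℝ} (hM : 0 < M) {G E : Finset O} (hE : ∀ p ∈ E, p ≠ 0) {n₁ n₂ : O}
    (h₁ : PS n₁) (h₂ : PS n₂) : Summable (dt M G E n₁ n₂) := by
  have hN₁ := nr_pos (LS2.primary_cof G n₁).ne_zero
  have hN₂ := nr_pos (LS2.primary_cof G n₂).ne_zero
  have hP := LS2.nP_pos hE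
  have h1 : Summable fun h : O =>
      gw (M / LS2.nP E * nr h / (nr (LS2.cof G n₁) * nr (LS2.cof G n₂))) := by
    refine (summable_gw' (X := nr (LS2.cof G n₁) * nr (LS2.cof G n₂) / (M / LS2.nP E))
      (by positivity)).congr fun k => ?_
    congr 1
    field_simp
  refine Summable.of_norm_bounded (h1.mul_left
    ((Real.sqrt (nr (LS2.cof G n₁)))⁻¹ * (Real.sqrt (nr (LS2.cof G n₂)))⁻¹)) fun h => ?_
  rw [dt, norm_mul, norm_mul, Complex.norm_conj, Complex.norm_real,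
    Real.norm_of_nonneg (gw_pos _).le]
  exact mul_le_mul_of_nonneg_right (mul_le_mul (norm_et_le G E h₁ h) (norm_et_le G E h₂ h)
    (norm_nonneg _) (by positivity)) (gw_pos _).le

open Classical in
/-- The dual expansion. -/
theorem pair_poisson {M : ℝ} (hM : 0 < M) {n₁ n₂ : O} (h₁ : PS n₁) (h₂ : PS n₂) :
    ∑' k : O, cub n₁ k * conj (cub n₂ k) * (gw (nr k / M) : ℂ) =
      ∑ E ∈ (pf n₁ ∩ pf n₂).powerset, (-1) ^ E.card * ((M / LS2.nP E : ℝ) : ℂ) *
        ∑' h : O, dt M (pf n₁ ∩ pf n₂) E n₁ n₂ h := by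
  have hcop := LSPair_coprime n₁ n₂
  set G := pf n₁ ∩ pf n₂ with hG
  have hG₁ : G ⊆ pf n₁ := Finset.inter_subset_left
  have hG₂ : G ⊆ pf n₂ := Finset.inter_subset_right
  have hGp : ∀ p ∈ G, Prime p ∧ Primary p := fun p hp => BasicB.pf_sub (hG₁ hp)
  have e₁ := LS2.prod_mul_cof h₁.1 h₁.2 hG₁
  have e₂ := LS2.prod_mul_cof h₂.1 h₂.2 hG₂
  have s₁ := LSPair_PS_cof G n₁
  have s₂ := LSPair_PS_cof G n₂
  have sg : Primary (∏ p ∈ G, p) := (squarefree_prod_primes hGp).2.1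
  have hz₁ := s₁.1.ne_zero
  have hz₂ := s₂.1.ne_zero
  have hN₁ := nr_pos hz₁
  have hN₂ := nr_pos hz₂
  have h1 : ∀ k : O, cub n₁ k * conj (cub n₂ k) * (gw (nr k / M) : ℂ) =
      if ∀ p ∈ G, ¬ p ∣ k then
        cub (LS2.cof G n₁) k * conj (cub (LS2.cof G n₂) k) * (gw (nr k / M) : ℂ) else 0 := by
    intro k
    have h2 := LSPair_mul_conj sg k
    rw [LS2.pf_prod hG₁] at h2
    have h3 : cub n₁ k * conj (cub n₂ k) = cub (∏ p ∈ G, p) k * conj (cub (∏ p ∈ G, p) k) *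
        (cub (LS2.cof G n₁) k * conj (cub (LS2.cof G n₂) k)) := by
      conv_lhs => rw [← e₁, ← e₂]
      rw [cub_mul_left sg.ne_zero hz₁, cub_mul_left sg.ne_zero hz₂, map_mul]
      ring
    rw [h3, h2]
    split_ifs <;> simp
  have hs : Summable fun k : O =>
      cub (LS2.cof G n₁) k * conj (cub (LS2.cof G n₂) k) * (gw (nr k / M) : ℂ) := by
    refine Summable.of_norm_bounded (summable_gw' hM) fun k => ?_
    rw [norm_mul, norm_mul, Complex.norm_conj, Complex.norm_real, Real.norm_of_nonneg (gw_pos _).le]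
    exact mul_le_of_le_one_left (gw_pos _).le
      (mul_le_one₀ (norm_cub_le _ _) (norm_nonneg _) (norm_cub_le _ _))
  rw [tsum_congr h1, LS2.tsum_sieve hGp hs]
  refine Finset.sum_congr rfl fun E hE => ?_
  have hP : 0 < LS2.nP E :=
    LS2.nP_pos (LS2.ne_zero_of_subset_pf ((Finset.mem_powerset.1 hE).trans hG₁))
  have h2 := poisson (mul_ne_zero hz₁ hz₂)
    (fun x => cub (LS2.cof G n₁) x * conj (cub (LS2.cof G n₂) x))
    (fun x y h => by
      rw [LSPair_per _ x y ((dvd_mul_right _ _).trans h),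
        LSPair_per _ x y ((dvd_mul_left _ _).trans h)]) (div_pos hM hP)
  have h3 : ∀ c : O, cub (LS2.cof G n₁) ((∏ p ∈ E, p) * c) *
      conj (cub (LS2.cof G n₂) ((∏ p ∈ E, p) * c)) * (gw (nr ((∏ p ∈ E, p) * c) / M) : ℂ) =
      cub (LS2.cof G n₁) (∏ p ∈ E, p) * conj (cub (LS2.cof G n₂) (∏ p ∈ E, p)) *
        (cub (LS2.cof G n₁) c * conj (cub (LS2.cof G n₂) c) *
          (gw (nr c / (M / LS2.nP E)) : ℂ)) := by
    intro c
    have : nr ((∏ p ∈ E, p) * c) / M = nr c / (M / LS2.nP E) := by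
      rw [nr_mul, LS2.nr_prod]
      field_simp
    rw [this, cub_mul_right, cub_mul_right, map_mul]
    ring
  rw [tsum_congr h3, tsum_mul_left, h2, mul_assoc ((-1 : ℂ) ^ E.card)]
  congr 1
  rw [← mul_assoc, ← tsum_mul_left, ← tsum_mul_left]
  refine tsum_congr fun h => ?_
  have k₁ : (nr (LS2.cof G n₁) : ℂ) ≠ 0 := by exact_mod_cast hN₁.ne'
  have k₂ : (nr (LS2.cof G n₂) : ℂ) ≠ 0 := by exact_mod_cast hN₂.ne'
  rw [ft_pair s₁ s₂ hcop, dt, et, et, nr_mul]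
  simp only [map_mul, map_div₀, Complex.conj_ofReal, Complex.ofReal_div, Complex.ofReal_mul]
  field_simp

open Classical in
/-- The zero frequency only sees the diagonal. -/
theorem dt_zero (M : ℝ) (E : Finset O) {n₁ n₂ : O} (h₁ : PS n₁) (h₂ : PS n₂) :
    dt M (pf n₁ ∩ pf n₂) E n₁ n₂ 0 = if n₁ = n₂ then 1 else 0 := by
  have h0 : ∀ {b : O}, Primary b → b ≠ 1 → cub b 0 = 0 := fun hb h1 =>
    (cub_eq_zero_iff hb).2 fun h => h1 (hb.eq_one_of_isUnit (isCoprime_zero_right.1 h))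
  split_ifs with h
  · subst h
    have e : LS2.cof (pf n₁ ∩ pf n₁) n₁ = 1 := by simp [LS2.cof]
    rw [dt, et, e]
    simp [nr]
  · by_cases k₁ : LS2.cof (pf n₁ ∩ pf n₂) n₁ = 1
    · have k₂ : LS2.cof (pf n₁ ∩ pf n₂) n₂ ≠ 1 := fun k₂ => h (by
        rw [← LS2.prod_mul_cof h₁.1 h₁.2 (Finset.inter_subset_left (s₂ := pf n₂)), k₁]
        conv_rhs =>
          rw [← LS2.prod_mul_cof h₂.1 h₂.2 (Finset.inter_subset_right (s₁ := pf n₁)), k₂])
      simp [dt, et, h0 (LS2.primary_cof _ _) k₂]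
    · simp [dt, et, h0 (LS2.primary_cof _ _) k₁]

open Classical in
/-- The dual expansion with the zero frequency estimated. -/
theorem pair_sum {M : ℝ} (hM : 0 < M) (S : Finset O) (β : O → ℂ) (hS : ∀ n ∈ S, PS n) :
    ‖∑ n₁ ∈ S, ∑ n₂ ∈ S, β n₁ * conj (β n₂) *
        ∑' k : O, cub n₁ k * conj (cub n₂ k) * (gw (nr k / M) : ℂ)‖ ≤
      M * ∑ n ∈ S, 2 ^ (pf n).card * ‖β n‖ ^ 2 +
      ‖∑ n₁ ∈ S, ∑ n₂ ∈ S, β n₁ * conj (β n₂) *
        ∑ E ∈ (pf n₁ ∩ pf n₂).powerset, (-1) ^ E.card * (((M / LS2.nP E : ℝ) : ℂ) *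
          ∑' h : O, if h = 0 then 0 else dt M (pf n₁ ∩ pf n₂) E n₁ n₂ h)‖ := by
  have h1 : ∀ n₁ ∈ S, ∀ n₂ ∈ S, β n₁ * conj (β n₂) *
      ∑' k : O, cub n₁ k * conj (cub n₂ k) * (gw (nr k / M) : ℂ) =
      (if n₁ = n₂ then β n₁ * conj (β n₁) *
        ∑ E ∈ (pf n₁).powerset, (-1) ^ E.card * ((M / LS2.nP E : ℝ) : ℂ) else 0) +
      β n₁ * conj (β n₂) *
        ∑ E ∈ (pf n₁ ∩ pf n₂).powerset, (-1) ^ E.card * (((M / LS2.nP E : ℝ) : ℂ) *
          ∑' h : O, if h = 0 then 0 else dt M (pf n₁ ∩ pf n₂) E n₁ n₂ h) := by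
    intro n₁ hn₁ n₂ hn₂
    have h2 : ∀ E ∈ (pf n₁ ∩ pf n₂).powerset, (-1) ^ E.card * ((M / LS2.nP E : ℝ) : ℂ) *
        ∑' h : O, dt M (pf n₁ ∩ pf n₂) E n₁ n₂ h =
        (if n₁ = n₂ then (-1) ^ E.card * ((M / LS2.nP E : ℝ) : ℂ) else 0) +
        (-1) ^ E.card * (((M / LS2.nP E : ℝ) : ℂ) *
          ∑' h : O, if h = 0 then 0 else dt M (pf n₁ ∩ pf n₂) E n₁ n₂ h) := by
      intro E hE
      rw [(summable_dt hM (LS2.ne_zero_of_subset_pf ((Finset.mem_powerset.1 hE).trans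
        Finset.inter_subset_left)) (hS n₁ hn₁) (hS n₂ hn₂)).tsum_eq_add_tsum_ite 0,
        dt_zero M E (hS n₁ hn₁) (hS n₂ hn₂)]
      split_ifs <;> ring
    rw [pair_poisson hM (hS n₁ hn₁) (hS n₂ hn₂), Finset.sum_congr rfl h2, Finset.sum_add_distrib,
      mul_add]
    congr 1
    split_ifs with h
    · subst h
      rw [Finset.inter_self]
    · simp
  rw [Finset.sum_congr rfl fun n₁ hn₁ => Finset.sum_congr rfl (h1 n₁ hn₁)]
  simp only [Finset.sum_add_distrib]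
  refine (norm_add_le _ _).trans (add_le_add_left ?_ _)
  rw [Finset.mul_sum]
  refine (norm_sum_le _ _).trans (Finset.sum_le_sum fun n hn => ?_)
  rw [Finset.sum_ite_eq, if_pos hn, norm_mul, norm_mul, Complex.norm_conj, ← sq, ← mul_assoc,
    mul_comm]
  refine mul_le_mul_of_nonneg_right ?_ (sq_nonneg _)
  refine (norm_sum_le _ _).trans ((Finset.sum_le_card_nsmul _ _ M fun E hE => ?_).trans_eq ?_)
  · have h2 := LS2.one_le_nP (LS2.ne_zero_of_subset_pf (Finset.mem_powerset.1 hE))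
    rw [norm_mul, norm_pow, norm_neg, norm_one, one_pow, one_mul, Complex.norm_real,
      Real.norm_of_nonneg (by positivity)]
    exact div_le_self hM.le h2
  · rw [Finset.card_powerset, nsmul_eq_mul, Nat.cast_pow, Nat.cast_ofNat, mul_comm]

end Crest.Agent.R12
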