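import Crest.Agent.R12.AFa
import Crest.Agent.R12.LSPair

/-!
# Row 12, analytic half: Poisson expansion of one pair
-/

set_option autoImplicit false

noncomputable section

namespace Crest.Agent.R12

open Crest.Agent.R17
open scoped ComplexConjugate Topology
open Filter MeasureTheory

theorem summable_term {φ κ : ℝ → ℂ} (h : PP φ κ) {A : ℝ} (hA : 0 < A) {b₁ b₂ e : O} (h₁ : PS b₁)
    (h₂ : PS b₂) (he : e ∈ pdiv (pgcd b₁ b₂)) :
    Summable fun k : O => ‖term κ A b₁ b₂ e k‖ := by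
  have hg := primary_pgcd b₁ b₂
  have hd := (dvd_pgcd_iff h₁.1.ne_zero h₂.1.ne_zero hg).1 dvd_rfl
  have hq : ∀ b : O, b ≠ 0 → pgcd b₁ b₂ ∣ b → 0 < nr (b / pgcd b₁ b₂) := by
    intro b hb hdv
    refine nr_pos fun h0 => hb ?_
    rw [← EuclideanDomain.mul_div_cancel' hg.ne_zero hdv, h0, mul_zero]
  have p1 := hq b₁ h₁.1.ne_zero hd.1
  have p2 := hq b₂ h₂.1.ne_zero hd.2
  have p3 := nr_pos ((mem_pdiv hg.ne_zero).1 he).1.ne_zero
  have hs := h.sum₂ (A / (9 * nr e * (nr (b₁ / pgcd b₁ b₂) * nr (b₂ / pgcd b₁ b₂))))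
    (by positivity)
  refine Summable.of_nonneg_of_le (fun k => norm_nonneg _) (fun k => ?_) (hs.mul_left
    ‖((A / (9 * nr e * Real.sqrt (nr (b₁ / pgcd b₁ b₂) * nr (b₂ / pgcd b₁ b₂))) : ℝ) : ℂ)‖)
  unfold term
  rw [norm_mul, norm_mul, norm_mul, norm_mul, norm_mul, norm_eq, mul_one, Complex.norm_conj]
  refine mul_le_mul_of_nonneg_right ?_ (norm_nonneg _)
  refine (mul_le_of_le_one_right (by positivity) (norm_cub_le _ _)).trans ?_
  refine (mul_le_of_le_one_right (by positivity) (norm_cub_le _ _)).trans ?_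
  exact mul_le_of_le_one_left (norm_nonneg _) (norm_mu_le e)

theorem ExpA0_cub_three_lam {b : O} (hb : Primary b) : cub b 3 * cub b lam = 1 := by
  have h3 : (3 : O) * lam = -1 * lam ^ 3 := by linear_combination lam * lam_sq
  have hc : IsCoprime b lam :=
    hb.isCoprime_three.of_isCoprime_of_dvd_right ⟨-lam, by linear_combination lam_sq⟩
  rw [← cub_mul_right, h3, cub_mul_right, cub_neg_one, one_mul, cub_pow_right,
    cub_pow_three hb hc]

open Classical in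
theorem ExpA0_ft_three {n : O} (hn : Primary n) (k : O) :
    ft 3 (fun x => if Primary (n * x) then (1 : ℂ) else 0) k = eq k 3 := by
  have h3 : (3 : O) ≠ 0 := by
    rw [← neg_ne_zero, ← lam_sq]; exact pow_ne_zero 2 prime_lam.ne_zero
  have h := Gauss_delta (f := fun x => eq (k * x) 3) h3
    (fun x y hxy => eq_congr (by rw [← mul_sub]; exact hxy.mul_left k)) 1
  rw [mul_one] at h
  rw [← h]
  refine Finset.sum_congr rfl fun x _ => ?_
  have hx : Primary (n * x) ↔ (3 : O) ∣ 1 - x :=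
    ⟨fun h1 => dvd_sub_comm.1 (hn.of_mul h1), fun h1 => hn.mul (dvd_sub_comm.1 h1)⟩
  beta_reduce
  by_cases h1 : (3 : O) ∣ 1 - x
  · rw [if_pos h1, if_pos (hx.2 h1), one_mul]
  · rw [if_neg h1, if_neg fun h2 => h1 (hx.1 h2), zero_mul]

theorem ExpA0_gc_sq {b : O} (hb : PS b) :
    gc b 1 * conj (gc b 1) = (Real.sqrt (nr b) : ℂ) * (Real.sqrt (nr b) : ℂ) := by
  rw [Complex.mul_conj', norm_gc hb.1 hb.2, sq]

/-- The finite Fourier transform of `1_{primary} conj (x/b₁)₃ (x/b₂)₃` modulo `3 b₁ b₂`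
(`ft_mul` twice, `cub_recip`, `gc_sqfree`; `3 λ = -λ³`). -/
theorem ft_pair3 {b₁ b₂ : O} (h₁ : PS b₁) (h₂ : PS b₂) (h : IsCoprime b₁ b₂) (k : O) :
    Gn b₁ * conj (Gn b₂) * ft (3 * (b₁ * b₂))
        (fun x => by classical exact if Primary x then conj (cub b₁ x) * cub b₂ x else 0) k =
      (Real.sqrt (nr b₁ * nr b₂) : ℂ) * eq k 3 * cub b₁ k * conj (cub b₂ k) := by
  classical
  have h3 : (3 : O) ≠ 0 := by
    rw [← neg_ne_zero, ← lam_sq]; exact pow_ne_zero 2 prime_lam.ne_zero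
  have hn : Primary (b₁ * b₂) := h₁.1.mul h₂.1
  have e0 : (fun x : O => if Primary x then conj (cub b₁ x) * cub b₂ x else 0) =
      fun x => (if Primary x then (1 : ℂ) else 0) * (conj (cub b₁ x) * cub b₂ x) := by
    funext x
    by_cases hx : Primary x
    · rw [if_pos hx, if_pos hx, one_mul]
    · rw [if_neg hx, if_neg hx, zero_mul]
  have e1 := ft_mul h3 hn.ne_zero hn.isCoprime_three.symm
    (fun x => if Primary x then (1 : ℂ) else 0) (fun x => conj (cub b₁ x) * cub b₂ x)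
    (fun x y hxy => by
      have : Primary x ↔ Primary y :=
        ⟨fun h1 => by
          have h2 : (3 : O) ∣ (x - 1) - (x - y) := dvd_sub h1 hxy
          rwa [show (x - 1) - (x - y) = y - 1 by ring] at h2,
        fun h1 => by
          have h2 : (3 : O) ∣ (y - 1) + (x - y) := dvd_add h1 hxy
          rwa [show (y - 1) + (x - y) = x - 1 by ring] at h2⟩
      exact if_congr this rfl rfl)
    (fun x y hxy => by
      rw [LSPair_per b₁ x y ((dvd_mul_right _ _).trans hxy),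
        LSPair_per b₂ x y ((dvd_mul_left _ _).trans hxy)]) k
  have e2 : ft (b₁ * b₂) (fun y => conj (cub b₁ (3 * y)) * cub b₂ (3 * y)) k =
      conj (cub b₁ 3) * cub b₂ 3 * ft (b₂ * b₁) (fun x => cub b₂ x * conj (cub b₁ x)) k := by
    rw [mul_comm b₂ b₁]
    unfold ft
    rw [Finset.mul_sum]
    refine Finset.sum_congr rfl fun x _ => ?_
    beta_reduce
    rw [cub_mul_right, cub_mul_right, map_mul]
    ring
  have s₁ : (Real.sqrt (nr b₁) : ℂ) ≠ 0 :=
    Complex.ofReal_ne_zero.2 (Real.sqrt_pos.2 (nr_pos h₁.1.ne_zero)).ne'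
  have s₂ : (Real.sqrt (nr b₂) : ℂ) ≠ 0 :=
    Complex.ofReal_ne_zero.2 (Real.sqrt_pos.2 (nr_pos h₂.1.ne_zero)).ne'
  have c₁ : conj (cub b₁ 3) * conj (cub b₁ lam) = 1 := by
    rw [← map_mul, ExpA0_cub_three_lam h₁.1, map_one]
  have c₂ := ExpA0_cub_three_lam h₂.1
  have g₁ := ExpA0_gc_sq h₁
  have g₂ := ExpA0_gc_sq h₂
  have G₁ : Gn b₁ = conj (cub b₁ lam) * gc b₁ 1 / (Real.sqrt (nr b₁) : ℂ) := by
    unfold Gn; rw [gc_sqfree h₁.1 h₁.2 lam]
  have G₂ : conj (Gn b₂) = cub b₂ lam * conj (gc b₂ 1) / (Real.sqrt (nr b₂) : ℂ) := by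
    unfold Gn
    rw [gc_sqfree h₂.1 h₂.2 lam, map_div₀, map_mul, Complex.conj_conj, Complex.conj_ofReal]
  rw [e0, e1, ExpA0_ft_three hn, e2, ft_pair h₂ h₁ h.symm, G₁, G₂,
    Real.sqrt_mul (nr_pos h₁.1.ne_zero).le, Complex.ofReal_mul, map_mul, Complex.conj_conj]
  calc _ = (conj (cub b₁ 3) * conj (cub b₁ lam)) * (cub b₂ 3 * cub b₂ lam) *
        (gc b₁ 1 * conj (gc b₁ 1) / (Real.sqrt (nr b₁) : ℂ)) *
        (gc b₂ 1 * conj (gc b₂ 1) / (Real.sqrt (nr b₂) : ℂ)) *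
        eq k 3 * cub b₁ k * conj (cub b₂ k) := by ring
    _ = _ := by
        rw [c₁, c₂, g₁, g₂, mul_div_cancel_right₀ _ s₁, mul_div_cancel_right₀ _ s₂]
        ring

end Crest.Agent.R12
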