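import Crest.Agent.R12.ExpA0

/-!
# Row 12, analytic half: Poisson expansion of one pair
-/

set_option autoImplicit false

noncomputable section

namespace Crest.Agent.R12

open Crest.Agent.R17
open scoped ComplexConjugate Topology
open Filter MeasureTheory

theorem ExpA1_conj (c e h : O) : conj (cub c (e * (e * h))) = cub c (e * h ^ 2) := by
  have h1 : (cub c e ^ 2) ^ 2 = cub c e := by
    rw [← conj_cub, ← map_pow, ← conj_cub, Complex.conj_conj]
  rw [conj_cub, cub_mul_right, cub_mul_right, cub_mul_right, cub_pow_right]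
  linear_combination (cub c h ^ 2) * h1

open Classical in
theorem ExpA1_cub_sq {g : O} (hg : Primary g) (a : O) :
    cub g a * conj (cub g a) = if IsCoprime g a then 1 else 0 := by
  split_ifs with h
  · rw [Complex.mul_conj', norm_cub hg h]
    norm_num
  · rw [(cub_eq_zero_iff hg).2 h, zero_mul]

open Classical in
theorem ExpA1_gk {g c₁ c₂ : O} (hg : PS g) (h₁ : Primary c₁) (h₂ : Primary c₂)
    (k₁ : IsCoprime g c₁) (k₂ : IsCoprime g c₂) {a : O} (ha : a ≠ 0) :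
    gk a (g * c₁) * conj (gk a (g * c₂)) = ∑ e ∈ pdiv g, if e ∣ a then
      mu e * (Gn c₁ * conj (Gn c₂) * (conj (cub c₁ g) * cub c₂ g)) *
        (conj (cub c₁ a) * cub c₂ a) else 0 := by
  have e1 : Gn g * conj (Gn g) = 1 := by
    rw [Complex.mul_conj', norm_Gn hg.1 hg.2]
    norm_num
  have e2 := ExpA1_cub_sq hg.1 a
  rw [← sum_mu_coprime hg.1 ha] at e2
  rw [← Finset.sum_filter, ← Finset.sum_mul, ← Finset.sum_mul, ← e2, gk, gk, Gn_mul hg.1 h₁ k₁,
    Gn_mul hg.1 h₂ k₂, cub_mul_left hg.ne_zero h₁.ne_zero, cub_mul_left hg.ne_zero h₂.ne_zero]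
  simp only [map_mul, Complex.conj_conj]
  linear_combination (cub g a * conj (cub g a) *
    (Gn c₁ * conj (Gn c₂) * (conj (cub c₁ g) * cub c₂ g)) * (conj (cub c₁ a) * cub c₂ a)) * e1

theorem ExpA1_nr_three : nr (3 : O) = 9 := by
  have : nm (3 : O) = 9 := by decide
  rw [nr, this]
  norm_num

open Classical in
/-- Poisson summation over the multiples of `e`. -/
theorem ExpA1_one {φ κ : ℝ → ℂ} (h : PP φ κ) {A : ℝ} (hA : 0 < A) {c₁ c₂ e : O} (h₁ : PS c₁)
    (h₂ : PS c₂) (hc : IsCoprime c₁ c₂) (he : Primary e) (w : ℂ) :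
    ∑' a : O, (if e ∣ a then w * (Gn c₁ * conj (Gn c₂)) *
      ((if Primary a then conj (cub c₁ a) * cub c₂ a else 0) * φ (nr a / A)) else 0) =
    ∑' k : O, w * (conj (cub c₁ e) * cub c₂ e) *
      ((A / (9 * nr e * Real.sqrt (nr c₁ * nr c₂)) : ℝ) : ℂ) * eq k 3 * cub c₁ k *
        conj (cub c₂ k) * κ (A / (9 * nr e * (nr c₁ * nr c₂)) * nr k) := by
  have he0 := nr_pos he.ne_zero
  have n₁ := nr_pos h₁.ne_zero
  have n₂ := nr_pos h₂.ne_zero
  have hq : (3 : O) * (c₁ * c₂) ≠ 0 :=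
    mul_ne_zero (by decide) (mul_ne_zero h₁.ne_zero h₂.ne_zero)
  have hP := h.eq (3 * (c₁ * c₂)) (fun x => if Primary x then conj (cub c₁ x) * cub c₂ x else 0)
    (A / nr e) hq (fun x y hxy => by
      have e1 : Primary x ↔ Primary y := by
        have h3 : (3 : O) ∣ x - y := (dvd_mul_right _ _).trans hxy
        unfold Primary
        rw [show x - 1 = (x - y) + (y - 1) by ring]
        exact (dvd_add_right h3)
      have e2 : cub c₁ x = cub c₁ y :=
        cub_congr ((rad_dvd _).trans (((dvd_mul_right _ _).mul_left _).trans hxy))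
      have e3 : cub c₂ x = cub c₂ y :=
        cub_congr ((rad_dvd _).trans (((dvd_mul_left _ _).mul_left _).trans hxy))
      simp only [e1, e2, e3])
    (if_neg fun h0 => h0.ne_zero rfl) (div_pos hA he0)
  have hN : A / nr e / nr (3 * (c₁ * c₂)) = A / (9 * nr e * (nr c₁ * nr c₂)) := by
    rw [nr_mul, nr_mul, ExpA1_nr_three]
    field_simp
  rw [hN] at hP
  rw [← (mul_right_injective₀ he.ne_zero).tsum_eq]
  · have h3 : ∀ a : O, (if e ∣ e * a then w * (Gn c₁ * conj (Gn c₂)) *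
        ((if Primary (e * a) then conj (cub c₁ (e * a)) * cub c₂ (e * a) else 0) *
          φ (nr (e * a) / A)) else 0) =
        w * (Gn c₁ * conj (Gn c₂)) * (conj (cub c₁ e) * cub c₂ e) *
          ((if Primary a then conj (cub c₁ a) * cub c₂ a else 0) * φ (nr a / (A / nr e))) := by
      intro a
      have e1 : nr (e * a) / A = nr a / (A / nr e) := by
        rw [nr_mul]
        field_simp
      rw [if_pos (dvd_mul_right _ _), e1]
      by_cases ha : Primary a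
      · rw [if_pos ha, if_pos (he.mul ha), cub_mul_right, cub_mul_right, map_mul]
        ring
      · rw [if_neg ha, if_neg fun h0 => ha (he.of_mul h0)]
        ring
    rw [tsum_congr h3, tsum_mul_left, hP, ← tsum_mul_left, ← tsum_mul_left]
    refine tsum_congr fun k => ?_
    have h4 := ft_pair3 h₁ h₂ hc k
    have h5 : ((A / (9 * nr e * Real.sqrt (nr c₁ * nr c₂)) : ℝ) : ℂ) =
        ((A / (9 * nr e * (nr c₁ * nr c₂)) : ℝ) : ℂ) * (Real.sqrt (nr c₁ * nr c₂) : ℂ) := by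
      rw [← Complex.ofReal_mul]
      congr 1
      have h6 : 0 < nr c₁ * nr c₂ := mul_pos n₁ n₂
      have h7 := Real.sqrt_pos.2 h6
      have h8 := Real.mul_self_sqrt h6.le
      generalize Real.sqrt (nr c₁ * nr c₂) = r at h7 h8
      rw [← h8]
      field_simp
    rw [h5]
    linear_combination (w * (conj (cub c₁ e) * cub c₂ e) *
      ((A / (9 * nr e * (nr c₁ * nr c₂)) : ℝ) : ℂ) *
        κ (A / (9 * nr e * (nr c₁ * nr c₂)) * nr k)) * h4
  · intro a ha
    by_contra h0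
    refine ha (if_neg ?_)
    rintro ⟨c, rfl⟩
    exact h0 ⟨c, rfl⟩

open Classical in
/-- With `g = (b₁, b₂)`, `bᵢ = g bᵢ'`: `|(a/g)₃|² = ∑_{e ∣ g, e ∣ a} μ(e)`, `a = e a'`, `Gn_mul`,
`PP.eq` with `q = 3 b₁' b₂'`, `Y = A / N e`, `ft_pair3`; `conj (e g / b')₃ = (e (g/e)² / b')₃`. -/
theorem pair_expand {φ κ : ℝ → ℂ} (h : PP φ κ) {A : ℝ} (hA : 0 < A) {b₁ b₂ : O} (h₁ : PS b₁)
    (h₂ : PS b₂) :
    ∑' a : O, (if Primary a then φ (nr a / A) * (gk a b₁ * conj (gk a b₂)) else 0) =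
      pairSum κ A (fun _ _ _ => True) b₁ b₂ := by
  have hgp := primary_pgcd b₁ b₂
  obtain ⟨d₁, d₂⟩ := (dvd_pgcd_iff h₁.ne_zero h₂.ne_zero hgp).1 dvd_rfl
  obtain ⟨hg, s₁, k₁, e₁⟩ := h₁.div ((mem_pdiv h₁.ne_zero).2 ⟨hgp, d₁⟩)
  obtain ⟨-, s₂, k₂, e₂⟩ := h₂.div ((mem_pdiv h₂.ne_zero).2 ⟨hgp, d₂⟩)
  have hc : IsCoprime (b₁ / pgcd b₁ b₂) (b₂ / pgcd b₁ b₂) := by
    have h3 := pgcd_mul_left hgp s₁.ne_zero s₂.ne_zero
    rw [e₁, e₂] at h3
    exact (pgcd_eq_one_iff s₁.1 s₂.ne_zero).1 (left_eq_mul₀ hgp.ne_zero |>.1 h3)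
  simp only [pairSum, if_true, term]
  generalize b₁ / pgcd b₁ b₂ = c₁ at s₁ k₁ e₁ hc
  generalize b₂ / pgcd b₁ b₂ = c₂ at s₂ k₂ e₂ hc
  generalize pgcd b₁ b₂ = g at hg hgp k₁ k₂ e₁ e₂
  subst e₁ e₂
  have h3 : ∀ a : O, (if Primary a then φ (nr a / A) * (gk a (g * c₁) * conj (gk a (g * c₂)))
      else 0) = ∑ e ∈ pdiv g, if e ∣ a then mu e * (conj (cub c₁ g) * cub c₂ g) *
        (Gn c₁ * conj (Gn c₂)) *
        ((if Primary a then conj (cub c₁ a) * cub c₂ a else 0) * φ (nr a / A)) else 0 := by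
    intro a
    by_cases ha : Primary a
    · rw [if_pos ha, ExpA1_gk hg s₁.1 s₂.1 k₁ k₂ ha.ne_zero, Finset.mul_sum]
      refine Finset.sum_congr rfl fun e _ => ?_
      rw [if_pos ha]
      split_ifs <;> ring
    · simp [ha]
  rw [tsum_congr h3, Summable.tsum_finsetSum]
  · refine Finset.sum_congr rfl fun e he => ?_
    obtain ⟨p₁, -, -, p₂⟩ := hg.div he
    rw [ExpA1_one h hA s₁ s₂ hc p₁.1]
    refine tsum_congr fun k => ?_
    have q₁ := ExpA1_conj c₁ e (g / e)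
    have q₂ := congrArg conj (ExpA1_conj c₂ e (g / e))
    rw [p₂, cub_mul_right c₁ e g, map_mul] at q₁
    rw [p₂, Complex.conj_conj, cub_mul_right c₂ e g] at q₂
    rw [row, cub_mul_right c₁ k, cub_mul_right c₂ k, map_mul, ← q₁, ← q₂]
    ring
  · intro e _
    refine Summable.of_norm_bounded ((h.sum₁ A hA).mul_left
      ‖mu e * (conj (cub c₁ g) * cub c₂ g) * (Gn c₁ * conj (Gn c₂))‖) fun a => ?_
    split_ifs with p₁ p₂
    · rw [norm_mul, norm_mul _ (φ _)]
      refine mul_le_mul_of_nonneg_left (mul_le_of_le_one_left (norm_nonneg _) ?_) (norm_nonneg _)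
      rw [norm_mul, Complex.norm_conj]
      exact mul_le_one₀ (norm_cub_le _ _) (norm_nonneg _) (norm_cub_le _ _)
    · rw [zero_mul, mul_zero, norm_zero]
      positivity
    · rw [norm_zero]
      positivity

end Crest.Agent.R12
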