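import Crest.Agent.R12.ExpA

/-!
# Row 12, analytic half: the dual expansion of a mean square
-/

set_option autoImplicit false

noncomputable section

namespace Crest.Agent.R12

open Crest.Agent.R17
open scoped ComplexConjugate Topology
open Filter MeasureTheory

open Classical in
theorem ExpB0_summable_pair {φ κ : ℝ → ℂ} (h : PP φ κ) {A : ℝ} (hA : 0 < A) {b₁ b₂ : O}
    (h₁ : PS b₁) (h₂ : PS b₂) :
    Summable fun a : O => if Primary a then φ (nr a / A) * (gk a b₁ * conj (gk a b₂)) else 0 := by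
  refine Summable.of_norm_bounded (h.sum₁ A hA) fun a => ?_
  split_ifs
  · rw [norm_mul, norm_mul, Complex.norm_conj]
    exact mul_le_of_le_one_right (norm_nonneg _)
      (mul_le_one₀ (norm_gk_le a h₁) (norm_nonneg _) (norm_gk_le a h₂))
  · simp

open Classical in
theorem ExpB0_pt (φ : ℝ → ℂ) (A : ℝ) (S : Finset O) (γ : O → ℂ) (a : O) :
    (if Primary a then φ (nr a / A) * ((‖TT S γ a‖ ^ 2 : ℝ) : ℂ) else 0) =
      ∑ b₁ ∈ S, ∑ b₂ ∈ S, γ b₁ * conj (γ b₂) *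
        (if Primary a then φ (nr a / A) * (gk a b₁ * conj (gk a b₂)) else 0) := by
  split_ifs
  · have : ((‖TT S γ a‖ ^ 2 : ℝ) : ℂ) = TT S γ a * conj (TT S γ a) := by
      rw [Complex.mul_conj, Complex.normSq_eq_norm_sq]
    rw [this, TT, map_sum, Finset.sum_mul_sum, Finset.mul_sum]
    refine Finset.sum_congr rfl fun b₁ _ => ?_
    rw [Finset.mul_sum]
    refine Finset.sum_congr rfl fun b₂ _ => ?_
    rw [map_mul]; ring
  · simp

open Classical in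
theorem tsum_TT {φ κ : ℝ → ℂ} (h : PP φ κ) {A : ℝ} (hA : 0 < A) {S : Finset O}
    (hS : ∀ b ∈ S, PS b) (γ : O → ℂ) :
    (Summable fun a : O => if Primary a then φ (nr a / A) * ((‖TT S γ a‖ ^ 2 : ℝ) : ℂ) else 0) ∧
    ∑' a : O, (if Primary a then φ (nr a / A) * ((‖TT S γ a‖ ^ 2 : ℝ) : ℂ) else 0) =
      RowSum κ A S γ fun _ _ _ => True := by
  have hs : ∀ b₁ ∈ S, ∀ b₂ ∈ S, Summable fun a : O => γ b₁ * conj (γ b₂) *
      (if Primary a then φ (nr a / A) * (gk a b₁ * conj (gk a b₂)) else 0) :=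
    fun b₁ h₁ b₂ h₂ => (ExpB0_summable_pair h hA (hS _ h₁) (hS _ h₂)).mul_left _
  simp only [ExpB0_pt]
  refine ⟨summable_sum fun b₁ h₁ => summable_sum fun b₂ h₂ => hs b₁ h₁ b₂ h₂, ?_⟩
  rw [Summable.tsum_finsetSum fun b₁ h₁ => summable_sum fun b₂ h₂ => hs b₁ h₁ b₂ h₂, RowSum]
  refine Finset.sum_congr rfl fun b₁ h₁ => ?_
  rw [Summable.tsum_finsetSum fun b₂ h₂ => hs b₁ h₁ b₂ h₂]
  refine Finset.sum_congr rfl fun b₂ h₂ => ?_
  rw [tsum_mul_left, pair_expand h hA (hS _ h₁) (hS _ h₂)]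

theorem rowSum_split {φ κ : ℝ → ℂ} (h : PP φ κ) {A : ℝ} (hA : 0 < A) {S : Finset O}
    (hS : ∀ b ∈ S, PS b) (γ : O → ℂ) (𝒦 P : O → O → O → Prop) :
    RowSum κ A S γ 𝒦 = RowSum κ A S γ (fun g e k => 𝒦 g e k ∧ P g e k) +
      RowSum κ A S γ (fun g e k => 𝒦 g e k ∧ ¬ P g e k) := by
  unfold RowSum
  rw [← Finset.sum_add_distrib]
  refine Finset.sum_congr rfl fun b₁ h₁ => ?_
  rw [← Finset.sum_add_distrib]
  refine Finset.sum_congr rfl fun b₂ h₂ => ?_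
  rw [pairSum_split h hA (hS _ h₁) (hS _ h₂) 𝒦 P, mul_add]

theorem rowSum_congr (κ : ℝ → ℂ) (A : ℝ) (S : Finset O) (γ : O → ℂ) {𝒦 𝒦' : O → O → O → Prop}
    (h : ∀ g e k, 𝒦 g e k ↔ 𝒦' g e k) : RowSum κ A S γ 𝒦 = RowSum κ A S γ 𝒦' := by
  unfold RowSum
  refine Finset.sum_congr rfl fun b₁ _ => Finset.sum_congr rfl fun b₂ _ => ?_
  rw [pairSum_congr κ A h]

theorem norm_rowSum_zero_le (κ : ℝ → ℂ) {A : ℝ} (hA : 0 < A) {S : Finset O} (hS : ∀ b ∈ S, PS b)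
    (γ : O → ℂ) : ‖RowSum κ A S γ fun _ _ k => k = 0‖ ≤ A * ‖κ 0‖ * N2 S γ := by
  classical
  unfold RowSum N2
  rw [Finset.mul_sum]
  refine (norm_sum_le _ _).trans (Finset.sum_le_sum fun b₁ h₁ => (norm_sum_le _ _).trans ?_)
  have : ∀ b₂ ∈ S, ‖γ b₁ * conj (γ b₂) * pairSum κ A (fun _ _ k => k = 0) b₁ b₂‖ ≤
      if b₁ = b₂ then A * ‖κ 0‖ * ‖γ b₁‖ ^ 2 else 0 := by
    intro b₂ h₂
    have h1 := norm_pairSum_zero_le κ hA (hS _ h₁) (hS _ h₂)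
    rw [norm_mul, norm_mul, Complex.norm_conj]
    split_ifs at h1 ⊢ with hb
    · subst hb
      calc ‖γ b₁‖ * ‖γ b₁‖ * ‖pairSum κ A (fun _ _ k => k = 0) b₁ b₁‖
          ≤ ‖γ b₁‖ * ‖γ b₁‖ * (A * ‖κ 0‖) := mul_le_mul_of_nonneg_left h1 (by positivity)
        _ = _ := by ring
    · exact mul_nonpos_of_nonneg_of_nonpos (by positivity) h1
  refine (Finset.sum_le_sum this).trans ?_
  rw [Finset.sum_ite_eq, if_pos h₁]

theorem summable_QQ {φ κ : ℝ → ℂ} (h : PP φ κ) {A : ℝ} (hA : 0 < A) {S : Finset O}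
    (hS : ∀ b ∈ S, PS b) (γ : O → ℂ) {g e : O} (hg : g ≠ 0) (he : e ≠ 0) (k₀ : O) :
    Summable fun k : O => ‖QQ κ A S γ g e k₀ k‖ := by
  classical
  unfold QQ
  refine Summable.norm (summable_sum fun b₁ h₁ => summable_sum fun b₂ h₂ => ?_)
  have p₁ := nr_pos (hS _ (Finset.mem_filter.1 h₁).1).ne_zero
  have p₂ := nr_pos (hS _ (Finset.mem_filter.1 h₂).1).ne_zero
  have pg := nr_pos hg
  have pe := nr_pos he
  have hρ : 0 < A * nr g ^ 2 / (9 * nr e * (nr b₁ * nr b₂)) := by positivity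
  refine Summable.of_norm_bounded (((h.sum₂ _ hρ)).mul_left
    (‖γ b₁‖ * ‖γ b₂‖ * ‖((nr g / Real.sqrt (nr b₁ * nr b₂) : ℝ) : ℂ)‖)) fun k => ?_
  rw [norm_mul, norm_mul, norm_mul, Complex.norm_conj, norm_mul, norm_mul]
  gcongr
  · exact mul_le_of_le_one_right (norm_nonneg _) (norm_cub_le _ _)
  · exact mul_le_of_le_one_right (norm_nonneg _) (norm_cub_le _ _)

end Crest.Agent.R12
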