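import Crest.Agent.R12.ExpB0

/-!
# Row 12, analytic half: the dual expansion of a mean square
-/

set_option autoImplicit false

noncomputable section

namespace Crest.Agent.R12

open Crest.Agent.R17
open scoped ComplexConjugate Topology
open Filter MeasureTheory

theorem ExpB1_mem_DS {S : Finset O} (hS : ∀ b ∈ S, PS b) {d : O} :
    d ∈ DS S ↔ Primary d ∧ ∃ b ∈ S, d ∣ b := by
  classical
  unfold DS
  rw [Finset.mem_biUnion]
  constructor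
  · rintro ⟨b, hb, hd⟩
    obtain ⟨h1, h2⟩ := (mem_pdiv (hS b hb).1.ne_zero).1 hd
    exact ⟨h1, b, hb, h2⟩
  · rintro ⟨h1, b, hb, h2⟩
    exact ⟨b, hb, (mem_pdiv (hS b hb).1.ne_zero).2 ⟨h1, h2⟩⟩

open Classical in
theorem ExpB1_mu {S : Finset O} (hS : ∀ b ∈ S, PS b) {b₁ b₂ g : O} (h₁ : b₁ ∈ S) (h₂ : b₂ ∈ S)
    (hg : Primary g) : ∑ h ∈ DS S, (if g * h ∣ b₁ ∧ g * h ∣ b₂ then mu h else 0) =
      if g = pgcd b₁ b₂ then 1 else 0 := by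
  have p₁ := (hS b₁ h₁).1
  have p₂ := (hS b₂ h₂).1
  by_cases hd : g ∣ b₁ ∧ g ∣ b₂
  · obtain ⟨⟨c₁, rfl⟩, ⟨c₂, rfl⟩⟩ := hd
    have q₁ := hg.of_mul p₁
    have q₂ := hg.of_mul p₂
    have e : (DS S).filter (fun h => g * h ∣ g * c₁ ∧ g * h ∣ g * c₂) =
        (pdiv c₁).filter (· ∣ c₂) := by
      ext h
      rw [Finset.mem_filter, Finset.mem_filter, ExpB1_mem_DS hS, mem_pdiv q₁.ne_zero,
        mul_dvd_mul_iff_left hg.ne_zero, mul_dvd_mul_iff_left hg.ne_zero]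
      exact ⟨fun h => ⟨⟨h.1.1, h.2.1⟩, h.2.2⟩,
        fun h => ⟨⟨h.1.1, _, h₁, h.1.2.mul_left g⟩, h.1.2, h.2⟩⟩
    rw [← Finset.sum_filter, e, sum_mu_coprime q₁ q₂.ne_zero,
      pgcd_mul_left hg q₁.ne_zero q₂.ne_zero]
    refine if_congr ?_ rfl rfl
    rw [← pgcd_eq_one_iff q₁ q₂.ne_zero]
    constructor
    · intro h
      rw [h, mul_one]
    · intro h
      exact mul_left_cancel₀ hg.ne_zero (by rw [← h, mul_one])
  · rw [if_neg, Finset.sum_eq_zero]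
    · intro h _
      exact if_neg fun hh => hd ⟨(dvd_mul_right g h).trans hh.1, (dvd_mul_right g h).trans hh.2⟩
    · rintro rfl
      exact hd ((dvd_pgcd_iff p₁.ne_zero p₂.ne_zero hg).1 dvd_rfl)

/-- `term` with a free `g` -/
def ExpB1_term (κ : ℝ → ℂ) (A : ℝ) (g b₁ b₂ e k : O) : ℂ :=
  mu e * ((A / (9 * nr e * Real.sqrt (nr (b₁ / g) * nr (b₂ / g))) : ℝ) : ℂ) *
    eq k 3 * cub (b₁ / g) (row g e k) * conj (cub (b₂ / g) (row g e k)) *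
    κ (A / (9 * nr e * (nr (b₁ / g) * nr (b₂ / g))) * nr k)

/-- the factor which does not depend on the columns -/
def ExpB1_c (A : ℝ) (g e h k : O) : ℂ :=
  mu e * mu h * eq k 3 * cub h (row g e k) * conj (cub h (row g e k)) * ((A / (9 * nr e) : ℝ) : ℂ)

/-- the summand of `QQ` -/
def ExpB1_U (κ : ℝ → ℂ) (A : ℝ) (γ : O → ℂ) (g e h k b₁ b₂ : O) : ℂ :=
  γ b₁ * cub (b₁ / (g * h)) (row g e k) * conj (γ b₂ * cub (b₂ / (g * h)) (row g e k)) *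
    ((nr g / Real.sqrt (nr b₁ * nr b₂) : ℝ) : ℂ) *
    κ (A * nr g ^ 2 / (9 * nr e * (nr b₁ * nr b₂)) * nr k)

theorem ExpB1_norm_c {A : ℝ} (hA : 0 < A) (g : O) {e : O} (he : e ≠ 0) (h k : O) :
    ‖ExpB1_c A g e h k‖ ≤ A / (9 * nr e) := by
  have h0 : 0 ≤ A / (9 * nr e) := by
    have := nr_pos he
    positivity
  unfold ExpB1_c
  simp only [norm_mul, norm_eq, mul_one, Complex.norm_conj, Complex.norm_real,
    Real.norm_of_nonneg h0]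
  refine mul_le_of_le_one_left h0 ?_
  refine mul_le_one₀ (mul_le_one₀ (mul_le_one₀ (norm_mu_le _) (norm_nonneg _) (norm_mu_le _))
    (norm_nonneg _) (norm_cub_le _ _)) (norm_nonneg _) (norm_cub_le _ _)

theorem ExpB1_cU (κ : ℝ → ℂ) (A : ℝ) (γ : O → ℂ) {g h b₁ b₂ : O} (hg : g ≠ 0) (hh : h ≠ 0)
    (n₁ : b₁ ≠ 0) (n₂ : b₂ ≠ 0) (d₁ : g * h ∣ b₁) (d₂ : g * h ∣ b₂) {e : O} (he : e ≠ 0) (k : O) :
    ExpB1_c A g e h k * ExpB1_U κ A γ g e h k b₁ b₂ =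
      mu h * (γ b₁ * conj (γ b₂) * ExpB1_term κ A g b₁ b₂ e k) := by
  obtain ⟨c₁, rfl⟩ := d₁
  obtain ⟨c₂, rfl⟩ := d₂
  have m₁ : c₁ ≠ 0 := right_ne_zero_of_mul n₁
  have m₂ : c₂ ≠ 0 := right_ne_zero_of_mul n₂
  have e1 : ∀ c : O, g * h * c / g = h * c := fun c => by
    rw [mul_assoc, mul_div_cancel_left₀ _ hg]
  have e2 : ∀ c : O, g * h * c / (g * h) = c := fun c => mul_div_cancel_left₀ _ (mul_ne_zero hg hh)
  have e3 : ∀ c : O, nr (g * h * c) = nr g * nr (h * c) := fun c => by rw [mul_assoc, nr_mul]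
  have pg := nr_pos hg
  have pe := nr_pos he
  have p₁ := nr_pos (mul_ne_zero hh m₁)
  have p₂ := nr_pos (mul_ne_zero hh m₂)
  have r1 : A * nr g ^ 2 / (9 * nr e * (nr g * nr (h * c₁) * (nr g * nr (h * c₂)))) =
      A / (9 * nr e * (nr (h * c₁) * nr (h * c₂))) := by
    field_simp
  have r2 : A / (9 * nr e) * (nr g / Real.sqrt (nr g * nr (h * c₁) * (nr g * nr (h * c₂)))) =
      A / (9 * nr e * Real.sqrt (nr (h * c₁) * nr (h * c₂))) := by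
    rw [show nr g * nr (h * c₁) * (nr g * nr (h * c₂)) = nr g ^ 2 * (nr (h * c₁) * nr (h * c₂)) by
      ring, Real.sqrt_mul (sq_nonneg _), Real.sqrt_sq pg.le]
    have := Real.sqrt_pos.2 (mul_pos p₁ p₂)
    field_simp
  unfold ExpB1_c ExpB1_U ExpB1_term
  rw [e1, e1, e2, e2, e3, e3, r1, ← r2, cub_mul_left hh m₁, cub_mul_left hh m₂]
  simp only [map_mul, Complex.ofReal_mul]
  ring

open Classical in
/-- the fully expanded summand -/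
def ExpB1_W (κ : ℝ → ℂ) (A : ℝ) (γ : O → ℂ) (𝒦 : O → O → O → Prop) (g e h b₁ b₂ k : O) : ℂ :=
  if 𝒦 g e k then (if g * h ∣ b₁ ∧ g * h ∣ b₂ then
    ExpB1_c A g e h k * ExpB1_U κ A γ g e h k b₁ b₂ else 0) else 0

theorem ExpB1_pair (κ : ℝ → ℂ) (A : ℝ) {S : Finset O} (hS : ∀ b ∈ S, PS b) (γ : O → ℂ)
    (𝒦 : O → O → O → Prop) {b₁ b₂ : O} (h₁ : b₁ ∈ S) (h₂ : b₂ ∈ S) :
    γ b₁ * conj (γ b₂) * pairSum κ A 𝒦 b₁ b₂ =
      ∑ g ∈ DS S, ∑ e ∈ pdiv g, ∑ h ∈ DS S, ∑' k : O, ExpB1_W κ A γ 𝒦 g e h b₁ b₂ k := by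
  classical
  have p₁ := (hS b₁ h₁).1
  have p₂ := (hS b₂ h₂).1
  have key : ∀ g ∈ DS S, ∑ e ∈ pdiv g, ∑ h ∈ DS S, ∑' k : O, ExpB1_W κ A γ 𝒦 g e h b₁ b₂ k =
      if g = pgcd b₁ b₂ then γ b₁ * conj (γ b₂) * ∑ e ∈ pdiv g,
        ∑' k : O, if 𝒦 g e k then ExpB1_term κ A g b₁ b₂ e k else 0 else 0 := fun g hg => by
    have pg := ((ExpB1_mem_DS hS).1 hg).1
    rw [← boole_mul, ← ExpB1_mu hS h₁ h₂ pg, Finset.mul_sum, Finset.mul_sum]
    refine Finset.sum_congr rfl fun e he => ?_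
    rw [Finset.sum_mul]
    refine Finset.sum_congr rfl fun h hh => ?_
    rw [← tsum_mul_left, ← tsum_mul_left]
    refine tsum_congr fun k => ?_
    unfold ExpB1_W
    split_ifs with a1 a2
    · exact ExpB1_cU κ A γ pg.ne_zero ((ExpB1_mem_DS hS).1 hh).1.ne_zero p₁.ne_zero p₂.ne_zero
        a2.1 a2.2 ((mem_pdiv pg.ne_zero).1 he).1.ne_zero k
    all_goals simp
  rw [Finset.sum_congr rfl key, Finset.sum_ite_eq', if_pos]
  · rfl
  · exact (ExpB1_mem_DS hS).2 ⟨primary_pgcd _ _, b₁, h₁,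
      ((dvd_pgcd_iff p₁.ne_zero p₂.ne_zero (primary_pgcd _ _)).1 dvd_rfl).1⟩

theorem ExpB1_summable {φ κ : ℝ → ℂ} (h : PP φ κ) {A : ℝ} (hA : 0 < A) (γ : O → ℂ)
    (𝒦 : O → O → O → Prop) {g e b₁ b₂ : O} (hg : g ≠ 0) (he : e ≠ 0) (n₁ : b₁ ≠ 0) (n₂ : b₂ ≠ 0)
    (k₀ : O) : Summable (ExpB1_W κ A γ 𝒦 g e k₀ b₁ b₂) := by
  have pg := nr_pos hg
  have pe := nr_pos he
  have p₁ := nr_pos n₁
  have p₂ := nr_pos n₂
  refine Summable.of_norm_bounded ((h.sum₂ (A * nr g ^ 2 / (9 * nr e * (nr b₁ * nr b₂)))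
    (by positivity)).mul_left (A / (9 * nr e) * (‖γ b₁‖ * ‖γ b₂‖ *
      (nr g / Real.sqrt (nr b₁ * nr b₂))))) fun k => ?_
  unfold ExpB1_W
  split_ifs
  · rw [norm_mul, mul_assoc]
    refine mul_le_mul (ExpB1_norm_c hA g he k₀ k) ?_ (norm_nonneg _) (by positivity)
    unfold ExpB1_U
    rw [norm_mul, norm_mul, norm_mul, Complex.norm_conj, norm_mul, norm_mul, Complex.norm_real,
      Real.norm_of_nonneg (by positivity)]
    gcongr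
    · exact mul_le_of_le_one_right (norm_nonneg _) (norm_cub_le _ _)
    · exact mul_le_of_le_one_right (norm_nonneg _) (norm_cub_le _ _)
  all_goals
    rw [norm_zero]
    positivity

open Classical in
theorem ExpB1_sum_W (κ : ℝ → ℂ) (A : ℝ) (S : Finset O) (γ : O → ℂ) (𝒦 : O → O → O → Prop)
    (g e h k : O) : ∑ b₁ ∈ S, ∑ b₂ ∈ S, ExpB1_W κ A γ 𝒦 g e h b₁ b₂ k =
      if 𝒦 g e k then ExpB1_c A g e h k * QQ κ A S γ g e h k else 0 := by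
  unfold ExpB1_W
  split_ifs
  · unfold QQ Sd
    rw [Finset.sum_filter, Finset.mul_sum]
    refine Finset.sum_congr rfl fun b₁ _ => ?_
    split_ifs with a1
    · rw [Finset.sum_filter, Finset.mul_sum]
      refine Finset.sum_congr rfl fun b₂ _ => ?_
      by_cases a2 : g * h ∣ b₂
      · rw [if_pos ⟨a1, a2⟩, if_pos a2]
        rfl
      · rw [if_neg fun hh => a2 hh.2, if_neg a2, mul_zero]
    · simp [a1]
  · simp

open Classical in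
/-- Sort by `g = (b₁, b₂)`, detect `(b₁/g, b₂/g) = 1` by `∑_h μ(h)` (`sum_mu_coprime`), take out
the factor `μ(e) μ(h) e(k/3) |(row/h)₃|²` of modulus `≤ 1`. -/
theorem norm_rowSum_le {φ κ : ℝ → ℂ} (h : PP φ κ) {A : ℝ} (hA : 0 < A) {S : Finset O}
    (hS : ∀ b ∈ S, PS b) (γ : O → ℂ) (𝒦 : O → O → O → Prop) :
    ‖RowSum κ A S γ 𝒦‖ ≤ ∑ g ∈ DS S, ∑ e ∈ pdiv g, ∑ k₀ ∈ DS S, A / (9 * nr e) *
      ∑' k : O, if 𝒦 g e k then ‖QQ κ A S γ g e k₀ k‖ else 0 := by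
  have e1 : RowSum κ A S γ 𝒦 = ∑ g ∈ DS S, ∑ e ∈ pdiv g, ∑ k₀ ∈ DS S, ∑ b₁ ∈ S, ∑ b₂ ∈ S,
      ∑' k : O, ExpB1_W κ A γ 𝒦 g e k₀ b₁ b₂ k := by
    unfold RowSum
    rw [Finset.sum_congr rfl fun b₁ h₁ => Finset.sum_congr rfl fun b₂ h₂ =>
      ExpB1_pair κ A hS γ 𝒦 h₁ h₂]
    rw [Finset.sum_congr rfl fun b₁ _ => Finset.sum_comm, Finset.sum_comm]
    refine Finset.sum_congr rfl fun g _ => ?_
    rw [Finset.sum_congr rfl fun b₁ _ => Finset.sum_comm, Finset.sum_comm]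
    refine Finset.sum_congr rfl fun e _ => ?_
    rw [Finset.sum_congr rfl fun b₁ _ => Finset.sum_comm, Finset.sum_comm]
  rw [e1]
  refine (norm_sum_le _ _).trans (Finset.sum_le_sum fun g hg => ?_)
  refine (norm_sum_le _ _).trans (Finset.sum_le_sum fun e he => ?_)
  refine (norm_sum_le _ _).trans (Finset.sum_le_sum fun k₀ _ => ?_)
  have ng := ((ExpB1_mem_DS hS).1 hg).1.ne_zero
  have ne := ((mem_pdiv ng).1 he).1.ne_zero
  have hs : ∀ b₁ ∈ S, ∀ b₂ ∈ S, Summable (ExpB1_W κ A γ 𝒦 g e k₀ b₁ b₂) := fun b₁ h₁ b₂ h₂ =>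
    ExpB1_summable h hA γ 𝒦 ng ne (hS b₁ h₁).1.ne_zero (hS b₂ h₂).1.ne_zero k₀
  rw [Finset.sum_congr rfl fun b₁ h₁ => (Summable.tsum_finsetSum (hs b₁ h₁)).symm,
    ← Summable.tsum_finsetSum fun b₁ h₁ => summable_sum (hs b₁ h₁)]
  simp only [ExpB1_sum_W]
  have sq : Summable fun k : O => if 𝒦 g e k then ‖QQ κ A S γ g e k₀ k‖ else 0 :=
    Summable.of_nonneg_of_le (fun k => by split_ifs <;> simp) (fun k => by split_ifs <;> simp)
      (summable_QQ h hA hS γ ng ne k₀)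
  refine tsum_of_norm_bounded (sq.hasSum.mul_left _) fun k => ?_
  split_ifs
  · rw [norm_mul]
    exact mul_le_mul_of_nonneg_right (ExpB1_norm_c hA g ne k₀ k) (norm_nonneg _)
  · simp

end Crest.Agent.R12
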