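import Crest.Agent.R12.GlueDefs
import Crest.Prelude.Def_CubicGauss

/-!
# Row 12 (Patterson): from `MainO` to the statement S0014
-/

set_option autoImplicit false

noncomputable section

namespace Crest.Agent.R12

open Crest.Agent.R17 Crest.NumberTheoryR.CubicGauss
open scoped ComplexConjugate Topology
open Filter

theorem GlueA_zeta : eisZeta * eisZeta = -1 - eisZeta := by
  have : IsCyclotomicExtension {3} ℚ EisK := CyclotomicField.isCyclotomicExtension 3 ℚ
  have hζ := IsCyclotomicExtension.zeta_spec 3 ℚ EisK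
  have h := hζ.toInteger_isPrimitiveRoot.geom_sum_eq_zero (by norm_num)
  simp only [Finset.sum_range_succ, Finset.sum_range_zero] at h
  change hζ.toInteger * hζ.toInteger = -1 - hζ.toInteger
  linear_combination h

theorem GlueA_adjoin : Algebra.adjoin ℤ {eisZeta} = ⊤ := by
  have : IsCyclotomicExtension {3} ℚ EisK := CyclotomicField.isCyclotomicExtension 3 ℚ
  exact IsCyclotomicExtension.Rat.adjoin_singleton_eq_top
    (IsCyclotomicExtension.zeta_spec 3 ℚ EisK)

theorem GlueA_equiv {η : EisR} (h : η = eisZeta ∨ η = -1 - eisZeta) :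
    ∃ e : O ≃+* EisR, e om = η := by
  have h1 : η * η = (-1 : ℤ) • (1 : EisR) + (-1 : ℤ) • η := by
    simp only [neg_smul, one_smul]
    rcases h with rfl | rfl
    · linear_combination GlueA_zeta
    · linear_combination GlueA_zeta
  let φ : O →ₐ[ℤ] EisR := QuadraticAlgebra.lift ⟨η, h1⟩
  have hφ : φ om = η := by
    change (0 : ℤ) • (1 : EisR) + (1 : ℤ) • η = η
    simp
  refine ⟨RingEquiv.ofBijective φ ⟨(injective_iff_map_eq_zero φ).2 fun z hz => ?_, fun y => ?_⟩,
    hφ⟩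
  · have h2 : φ (z * cj z) = 0 := by rw [map_mul, hz, zero_mul]
    rw [mul_cj, map_natCast, Nat.cast_eq_zero] at h2
    exact nm_eq_zero.1 h2
  · have h2 : Algebra.adjoin ℤ {eisZeta} ≤ φ.range := by
      rw [Algebra.adjoin_le_iff, Set.singleton_subset_iff]
      rcases h with h | h
      · exact ⟨om, hφ.trans h⟩
      · refine ⟨-1 - om, ?_⟩
        change φ (-1 - om) = eisZeta
        rw [map_sub, map_neg, map_one, hφ, h]
        ring
    rw [GlueA_adjoin] at h2
    exact h2 Algebra.mem_top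

theorem GlueA_coord (x : O) : x = (x.re : O) + (x.im : O) * om := by
  ext <;> simp [om]

theorem GlueA_om : om * om = -1 - om := by linear_combination om_sq_add

theorem GlueA_z (e : O ≃+* EisR) : e.symm eisZeta = om ∨ e.symm eisZeta = -1 - om := by
  have h1 : e.symm eisZeta * e.symm eisZeta = -1 - e.symm eisZeta := by
    rw [← map_mul, GlueA_zeta, map_sub, map_neg, map_one]
  have h2 : (e.symm eisZeta - om) * (e.symm eisZeta - (-1 - om)) = 0 := by
    linear_combination h1 - GlueA_om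
  rcases mul_eq_zero.1 h2 with h | h
  · exact Or.inl (sub_eq_zero.1 h)
  · exact Or.inr (sub_eq_zero.1 h)

/-- The element with coordinates `a, b` for the basis `1, z`. -/
def GlueA_c (z : O) (a b : ℤ) : O := (a : O) + (b : O) * z

theorem GlueA_e_c (e : O ≃+* EisR) (a b : ℤ) :
    eisOfCoords a b = e (GlueA_c (e.symm eisZeta) a b) := by
  simp [GlueA_c, eisOfCoords]

theorem GlueA_nm_c {z : O} (hz : z = om ∨ z = -1 - om) (a b : ℤ) :
    (nm (GlueA_c z a b) : ℤ) = a ^ 2 - a * b + b ^ 2 := by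
  rw [nm_cast]
  rcases hz with rfl | rfl
  · simp [GlueA_c, om]
  · simp [GlueA_c, om, QuadraticAlgebra.re_one, QuadraticAlgebra.im_one]
    ring

theorem GlueA_surj {z : O} (hz : z = om ∨ z = -1 - om) (x : O) : ∃ a b, x = GlueA_c z a b := by
  rcases hz with rfl | rfl
  · exact ⟨x.re, x.im, GlueA_coord x⟩
  · refine ⟨x.re - x.im, -x.im, ?_⟩
    unfold GlueA_c
    push_cast
    linear_combination GlueA_coord x

theorem GlueA_inj {z : O} (hz : z = om ∨ z = -1 - om) {a b a' b' : ℤ}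
    (h : GlueA_c z a b = GlueA_c z a' b') : a = a' ∧ b = b' := by
  have h1 : GlueA_c z (a - a') (b - b') = 0 := by
    unfold GlueA_c at h ⊢
    push_cast
    linear_combination h
  have h2 := GlueA_nm_c hz (a - a') (b - b')
  rw [h1, nm_zero] at h2
  push_cast at h2
  have h3 : b - b' = 0 := by nlinarith [sq_nonneg (2 * (a - a') - (b - b')), sq_nonneg (b - b')]
  have h4 : a - a' = 0 := by rw [h3] at h2; nlinarith
  constructor <;> linarith

theorem GlueA_dvd {z : O} (hz : z = om ∨ z = -1 - om) (N : ℕ) (a b a' b' : ℤ) :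
    (N : O) ∣ GlueA_c z a b - GlueA_c z a' b' ↔ (N : ℤ) ∣ a - a' ∧ (N : ℤ) ∣ b - b' := by
  constructor
  · rintro ⟨y, hy⟩
    obtain ⟨c, d, rfl⟩ := GlueA_surj hz y
    have h1 : GlueA_c z (a - a') (b - b') = GlueA_c z (N * c) (N * d) := by
      unfold GlueA_c at hy ⊢
      push_cast
      linear_combination hy
    obtain ⟨h2, h3⟩ := GlueA_inj hz h1
    exact ⟨⟨c, h2⟩, ⟨d, h3⟩⟩
  · rintro ⟨⟨c, hc⟩, ⟨d, hd⟩⟩
    refine ⟨GlueA_c z c d, ?_⟩
    have hc' : ((a : O) - a') = N * c := by exact_mod_cast congrArg (Int.cast : ℤ → O) hc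
    have hd' : ((b : O) - b') = N * d := by exact_mod_cast congrArg (Int.cast : ℤ → O) hd
    unfold GlueA_c
    linear_combination hc' + z * hd'

theorem GlueA_range {N : ℕ} (hN : N ≠ 0) (u : ℤ) :
    ∃! a : ℕ, a ∈ Finset.range N ∧ (N : ℤ) ∣ u - a := by
  have hN' : (0 : ℤ) < N := by omega
  have h1 := Int.emod_nonneg u hN'.ne'
  have h2 := Int.emod_lt_of_pos u hN'
  refine ⟨(u % N).toNat, ⟨Finset.mem_range.2 (by omega), ?_⟩, ?_⟩
  · rw [Int.toNat_of_nonneg h1]
    exact Int.dvd_self_sub_emod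
  · rintro a ⟨ha, c, hc⟩
    have ha' := Finset.mem_range.1 ha
    have h3 : u % N = a := by
      have : u = a + N * c := by linarith
      rw [this, Int.add_mul_emod_self_left]
      exact Int.emod_eq_of_lt (by omega) (by omega)
    rw [h3]
    simp

theorem GlueA_box {z : O} (hz : z = om ∨ z = -1 - om) {p : O} (hp : p ≠ 0) (f : O → ℂ)
    (hf : ∀ x y, p ∣ x - y → f x = f y) :
    ∑ a ∈ Finset.range (nm p), ∑ b ∈ Finset.range (nm p), f (GlueA_c z a b) =
      (nm p : ℂ) * ∑ x ∈ res p, f x := by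
  have hN : nm p ≠ 0 := fun h => hp (nm_eq_zero.1 h)
  have hcj : nm (cj p) = nm p := by
    apply Int.natCast_inj.mp; rw [nm_cast, nm_cast]; simp only [cj]; ring
  rw [← hcj, ← E2.sum_res_of_period hp (cj_ne_zero hp) f hf, hcj, ← Finset.sum_product']
  symm
  refine sum_res_param (mul_ne_zero hp (cj_ne_zero hp)) f
    (fun x y h => hf x y ((dvd_mul_right _ _).trans h)) _
    (fun ab : ℕ × ℕ => GlueA_c z ab.1 ab.2) fun x => ?_
  obtain ⟨u, v, rfl⟩ := GlueA_surj hz x
  simp only [mul_cj, GlueA_dvd hz, Finset.mem_product]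
  obtain ⟨a, ⟨ha, ha'⟩, hu⟩ := GlueA_range hN u
  obtain ⟨b, ⟨hb, hb'⟩, hv⟩ := GlueA_range hN v
  refine ⟨(a, b), ⟨⟨ha, hb⟩, ha', hb'⟩, ?_⟩
  rintro ⟨a', b'⟩ ⟨⟨h1, h2⟩, h3, h4⟩
  rw [hu a' ⟨h1, h3⟩, hv b' ⟨h2, h4⟩]

theorem GlueA_trace (σ : EisK →+* ℂ) (w : EisK) :
    ((Algebra.trace ℚ EisK w : ℝ) : ℂ) = σ w + conj (σ w) := by
  classical
  have : IsCyclotomicExtension {3} ℚ EisK := CyclotomicField.isCyclotomicExtension 3 ℚ
  have h1 := trace_eq_sum_embeddings ℂ (K := ℚ) (L := EisK) (x := w)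
  have hne : σ.toRatAlgHom ≠ ((starRingEnd ℂ).comp σ).toRatAlgHom := by
    intro h
    have h2 : σ (eisZeta : EisK) = conj (σ (eisZeta : EisK)) := by
      simpa using congrArg (fun φ : EisK →ₐ[ℚ] ℂ => φ (eisZeta : EisK)) h
    have h3 : σ (eisZeta : EisK) * σ (eisZeta : EisK) = -1 - σ (eisZeta : EisK) := by
      have := congrArg (fun t : EisR => σ (t : EisK)) GlueA_zeta
      simpa using this
    obtain ⟨r, hr⟩ := Complex.conj_eq_iff_real.1 h2.symm
    rw [hr] at h3
    have h4 : r * r = -1 - r := by exact_mod_cast h3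
    nlinarith [sq_nonneg (2 * r + 1)]
  have huniv : ({σ.toRatAlgHom, ((starRingEnd ℂ).comp σ).toRatAlgHom} :
      Finset (EisK →ₐ[ℚ] ℂ)) = Finset.univ := by
    apply Finset.eq_univ_of_card
    rw [Finset.card_pair hne, AlgHom.card, IsCyclotomicExtension.Rat.finrank 3 EisK]
    decide
  rw [← huniv, Finset.sum_pair hne] at h1
  rw [Complex.ofReal_ratCast]
  simpa using h1

theorem GlueA_cube {u : O} (h : u ^ 3 = 1) : ∃ j < 3, u = om ^ j := by
  have h2 : (u - 1) * ((u - om) * (u - om ^ 2)) = 0 := by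
    linear_combination h + (u - u ^ 2 + (om - 1) * u - (om - 1)) * om_sq_add
  rcases mul_eq_zero.1 h2 with h3 | h3
  · exact ⟨0, by norm_num, by rw [pow_zero]; exact sub_eq_zero.1 h3⟩
  rcases mul_eq_zero.1 h3 with h4 | h4
  · exact ⟨1, by norm_num, by rw [pow_one]; exact sub_eq_zero.1 h4⟩
  · exact ⟨2, by norm_num, sub_eq_zero.1 h4⟩

theorem GlueA_om_inj {i j : ℕ} (hi : i < 3) (hj : j < 3) (h : om ^ i = om ^ j) : i = j := by
  have h1 := congrArg ι h
  rw [map_pow, map_pow, ι_om] at h1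
  exact Gauss_omC.pow_inj hi hj h1

/-- A ring isomorphism compatible with the embeddings (`om ↦ ζ` or `ζ²`). -/
theorem exists_equiv_σ (σ : EisK →+* ℂ) : ∃ e : O ≃+* EisR, ∀ x, σ (e x : EisK) = ι x := by
  have h3 : σ (eisZeta : EisK) * σ (eisZeta : EisK) = -1 - σ (eisZeta : EisK) := by
    have := congrArg (fun t : EisR => σ (t : EisK)) GlueA_zeta
    simpa using this
  have h4 : (σ (eisZeta : EisK) - omC) * (σ (eisZeta : EisK) - (-1 - omC)) = 0 := by
    linear_combination h3 - omC_mul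
  have key : ∀ η : EisR, (η = eisZeta ∨ η = -1 - eisZeta) → σ (η : EisK) = omC →
      ∃ e : O ≃+* EisR, ∀ x, σ (e x : EisK) = ι x := by
    intro η h hη
    obtain ⟨e, he⟩ := GlueA_equiv h
    refine ⟨e, fun x => ?_⟩
    rw [GlueA_coord x]
    simp only [map_add, map_mul, map_intCast, he, ι_om, ← hη]
  rcases mul_eq_zero.1 h4 with h | h
  · exact key _ (Or.inl rfl) (sub_eq_zero.1 h)
  · refine key _ (Or.inr rfl) ?_
    have h5 : σ ((-1 - eisZeta : EisR) : EisK) = -1 - σ (eisZeta : EisK) := by simp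
    rw [h5, sub_eq_zero.1 h]
    ring

section
variable {σ : EisK →+* ℂ} {e : O ≃+* EisR}

theorem eisNorm_e (he : ∀ x, σ (e x : EisK) = ι x) (x : O) : eisNorm (e x) = nm x := by
  have _ := he
  rw [eisNorm, ← Ideal.absNorm_span_singleton, Ideal.absNorm_apply, Submodule.cardQuot_apply,
    ← card_quot_aux]
  refine (Nat.card_congr
    (Ideal.quotientEquiv (Ideal.span {x}) (Ideal.span {e x}) e ?_).toEquiv).symm
  rw [Ideal.map_span, Set.image_singleton]
  rfl

theorem cubicChar_e (he : ∀ x, σ (e x : EisK) = ι x) {p : O} (hp : Prime p) (hp' : Primary p)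
    (x : O) : cubicChar σ (e p) (e x) = cub p x := by
  classical
  rw [cub_prime hp hp', cubicChar, eisNorm_e he, cub1]
  have hset : {u : EisR | u ^ 3 = 1 ∧ e p ∣ e x ^ ((nm p - 1) / 3) - u} =
      ↑(((Finset.range 3).filter fun j => p ∣ x ^ ((nm p - 1) / 3) - om ^ j).image
        fun j => e (om ^ j)) := by
    ext u
    obtain ⟨v, rfl⟩ := e.surjective u
    simp only [Set.mem_ofPred_eq, Finset.coe_image, Finset.coe_filter, Finset.mem_range,
      Set.mem_image, EmbeddingLike.apply_eq_iff_eq]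
    rw [← map_pow, ← map_pow, ← map_sub, map_dvd_iff, ← map_one e, e.injective.eq_iff]
    constructor
    · rintro ⟨h1, h2⟩
      obtain ⟨j, hj, rfl⟩ := GlueA_cube h1
      exact ⟨j, ⟨hj, h2⟩, rfl⟩
    · rintro ⟨j, ⟨_, h2⟩, rfl⟩
      exact ⟨by rw [← pow_mul, mul_comm, pow_mul, om_cube, one_pow], h2⟩
  rw [hset, finsum_mem_coe_finset, Finset.sum_image, Finset.sum_filter]
  · refine Finset.sum_congr rfl fun j _ => ?_
    rw [he, map_pow, ι_om]
  · intro i hi j hj h
    simp only [Finset.coe_filter, Finset.mem_range, Set.mem_ofPred_eq] at hi hj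
    exact GlueA_om_inj hi.1 hj.1 (e.injective h)

theorem eisAddChar_e (he : ∀ x, σ (e x : EisK) = ι x) (p x : O) :
    eisAddChar (e p) (e x) = eq (lam * x) p := by
  rw [eisAddChar, GlueA_trace σ, map_div₀, he, he, eq, eC, map_mul, mul_div_assoc (ι lam)]
  congr 1
  have h3 : ((Real.sqrt 3 : ℝ) : ℂ) ≠ 0 := by
    exact_mod_cast (Real.sqrt_pos.2 (by norm_num : (0 : ℝ) < 3)).ne'
  have hl : ι lam = (Real.sqrt 3 : ℝ) * Complex.I := by
    apply Complex.ext
    · simp [ι, lam, omC]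
      norm_num
    · simp [ι, lam, omC]
      ring
  rw [hl, Complex.add_conj]
  generalize ι x / ι p = w
  have : ((Real.sqrt 3 : ℝ) * Complex.I * w).im = Real.sqrt 3 * w.re := by simp
  rw [this]
  push_cast
  field_simp
  ring

theorem cubicGaussSum_e (he : ∀ x, σ (e x : EisK) = ι x) {p : O} (hp : Prime p)
    (hp' : Primary p) : cubicGaussSum σ (e p) = Gn p := by
  rw [cubicGaussSum, eisNorm_e he]
  simp only [GlueA_e_c e, cubicChar_e he hp hp', eisAddChar_e he]
  rw [GlueA_box (GlueA_z e) hp.ne_zero (fun y => cub p y * eq (lam * y) p) fun x y h => by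
    rw [Gauss_cub_per p x y h, eq_congr (x := lam * x) (y := lam * y)
      (by rw [← mul_sub]; exact h.mul_left _)], Gn, gc, ← mul_assoc]
  have hpos := nr_pos hp.ne_zero
  have h1 : (nm p : ℝ) ^ (-(3 : ℝ) / 2) * (nm p : ℝ) = (Real.sqrt (nr p))⁻¹ := by
    rw [Real.sqrt_eq_rpow, ← Real.rpow_neg hpos.le, ← Real.rpow_add_one hpos.ne']
    norm_num
  rw [div_eq_inv_mul (∑ x ∈ res p, _), ← Complex.ofReal_inv, ← h1]
  push_cast
  ring

theorem defect_eq (he : ∀ x, σ (e x : EisK) = ι x) (l : ℤ) (X : ℕ) :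
    twistedFirstMomentDefect σ l X = ∑ p ∈ primesLe X, dfc l p := by
  classical
  have hz := GlueA_z e
  rw [twistedFirstMomentDefect, ← Finset.sum_filter]
  have hpr : ∀ y : O, IsPrimary (e y) ↔ Primary y := fun y => by
    rw [IsPrimary, Primary, ← map_one e, ← map_sub, ← map_ofNat e 3, map_dvd_iff]
  simp only [GlueA_e_c e, MulEquiv.prime_iff, hpr, eisNorm_e he]
  refine Finset.sum_bij (fun ab _ => GlueA_c (e.symm eisZeta) ab.1 ab.2) ?_ ?_ ?_ ?_
  · intro ab hab
    obtain ⟨_, h1, h2, h3⟩ := Finset.mem_filter.1 hab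
    exact Finset.mem_filter.2 ⟨mem_ball.2 h3, h1, h2⟩
  · intro ab _ ab' _ h
    obtain ⟨h1, h2⟩ := GlueA_inj hz h
    exact Prod.ext h1 h2
  · intro y hy
    obtain ⟨h3, h1, h2⟩ := Finset.mem_filter.1 hy
    obtain ⟨a, b, rfl⟩ := GlueA_surj hz y
    have h4 := mem_ball.1 h3
    have h5 := GlueA_nm_c hz a b
    have h6 : a ^ 2 - a * b + b ^ 2 ≤ X := by rw [← h5]; exact_mod_cast h4
    have key : ∀ a b : ℤ, a ^ 2 - a * b + b ^ 2 ≤ X → -(X : ℤ) ≤ a ∧ a ≤ X := by
      intro a b h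
      have h7 : 3 * a ^ 2 ≤ 4 * X := by nlinarith [sq_nonneg (2 * b - a)]
      constructor
      · by_contra hc
        push Not at hc
        have : (0 : ℤ) ≤ X := by positivity
        nlinarith
      · by_contra hc
        push Not at hc
        have : (0 : ℤ) ≤ X := by positivity
        nlinarith
    refine ⟨(a, b), Finset.mem_filter.2 ⟨Finset.mem_product.2
      ⟨Finset.mem_Icc.2 (key a b h6), Finset.mem_Icc.2 (key b a (by linarith))⟩, h1, h2, h4⟩, rfl⟩
  · intro ab hab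
    obtain ⟨_, h1, h2, _⟩ := Finset.mem_filter.1 hab
    rw [cubicGaussSum_e he h1 h2, angularChar, he, dfc, arg, neg_div]
    rfl

end

theorem s14_of_main (h : MainO) (σ : EisK →+* ℂ) (l : ℤ) :
    Tendsto (fun X : ℕ => twistedFirstMomentDefect σ l X /
        (((X : ℝ) ^ ((5 : ℝ) / 6) / Real.log (X : ℝ) : ℝ) : ℂ)) atTop (𝓝 0) := by
  obtain ⟨e, he⟩ := exists_equiv_σ σ
  simpa only [defect_eq he] using h l

end Crest.Agent.R12
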