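import Crest.Agent.R12.ThWD

/-!
# Row 12, theta half: the coefficients at the cusp `0`
-/

set_option autoImplicit false

noncomputable section

namespace Crest.Agent.R12

open Crest.Agent.R17
open scoped ComplexConjugate Topology
open Filter MeasureTheory

theorem ThSA_xis (c d : O) : xis SS c d = xi (-d) c := by
  simp [xis, SS]

theorem ThSA_eq_cj (x n : O) : eq (cj x) (cj n) = conj (eq x n) := by
  unfold eq
  rw [ι_cj, ι_cj, ← map_div₀, ← eC_neg]
  unfold eC
  rw [Complex.conj_im, Complex.neg_im]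

theorem ThSA_cj_mul (x y : O) : cj (x * y) = cj x * cj y := map_mul SymbolAux.cjE x y

theorem ThSA_cj_sub (x y : O) : cj (x - y) = cj x - cj y := map_sub SymbolAux.cjE x y

theorem ThSA_cj_dvd {x y : O} (h : x ∣ y) : cj x ∣ cj y := map_dvd SymbolAux.cjE h

theorem ThSA_cj_nine : cj 9 = 9 := map_ofNat SymbolAux.cjE 9

theorem ThSA_cj_three : cj 3 = 3 := map_ofNat SymbolAux.cjE 3

theorem ThSA_primary_cj (c : O) : Primary (cj c) ↔ Primary c :=
  ⟨fun h => by simpa only [SymbolAux.cj_cj] using SymbolAux.primary_cj h, SymbolAux.primary_cj⟩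

theorem ThSA_sum_dvd {m n : O} (hm : m ≠ 0) (hn : n ≠ 0) (f : O → ℂ)
    (hf : ∀ x y, m * n ∣ x - y → f x = f y) (h0 : ∀ x, ¬ m ∣ x → f x = 0) :
    ∑ x ∈ res (m * n), f x = ∑ y ∈ res n, f (m * y) := by
  have h00 : (0 : O) % m = 0 := EuclideanDomain.zero_mod _
  rw [sum_res_mul hm hn f hf, Finset.sum_eq_single_of_mem 0 ((mem_res hm).2 h00)]
  · simp only [zero_add]
  · intro x hx hx0
    refine Finset.sum_eq_zero fun y _ => h0 _ fun h => hx0 ?_
    have h2 : m ∣ x - 0 := by
      rw [sub_zero]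
      exact (dvd_add_left (dvd_mul_right m y)).1 h
    have h3 := mod_congr hm h2
    rwa [(mem_res hm).1 hx, h00] at h3

open Classical in
/-- `xis SS c d = xi (-d) c`; substitute `d = 9 d'`. -/
theorem Gx_SS (r c : O) :
    Gx (xis SS) r c = if Primary c then conj (cub c 9 * gc c r) else 0 := by
  unfold Gx
  simp only [ThSA_xis]
  by_cases hc : Primary c
  swap
  · simp [xi, hc]
  have hc0 := hc.ne_zero
  have h9 : (9 : O) ≠ 0 := by decide
  rw [if_neg hc0, if_pos hc, ThSA_sum_dvd h9 hc0]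
  · have e := sum_res_affine hc0 (fun x => conj (cub c 9 * (cub c x * eq (r * x) c)))
      (fun x y h => by rw [Gauss_per (Gauss_cub_per c) dvd_rfl r x y h])
      (a := -1) (isCoprime_one_left.neg_left) 0
    rw [gc, Finset.mul_sum, map_sum, ← e]
    refine Finset.sum_congr rfl fun y _ => ?_
    have h1 : (9 : O) ∣ -(9 * y) := ⟨-y, by ring⟩
    rw [xi, if_pos ⟨h1, hc⟩, show r * (9 * y) = 9 * (r * y) by ring, eq_mul_mul h9,
      show -(9 * y) = 9 * (-1 * y + 0) by ring, cub_mul_right,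
      show r * (-1 * y + 0) = -(r * y) by ring, eq_neg]
    simp only [map_mul, Complex.conj_conj, mul_assoc]
  · intro x y h
    obtain ⟨t, ht⟩ := h
    have h1 := (xiOK_xis SS).2.2 c y t
    simp only [ThSA_xis] at h1
    rw [show x = y + 9 * c * t by linear_combination ht, h1]
    congr 1
    exact eq_congr ⟨r * t, by ring⟩
  · intro x hx
    rw [xi, if_neg (fun h => hx (dvd_neg.1 h.1)), zero_mul]

theorem tt_SS_congr {r r' : O} (h : ∀ c, Primary c → gc c r = gc c r') : tt SS r = tt SS r' := by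
  have e : Gx (xis SS) r = Gx (xis SS) r' := by
    funext c
    rw [Gx_SS, Gx_SS]
    split_ifs with hc
    · rw [h c hc]
    · rfl
  rw [tt, tt, e]

theorem tt_SS_neg (r : O) : tt SS (-r) = tt SS r := by
  refine tt_SS_congr fun c hc => ?_
  rw [← mul_neg_one, gc_mul_unit hc isCoprime_one_left.neg_left, cub_neg_one, map_one, one_mul]

theorem tt_SS_lam_cube (r : O) : tt SS (lam ^ 3 * r) = tt SS r := by
  refine tt_SS_congr fun c hc => ?_
  have h1 : IsCoprime lam c := (prime_lam.irreducible.coprime_iff_not_dvd).2 hc.not_lam_dvd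
  rw [mul_comm, gc_mul_unit hc h1.pow_left, cub_pow_right, cub_pow_three hc h1.symm, map_one,
    one_mul]

theorem gc_cj (c r : O) : gc (cj c) (cj r) = conj (gc c r) := by
  by_cases hc : c = 0
  · subst hc
    have h0 : cj 0 = 0 := map_zero SymbolAux.cjE
    rw [h0, gc, gc, map_sum]
    refine Finset.sum_congr rfl fun x _ => ?_
    simp [cub, eq]
  have hc' := cj_ne_zero hc
  rw [gc, gc, map_sum, sum_res_param hc' _ (Gauss_per (Gauss_cub_per (cj c)) dvd_rfl (cj r))
    (res c) cj]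
  · refine Finset.sum_congr rfl fun x _ => ?_
    rw [cub_cj, ← ThSA_cj_mul, ThSA_eq_cj, map_mul]
  · intro x
    obtain ⟨a, ⟨ha, ha'⟩, hu⟩ := exists_unique_res hc (cj x)
    refine ⟨a, ⟨ha, ?_⟩, fun b hb => hu b ⟨hb.1, ?_⟩⟩
    · have := ThSA_cj_dvd ha'
      rwa [ThSA_cj_sub, SymbolAux.cj_cj] at this
    · have := ThSA_cj_dvd hb.2
      rwa [ThSA_cj_sub, SymbolAux.cj_cj, SymbolAux.cj_cj] at this

theorem ThSA_Gx_cj (r c : O) : Gx (xis SS) (cj r) c = conj (Gx (xis SS) r (cj c)) := by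
  rw [Gx_SS, Gx_SS]
  by_cases hc : Primary c
  · rw [if_pos hc, if_pos ((ThSA_primary_cj c).2 hc)]
    congr 1
    have h1 := gc_cj (cj c) r
    have h2 := cub_cj (cj c) 9
    rw [SymbolAux.cj_cj] at h1 h2
    rw [ThSA_cj_nine] at h2
    rw [h1, h2, map_mul]
  · rw [if_neg hc, if_neg (fun h => hc ((ThSA_primary_cj c).1 h)), map_zero]

theorem tt_SS_cj (r : O) : tt SS (cj r) = conj (tt SS r) := by
  have h1 := wd_conj (wd_comp_cj (tt_spec SS r).1)
  have h2 := (tt_spec SS (cj r)).1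
  have e : Gx (xis SS) (cj r) = fun c => conj (Gx (xis SS) r (cj c)) := funext (ThSA_Gx_cj r)
  rw [← e] at h1
  have h3 := WD.unique (polyG_Gx (xiOK_xis SS) (cj r)) h2 h1
  rw [map_div₀, Complex.conj_ofReal] at h3
  exact (div_left_inj' LimH1.k1_ne).1 h3

theorem tt_SS_three_im : (tt SS 3).im = 0 := by
  have h := tt_SS_cj 3
  rw [ThSA_cj_three] at h
  exact Complex.conj_eq_iff_im.1 h.symm

end Crest.Agent.R12
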