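import Crest.Agent.R12.GlueDefs
import Crest.Agent.R12.ThSA
import Crest.Agent.R17.FinalAuxA

/-!
# Row 12 (Patterson): cubic exponential sums and Gauss sums
-/

set_option autoImplicit false

noncomputable section

namespace Crest.Agent.R12

open Crest.Agent.R17
open scoped ComplexConjugate Topology
open Filter

/-- The cubic exponential sum. -/
def Sexp (p : ℕ) : ℂ :=
  ∑ x ∈ Finset.range p, Complex.exp (2 * Real.pi * Complex.I * ((x : ℂ) ^ 3 / (p : ℂ)))

/-- Counting cube roots with a cubic character. -/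
theorem GlueB_cube {F : Type*} [CommRing F] [IsDomain F] [Fintype F] {χ : MulChar F ℂ}
    (h3 : orderOf χ = 3) (f : F → ℂ) : ∑ x, f (x ^ 3) = ∑ y, f y * (1 + χ y + χ y ^ 2) := by
  classical
  have hu : ∀ y : F, y ≠ 0 → χ y ^ 3 = 1 := fun y hy => by
    obtain ⟨b, hb⟩ := (Finite.isField_of_domain F).mul_inv_cancel hy
    rw [← χ.pow_apply' three_ne_zero, ← h3, pow_orderOf_eq_one,
      MulChar.one_apply (IsUnit.of_mul_eq_one b hb)]
  set w : F → ℕ := fun y => if y = 0 then 1 else if χ y = 1 then 3 else 0 with hw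
  have h1 : ∀ y, (w y : ℂ) = 1 + χ y + χ y ^ 2 := fun y => by
    simp only [hw]
    split_ifs with a b
    · simp [a, χ.map_nonunit not_isUnit_zero]
    · rw [b]; norm_num
    · refine (mul_left_cancel₀ (sub_ne_zero.2 b) ?_).symm
      push_cast
      linear_combination hu y a
  have h2 : ∀ y ∈ Finset.univ, (Finset.univ.filter fun x : F => x ^ 3 = y).card ≤ w y := by
    intro y _
    simp only [hw]
    split_ifs with a b
    · refine Finset.card_le_one.2 fun x hx z hz => ?_
      rw [Finset.mem_filter, a, pow_eq_zero_iff three_ne_zero] at hx hz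
      rw [hx.2, hz.2]
    · refine le_trans (Finset.card_le_card fun x hx => ?_)
        ((Multiset.toFinset_card_le _).trans (Polynomial.card_nthRoots 3 y))
      rw [Multiset.mem_toFinset, Polynomial.mem_nthRoots three_pos]
      exact (Finset.mem_filter.1 hx).2
    · rw [Nat.le_zero, Finset.card_eq_zero, Finset.filter_eq_empty_iff]
      rintro x - rfl
      exact b (by rw [map_pow, hu x fun h => a (by rw [h, zero_pow three_ne_zero])])
  have h4 : ∑ y, (Finset.univ.filter fun x : F => x ^ 3 = y).card = ∑ y, w y := by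
    rw [← Finset.card_eq_sum_card_fiberwise (f := fun x : F => x ^ 3) (s := Finset.univ)
      (t := Finset.univ) fun _ _ => Finset.mem_univ _]
    have a1 : ∑ y, χ y = 0 := MulChar.sum_eq_zero_of_ne_one (by rintro rfl; simp at h3)
    have a2 : ∑ y, (χ ^ 2) y = 0 := MulChar.sum_eq_zero_of_ne_one
      (pow_ne_one_of_lt_orderOf two_ne_zero (by omega))
    simp only [χ.pow_apply' two_ne_zero] at a2
    apply Nat.cast_injective (R := ℂ)
    simp [h1, Finset.sum_add_distrib, a1, a2]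
  have h5 := (Finset.sum_eq_sum_iff_of_le h2).1 h4
  rw [← Finset.sum_fiberwise Finset.univ (fun x : F => x ^ 3)]
  refine Finset.sum_congr rfl fun y hy => ?_
  rw [Finset.sum_congr rfl (g := fun _ => f y) fun x hx => by rw [(Finset.mem_filter.1 hx).2],
    Finset.sum_const, h5 y hy, nsmul_eq_mul, h1, mul_comm]

theorem GlueB_gc_neg {π : O} (hp' : Primary π) (k : O) : gc π (-k) = gc π k := by
  rw [← mul_neg_one, gc_mul_unit hp' isCoprime_one_left.neg_left, cub_neg_one, map_one, one_mul]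

theorem GlueB_ne_cj {π : O} (hp : Prime π) (hp' : Primary π) (hn : (nm π).Prime) : π ≠ cj π := by
  obtain ⟨ρ, -, -, -, h, h'⟩ := FinalA.fiber_split hn (nm_prime_mod hp hp')
  rcases h' π hp hp' dvd_rfl with rfl | rfl
  · exact h
  · rw [SymbolAux.cj_cj]
    exact h.symm

theorem GlueB_sum {π : O} (hp : Prime π) (hp' : Primary π) (hn : (nm π).Prime) {k : O}
    (hk : ¬ π ∣ k) :
    ∑ a ∈ Finset.range (nm π), eq (k * (a : O) ^ 3) π = gc π k + conj (gc π k) := by
  classical
  obtain ⟨χ, h3, hχ⟩ := exists_mulChar_cub hp hp'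
  have := Fact.mk hp.ne_zero
  let _ := Fintype.ofFinite (O ⧸ Ideal.span {π})
  have := (Ideal.span_singleton_prime hp.ne_zero).2 hp
  obtain ⟨ψ, hψ⟩ : ∃ ψ : O ⧸ Ideal.span {π} → ℂ,
      ∀ x, ψ (Ideal.Quotient.mk _ x) = eq (k * x) π :=
    ⟨fun y => eq (k * y.out) π, fun x => eq_congr (by
      rw [← mul_sub]
      exact (mk_eq_mk_iff.1 (Ideal.Quotient.mk_out _)).mul_left k)⟩
  have hinj : Set.InjOn (fun a : ℕ => Ideal.Quotient.mk (Ideal.span {π}) (a : O))
      (Finset.range (nm π)) := fun a ha b hb h => by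
    have h1 := nm_dvd_of_dvd (mk_eq_mk_iff.1 h)
    have h2 : (nm ((a : O) - b) : ℤ) = ((a : ℤ) - b) ^ 2 := by
      rw [nm_cast]; simp
    have h4 : (nm π : ℤ) ∣ (a : ℤ) - b :=
      (Nat.prime_iff_prime_int.1 hn).dvd_of_dvd_pow (h2 ▸ Int.natCast_dvd_natCast.2 h1)
    simp only [Finset.coe_range, Set.mem_Iio] at ha hb
    have := Int.eq_zero_of_abs_lt_dvd h4 (abs_lt.2 ⟨by omega, by omega⟩)
    omega
  have himg : (Finset.range (nm π)).image
      (fun a : ℕ => Ideal.Quotient.mk (Ideal.span {π}) (a : O)) = Finset.univ :=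
    Finset.eq_univ_of_card _ (by
      rw [Finset.card_image_of_injOn hinj, Finset.card_range, ← Nat.card_eq_fintype_card,
        card_quot hp.ne_zero])
  have h4 := GlueB_cube h3 ψ
  rw [← sum_res_eq_quot hp.ne_zero (fun y => ψ y * (1 + χ y + χ y ^ 2)), ← himg,
    Finset.sum_image hinj] at h4
  simp only [← map_pow, hψ, hχ, mul_add, mul_one, Finset.sum_add_distrib] at h4
  rw [h4, sum_res_eq_char hp.ne_zero, if_neg hk, zero_add]
  congr 1
  · exact Finset.sum_congr rfl fun x _ => mul_comm _ _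
  · rw [← GlueB_gc_neg hp', gc, map_sum]
    refine Finset.sum_congr rfl fun x _ => ?_
    rw [map_mul, conj_cub, ← eq_neg, neg_mul, neg_neg, mul_comm]

/-- `S(p) = g(χ) + g(conj χ)`; `0, …, p - 1` is a residue system modulo `π`,
`Tr (x / π) = x Tr(π) / p` and `(Tr π / π)₃ = (conj π / π)₃ = 1`. -/
theorem Sexp_eq {π : O} (hp : Prime π) (hp' : Primary π) (hn : (nm π).Prime) :
    Sexp (nm π) = (Real.sqrt (nr π) : ℂ) * (Gn π + Gn (cj π)) := by
  have hc := SymbolAux.prime_cj hp
  have hc' := SymbolAux.primary_cj hp'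
  have hnd : ¬ π ∣ cj π := fun h => GlueB_ne_cj hp hp' hn (BasicB.eq_of_dvd hp hc hp' hc' h)
  have hτ : ((2 * π.re - π.im : ℤ) : O) = π + cj π := by
    ext
    · simp only [cj, QuadraticAlgebra.re_intCast, QuadraticAlgebra.re_add, Int.cast_id]; ring
    · simp only [cj, QuadraticAlgebra.im_intCast, QuadraticAlgebra.im_add]; ring
  have him : ∀ z : ℤ, (lam * z * cj π).im = z * (2 * π.re - π.im) := fun z => by
    simp only [cj, lam, QuadraticAlgebra.im_mul, QuadraticAlgebra.re_mul,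
      QuadraticAlgebra.re_intCast, QuadraticAlgebra.im_intCast, Int.cast_id]
    ring
  generalize 2 * π.re - π.im = τ at hτ him
  have hpd : π ∣ ((nm π : ℤ) : O) := by
    rw [Int.cast_natCast, ← mul_cj]; exact dvd_mul_right _ _
  have hτ' : ¬ π ∣ (τ : O) := fun h => hnd ((dvd_add_right dvd_rfl).1 (hτ ▸ h))
  obtain ⟨v, u, huv⟩ : IsCoprime (nm π : ℤ) τ :=
    (Nat.prime_iff_prime_int.1 hn).coprime_iff_not_dvd.2 fun h =>
      hτ' (hpd.trans (map_dvd (Int.castRingHom O) h))
  have hcub : cub π τ = 1 := by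
    have h1 : cub π τ = cub π (cj π) := Gauss_cub_per π _ _ (by rw [hτ]; simp)
    have h2 := cub_cj π (cj π)
    rw [SymbolAux.cj_cj, ← cub_recip hp' hc', conj_cub] at h2
    have h3 : cub π (cj π) ≠ 0 := fun h =>
      (cub_eq_zero_iff hp').1 h (hp.coprime_iff_not_dvd.2 hnd)
    rw [h1]
    exact mul_left_cancel₀ h3 (by rw [← sq, ← h2, mul_one])
  have hd : π ∣ lam * u * τ - lam := by
    have : lam * u * τ - lam = ((nm π : ℤ) : O) * (-lam * v) := by
      have h := congrArg (Int.cast : ℤ → O) huv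
      push_cast at h ⊢
      linear_combination lam * h
    exact this ▸ hpd.mul_right _
  have hg : gc π (lam * u) = gc π lam := by
    have h1 := gc_mul_unit hp' (hp.coprime_iff_not_dvd.2 hτ').symm (lam * u)
    rw [hcub, map_one, one_mul] at h1
    rw [← h1]
    exact Finset.sum_congr rfl fun x _ => by
      rw [eq_congr (show π ∣ lam * u * τ * x - lam * x from sub_mul _ _ x ▸ hd.mul_right x)]
  have hk : ¬ π ∣ lam * u := fun h => hp'.not_lam_dvd
    (hp.associated_of_dvd prime_lam ((dvd_sub_right (h.mul_right τ)).1 hd)).symm.dvd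
  have hs : (Real.sqrt (nr π) : ℂ) ≠ 0 := by
    exact_mod_cast (Real.sqrt_pos.2 (nr_pos hp.ne_zero)).ne'
  have hl : cj (-lam) = lam := by ext <;> simp [cj, lam]
  have hcj : gc (cj π) lam = conj (gc π lam) := by
    rw [← GlueB_gc_neg hp', ← gc_cj, hl]
  have h5 := GlueB_sum hp hp' hn hk
  rw [hg, ← hcj] at h5
  rw [Gn, Gn, nr, nr, SymbolAux.nm_cj, ← add_div, mul_div_cancel₀ _ hs, ← h5, Sexp]
  refine Finset.sum_congr rfl fun a _ => ?_
  have h6 : lam * u * (a : O) ^ 3 = lam * ((u * (a : ℤ) ^ 3 : ℤ) : O) := by push_cast; ring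
  have h7 : ((nm π : ℕ) : ℂ) ≠ 0 := by exact_mod_cast hn.ne_zero
  rw [eq_eq_exp hp.ne_zero, h6, him, Complex.exp_eq_exp_iff_exists_int]
  refine ⟨v * (a : ℤ) ^ 3, ?_⟩
  have h := congrArg (Int.cast : ℤ → ℂ) huv
  push_cast at h ⊢
  field_simp
  linear_combination (-(a : ℂ) ^ 3) * h

open Classical in
/-- Splitting a sum over the primary primes of prime norm into fibres (`FinalA.fiber_split`). -/
theorem sum_split_primes (X : ℕ) (f : O → ℂ) (g : ℕ → ℂ)
    (h : ∀ π, Prime π → Primary π → (nm π).Prime → f π + f (cj π) = g (nm π)) :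
    ∑ π ∈ (primesLe X).filter (fun π => (nm π).Prime), f π =
      ∑ p ∈ (Nat.primesBelow (X + 1)).filter (fun p => p % 3 = 1), g p := by
  rw [← Finset.sum_fiberwise_of_maps_to (g := nm)
    (t := (Nat.primesBelow (X + 1)).filter (fun p => p % 3 = 1)) fun π hπ => ?_]
  · refine Finset.sum_congr rfl fun p hp => ?_
    rw [Finset.mem_filter, Nat.mem_primesBelow] at hp
    obtain ⟨⟨h1, h2⟩, h3⟩ := hp
    obtain ⟨π, a, b, rfl, d, e⟩ := FinalA.fiber_split h2 h3
    rw [← h π a b h2, ← Finset.sum_pair d]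
    refine Finset.sum_congr ?_ fun _ _ => rfl
    ext q
    simp only [primesLe, Finset.mem_filter, mem_ball, Finset.mem_insert, Finset.mem_singleton]
    refine ⟨fun hq => e q hq.1.1.2.1 hq.1.1.2.2 hq.2.symm.dvd, ?_⟩
    rintro (rfl | rfl)
    · exact ⟨⟨⟨by omega, a, b⟩, h2⟩, rfl⟩
    · rw [SymbolAux.nm_cj]
      exact ⟨⟨⟨by omega, SymbolAux.prime_cj a, SymbolAux.primary_cj b⟩, h2⟩, rfl⟩
  · simp only [primesLe, Finset.mem_filter, mem_ball, Nat.mem_primesBelow] at hπ ⊢
    exact ⟨⟨by omega, hπ.2⟩, nm_prime_mod hπ.1.2.1 hπ.1.2.2⟩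

open Classical in
/-- The inert primes are few (`FinalA.fiber_inert`). -/
theorem card_inert_le (X : ℕ) :
    (((primesLe X).filter (fun π => ¬ (nm π).Prime)).card : ℝ) ≤ Real.sqrt X := by
  have h : (primesLe X).filter (fun π => ¬ (nm π).Prime) ⊆
      (Finset.Icc 1 (Nat.sqrt X)).image fun l : ℕ => -(l : O) := fun π hπ => by
    simp only [primesLe, Finset.mem_filter, mem_ball] at hπ
    obtain ⟨⟨h1, a, b⟩, h2⟩ := hπ
    obtain ⟨l, hl, hd⟩ := Nat.exists_prime_and_dvd (n := nm π) fun h =>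
      a.not_isUnit (isUnit_iff_nm.2 h)
    have h3 := nm_prime_mod a b
    have h4 : l % 3 ≠ 0 := fun h => by
      have := (Nat.dvd_of_mod_eq_zero h).trans hd
      omega
    have h5 : l % 3 ≠ 1 := fun h => by
      obtain ⟨ρ, -, -, c, -, e⟩ := FinalA.fiber_split hl h
      rcases e π a b hd with rfl | rfl
      · exact h2 (c ▸ hl)
      · exact h2 (by rw [SymbolAux.nm_cj, c]; exact hl)
    have h6 := (FinalA.fiber_inert hl (by omega)).2.2 π a b hd
    rw [h6, nm_neg, nm_natCast] at h1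
    exact Finset.mem_image.2 ⟨l, Finset.mem_Icc.2 ⟨hl.one_lt.le, Nat.le_sqrt'.2 h1⟩, h6.symm⟩
  have h2 := (Finset.card_le_card h).trans Finset.card_image_le
  rw [Nat.card_Icc, Nat.add_sub_cancel] at h2
  exact (Nat.cast_le.2 h2).trans Real.nat_sqrt_le_real_sqrt

end Crest.Agent.R12
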