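import Crest.Agent.R12.GlueB
import Crest.Agent.Lib.PNT.Main

/-!
# Row 12 (Patterson): from `MainO` to the statement S0013
-/

set_option autoImplicit false

noncomputable section

namespace Crest.Agent.R12

open Crest.Agent.R17
open scoped ComplexConjugate Topology
open Filter

namespace GlueC

open Finset

theorem abel_le {d f : ℕ → ℝ} {C : ℝ} (hf : Antitone f) (h0 : ∀ n, 0 ≤ f n)
    (hd : ∀ N, ∑ n ∈ range N, d n ≤ C) (N : ℕ) : ∑ n ∈ range N, d n * f n ≤ C * f 0 := by
  have key : ∀ N, ∑ n ∈ range N, d n * f n ≤ C * f 0 + (∑ n ∈ range N, d n - C) * f N := by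
    intro N
    induction N with
    | zero => simp
    | succ N ih =>
      have h1 := mul_le_mul_of_nonpos_left (hf (Nat.le_succ N)) (sub_nonpos.2 (hd (N + 1)))
      rw [sum_range_succ] at h1 ⊢
      rw [sum_range_succ]
      linarith
  linarith [key N, mul_nonpos_of_nonpos_of_nonneg (sub_nonpos.2 (hd N)) (h0 N)]

/-- partial summation against a decreasing weight -/
theorem wt_tendsto {a f : ℕ → ℝ} {c : ℝ} (hf : Antitone f) (h0 : ∀ n, 0 ≤ f n)
    (hF : Tendsto (fun N => ∑ n ∈ range N, f n) atTop atTop)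
    (hA : Tendsto (fun N : ℕ => (∑ n ∈ range N, a n) / N) atTop (𝓝 c)) :
    Tendsto (fun N => (∑ n ∈ range N, a n * f n) / ∑ n ∈ range N, f n) atTop (𝓝 c) := by
  refine Metric.tendsto_nhds.2 fun ε hε => ?_
  obtain ⟨N₀, hN₀⟩ := eventually_atTop.1 (Metric.tendsto_nhds.1 hA (ε / 2) (by positivity))
  set C := ∑ N ∈ range (N₀ + 1), |∑ n ∈ range N, a n - c * N| with hC
  have hb : ∀ N : ℕ, |∑ n ∈ range N, a n - c * N| ≤ ε / 2 * N + C := fun N => by
    have hC0 : 0 ≤ C := sum_nonneg fun _ _ => abs_nonneg _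
    rcases le_or_gt N N₀ with H | H
    · have := single_le_sum (f := fun N : ℕ => |∑ n ∈ range N, a n - c * N|)
        (fun _ _ => abs_nonneg _) (mem_range.2 (Nat.lt_succ_of_le H))
      have : 0 ≤ ε / 2 * N := by positivity
      linarith
    · have hN : (0 : ℝ) < N := by exact_mod_cast (Nat.zero_le _).trans_lt H
      have h1 := hN₀ N H.le
      rw [Real.dist_eq, div_sub' hN.ne', abs_div, abs_of_pos hN, div_lt_iff₀ hN, mul_comm (N : ℝ)]
        at h1
      linarith
  filter_upwards [hF.eventually_gt_atTop 0, hF.eventually_gt_atTop (C * f 0 / (ε / 2))]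
    with N h1 h2
  have h3 := abel_le (d := fun n => a n - c - ε / 2) (C := C) hf h0 (fun N => by
    simp only [sum_sub_distrib, sum_const, card_range, nsmul_eq_mul]
    linarith [(abs_le.1 (hb N)).2]) N
  have h4 := abel_le (d := fun n => c - a n - ε / 2) (C := C) hf h0 (fun N => by
    simp only [sum_sub_distrib, sum_const, card_range, nsmul_eq_mul]
    linarith [(abs_le.1 (hb N)).1]) N
  simp only [sub_mul, sum_sub_distrib, ← mul_sum] at h3 h4
  rw [div_lt_iff₀ (by positivity)] at h2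
  rw [Real.dist_eq, div_sub' h1.ne', abs_div, abs_of_pos h1, div_lt_iff₀ h1, abs_lt]
  constructor <;> linarith

/-- Stolz–Cesàro -/
theorem stolz {u f : ℕ → ℝ} {c : ℝ} (h0 : ∀ n, 0 < f n)
    (hF : Tendsto (fun N => ∑ n ∈ range N, f n) atTop atTop)
    (hu : Tendsto (fun n => u n / f n) atTop (𝓝 c)) :
    Tendsto (fun N => (∑ n ∈ range N, u n) / ∑ n ∈ range N, f n) atTop (𝓝 c) := by
  have h1 : (fun n => u n - c * f n) =o[atTop] f := by
    refine (Asymptotics.isLittleO_iff_tendsto fun n h => absurd h (h0 n).ne').2 ?_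
    have := hu.sub_const c
    rw [sub_self] at this
    refine this.congr fun n => ?_
    rw [sub_div, mul_div_cancel_right₀ _ (h0 n).ne']
  have h2 := (h1.sum_range (fun n => (h0 n).le) hF).tendsto_div_nhds_zero.add_const c
  rw [zero_add] at h2
  refine h2.congr' ?_
  filter_upwards [hF.eventually_gt_atTop 0] with N hN
  rw [sum_sub_distrib, ← mul_sum, sub_div, mul_div_cancel_right₀ _ hN.ne', sub_add_cancel]

/-- the weight -/
def ph (x : ℝ) : ℝ := x ^ (-(1 / 6 : ℝ)) / Real.log x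

/-- the main term -/
def G (x : ℝ) : ℝ := x ^ ((5 : ℝ) / 6) / Real.log x

theorem ph_pos {x : ℝ} (hx : 1 < x) : 0 < ph x :=
  div_pos (Real.rpow_pos_of_pos (by linarith) _) (Real.log_pos hx)

theorem ph_anti {x y : ℝ} (hx : 1 < x) (hxy : x ≤ y) : ph y ≤ ph x :=
  div_le_div₀ (Real.rpow_nonneg (by linarith) _)
    (Real.rpow_le_rpow_of_nonpos (by linarith) hxy (by norm_num)) (Real.log_pos hx)
    (Real.log_le_log (by linarith) hxy)

theorem le_ph {x : ℝ} (hx : 1 < x) : 5 / 6 / x ≤ ph x := by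
  have h0 : 0 < x := by linarith
  have h1 := Real.log_le_rpow_div h0.le (show (0 : ℝ) < 5 / 6 by norm_num)
  have h2 : x ^ (-(1 / 6 : ℝ)) * x = x ^ ((5 : ℝ) / 6) := by
    rw [← Real.rpow_add_one h0.ne']
    norm_num
  rw [ph, div_le_div_iff₀ h0 (Real.log_pos hx), h2]
  linarith

theorem tendsto_F : Tendsto (fun N => ∑ n ∈ range N, ph ((n : ℝ) + 2)) atTop atTop := by
  refine tendsto_atTop_mono (fun N => ?_)
    (Real.tendsto_sum_range_one_div_nat_succ_atTop.const_mul_atTop (show (0 : ℝ) < 5 / 12 by norm_num))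
  rw [mul_sum]
  refine sum_le_sum fun n _ => le_trans ?_ (le_ph (by linarith [n.cast_nonneg (α := ℝ)]))
  rw [mul_one_div, div_le_div_iff₀ (by positivity) (by positivity)]
  linarith [n.cast_nonneg (α := ℝ)]

theorem tendsto_ratio : Tendsto (fun x : ℝ => (G (x + 1) - G x) / ph (x + 1)) atTop (𝓝 (5 / 6)) := by
  have h1 : Tendsto (fun x : ℝ => x * ((1 + x⁻¹) ^ (1 / 6 : ℝ) - 1)) atTop (𝓝 (1 / 6)) := by
    have := (Real.hasDerivAt_rpow_const (x := 1) (p := 1 / 6)
      (Or.inl one_ne_zero)).tendsto_slope_zero_right.comp tendsto_inv_atTop_nhdsGT_zero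
    simpa only [Function.comp_def, inv_inv, smul_eq_mul, Real.one_rpow, mul_one] using this
  have h2 : Tendsto (fun x : ℝ => (1 + x⁻¹) ^ (1 / 6 : ℝ)) atTop (𝓝 1) := by
    have := (tendsto_inv_atTop_zero.const_add (1 : ℝ)).rpow_const (p := 1 / 6)
      (Or.inr (by norm_num))
    simpa only [add_zero, Real.one_rpow] using this
  have h3 := Real.tendsto_mul_log_one_add_div_atTop 1
  have h4 := Real.tendsto_log_atTop.inv_tendsto_atTop
  have h5 := (h1.const_sub 1).sub ((h2.mul h3).mul h4)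
  rw [show (1 : ℝ) - 1 / 6 - 1 * 1 * 0 = 5 / 6 by norm_num] at h5
  refine h5.congr' ?_
  filter_upwards [eventually_gt_atTop 1] with x hx
  have h0 : 0 < x := by linarith
  have hl := Real.log_pos hx
  have hl' : 0 < Real.log (x + 1) := Real.log_pos (by linarith)
  have e1 : x + 1 = x * (1 + x⁻¹) := by field_simp
  have e2 : Real.log (1 + 1 / x) = Real.log (x + 1) - Real.log x := by
    rw [e1, Real.log_mul h0.ne' (by positivity), one_div]
    ring
  have e3 : (x + 1) ^ (-(1 / 6 : ℝ)) = ((x + 1) ^ (1 / 6 : ℝ))⁻¹ := Real.rpow_neg (by linarith) _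
  have e4 : (x + 1) ^ ((5 : ℝ) / 6) * (x + 1) ^ (1 / 6 : ℝ) = x + 1 := by
    rw [← Real.rpow_add (by linarith)]
    norm_num
  have e5 : x ^ ((5 : ℝ) / 6) * (x + 1) ^ (1 / 6 : ℝ) = x * (1 + x⁻¹) ^ (1 / 6 : ℝ) := by
    rw [e1, Real.mul_rpow h0.le (by positivity), ← mul_assoc, ← Real.rpow_add h0]
    norm_num
  have e6 : (G (x + 1) - G x) / ph (x + 1) =
      (x + 1) ^ ((5 : ℝ) / 6) * (x + 1) ^ (1 / 6 : ℝ) -
        x ^ ((5 : ℝ) / 6) * (x + 1) ^ (1 / 6 : ℝ) * (Real.log (x + 1) / Real.log x) := by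
    have : 0 < (x + 1) ^ (1 / 6 : ℝ) := by positivity
    rw [G, G, ph, e3]
    field_simp
  rw [e6, e4, e5, e2, Pi.inv_apply]
  field_simp
  ring

theorem tendsto_sqrt_div : Tendsto (fun X : ℕ => Real.sqrt X / G X) atTop (𝓝 0) := by
  have h := (isLittleO_log_rpow_atTop (show (0 : ℝ) < 1 / 3 by norm_num)).tendsto_div_nhds_zero
  refine (h.congr' ?_).comp tendsto_natCast_atTop_atTop (g := fun x : ℝ => Real.sqrt x / G x)
  filter_upwards [eventually_gt_atTop 1] with x hx
  have h0 : 0 < x := by linarith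
  have e : x ^ ((5 : ℝ) / 6) = Real.sqrt x * x ^ (1 / 3 : ℝ) := by
    rw [Real.sqrt_eq_rpow, ← Real.rpow_add h0]
    norm_num
  have : 0 < Real.sqrt x := Real.sqrt_pos.2 h0
  rw [G, e]
  field_simp

end GlueC

open GlueC Finset in
/-- Prime number theorem modulo `3` and partial summation. -/
theorem tendsto_sum_rpow : Tendsto (fun X : ℕ =>
    (∑ p ∈ (Nat.primesBelow (X + 1)).filter (fun p => p % 3 = 1), (p : ℝ) ^ (-(1 / 6 : ℝ))) /
      ((X : ℝ) ^ ((5 : ℝ) / 6) / Real.log (X : ℝ))) atTop (𝓝 (3 / 5)) := by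
  set a : ℕ → ℝ := fun n => if n.Prime ∧ n % 3 = 1 then Real.log n else 0 with ha
  have hsum : ∀ (N : ℕ) (g : ℕ → ℝ), ∑ n ∈ range N, (if (n + 2).Prime ∧ (n + 2) % 3 = 1 then
      g (n + 2) else 0) = ∑ p ∈ (Nat.primesBelow (N + 2)).filter (fun p => p % 3 = 1), g p := by
    intro N g
    rw [Nat.primesBelow, filter_filter, sum_filter, sum_range_succ', sum_range_succ']
    simp [Nat.not_prime_one, Nat.not_prime_zero]
  have hA : Tendsto (fun N : ℕ => (∑ n ∈ range N, a (n + 2)) / N) atTop (𝓝 (1 / 2)) := by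
    have h1 := (Crest.Agent.Lib.PNT.thetaAP_tendsto (q := 3) (a := 1) isUnit_one).comp
      (tendsto_natCast_atTop_atTop.comp (tendsto_add_atTop_nat 1))
    have h2 := h1.div (tendsto_natCast_div_add_atTop (1 : ℝ)) one_ne_zero
    rw [show ((Nat.totient 3 : ℕ) : ℝ)⁻¹ / 1 = 1 / 2 by
      rw [Nat.totient_prime Nat.prime_three]; norm_num] at h2
    refine h2.congr' ?_
    filter_upwards [eventually_gt_atTop 0] with N hN
    have hN' : (0 : ℝ) < N := by exact_mod_cast hN
    have e : (Icc 1 (N + 1)).filter (fun p : ℕ => p.Prime ∧ (p : ZMod 3) = 1) =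
        (Nat.primesBelow (N + 2)).filter (fun p => p % 3 = 1) := by
      ext p
      simp only [mem_filter, mem_Icc, Nat.mem_primesBelow]
      have : (p : ZMod 3) = 1 ↔ p % 3 = 1 := by
        rw [← Nat.cast_one (R := ZMod 3), ZMod.natCast_eq_natCast_iff']
      rw [this]
      exact ⟨fun h => ⟨⟨by omega, h.2.1⟩, h.2.2⟩, fun h => ⟨⟨h.1.2.pos, by omega⟩, h.1.2, h.2⟩⟩
    simp only [Pi.div_apply, Function.comp_apply, Nat.floor_natCast, e, ha]
    rw [hsum N fun n => Real.log n]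
    push_cast
    field_simp
  have hpos : ∀ n : ℕ, (1 : ℝ) < n + 2 := fun n => by linarith [n.cast_nonneg (α := ℝ)]
  have h1 := wt_tendsto (f := fun n => ph ((n : ℝ) + 2))
    (fun m n h => ph_anti (hpos m) (by linarith [Nat.cast_le (α := ℝ).2 h]))
    (fun n => (ph_pos (hpos n)).le) tendsto_F hA
  have h2 := stolz (u := fun n : ℕ => G ((n + 1 : ℕ) + 1) - G (n + 1)) (c := 5 / 6)
    (fun n => ph_pos (hpos n)) tendsto_F (by
      refine (tendsto_ratio.comp (tendsto_atTop_add_const_right _ 1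
        tendsto_natCast_atTop_atTop)).congr fun n => ?_
      simp only [Function.comp_apply, Nat.cast_add, Nat.cast_one]
      rw [show (n : ℝ) + 1 + 1 = n + 2 by ring])
  have h3 := h1.div h2 (by norm_num)
  rw [show (1 / 2 : ℝ) / (5 / 6) = 3 / 5 by norm_num] at h3
  refine (tendsto_add_atTop_iff_nat 1).1 (h3.congr' ?_)
  filter_upwards [tendsto_F.eventually_gt_atTop 0] with N hN
  rw [Pi.div_apply, div_div_div_cancel_right₀ hN.ne',
    sum_range_sub (fun n : ℕ => G ((n : ℝ) + 1)), ← hsum N fun n => (n : ℝ) ^ (-(1 / 6 : ℝ))]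
  congr 1
  · refine sum_congr rfl fun n _ => ?_
    simp only [ha]
    split_ifs
    · have := Real.log_pos (hpos n)
      rw [ph]
      push_cast
      field_simp
    · exact zero_mul _
  · simp [G]

open GlueC Finset in
theorem s13_of_main (h : MainO) : Tendsto (fun X : ℕ =>
      (∑ p ∈ (Nat.primesBelow (X + 1)).filter (fun p => p % 3 = 1),
          (∑ x ∈ Finset.range p, Complex.exp (2 * Real.pi * Complex.I * ((x : ℂ) ^ 3 / (p : ℂ)))) /
            (2 * (Real.sqrt (p : ℝ) : ℂ))) /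
        (((X : ℝ) ^ ((5 : ℝ) / 6) / Real.log (X : ℝ) : ℝ) : ℂ))
      atTop (𝓝 ((((2 * Real.pi) ^ ((2 : ℝ) / 3) / (5 * Real.Gamma (2 / 3)) : ℝ) : ℂ))) := by
  classical
  have hc : 0 ≤ cP := div_nonneg (by positivity)
    (mul_nonneg (by norm_num) (Real.Gamma_pos_of_pos (by norm_num)).le)
  have h1 : Tendsto (fun X : ℕ => (∑ π ∈ (primesLe X).filter (fun π => ¬ (nm π).Prime), dfc 0 π) /
      ((G X : ℝ) : ℂ)) atTop (𝓝 0) := by
    have h0 := tendsto_sqrt_div.norm.const_mul (1 + cP)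
    rw [norm_zero, mul_zero] at h0
    refine squeeze_zero_norm (fun X => ?_) h0
    rw [norm_div, norm_div, Complex.norm_real, ← mul_div_assoc]
    refine div_le_div_of_nonneg_right ?_ (norm_nonneg _)
    refine (norm_sum_le _ _).trans ((sum_le_card_nsmul _ _ (1 + cP) fun π hπ => ?_).trans ?_)
    · obtain ⟨-, hp, hp'⟩ := mem_filter.1 (mem_filter.1 hπ).1
      rw [dfc, zpow_zero, one_mul]
      refine (norm_sub_le _ _).trans ?_
      rw [norm_Gn hp' hp.squarefree, Complex.norm_real,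
        Real.norm_of_nonneg (mul_nonneg hc (by positivity))]
      have := Real.rpow_le_one_of_one_le_of_nonpos (one_le_nr hp.ne_zero)
        (show -(1 / 6 : ℝ) ≤ 0 by norm_num)
      nlinarith
    · rw [nsmul_eq_mul, mul_comm, Real.norm_of_nonneg (Real.sqrt_nonneg _)]
      exact mul_le_mul_of_nonneg_left (card_inert_le X) (by linarith)
  have h2 := (((h 0).sub h1).const_mul (1 / 2 : ℂ)).add
    ((Complex.continuous_ofReal.tendsto _).comp (tendsto_sum_rpow.const_mul cP))
  have e : (1 / 2 : ℂ) * (0 - 0) + ((cP * (3 / 5) : ℝ) : ℂ) =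
      (((2 * Real.pi) ^ ((2 : ℝ) / 3) / (5 * Real.Gamma (2 / 3)) : ℝ) : ℂ) := by
    rw [sub_zero, mul_zero, zero_add, cP]
    congr 1
    have := (Real.Gamma_pos_of_pos (show (0 : ℝ) < 2 / 3 by norm_num)).ne'
    field_simp
  rw [e] at h2
  refine h2.congr fun X => ?_
  have h3 := sum_split_primes X (dfc 0)
    (fun p => Sexp p / (Real.sqrt p : ℂ) - 2 * ((cP * (p : ℝ) ^ (-(1 / 6 : ℝ)) : ℝ) : ℂ))
    fun π hp hp' hn => by
      have : ((Real.sqrt (nr π) : ℝ) : ℂ) ≠ 0 := by
        exact_mod_cast (Real.sqrt_pos.2 (nr_pos hp.ne_zero)).ne'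
      rw [Sexp_eq hp hp' hn, mul_div_cancel_left₀ _ this, dfc, dfc, zpow_zero, zpow_zero, nr, nr,
        FinalA.nm_cj]
      ring
  have h4 := sum_filter_add_sum_filter_not (primesLe X) (fun π => (nm π).Prime) (dfc 0)
  rw [Function.comp_apply, G, ← sub_div, ← h4, add_sub_cancel_right, h3, ← mul_div_assoc,
    ← mul_div_assoc, Complex.ofReal_div (cP * _), ← add_div, mul_sum, mul_sum, Complex.ofReal_sum,
    ← sum_add_distrib]
  congr 1
  refine sum_congr rfl fun p _ => ?_
  rw [Sexp]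
  ring

end Crest.Agent.R12
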