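import Crest.Agent.R12.GlueA
import Crest.Agent.R12.GlueC
import Crest.Agent.R12.Defs

/-!
# Row 12 (Patterson): the bridge from `ff` to `MainO`
-/

set_option autoImplicit false

noncomputable section

namespace Crest.Agent.R12

open Crest.Agent.R17
open scoped Topology
open Filter

open Classical in
theorem sum_ff_eq (l : ℤ) (X : ℕ) :
    ∑ n ∈ (ball X).filter Prime, ff l n = ∑ p ∈ primesLe X, dfc l p := by
  rw [primesLe, Finset.sum_filter, Finset.sum_filter]
  refine Finset.sum_congr rfl fun n _ => ?_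
  by_cases hp : Prime n
  · by_cases h : Primary n
    · simp [hp, h, ff, dfc, hp.squarefree]
    · simp [hp, h, ff]
  · simp [hp]

open Classical in
theorem mainO_of (h : ∀ l : ℤ, Tendsto (fun X : ℕ => (∑ n ∈ (ball X).filter Prime, ff l n) /
    (((X : ℝ) ^ (5 / 6 : ℝ) / Real.log (X : ℝ) : ℝ) : ℂ)) atTop (𝓝 0)) : MainO := fun l => by
  simpa only [sum_ff_eq] using h l

end Crest.Agent.R12
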