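import Crest.Agent.R12.ThExact

/-!
# Row 12 (Patterson): the main statement in terms of `O`
-/

set_option autoImplicit false

noncomputable section

namespace Crest.Agent.R12

open Crest.Agent.R17
open scoped ComplexConjugate Topology
open Filter

open Classical in
/-- The primary primes of norm at most `X`. -/
def primesLe (X : ℕ) : Finset O := (ball X).filter fun p => Prime p ∧ Primary p

/-- The defect `G(n) - c N(n)^{-1/6}` with the angular twist. -/
def dfc (l : ℤ) (n : O) : ℂ := arg n ^ l * (Gn n - ((cP * nr n ^ (-(1 / 6 : ℝ)) : ℝ) : ℂ))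

/-- The main statement. -/
def MainO : Prop := ∀ l : ℤ, Tendsto (fun X : ℕ => (∑ p ∈ primesLe X, dfc l p) /
  (((X : ℝ) ^ ((5 : ℝ) / 6) / Real.log (X : ℝ) : ℝ) : ℂ)) atTop (𝓝 0)

end Crest.Agent.R12
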