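import Crest.Agent.R12.AFb
import Crest.Agent.R12.BV

/-!
# Row 12, analytic half: the identities of Heath-Brown and Vaughan
-/

set_option autoImplicit false

noncomputable section

namespace Crest.Agent.R12

open Crest.Agent.R17
open scoped ComplexConjugate Topology
open Filter MeasureTheory

/-- The von Mangoldt function of the rough elements. -/
def vmw (w : ℝ) : AF := muw w * (zt w).D

theorem zt_mul_muw (w : ℝ) : zt w * muw w = 1 := by
  classical
  rw [mul_comm]
  refine AF.ext' fun n hn => ?_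
  rw [AF.mul_apply, AF.one_apply]
  by_cases h : Rough w n
  · have e : pf n = ∅ ↔ n = 1 :=
      ⟨fun h0 => by rw [hn.eq_prod, h0, Finset.prod_empty], fun h0 => by rw [h0, pf_one]⟩
    rw [← if_congr e rfl rfl, ← sum_mu_pdiv hn.ne_zero]
    refine Finset.sum_congr rfl fun d hd => ?_
    obtain ⟨h1, h2, h3⟩ := AF.primary_div hn hd
    rw [muw, AF.pm_apply, zt_apply w h1, zt_apply w h2,
      if_pos (h.of_dvd hn.ne_zero (Dvd.intro _ h3)),
      if_pos (h.of_dvd hn.ne_zero (Dvd.intro_left _ h3)), one_mul, mul_one]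
  · rw [if_neg fun h0 => h (by rw [h0]; intro p hp; simp at hp)]
    refine Finset.sum_eq_zero fun d hd => ?_
    obtain ⟨h1, h2, h3⟩ := AF.primary_div hn hd
    rw [muw, AF.pm_apply, zt_apply w h1, zt_apply w h2]
    split_ifs with h4 h5
    · exact absurd (h3 ▸ h4.mul h5 h1.ne_zero h2.ne_zero) h
    all_goals simp
theorem zt_mul_vmw (w : ℝ) : zt w * vmw w = (zt w).D := by
  rw [vmw, ← mul_assoc, zt_mul_muw, one_mul]
theorem HB0_log_prod {s : Finset O} (hs : ∀ p ∈ s, p ≠ 0) :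
    Real.log (nr (∏ p ∈ s, p)) = ∑ p ∈ s, Real.log (nr p) := by
  classical
  induction s using Finset.induction_on with
  | empty => simp
  | insert a s ha ih =>
    have h1 := hs a (Finset.mem_insert_self _ _)
    have h2 : ∀ p ∈ s, p ≠ 0 := fun p hp => hs p (Finset.mem_insert_of_mem hp)
    rw [Finset.prod_insert ha, Finset.sum_insert ha, nr_mul, Real.log_mul (nr_pos h1).ne'
      (nr_pos (Finset.prod_ne_zero_iff.2 h2)).ne', ih h2]
open Classical in
theorem HB0_eqPS (w : ℝ) : EqPS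
    (AF.of (fun n => if Prime n ∧ w < nr n then (Real.log (nr n) : ℂ) else 0) * zt w) (zt w).D := by
  intro n hn
  rw [AF.mul_apply, AF.D_apply, zt_apply w hn.1]
  split_ifs with h
  · rw [one_mul]
    conv_rhs => rw [← hn.1.eq_rad hn.2, rad,
      HB0_log_prod fun p hp => (BasicB.of_mem_pf hp).1.ne_zero]
    push_cast
    symm
    refine Finset.sum_subset_zero_on_sdiff (fun p hp => (mem_pdiv hn.ne_zero).2
      (BasicB.of_mem_pf hp).2) (fun d hd => ?_) fun p hp => ?_
    · obtain ⟨h1, h2⟩ := Finset.mem_sdiff.1 hd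
      obtain ⟨h3, h4⟩ := (mem_pdiv hn.ne_zero).1 h1
      rw [AF.of_apply _ h3, if_neg fun h5 => h2 ((mem_pf hn.ne_zero).2 ⟨h5.1, h3, h4⟩), zero_mul]
    · obtain ⟨h1, h2, h3⟩ := BasicB.of_mem_pf hp
      obtain ⟨-, h4, h5⟩ := AF.primary_div hn.1 ((mem_pdiv hn.ne_zero).2 ⟨h2, h3⟩)
      rw [AF.of_apply _ h2, if_pos ⟨h1, h p hp⟩, zt_apply w h4,
        if_pos (h.of_dvd hn.ne_zero (Dvd.intro_left _ h5)), mul_one]
  · rw [zero_mul]
    refine Finset.sum_eq_zero fun d hd => ?_
    obtain ⟨h1, h2, h3⟩ := AF.primary_div hn.1 hd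
    rw [AF.of_apply _ h1, zt_apply w h2]
    split_ifs with h4 h5
    · refine absurd (h3 ▸ Rough.mul (fun p hp => ?_) h5 h1.ne_zero h2.ne_zero) h
      rw [pf_prime h4.1 h1, Finset.mem_singleton] at hp
      exact hp ▸ h4.2
    all_goals simp
open Classical in
theorem vmw_apply (w : ℝ) {n : O} (hn : PS n) :
    vmw w n = if Prime n ∧ w < nr n then (Real.log (nr n) : ℂ) else 0 := by
  have h := (EqPS.refl (muw w)).mul (HB0_eqPS w) n hn
  rw [mul_left_comm, mul_comm (muw w), zt_mul_muw, mul_one, AF.of_apply _ hn.1] at h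
  exact h.symm

/-- `log N = log X + log (N / X)`, and the second part is the derivative at `0` of the entire
function `s₀ ↦ pr l (v y^{s₀}) X g` (`Complex.norm_deriv_le_of_forall_mem_sphere_norm_le`). -/
theorem norm_pr_D_le (l : ℤ) {v : ℝ → ℂ} {X E : ℝ} (hX : 1 ≤ X) (g : AF)
    (h : ∀ s₀ : ℂ, ‖s₀‖ ≤ 1 → ‖pr l (fun y => v y * (y : ℂ) ^ s₀) X g‖ ≤ E) :
    ‖pr l v X g.D‖ ≤ (Real.log X + 1) * E := by
  have hX0 : 0 < X := one_pos.trans_le hX
  have hy : ∀ n ∈ rng (X / 4) (2 * X), 0 < nr n / X := fun n hn =>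
    div_pos (nr_pos (mem_rng.1 hn).1.ne_zero) hX0
  set F : ℂ → ℂ := fun s => pr l (fun y => v y * (y : ℂ) ^ s) X g with hF
  have hd : ∀ s, HasDerivAt F (∑ n ∈ rng (X / 4) (2 * X), g n * (ff l n * (v (nr n / X) *
      (((nr n / X : ℝ) : ℂ) ^ s * Complex.log ((nr n / X : ℝ) : ℂ) * 1)))) s := fun s =>
    HasDerivAt.fun_sum fun n hn => ((((hasDerivAt_id s).const_cpow
      (Or.inl (Complex.ofReal_ne_zero.2 (hy n hn).ne'))).const_mul _).const_mul _).const_mul _
  have h1 : ‖deriv F 0‖ ≤ E / 1 := Complex.norm_deriv_le_of_forall_mem_sphere_norm_le one_pos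
    (Differentiable.diffContOnCl fun s => (hd s).differentiableAt)
    fun s hs => h s (mem_sphere_zero_iff_norm.1 hs).le
  have h2 : ‖F 0‖ ≤ E := h 0 (by simp)
  have h3 : pr l v X g.D = Real.log X * F 0 + deriv F 0 := by
    rw [(hd 0).deriv]
    simp only [hF, pr, Finset.mul_sum, ← Finset.sum_add_distrib]
    refine Finset.sum_congr rfl fun n hn => ?_
    rw [← Complex.ofReal_log (hy n hn).le,
      Real.log_div (nr_pos (mem_rng.1 hn).1.ne_zero).ne' hX0.ne', AF.D_apply, Complex.cpow_zero]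
    push_cast
    ring
  rw [h3]
  refine (norm_add_le _ _).trans ?_
  rw [norm_mul, Complex.norm_real, Real.norm_of_nonneg (Real.log_nonneg hX), add_mul, one_mul]
  exact add_le_add (mul_le_mul_of_nonneg_left h2 (Real.log_nonneg hX)) (by simpa using h1)

end Crest.Agent.R12
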