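import Crest.Agent.R12.HB0

/-!
# Row 12, analytic half: the identities of Heath-Brown and Vaughan
-/

set_option autoImplicit false

noncomputable section

namespace Crest.Agent.R12

open Crest.Agent.R17
open scoped ComplexConjugate Topology
open Filter MeasureTheory

/-- `g` vanishes on the squarefree elements of norm `≤ y`. -/
def HB1_Van (g : AF) (y : ℝ) : Prop := ∀ n, PS n → nr n ≤ y → g n = 0

theorem HB1_Van.mul {f g : AF} {x y : ℝ} (hf : HB1_Van f x) (hg : HB1_Van g y) (hx : 0 ≤ x)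
    (hy : 0 ≤ y) : HB1_Van (f * g) (x * y) := by
  intro n hn h
  rw [AF.mul_apply]
  refine Finset.sum_eq_zero fun d hd => ?_
  obtain ⟨h1, h2, -, h3⟩ := hn.div hd
  by_cases a1 : nr d ≤ x
  · rw [hf d h1 a1, zero_mul]
  by_cases a2 : nr (n / d) ≤ y
  · rw [hg _ h2 a2, mul_zero]
  rw [← h3, nr_mul] at h
  exact absurd (mul_lt_mul'' (not_le.1 a1) (not_le.1 a2) hx hy) (not_lt.2 h)

theorem HB1_Van.mul_right {f : AF} {x : ℝ} (hf : HB1_Van f x) (g : AF) : HB1_Van (f * g) x := by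
  intro n hn h
  rw [AF.mul_apply]
  refine Finset.sum_eq_zero fun d hd => ?_
  obtain ⟨h1, h2, -, h3⟩ := hn.div hd
  rw [← h3, nr_mul] at h
  rw [hf d h1 ((le_mul_of_one_le_right (Nat.cast_nonneg _) h2.one_le).trans h), zero_mul]

theorem HB1_Van.pow {f : AF} {x : ℝ} (hf : HB1_Van f x) (hx : 0 ≤ x) (k : ℕ) :
    HB1_Van (f ^ (k + 1)) (x ^ (k + 1)) := by
  induction k with
  | zero => simpa using hf
  | succ k ih =>
    rw [pow_succ f, pow_succ x]
    exact ih.mul hf (by positivity) hx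

theorem HB1_van (w z : ℝ) : HB1_Van (1 - zt w * (muw w).cut 0 z) z := by
  have h : HB1_Van (muw w - (muw w).cut 0 z) z := fun n _ h => by
    have h0 : (0 : ℝ) ≤ nr n := Nat.cast_nonneg _
    rw [AF.sub_apply, AF.cut, AF.pm_apply, if_pos ⟨h0, h⟩, mul_one, sub_self]
  rw [← zt_mul_muw w, ← mul_sub, mul_comm]
  exact h.mul_right _

theorem HB1_sup (w z : ℝ) : Sup ((muw w).cut 0 z) 1 z := fun n hn h =>
  ⟨hn.one_le, (sup_cut _ 0 z n hn h).2⟩

theorem HB1_reg (w z : ℝ) : Reg w 2 0 ((muw w).cut 0 z) := by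
  classical
  refine ⟨1, fun m => if (m : ℝ) ≤ z then 1 else 0, le_rfl,
    bvn_ind fun a b c _ hbc _ hc => (Nat.cast_le.2 hbc).trans hc, fun m => ?_,
    fun m hm => absurd hm (not_lt.2 (Nat.cast_nonneg m)), fun n hn => ?_⟩
  · simp only
    split_ifs <;> simp
  · have h0 : (0 : ℝ) ≤ nr n := Nat.cast_nonneg _
    rw [AF.cut, AF.pm_apply, muw, AF.pm_apply, zt_apply w hn]
    by_cases h1 : Rough w n <;> simp [h1, h0]

theorem HB1_reg_D (w : ℝ) {z L : ℝ} (hL : 0 < L) (hz : Real.log z ≤ L) :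
    Reg w 2 0 (((L : ℂ))⁻¹ • ((muw w).cut 0 z).D) := by
  classical
  refine ⟨1, _, le_rfl, bvn_log hL hz, fun m => ?_,
    fun m hm => absurd hm (not_lt.2 (Nat.cast_nonneg m)), fun n hn => ?_⟩
  · split_ifs with h
    · rw [Complex.norm_real, Real.norm_eq_abs,
        abs_of_nonneg (div_nonneg (Real.log_natCast_nonneg m) hL.le), div_le_one hL]
      rcases m.eq_zero_or_pos with rfl | hm
      · simpa using hL.le
      · exact (Real.log_le_log (Nat.cast_pos.2 hm) h).trans hz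
    · simp
  · have h0 : (0 : ℝ) ≤ nr n := Nat.cast_nonneg _
    rw [AF.smul_apply, AF.D_apply, AF.cut, AF.pm_apply, muw, AF.pm_apply, zt_apply w hn]
    by_cases h1 : Rough w n <;> by_cases h2 : nr n ≤ z <;> simp [h1, h0, h2]
    ring

theorem HB1_id (w : ℝ) (M : AF) (k : ℕ) {L : ℂ} (hL : L ≠ 0) :
    vmw w * (zt w * M) ^ (k + 1) = ((k + 1 : ℕ) : ℂ)⁻¹ • (zt w ^ (k + 1) * M ^ (k + 1)).D -
      L • (zt w ^ (k + 1) * (L⁻¹ • M.D * M ^ k)) := by
  have hk : ((k + 1 : ℕ) : ℂ) ≠ 0 := Nat.cast_ne_zero.2 k.succ_ne_zero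
  rw [AF.D_mul, AF.D_pow, AF.D_pow, smul_mul_assoc, mul_smul_comm, ← smul_add, inv_smul_smul₀ hk,
    smul_mul_assoc, mul_smul_comm, smul_inv_smul₀ hL, ← zt_mul_vmw]
  ring

/-- **Heath-Brown's identity** with `K = 7`.  With `ζ = zt w`, `M = (muw w).cut 0 z`, `u = ζ M`:
`1 - u` vanishes on squarefree elements of norm `≤ z`, so `Λ (1 - u)^7` vanishes below `z^7`;
`Λ (1 - (1 - u)^7) = ∑_j ± C(7, j) Λ u^j` and `j Λ u^j = D (ζ^j M^j) - j ζ^j M^{j-1} D M`;
`M` and `(log X)⁻¹ • D M` are regular (`bvn_ind`, `bvn_log`). -/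
theorem hb_bound (l : ℤ) {v : ℝ → ℂ} {X w z E : ℝ} (hX : 3 ≤ X) (hz : 1 ≤ z) (hzX : z ≤ X)
    (hz7 : 2 * X ≤ z ^ 7)
    (h : ∀ s₀ : ℂ, ‖s₀‖ ≤ 1 → ∀ j : ℕ, 1 ≤ j → j ≤ 7 → ∀ m : Fin j → AF,
      (∀ i, Reg w 2 0 (m i) ∧ Sup (m i) 1 z) →
      ‖pr l (fun y => v y * (y : ℂ) ^ s₀) X (zt w ^ j * ∏ i, m i)‖ ≤ E) :
    ‖pr l v X (vmw w)‖ ≤ 400 * Real.log X * E := by
  have hL : 1 ≤ Real.log X := by
    rw [Real.le_log_iff_exp_le (by linarith)]
    linarith [Real.exp_one_lt_d9]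
  have hzL : Real.log z ≤ Real.log X := Real.log_le_log (by linarith) hzX
  set M := (muw w).cut 0 z with hM
  have hE : 0 ≤ E := (norm_nonneg _).trans
    (h 0 (by simp) 1 le_rfl (by norm_num) (fun _ => M) fun _ => ⟨HB1_reg w z, HB1_sup w z⟩)
  have key : ∀ k : ℕ, k ≤ 6 →
      ‖pr l v X (vmw w * (zt w * M) ^ (k + 1))‖ ≤ 3 * (Real.log X * E) := by
    intro k hk
    have h1 := norm_pr_D_le l (v := v) (by linarith : 1 ≤ X) (zt w ^ (k + 1) * M ^ (k + 1))
      fun s₀ hs => by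
        simpa only [Fin.prod_const] using h s₀ hs (k + 1) (by omega) (by omega) (fun _ => M)
          fun _ => ⟨HB1_reg w z, HB1_sup w z⟩
    have h2 := h 0 (by simp) (k + 1) (by omega) (by omega)
      (Fin.cons (((Real.log X : ℝ) : ℂ)⁻¹ • M.D) fun _ => M) fun i => by
        refine Fin.cases ⟨HB1_reg_D w (by linarith) hzL, fun n hn h0 => ?_⟩
          (fun _ => ⟨HB1_reg w z, HB1_sup w z⟩) i
        exact HB1_sup w z n hn (left_ne_zero_of_mul (right_ne_zero_of_mul h0))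
    simp only [Fin.prod_cons, Fin.prod_const, Complex.cpow_zero, mul_one] at h2
    rw [HB1_id w M k (L := (Real.log X : ℝ)) (Complex.ofReal_ne_zero.2 (by linarith)), pr_sub,
      pr_smul, pr_smul]
    refine (norm_sub_le _ _).trans ?_
    rw [norm_mul, norm_mul, Complex.norm_real, Real.norm_of_nonneg (by linarith), norm_inv,
      Complex.norm_natCast]
    have h3 : ((k + 1 : ℕ) : ℝ)⁻¹ ≤ 1 := inv_le_one_of_one_le₀ (by exact_mod_cast k.succ_pos)
    have h4 := mul_le_mul h3 h1 (norm_nonneg _) zero_le_one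
    have h5 := mul_le_mul_of_nonneg_left h2 (by linarith : 0 ≤ Real.log X)
    have h6 := mul_le_mul_of_nonneg_right hL hE
    linarith
  have e0 : pr l v X ((1 - zt w * M) ^ 7 * vmw w) = 0 := by
    rw [← pr_zero l v X]
    exact pr_congr l v X fun n hn _ h2 =>
      ((HB1_van w z).pow (by linarith) 6).mul_right _ n hn (h2.trans hz7)
  have e1 : vmw w = (1 - zt w * M) ^ 7 * vmw w + ∑ k ∈ Finset.range 7,
      ((-1) ^ k * (Nat.choose 7 (k + 1) : ℂ)) • (vmw w * (zt w * M) ^ (k + 1)) := by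
    simp only [Finset.sum_range_succ, Finset.sum_range_zero, Algebra.smul_def, map_mul, map_pow,
      map_neg, map_one, map_natCast]
    norm_num [Nat.choose]
    ring
  rw [e1, pr_add, e0, zero_add, pr_sum]
  refine (norm_sum_le _ _).trans ((Finset.sum_le_sum (g := fun k =>
    (Nat.choose 7 (k + 1) : ℝ) * (3 * (Real.log X * E))) fun k hk => ?_).trans ?_)
  · rw [pr_smul, norm_mul, norm_mul, norm_pow, norm_neg, norm_one, one_pow, one_mul,
      Complex.norm_natCast]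
    exact mul_le_mul_of_nonneg_left (key k (by have := Finset.mem_range.1 hk; omega))
      (Nat.cast_nonneg _)
  · have h6 : 0 ≤ Real.log X * E := mul_nonneg (by linarith) hE
    simp only [Finset.sum_range_succ, Finset.sum_range_zero]
    norm_num [Nat.choose]
    linarith

end Crest.Agent.R12
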