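import Crest.Agent.R12.LSDefs
import Crest.Agent.R17.LS2Dual
import Crest.Agent.R17.LS2Bil

/-!
# Row 12, cubic large sieve: duality, twisting, reindexing
-/

set_option autoImplicit false

noncomputable section

namespace Crest.Agent.R12

open Crest.Agent.R17
open scoped ComplexConjugate

/-- Duality and cubic reciprocity. -/
theorem Bnd.dual {M N D : ℝ} (hD : 0 ≤ D) (h : Bnd M N D) : Bnd N M D := by
  intro S K β hS hK
  refine LS2.duality S K (fun a b => cub a b) hD (fun x => ?_) β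
  refine le_trans (le_of_eq (Finset.sum_congr rfl fun a ha => ?_)) (h K S x hK hS)
  congr 2
  exact Finset.sum_congr rfl fun b hb => by rw [cub_recip (hS a ha).1.1 (hK b hb).1.1]

/-- Reindexed form, with a bounded twist. -/
theorem BndP.index {P : O → Prop} {N D : ℝ} (hD : 0 ≤ D) (h : BndP P N D) (I K : Finset O)
    (m : O → O) (γ τ : O → ℂ) (hm : Set.InjOn m I) (hI : ∀ i ∈ I, PS (m i) ∧ nr (m i) ≤ N)
    (hτ : ∀ i ∈ I, ‖τ i‖ ≤ 1) (hK : ∀ k ∈ K, P k) :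
    ∑ k ∈ K, ‖∑ i ∈ I, γ i * τ i * cub (m i) k‖ ^ 2 ≤ D * ∑ i ∈ I, ‖γ i‖ ^ 2 := by
  classical
  obtain ⟨β, h1, h2⟩ := LS2.Dual_reindex (I.image m) I m (fun i => γ i * τ i) hm
    fun i hi => Finset.mem_image_of_mem m hi
  have h3 := h (I.image m) K β (fun b hb => by
    obtain ⟨i, hi, rfl⟩ := Finset.mem_image.1 hb
    exact hI i hi) hK
  have h4 : N2 (I.image m) β ≤ ∑ i ∈ I, ‖γ i‖ ^ 2 := by
    refine le_trans (le_of_eq h2) (Finset.sum_le_sum fun i hi => ?_)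
    rw [norm_mul]
    exact pow_le_pow_left₀ (by positivity) (mul_le_of_le_one_right (norm_nonneg _) (hτ i hi)) 2
  refine le_trans (le_of_eq (Finset.sum_congr rfl fun k _ => ?_))
    (h3.trans (mul_le_mul_of_nonneg_left h4 hD))
  exact congrArg (fun z => ‖z‖ ^ 2) (h1 fun n => cub n k).symm

/-- The conjugate form. -/
theorem BndP.index_conj {P : O → Prop} {N D : ℝ} (hD : 0 ≤ D) (h : BndP P N D) (I K : Finset O)
    (m : O → O) (γ τ : O → ℂ) (hm : Set.InjOn m I) (hI : ∀ i ∈ I, PS (m i) ∧ nr (m i) ≤ N)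
    (hτ : ∀ i ∈ I, ‖τ i‖ ≤ 1) (hK : ∀ k ∈ K, P k) :
    ∑ k ∈ K, ‖∑ i ∈ I, γ i * τ i * conj (cub (m i) k)‖ ^ 2 ≤ D * ∑ i ∈ I, ‖γ i‖ ^ 2 := by
  have h1 := h.index hD I K m (fun i => conj (γ i)) (fun i => conj (τ i)) hm hI
    (fun i hi => by rw [Complex.norm_conj]; exact hτ i hi) hK
  simp only [Complex.norm_conj] at h1
  refine le_trans (le_of_eq (Finset.sum_congr rfl fun k _ => ?_)) h1
  rw [← Complex.norm_conj, map_sum]
  congr 2
  exact Finset.sum_congr rfl fun i _ => by rw [map_mul, map_mul, Complex.conj_conj]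

/-- A fixed factor of the rows is absorbed in the coefficients. -/
theorem BndP.twist {P : O → Prop} {N D : ℝ} (hD : 0 ≤ D) (h : BndP P N D) (c : O)
    (S K : Finset O) (β : O → ℂ) (hS : ∀ b ∈ S, PS b ∧ nr b ≤ N) (hK : ∀ k ∈ K, P k) :
    ∑ k ∈ K, ‖col S β (c * k)‖ ^ 2 ≤ D * N2 S β := by
  have h1 := h.index hD S K id β (fun b => cub b c) (Set.injOn_id _) hS
    (fun b _ => norm_cub_le b c) hK
  refine le_trans (le_of_eq (Finset.sum_congr rfl fun k _ => ?_)) h1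
  congr 2
  exact Finset.sum_congr rfl fun b _ => by rw [cub_mul_right, mul_assoc]; rfl

theorem card_le_of_nr_le {K : Finset O} {M : ℝ} (hM : 0 ≤ M) (hK : ∀ k ∈ K, k ≠ 0 ∧ nr k ≤ M) :
    (K.card : ℝ) ≤ 7 * M := by
  have h1 : K ⊆ (ball ⌊M⌋₊).erase 0 := fun k hk =>
    CountAux.mem_erase_ball.2 ⟨(hK k hk).1, Nat.le_floor (hK k hk).2⟩
  have h2 : (K.card : ℝ) ≤ (((ball ⌊M⌋₊).erase 0).card : ℝ) := by
    exact_mod_cast Finset.card_le_card h1
  have h3 := CountAux.card_erase_le ⌊M⌋₊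
  have h4 := Nat.floor_le hM
  linarith

theorem LSBasic_box {H : ℝ} (hH : 0 ≤ H) :
    ∃ B : Finset O, (∀ k, k ∈ B ↔ PS k ∧ nr k ≤ H) ∧ (B.card : ℝ) ≤ 7 * H := by
  classical
  have h1 : ∀ k, k ∈ (ball ⌊H⌋₊).filter PS ↔ PS k ∧ nr k ≤ H := fun k => by
    rw [Finset.mem_filter, mem_ball, Nat.le_floor_iff hH, and_comm]
  exact ⟨_, h1, card_le_of_nr_le hH fun k hk => ⟨((h1 k).1 hk).1.1.ne_zero, ((h1 k).1 hk).2⟩⟩

theorem pairB_left {N H₁ H₂ D : ℝ} (hD : 0 ≤ D) (h₁ : 0 ≤ H₁) (h₂ : 0 ≤ H₂) (h : Bnd H₁ N D) :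
    PairB N H₁ H₂ (7 * H₂ * D) := by
  intro S K β hS hK
  obtain ⟨B₁, hB₁, hB₁'⟩ := LSBasic_box h₁
  obtain ⟨B₂, hB₂, hB₂'⟩ := LSBasic_box h₂
  have h1 := CountAux.sum_le_prod B₂ B₁ (fun a b => a ^ 2 * b) (S := K) (fun k hk => by
    obtain ⟨a, b, ha, hb, -, ha', hb', rfl⟩ := hK k hk
    exact ⟨b, (hB₂ b).2 ⟨hb, hb'⟩, a, (hB₁ a).2 ⟨ha, ha'⟩, mul_comm _ _⟩)
    (fun k => ‖col S β k‖ ^ 2) fun _ => sq_nonneg _
  refine h1.trans ((Finset.sum_le_card_nsmul B₂ _ (D * N2 S β) fun a _ =>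
    BndP.twist hD h (a ^ 2) S B₁ β hS fun k hk => (hB₁ k).1 hk).trans ?_)
  rw [nsmul_eq_mul, mul_assoc (7 * H₂)]
  exact mul_le_mul_of_nonneg_right hB₂' (mul_nonneg hD (N2_nonneg S β))

theorem pairB_right {N H₁ H₂ D : ℝ} (hD : 0 ≤ D) (h₁ : 0 ≤ H₁) (h₂ : 0 ≤ H₂) (h : Bnd H₂ N D) :
    PairB N H₁ H₂ (7 * H₁ * D) := by
  intro S K β hS hK
  obtain ⟨B₁, hB₁, hB₁'⟩ := LSBasic_box h₁
  obtain ⟨B₂, hB₂, hB₂'⟩ := LSBasic_box h₂
  have h1 := CountAux.sum_le_prod B₁ B₂ (fun a b => a * b ^ 2) (S := K) (fun k hk => by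
    obtain ⟨a, b, ha, hb, -, ha', hb', rfl⟩ := hK k hk
    exact ⟨a, (hB₁ a).2 ⟨ha, ha'⟩, b, (hB₂ b).2 ⟨hb, hb'⟩, rfl⟩)
    (fun k => ‖col S β k‖ ^ 2) fun _ => sq_nonneg _
  refine h1.trans ((Finset.sum_le_card_nsmul B₁ _ (D * N2 S β) fun a _ => ?_).trans ?_)
  · have h2 := BndP.index_conj hD h S B₂ id β (fun b => cub b a) (Set.injOn_id _) hS
      (fun b _ => norm_cub_le b a) fun k hk => (hB₂ k).1 hk
    refine le_trans (le_of_eq (Finset.sum_congr rfl fun k _ => ?_)) h2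
    congr 2
    exact Finset.sum_congr rfl fun b _ => by
      rw [cub_mul_right, cub_pow_right, conj_cub, mul_assoc]; rfl
  · rw [nsmul_eq_mul, mul_assoc (7 * H₁)]
    exact mul_le_mul_of_nonneg_right hB₁' (mul_nonneg hD (N2_nonneg S β))

/-- One column. -/
theorem bndA_one {M : ℝ} (hM : 0 ≤ M) : BndA M 1 (7 * M) := by
  intro S K β hS hK
  have h1 : S ⊆ {1} := fun b hb => by
    have h2 := one_le_nr (hS b hb).1.1.ne_zero
    have h3 : nm b = 1 := by exact_mod_cast le_antisymm (hS b hb).2 h2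
    exact Finset.mem_singleton.2 ((hS b hb).1.1.eq_one_of_isUnit (isUnit_iff_nm.2 h3))
  have h2 : ∀ k, ‖col S β k‖ ^ 2 = N2 S β := fun k => by
    unfold col N2
    rcases Finset.subset_singleton_iff.1 h1 with rfl | rfl
    · simp
    · rw [Finset.sum_singleton, Finset.sum_singleton, cub_one_left, mul_one]
  rw [Finset.sum_congr rfl fun k _ => h2 k, Finset.sum_const, nsmul_eq_mul]
  exact mul_le_mul_of_nonneg_right (card_le_of_nr_le hM hK) (N2_nonneg S β)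

theorem one_le_cnd (k : O) : 1 ≤ cnd k := by
  unfold cnd
  exact Finset.one_le_prod fun p hp =>
    one_le_nr (BasicB.pf_sub (Finset.mem_filter.1 hp).1).1.ne_zero

/-- Positivity: the rows are completed to all of `O` with a Gaussian weight. -/
theorem rows_le_gauss {M : ℝ} (hM : 0 < M) (S K : Finset O) (β : O → ℂ)
    (hK : ∀ k ∈ K, nr k ≤ M) :
    gw 1 * ∑ k ∈ K, ‖col S β k‖ ^ 2 ≤
      ‖∑ n₁ ∈ S, ∑ n₂ ∈ S, β n₁ * conj (β n₂) *
        ∑' k : O, cub n₁ k * conj (cub n₂ k) * (gw (nr k / M) : ℂ)‖ := by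
  have hw := summable_gw' hM
  have hb : ∀ z₁ z₂ n, ‖cub z₁ n * conj (cub z₂ n) * (gw (nr n / M) : ℂ)‖ ≤ gw (nr n / M) := by
    intro z₁ z₂ n
    rw [norm_mul, norm_mul, Complex.norm_conj, Complex.norm_real,
      Real.norm_of_nonneg (gw_pos _).le]
    exact mul_le_of_le_one_left (gw_pos _).le
      (mul_le_one₀ (norm_cub_le _ _) (norm_nonneg _) (norm_cub_le _ _))
  have hs : ∀ z₁ z₂, Summable fun n => cub z₁ n * conj (cub z₂ n) * (gw (nr n / M) : ℂ) :=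
    fun z₁ z₂ => Summable.of_norm_bounded hw (hb z₁ z₂)
  have e : ∀ n, ((gw (nr n / M) * ‖col S β n‖ ^ 2 : ℝ) : ℂ) =
      ∑ z₁ ∈ S, ∑ z₂ ∈ S, β z₁ * conj (β z₂) *
        (cub z₁ n * conj (cub z₂ n) * (gw (nr n / M) : ℂ)) := by
    intro n
    unfold col
    rw [Complex.ofReal_mul, Complex.ofReal_pow, ← Complex.mul_conj', map_sum, Finset.sum_mul_sum,
      Finset.mul_sum]
    refine Finset.sum_congr rfl fun z₁ _ => ?_
    rw [Finset.mul_sum]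
    refine Finset.sum_congr rfl fun z₂ _ => ?_
    rw [map_mul]
    ring
  have hH : HasSum (fun n => ((gw (nr n / M) * ‖col S β n‖ ^ 2 : ℝ) : ℂ))
      (∑ z₁ ∈ S, ∑ z₂ ∈ S, β z₁ * conj (β z₂) *
        ∑' n, cub z₁ n * conj (cub z₂ n) * (gw (nr n / M) : ℂ)) := by
    rw [funext e]
    exact hasSum_sum fun z₁ _ => hasSum_sum fun z₂ _ => (hs z₁ z₂).hasSum.mul_left _
  have hH' := Complex.hasSum_re hH
  simp only [Complex.ofReal_re] at hH'
  refine le_trans ?_ ((sum_le_hasSum K (fun n _ => mul_nonneg (gw_pos _).le (sq_nonneg _))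
    hH').trans (Complex.re_le_norm _))
  rw [Finset.mul_sum]
  refine Finset.sum_le_sum fun n hn => mul_le_mul_of_nonneg_right (gw_antitone ?_) (sq_nonneg _)
  rw [div_le_one hM]
  exact hK n hn

open Classical in
/-- Bilinear forms whose kernel depends on the set of common primes. -/
theorem bil_gcd (S : Finset O) (β : O → ℂ) (F : Finset O → O → O → ℂ) (w : O → ℝ) {Λ : ℝ}
    (h : ∀ (G T : Finset O), T ⊆ S → (∀ n ∈ T, G ⊆ pf n) →
      ‖∑ n₁ ∈ T, ∑ n₂ ∈ T, β n₁ * conj (β n₂) * F G n₁ n₂‖ ≤ Λ * ∑ n ∈ T, w n * ‖β n‖ ^ 2) :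
    ‖∑ n₁ ∈ S, ∑ n₂ ∈ S, β n₁ * conj (β n₂) * F (pf n₁ ∩ pf n₂) n₁ n₂‖ ≤
      Λ * ∑ n ∈ S, 3 ^ (pf n).card * (w n * ‖β n‖ ^ 2) := by
  set U : Finset O := S.biUnion pf with hU
  have hsub : ∀ n ∈ S, pf n ⊆ U := fun n hn => Finset.subset_biUnion_of_mem pf hn
  set T : Finset O → O → O → ℂ := fun G n₁ n₂ => β n₁ * conj (β n₂) * F G n₁ n₂ with hT
  have h1 : ∑ n₁ ∈ S, ∑ n₂ ∈ S, T (pf n₁ ∩ pf n₂) n₁ n₂ =
      ∑ G ∈ U.powerset, ∑ E ∈ (U \ G).powerset, (-1) ^ E.card *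
        ∑ n₁ ∈ S.filter (fun n => G ∪ E ⊆ pf n), ∑ n₂ ∈ S.filter (fun n => G ∪ E ⊆ pf n),
          T G n₁ n₂ := by
    rw [Finset.sum_congr rfl fun n₁ h₁ => Finset.sum_congr rfl fun n₂ _ =>
      LS2.bil_mob (Finset.inter_subset_left.trans (hsub n₁ h₁)) (fun G => T G n₁ n₂)]
    rw [Finset.sum_congr rfl fun n₁ _ => Finset.sum_comm, Finset.sum_comm]
    refine Finset.sum_congr rfl fun G _ => ?_
    rw [Finset.sum_congr rfl fun n₁ _ => Finset.sum_comm, Finset.sum_comm]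
    refine Finset.sum_congr rfl fun E _ => ?_
    rw [Finset.mul_sum, Finset.sum_filter]
    refine Finset.sum_congr rfl fun n₁ _ => ?_
    by_cases h : G ∪ E ⊆ pf n₁
    · rw [if_pos h, Finset.mul_sum, Finset.sum_filter]
      refine Finset.sum_congr rfl fun n₂ _ => ?_
      simp only [Finset.subset_inter_iff, h, true_and]
    · rw [if_neg h]
      exact Finset.sum_eq_zero fun n₂ _ => if_neg fun h' => h (h'.trans Finset.inter_subset_left)
  have h2 : ∑ n ∈ S, 3 ^ (pf n).card * (w n * ‖β n‖ ^ 2) =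
      ∑ G ∈ U.powerset, ∑ E ∈ (U \ G).powerset,
        ∑ n ∈ S.filter (fun n => G ∪ E ⊆ pf n), w n * ‖β n‖ ^ 2 := by
    rw [Finset.sum_congr rfl fun n hn => (LS2.bil_count (hsub n hn) (w n * ‖β n‖ ^ 2)).symm,
      Finset.sum_comm]
    refine Finset.sum_congr rfl fun G _ => ?_
    rw [Finset.sum_comm]
    exact Finset.sum_congr rfl fun E _ => (Finset.sum_filter _ _).symm
  change ‖∑ n₁ ∈ S, ∑ n₂ ∈ S, T (pf n₁ ∩ pf n₂) n₁ n₂‖ ≤ _
  rw [h1, h2, Finset.mul_sum]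
  refine (norm_sum_le _ _).trans (Finset.sum_le_sum fun G _ => ?_)
  rw [Finset.mul_sum]
  refine (norm_sum_le _ _).trans (Finset.sum_le_sum fun E _ => ?_)
  rw [norm_mul, norm_pow, norm_neg, norm_one, one_pow, one_mul]
  exact h G _ (Finset.filter_subset _ _) fun n hn =>
    Finset.subset_union_left.trans (Finset.mem_filter.1 hn).2

end Crest.Agent.R12
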