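import Crest.Agent.R12.LSBasic

/-!
# Row 12, cubic large sieve: from cube-free rows to all rows
-/

set_option autoImplicit false

noncomputable section

namespace Crest.Agent.R12

open Crest.Agent.R17
open scoped ComplexConjugate

theorem LSRows_nr_prod (s : Finset O) : nr (∏ p ∈ s, p) = ∏ p ∈ s, nr p := by
  simp only [nr, nm_prod, Nat.cast_prod]

/-- Every row is `u λ^j c³ h₁ h₂²`. -/
theorem row_decomp {k : O} (hk : k ≠ 0) : ∃ (i j : ℕ) (c h₁ h₂ : O), i < 6 ∧ Primary c ∧ PS h₁ ∧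
    PS h₂ ∧ IsCoprime h₁ h₂ ∧ k = (-om) ^ i * lam ^ j * c ^ 3 * (h₁ * h₂ ^ 2) ∧
    cnd k = nr h₁ * nr h₂ := by
  obtain ⟨u, j, hu, hk'⟩ := exists_eq_unit_lam_primary hk
  obtain ⟨i, hi, rfl⟩ := isUnit_iff_pow.1 hu
  have h1 := squarefree_prod_primes (s := (pf k).filter fun p => vp p k % 3 = 1)
    fun q hq => BasicB.pf_sub (Finset.mem_filter.1 hq).1
  have h2 := squarefree_prod_primes (s := (pf k).filter fun p => vp p k % 3 = 2)
    fun q hq => BasicB.pf_sub (Finset.mem_filter.1 hq).1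
  refine ⟨i, j, ∏ p ∈ pf k, p ^ (vp p k / 3), _, _, hi,
    BasicB.primary_prod_pow (fun _ => BasicB.pf_sub) _, ⟨h1.2.1, h1.1⟩, ⟨h2.2.1, h2.1⟩,
    isCoprime_of_disjoint_pf h1.2.1 h2.2.1.ne_zero ?_, hk'.trans ?_, ?_⟩
  · rw [h1.2.2, h2.2.2]
    exact Finset.disjoint_filter.2 fun p _ h h' => by omega
  · rw [mul_assoc _ (_ ^ 3)]
    refine congrArg _ ?_
    rw [Finset.prod_filter, Finset.prod_filter, ← Finset.prod_pow, ← Finset.prod_pow,
      ← Finset.prod_mul_distrib, ← Finset.prod_mul_distrib]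
    refine Finset.prod_congr rfl fun p _ => ?_
    conv_lhs => rw [← Nat.div_add_mod' (vp p k) 3, pow_add, pow_mul]
    refine congrArg _ ?_
    have : vp p k % 3 = 0 ∨ vp p k % 3 = 1 ∨ vp p k % 3 = 2 := by omega
    rcases this with h | h | h <;> simp [h]
  · rw [cnd, LSRows_nr_prod, LSRows_nr_prod, Finset.prod_filter, Finset.prod_filter,
      Finset.prod_filter, ← Finset.prod_mul_distrib]
    refine Finset.prod_congr rfl fun p _ => ?_
    have : vp p k % 3 = 0 ∨ vp p k % 3 = 1 ∨ vp p k % 3 = 2 := by omega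
    rcases this with h | h | h <;> simp [h, Nat.dvd_iff_mod_eq_zero]

theorem LSRows_log {H : ℝ} (hH : 1 ≤ H) :
    ((Nat.log 2 ⌊H⌋₊ + 1 : ℕ) : ℝ) ≤ 2 * (1 + Real.log H) := by
  have h0 : ⌊H⌋₊ ≠ 0 := (Nat.floor_pos.2 hH).ne'
  have h1 : ((2 ^ Nat.log 2 ⌊H⌋₊ : ℕ) : ℝ) ≤ H :=
    (Nat.cast_le.2 (Nat.pow_log_le_self 2 h0)).trans (Nat.floor_le (by linarith))
  have h2 := Real.log_le_log (by positivity) h1
  rw [Nat.cast_pow, Real.log_pow, Nat.cast_ofNat] at h2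
  have h3 := Real.log_two_gt_d9
  have h4 := Nat.cast_nonneg (α := ℝ) (Nat.log 2 ⌊H⌋₊)
  push_cast
  nlinarith

theorem LSRows_dy {h : O} (hh : h ≠ 0) : (2 : ℝ) ^ Nat.log 2 (nm h) ≤ nr h ∧
    nr h ≤ 2 * 2 ^ Nat.log 2 (nm h) := by
  have h0 : nm h ≠ 0 := fun e => hh (nm_eq_zero.1 e)
  have h1 := Nat.pow_log_le_self 2 h0
  have h2 := (Nat.lt_pow_succ_log_self (b := 2) (by norm_num) (nm h)).le
  rw [Nat.succ_eq_add_one, pow_succ'] at h2
  exact ⟨by exact_mod_cast h1, by exact_mod_cast h2⟩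

/-- Dyadic boxes. -/
theorem rows_box : ∃ C : ℝ, 0 < C ∧ ∀ (N H H₀ D : ℝ), 1 ≤ H₀ → H₀ ≤ H → 0 ≤ D →
    (∀ H₁ H₂ : ℝ, 1 ≤ H₁ → H₁ ≤ H → 1 ≤ H₂ → H₂ ≤ H → H₁ * H₂ ^ 2 ≤ 8 * H₀ → PairB N H₁ H₂ D) →
    BndP (fun k => CF H H k ∧ nr k ≤ H₀) N (C * (1 + Real.log H) ^ 2 * D) := by
  classical
  refine ⟨4, by norm_num, fun N H H₀ D h0 h1 hD h S K β hS hK => ?_⟩
  have hH : 1 ≤ H := h0.trans h1
  choose! h₁ h₂ a1 a2 a3 a4 a5 a6 using fun k hk => (hK k hk).1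
  have hN := N2_nonneg S β
  set J := Nat.log 2 ⌊H⌋₊ + 1 with hJ
  have hmap : ∀ k ∈ K, (Nat.log 2 (nm (h₁ k)), Nat.log 2 (nm (h₂ k))) ∈
      Finset.range J ×ˢ Finset.range J := fun k hk => by
    simp only [Finset.mem_product, Finset.mem_range, hJ, Nat.lt_succ_iff]
    exact ⟨Nat.log_mono_right (Nat.le_floor (a4 k hk)), Nat.log_mono_right (Nat.le_floor (a5 k hk))⟩
  rw [← Finset.sum_fiberwise_of_maps_to hmap]
  refine (Finset.sum_le_card_nsmul _ _ (D * N2 S β) fun y _ => ?_).trans ?_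
  · rcases (K.filter fun k => (Nat.log 2 (nm (h₁ k)), Nat.log 2 (nm (h₂ k))) = y).eq_empty_or_nonempty
      with he | ⟨k₀, hk₀⟩
    · rw [he, Finset.sum_empty]
      positivity
    obtain ⟨hk₀, e₀⟩ := Finset.mem_filter.1 hk₀
    have p1 : (1 : ℝ) ≤ 2 ^ y.1 := one_le_pow₀ (by norm_num)
    have p2 : (1 : ℝ) ≤ 2 ^ y.2 := one_le_pow₀ (by norm_num)
    refine h (min (2 * 2 ^ y.1) H) (min (2 * 2 ^ y.2) H) (le_min (by linarith) hH) (min_le_right _ _)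
      (le_min (by linarith) hH) (min_le_right _ _) ?_ S _ β hS fun k hk => ?_
    · have b1 := (LSRows_dy (a1 k₀ hk₀).1.ne_zero).1
      have b2 := (LSRows_dy (a2 k₀ hk₀).1.ne_zero).1
      have b3 := (hK k₀ hk₀).2
      rw [a6 k₀ hk₀, nr_mul, nr_pow] at b3
      rw [← e₀]
      have m0 : 0 ≤ min (2 * (2 : ℝ) ^ Nat.log 2 (nm (h₂ k₀))) H := le_min (by positivity) (by linarith)
      calc _ ≤ (2 * nr (h₁ k₀)) * (2 * nr (h₂ k₀)) ^ 2 := by
            gcongr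
            · exact (min_le_left _ _).trans (by linarith)
            · exact (min_le_left _ _).trans (by linarith)
        _ ≤ _ := by linarith
    · obtain ⟨hk, e⟩ := Finset.mem_filter.1 hk
      rw [← e]
      exact ⟨h₁ k, h₂ k, a1 k hk, a2 k hk, a3 k hk,
        le_min (LSRows_dy (a1 k hk).1.ne_zero).2 (a4 k hk),
        le_min (LSRows_dy (a2 k hk).1.ne_zero).2 (a5 k hk), a6 k hk⟩
  · rw [Finset.card_product, Finset.card_range, nsmul_eq_mul, Nat.cast_mul, ← sq]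
    have b := pow_le_pow_left₀ (Nat.cast_nonneg _) (LSRows_log hH) 2
    calc _ ≤ (2 * (1 + Real.log H)) ^ 2 * (D * N2 S β) :=
          mul_le_mul_of_nonneg_right b (by positivity)
      _ = _ := by ring

theorem LSRows_geom (s : Finset ℕ) : ∑ j ∈ s, (7 / 10 : ℝ) ^ j ≤ 10 / 3 := by
  have h := hasSum_geometric_of_lt_one (r := (7 / 10 : ℝ)) (by norm_num) (by norm_num)
  exact (sum_le_hasSum s (fun _ _ => by positivity) h).trans (by norm_num)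

theorem LSRows_root {x Y : ℝ} {j : ℕ} (hx : 0 ≤ x) (h : 3 ^ j * x ^ 3 ≤ Y) :
    x ≤ Y ^ (1 / 3 : ℝ) * (7 / 10) ^ j := by
  have hY : 0 ≤ Y := le_trans (by positivity) h
  refine le_of_pow_le_pow_left₀ (n := 3) (by norm_num) (by positivity) ?_
  have e : (Y ^ (1 / 3 : ℝ)) ^ 3 = Y := by
    rw [← Real.rpow_natCast, ← Real.rpow_mul hY]
    norm_num
  have h1 : (1 : ℝ) ≤ 3 ^ j * ((7 / 10) ^ j) ^ 3 := by
    rw [← pow_mul, mul_comm j, pow_mul, ← mul_pow]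
    exact one_le_pow₀ (by norm_num)
  rw [mul_pow, e]
  calc x ^ 3 ≤ x ^ 3 * (3 ^ j * ((7 / 10) ^ j) ^ 3) := le_mul_of_one_le_right (by positivity) h1
    _ = 3 ^ j * x ^ 3 * ((7 / 10) ^ j) ^ 3 := by ring
    _ ≤ _ := by gcongr

theorem LSRows_term {H x a : ℝ} (hH : 0 ≤ H) (hx : 1 ≤ x) (ha : 1 / 3 ≤ a) (j : ℕ) :
    (H / (3 ^ j * x ^ 3)) ^ a ≤ H ^ a * ((7 / 10) ^ j * x⁻¹) := by
  have h1 : (1 : ℝ) ≤ 3 ^ j * x ^ 3 := one_le_mul_of_one_le_of_one_le (one_le_pow₀ (by norm_num))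
    (one_le_pow₀ hx)
  have h2 := (LSRows_root (by linarith) (le_refl (3 ^ j * x ^ 3))).trans
    (mul_le_mul_of_nonneg_right (Real.rpow_le_rpow_of_exponent_le h1 ha) (by positivity))
  have h3 : 0 < (3 ^ j * x ^ 3 : ℝ) ^ a := by positivity
  rw [Real.div_rpow hH (by positivity), div_eq_mul_inv]
  refine mul_le_mul_of_nonneg_left ?_ (by positivity)
  rw [← div_eq_mul_inv, le_div_iff₀ (by linarith), inv_mul_le_iff₀ h3]
  exact h2

/-- The sums over `λ^j c³`. -/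
theorem rows_sum : ∃ C : ℝ, 0 < C ∧ ∀ (H Z : ℝ) (T : Finset (ℕ × O)), 1 ≤ H → 1 ≤ Z →
    (∀ t ∈ T, t.2 ≠ 0 ∧ 3 ^ t.1 * nr t.2 ^ 3 ≤ H / Z) →
    (T.card : ℝ) ≤ C * (H / Z) ^ (1 / 3 : ℝ) ∧ ∀ a : ℝ, 1 / 3 ≤ a →
      ∑ t ∈ T, (H / (3 ^ t.1 * nr t.2 ^ 3)) ^ a ≤ C * (1 + Real.log H) * H ^ a := by
  classical
  obtain ⟨C, hC, hs⟩ := sum_inv_nr_le
  refine ⟨7 * C + 24, by positivity, fun H Z T hH hZ hT => ⟨?_, fun a ha => ?_⟩⟩
  · have hY : 0 ≤ (H / Z) ^ (1 / 3 : ℝ) := by positivity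
    rw [Finset.card_eq_sum_card_fiberwise (f := Prod.fst) (t := T.image Prod.fst)
      fun t ht => Finset.mem_coe.2 (Finset.mem_image_of_mem _ ht), Nat.cast_sum]
    calc _ ≤ ∑ j ∈ T.image Prod.fst, 7 * (H / Z) ^ (1 / 3 : ℝ) * (7 / 10) ^ j := by
          refine Finset.sum_le_sum fun j _ => ?_
          rw [← Finset.card_image_of_injOn (f := Prod.snd) fun s hs t ht e =>
            Prod.ext ((Finset.mem_filter.1 hs).2.trans (Finset.mem_filter.1 ht).2.symm) e, mul_assoc]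
          refine card_le_of_nr_le (by positivity) fun k hk => ?_
          obtain ⟨t, ht, rfl⟩ := Finset.mem_image.1 hk
          obtain ⟨ht', rfl⟩ := Finset.mem_filter.1 ht
          exact ⟨(hT t ht').1, LSRows_root (Nat.cast_nonneg _) (hT t ht').2⟩
      _ ≤ 7 * (H / Z) ^ (1 / 3 : ℝ) * (10 / 3) := by
          rw [← Finset.mul_sum]
          exact mul_le_mul_of_nonneg_left (LSRows_geom _) (by positivity)
      _ ≤ _ := by nlinarith [mul_nonneg hC.le hY]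
  · have hsub : T ⊆ T.image Prod.fst ×ˢ (ball ⌊H⌋₊).erase 0 := fun t ht => by
      refine Finset.mem_product.2 ⟨Finset.mem_image_of_mem _ ht,
        Finset.mem_erase.2 ⟨(hT t ht).1, mem_ball.2 (Nat.le_floor ?_)⟩⟩
      have h1 := one_le_nr (hT t ht).1
      calc nr t.2 ≤ nr t.2 ^ 3 := le_self_pow₀ h1 (by norm_num)
        _ ≤ 3 ^ t.1 * nr t.2 ^ 3 := le_mul_of_one_le_left (by positivity) (one_le_pow₀ (by norm_num))
        _ ≤ H / Z := (hT t ht).2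
        _ ≤ H := div_le_self (by linarith) hZ
    have hL := Real.log_nonneg hH
    have h1 : Real.log (⌊H⌋₊ + 1) ≤ 1 + Real.log H := by
      have h2 : Real.log (⌊H⌋₊ + 1) ≤ Real.log (2 * H) :=
        Real.log_le_log (by positivity) (by linarith [Nat.floor_le (show 0 ≤ H by linarith)])
      rw [Real.log_mul (by norm_num) (by linarith)] at h2
      linarith [Real.log_two_lt_d9]
    have h2 : ∑ n ∈ (ball ⌊H⌋₊).erase 0, (nr n)⁻¹ ≤ C * (2 * (1 + Real.log H)) :=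
      (hs _).trans (mul_le_mul_of_nonneg_left (by linarith) hC.le)
    have hA : 0 ≤ H ^ a := by positivity
    calc _ ≤ ∑ t ∈ T, H ^ a * ((7 / 10) ^ t.1 * (nr t.2)⁻¹) :=
          Finset.sum_le_sum fun t ht => LSRows_term (by linarith) (one_le_nr (hT t ht).1) ha _
      _ ≤ ∑ t ∈ T.image Prod.fst ×ˢ (ball ⌊H⌋₊).erase 0, H ^ a * ((7 / 10) ^ t.1 * (nr t.2)⁻¹) :=
          Finset.sum_le_sum_of_subset_of_nonneg hsub fun _ _ _ => by positivity
      _ = H ^ a * ((∑ j ∈ T.image Prod.fst, (7 / 10 : ℝ) ^ j) *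
          ∑ n ∈ (ball ⌊H⌋₊).erase 0, (nr n)⁻¹) := by
          rw [← Finset.mul_sum, Finset.sum_mul_sum, Finset.sum_product]
      _ ≤ H ^ a * (10 / 3 * (C * (2 * (1 + Real.log H)))) :=
          mul_le_mul_of_nonneg_left (mul_le_mul (LSRows_geom _) h2
            (Finset.sum_nonneg fun _ _ => by positivity) (by norm_num)) hA
      _ = 20 / 3 * C * (1 + Real.log H) * H ^ a := by ring
      _ ≤ _ := by gcongr; linarith

/-- All rows of conductor at least `Z`. -/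
theorem rows_all : ∃ C : ℝ, 0 < C ∧ ∀ (N H Z a b c d : ℝ), 1 ≤ H → 1 ≤ Z → 0 ≤ a → 0 ≤ b →
    0 ≤ c → 0 ≤ d →
    (∀ H₀ H₁ H₂ : ℝ, 1 ≤ H₀ → H₀ ≤ H → 1 ≤ H₁ → H₁ ≤ H → 1 ≤ H₂ → H₂ ≤ H →
      H₁ * H₂ ^ 2 ≤ 8 * H₀ →
      PairB N H₁ H₂ (a + b * H₀ ^ (1 / 3 : ℝ) + c * H₀ ^ (2 / 3 : ℝ) + d * H₀)) →
    BndP (fun k => k ≠ 0 ∧ nr k ≤ H ∧ Z ≤ cnd k) N (C * (1 + Real.log H) ^ 3 *
      (a * (H / Z) ^ (1 / 3 : ℝ) + b * H ^ (1 / 3 : ℝ) + c * H ^ (2 / 3 : ℝ) + d * H)) := by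
  classical
  obtain ⟨C₁, hC₁, hbox⟩ := rows_box
  obtain ⟨C₂, hC₂, hsum⟩ := rows_sum
  refine ⟨6 * C₁ * C₂, by positivity, fun N H Z a b c d hH hZ ha hb hc hd h S K β hS hK => ?_⟩
  choose! i j e h₁ h₂ a1 a2 a3 a4 a5 a6 a7 using fun k hk => row_decomp (hK k hk).1
  have hN := N2_nonneg S β
  have hL := Real.log_nonneg hH
  have hnr : ∀ k ∈ K, 3 ^ j k * nr (e k) ^ 3 * nr (h₁ k * h₂ k ^ 2) ≤ H := fun k hk => by
    have := (hK k hk).2.1
    rwa [a6 k hk, nr_mul _ (_ * _), nr_mul, nr_mul, nr_pow (e k), nr_pow lam, nr,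
      isUnit_iff_nm.1 (isUnit_iff_pow.2 ⟨_, a1 k hk, rfl⟩), nr, nm_lam, Nat.cast_one, one_mul,
      Nat.cast_ofNat] at this
  have hone : ∀ k ∈ K, 1 ≤ 3 ^ j k * nr (e k) ^ 3 := fun k hk =>
    one_le_mul_of_one_le_of_one_le (one_le_pow₀ (by norm_num))
      (one_le_pow₀ (one_le_nr (a2 k hk).ne_zero))
  have hz : ∀ k ∈ K, nr (h₁ k) ≤ nr (h₁ k * h₂ k ^ 2) ∧ nr (h₂ k) ≤ nr (h₁ k * h₂ k ^ 2) ∧
      Z ≤ nr (h₁ k * h₂ k ^ 2) := fun k hk => by
    have b1 := one_le_nr (a3 k hk).1.ne_zero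
    have b2 := one_le_nr (a4 k hk).1.ne_zero
    have b3 := (hK k hk).2.2
    rw [a7 k hk] at b3
    rw [nr_mul, nr_pow]
    have b4 : nr (h₁ k) * nr (h₂ k) ≤ nr (h₁ k) * nr (h₂ k) ^ 2 :=
      mul_le_mul_of_nonneg_left (le_self_pow₀ b2 two_ne_zero) (by linarith)
    exact ⟨by nlinarith, by nlinarith, b3.trans b4⟩
  set T := K.image fun k => (j k, e k) with hT
  have hT' : ∀ t ∈ T, t.2 ≠ 0 ∧ 3 ^ t.1 * nr t.2 ^ 3 ≤ H / Z := fun t ht => by
    obtain ⟨k, hk, rfl⟩ := Finset.mem_image.1 ht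
    refine ⟨(a2 k hk).ne_zero, (le_div_iff₀ (by linarith)).2 (le_trans ?_ (hnr k hk))⟩
    exact mul_le_mul_of_nonneg_left (hz k hk).2.2 (by positivity)
  obtain ⟨s0, s1⟩ := hsum H Z T hH hZ hT'
  have hmap : ∀ k ∈ K, (i k, (j k, e k)) ∈ Finset.range 6 ×ˢ T := fun k hk =>
    Finset.mem_product.2 ⟨Finset.mem_range.2 (a1 k hk), Finset.mem_image_of_mem _ hk⟩
  rw [← Finset.sum_fiberwise_of_maps_to hmap]
  obtain ⟨H₀, hH₀⟩ : ∃ H₀ : ℕ × O → ℝ, ∀ t, H₀ t = H / (3 ^ t.1 * nr t.2 ^ 3) := ⟨_, fun _ => rfl⟩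
  simp only [← hH₀] at s1
  calc _ ≤ ∑ y ∈ Finset.range 6 ×ˢ T, C₁ * (1 + Real.log H) ^ 2 * (a + b * H₀ y.2 ^ (1 / 3 : ℝ) +
        c * H₀ y.2 ^ (2 / 3 : ℝ) + d * H₀ y.2) * N2 S β := by
        refine Finset.sum_le_sum fun y hy => ?_
        obtain ⟨k₀, hk₀, e₀⟩ := Finset.mem_image.1 (Finset.mem_product.1 hy).2
        have c1 : 1 ≤ H₀ y.2 := by
          rw [hH₀, ← e₀, le_div_iff₀ (by linarith [hone k₀ hk₀]), one_mul]
          exact le_trans (le_mul_of_one_le_right (by positivity) (hZ.trans (hz k₀ hk₀).2.2))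
            (hnr k₀ hk₀)
        have c2 : H₀ y.2 ≤ H := by
          rw [hH₀, ← e₀]
          exact div_le_self (by linarith) (hone k₀ hk₀)
        have c0 : 0 ≤ H₀ y.2 := by linarith
        have hk' : ∀ k ∈ K.filter fun k => (i k, (j k, e k)) = y,
            k = (-om) ^ y.1 * lam ^ y.2.1 * y.2.2 ^ 3 * (h₁ k * h₂ k ^ 2) := fun k hk => by
          obtain ⟨hk₁, rfl⟩ := Finset.mem_filter.1 hk
          exact a6 k hk₁
        have key := BndP.twist (by positivity) (hbox N H (H₀ y.2) _ c1 c2 (by positivity)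
          fun H₁ H₂ b1 b2 b3 b4 b5 => h _ H₁ H₂ c1 c2 b1 b2 b3 b4 b5)
          ((-om) ^ y.1 * lam ^ y.2.1 * y.2.2 ^ 3) S
          ((K.filter fun k => (i k, (j k, e k)) = y).image fun k => h₁ k * h₂ k ^ 2) β hS
          fun z hz' => by
            obtain ⟨k, hk₁, rfl⟩ := Finset.mem_image.1 hz'
            obtain ⟨hk, rfl⟩ := Finset.mem_filter.1 hk₁
            have c3 : nr (h₁ k * h₂ k ^ 2) ≤ H₀ (j k, e k) := by
              rw [hH₀, le_div_iff₀' (by linarith [hone k hk])]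
              exact hnr k hk
            exact ⟨⟨h₁ k, h₂ k, a3 k hk, a4 k hk, a5 k hk, (hz k hk).1.trans (c3.trans c2),
              (hz k hk).2.1.trans (c3.trans c2), rfl⟩, c3⟩
        rw [Finset.sum_image fun k hk k' hk'' e' => by
          rw [hk' k hk, hk' k' hk'']
          exact congrArg _ e'] at key
        refine le_trans (le_of_eq (Finset.sum_congr rfl fun k hk => ?_)) key
        rw [← hk' k hk]
    _ = 6 * C₁ * (1 + Real.log H) ^ 2 * (a * T.card + b * ∑ t ∈ T, H₀ t ^ (1 / 3 : ℝ) +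
        c * ∑ t ∈ T, H₀ t ^ (2 / 3 : ℝ) + d * ∑ t ∈ T, H₀ t ^ (1 : ℝ)) * N2 S β := by
        rw [Finset.sum_product]
        simp only [Finset.sum_const, Finset.card_range, nsmul_eq_mul, ← Finset.sum_mul,
          ← Finset.mul_sum, Finset.sum_add_distrib, Real.rpow_one]
        push_cast
        ring
    _ ≤ 6 * C₁ * (1 + Real.log H) ^ 2 * (a * (C₂ * (1 + Real.log H) * (H / Z) ^ (1 / 3 : ℝ)) +
        b * (C₂ * (1 + Real.log H) * H ^ (1 / 3 : ℝ)) +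
        c * (C₂ * (1 + Real.log H) * H ^ (2 / 3 : ℝ)) +
        d * (C₂ * (1 + Real.log H) * H ^ (1 : ℝ))) * N2 S β := by
        have t0 : (T.card : ℝ) ≤ C₂ * (1 + Real.log H) * (H / Z) ^ (1 / 3 : ℝ) :=
          s0.trans (mul_le_mul_of_nonneg_right (le_mul_of_one_le_right hC₂.le (by linarith))
            (by positivity))
        have t1 := s1 (1 / 3) le_rfl
        have t2 := s1 (2 / 3) (by norm_num)
        have t3 := s1 1 (by norm_num)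
        gcongr
    _ = _ := by
        rw [Real.rpow_one]
        ring

end Crest.Agent.R12
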