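import Crest.Agent.R12.LSBasic
import Crest.Agent.R12.LSPair
import Crest.Agent.R17.M4P1AuxB

/-!
# Row 12, cubic large sieve: separation of the variables in the Gaussian
-/

set_option autoImplicit false

noncomputable section

namespace Crest.Agent.R12

open Crest.Agent.R17
open scoped ComplexConjugate

open MeasureTheory in
theorem LSSep_integrable {σ y : ℝ} (hσ : 0 < σ) (hy : 0 < y) :
    Integrable fun u : ℝ =>
      Complex.Gamma (σ + u * Complex.I) * (y : ℂ) ^ (-((σ : ℂ) + u * Complex.I)) := by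
  refine (P1b.integrable_Gamma hσ).mul_bdd (c := y ^ (-σ))
    (Continuous.const_cpow (by fun_prop)
      (Or.inl (Complex.ofReal_ne_zero.2 hy.ne'))).aestronglyMeasurable
    (Filter.Eventually.of_forall fun u => le_of_eq ?_)
  rw [Complex.norm_cpow_eq_rpow_re_of_pos hy]
  simp

/-- The bound on a vertical line. -/
theorem LSSep_point {σ c : ℝ} (hσ : 0 < σ) (hc : 1 ≤ c) (u : ℝ) (I H : Finset O) (m : O → O)
    (γ : O → ℂ) {x N K D : ℝ} (hm : Set.InjOn m I) (hI : ∀ i ∈ I, PS (m i) ∧ nr (m i) ≤ N)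
    (hx : 1 ≤ x) (hN : 1 ≤ N) (hD : 0 ≤ D) (hB : BndA K N D)
    (hH : ∀ h ∈ H, h ≠ 0 ∧ nr h ≤ K) :
    ‖∑ i ∈ I, ∑ j ∈ I, γ i * conj (γ j) * ∑ h ∈ H, conj (cub (m i) h) * cub (m j) h *
        ((c * (x * nr h / (nr (m i) * nr (m j))) : ℝ) : ℂ) ^ (-((σ : ℂ) + u * Complex.I))‖ ≤
      N ^ (2 * σ) * D * ∑ i ∈ I, ‖γ i‖ ^ 2 := by
  have hN0 : 0 < N := by linarith
  set s : ℂ := (σ : ℂ) + u * Complex.I with hs
  set τ : O → ℂ := fun i => ((nr (m i) / N : ℝ) : ℂ) ^ s with hτ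
  have hpos : ∀ i ∈ I, 0 < nr (m i) := fun i hi => nr_pos (hI i hi).1.1.ne_zero
  have hτ1 : ∀ i ∈ I, ‖τ i‖ ≤ 1 := fun i hi => by
    rw [hτ]
    simp only
    rw [hs, P1b.norm_cpow (div_pos (hpos i hi) hN0)]
    exact Real.rpow_le_one (div_pos (hpos i hi) hN0).le ((div_le_one hN0).2 (hI i hi).2) hσ.le
  set A : O → ℂ := fun h => ∑ i ∈ I, γ i * τ i * conj (cub (m i) h) with hA
  set B : O → ℂ := fun h => ∑ j ∈ I, conj (γ j) * τ j * cub (m j) h with hBd
  have hA2 : ∑ h ∈ H, ‖A h‖ ^ 2 ≤ D * ∑ i ∈ I, ‖γ i‖ ^ 2 :=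
    BndP.index_conj hD hB I H m γ τ hm hI hτ1 hH
  have hB2 : ∑ h ∈ H, ‖B h‖ ^ 2 ≤ D * ∑ i ∈ I, ‖γ i‖ ^ 2 := by
    have := BndP.index hD hB I H m (fun j => conj (γ j)) τ hm hI hτ1 hH
    simpa only [Complex.norm_conj] using this
  have hZ : ∀ h ∈ H, (N ^ 2)⁻¹ ≤ c * x * nr h / N ^ 2 := fun h hh => by
    rw [← one_div]
    refine div_le_div_of_nonneg_right ?_ (by positivity)
    exact one_le_mul_of_one_le_of_one_le (one_le_mul_of_one_le_of_one_le hc hx)
      (one_le_nr (hH h hh).1)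
  have hZ0 : ∀ h ∈ H, 0 < c * x * nr h / N ^ 2 := fun h hh =>
    lt_of_lt_of_le (by positivity) (hZ h hh)
  have he : ∑ i ∈ I, ∑ j ∈ I, γ i * conj (γ j) * ∑ h ∈ H, conj (cub (m i) h) * cub (m j) h *
        ((c * (x * nr h / (nr (m i) * nr (m j))) : ℝ) : ℂ) ^ (-s) =
      ∑ h ∈ H, ((c * x * nr h / N ^ 2 : ℝ) : ℂ) ^ (-s) * (A h * B h) := by
    simp only [hA, hBd, Finset.sum_mul_sum]
    simp only [Finset.mul_sum]
    rw [Finset.sum_comm (s := H)]
    refine Finset.sum_congr rfl fun i hi => ?_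
    rw [Finset.sum_comm (s := H)]
    refine Finset.sum_congr rfl fun j hj => Finset.sum_congr rfl fun h hh => ?_
    have h1 : c * (x * nr h / (nr (m i) * nr (m j))) =
        c * x * nr h / N ^ 2 / (nr (m i) / N * (nr (m j) / N)) := by
      have := (hpos i hi).ne'
      have := (hpos j hj).ne'
      field_simp
    rw [h1, P1b.cpow_split (hZ0 h hh) (div_pos (hpos i hi) hN0) (div_pos (hpos j hj) hN0)]
    simp only [hτ]
    ring
  rw [he]
  have hw : ∀ h ∈ H, ‖((c * x * nr h / N ^ 2 : ℝ) : ℂ) ^ (-s)‖ ≤ N ^ (2 * σ) := fun h hh => by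
    rw [Complex.norm_cpow_eq_rpow_re_of_pos (hZ0 h hh)]
    have h1 : (-s).re = -σ := by simp [hs]
    rw [h1]
    calc (c * x * nr h / N ^ 2) ^ (-σ) ≤ ((N ^ 2)⁻¹) ^ (-σ) :=
          Real.rpow_le_rpow_of_nonpos (by positivity) (hZ h hh) (by linarith)
      _ = N ^ (2 * σ) := by
          rw [Real.inv_rpow (by positivity), Real.rpow_neg (by positivity), inv_inv,
            Real.rpow_mul hN0.le, Real.rpow_two]
  calc ‖∑ h ∈ H, ((c * x * nr h / N ^ 2 : ℝ) : ℂ) ^ (-s) * (A h * B h)‖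
      ≤ ∑ h ∈ H, N ^ (2 * σ) * ((‖A h‖ ^ 2 + ‖B h‖ ^ 2) / 2) := by
        refine (norm_sum_le _ _).trans (Finset.sum_le_sum fun h hh => ?_)
        rw [norm_mul, norm_mul]
        refine mul_le_mul (hw h hh) ?_ (by positivity) (by positivity)
        nlinarith [sq_nonneg (‖A h‖ - ‖B h‖)]
    _ = N ^ (2 * σ) * ((∑ h ∈ H, ‖A h‖ ^ 2 + ∑ h ∈ H, ‖B h‖ ^ 2) / 2) := by
        rw [← Finset.mul_sum, ← Finset.sum_div, Finset.sum_add_distrib]
    _ ≤ N ^ (2 * σ) * (D * ∑ i ∈ I, ‖γ i‖ ^ 2) :=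
        mul_le_mul_of_nonneg_left (by linarith) (by positivity)
    _ = _ := by ring

theorem LSSep_mem {K : ℝ} (hK : 0 ≤ K) {h : O} :
    h ∈ (ball ⌊K⌋₊).erase 0 ↔ h ≠ 0 ∧ nr h ≤ K := by
  rw [Finset.mem_erase, mem_ball, Nat.le_floor_iff hK]

open MeasureTheory in
/-- The short frequencies. -/
theorem sep_fin {σ : ℝ} (hσ : 0 < σ) : ∃ C : ℝ, 0 < C ∧ ∀ (I : Finset O) (m : O → O) (γ : O → ℂ)
    (x N K D : ℝ), Set.InjOn m I → (∀ i ∈ I, PS (m i) ∧ nr (m i) ≤ N) → 1 ≤ x → 1 ≤ N → 0 ≤ K →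
    0 ≤ D → BndA K N D →
    ‖∑ i ∈ I, ∑ j ∈ I, γ i * conj (γ j) * ∑ h ∈ (ball ⌊K⌋₊).erase 0,
        conj (cub (m i) h) * cub (m j) h * (gw (x * nr h / (nr (m i) * nr (m j))) : ℂ)‖ ≤
      C * N ^ (2 * σ) * D * ∑ i ∈ I, ‖γ i‖ ^ 2 := by
  have hJ : 0 ≤ ∫ u : ℝ, ‖Complex.Gamma (σ + u * Complex.I)‖ :=
    integral_nonneg fun _ => norm_nonneg _
  refine ⟨(∫ u : ℝ, ‖Complex.Gamma (σ + u * Complex.I)‖) + 1, by linarith, ?_⟩
  intro I m γ x N K D hm hI hx hN hK hD hB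
  set H : Finset O := (ball ⌊K⌋₊).erase 0 with hHd
  have hH : ∀ h ∈ H, h ≠ 0 ∧ nr h ≤ K := fun h hh => (LSSep_mem hK).1 hh
  set c : ℝ := 2 * Real.pi / Real.sqrt 3 with hc
  have hc3 : 3 ≤ c := pois_three_le
  have hpos : ∀ i ∈ I, 0 < nr (m i) := fun i hi => nr_pos (hI i hi).1.1.ne_zero
  have hy : ∀ i ∈ I, ∀ j ∈ I, ∀ h ∈ H, 0 < x * nr h / (nr (m i) * nr (m j)) :=
    fun i hi j hj h hh => div_pos (mul_pos (by linarith) (nr_pos (hH h hh).1))
      (mul_pos (hpos i hi) (hpos j hj))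
  set g : O → O → O → ℝ → ℂ := fun i j h u => Complex.Gamma (σ + u * Complex.I) *
    ((c * (x * nr h / (nr (m i) * nr (m j))) : ℝ) : ℂ) ^ (-((σ : ℂ) + u * Complex.I)) with hg
  have hgi : ∀ i ∈ I, ∀ j ∈ I, ∀ h ∈ H, Integrable (g i j h) := fun i hi j hj h hh =>
    LSSep_integrable hσ (mul_pos (by linarith) (hy i hi j hj h hh))
  have key : ∫ u : ℝ, ∑ i ∈ I, ∑ j ∈ I, γ i * conj (γ j) * ∑ h ∈ H,
        conj (cub (m i) h) * cub (m j) h * g i j h u =
      ∑ i ∈ I, ∑ j ∈ I, γ i * conj (γ j) * ∑ h ∈ H,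
        conj (cub (m i) h) * cub (m j) h * ∫ u : ℝ, g i j h u := by
    rw [integral_finsetSum _ fun i hi => integrable_finsetSum _ fun j hj =>
      (integrable_finsetSum _ fun h hh => (hgi i hi j hj h hh).const_mul _).const_mul _]
    refine Finset.sum_congr rfl fun i hi => ?_
    rw [integral_finsetSum _ fun j hj =>
      (integrable_finsetSum _ fun h hh => (hgi i hi j hj h hh).const_mul _).const_mul _]
    refine Finset.sum_congr rfl fun j hj => ?_
    rw [integral_const_mul, integral_finsetSum _ fun h hh => (hgi i hi j hj h hh).const_mul _]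
    congr 1
    exact Finset.sum_congr rfl fun h _ => integral_const_mul _ _
  have he : ∑ i ∈ I, ∑ j ∈ I, γ i * conj (γ j) * ∑ h ∈ H,
        conj (cub (m i) h) * cub (m j) h * (gw (x * nr h / (nr (m i) * nr (m j))) : ℂ) =
      (1 / (2 * Real.pi) : ℂ) * ∫ u : ℝ, ∑ i ∈ I, ∑ j ∈ I, γ i * conj (γ j) * ∑ h ∈ H,
        conj (cub (m i) h) * cub (m j) h * g i j h u := by
    rw [key]
    simp only [Finset.mul_sum]
    refine Finset.sum_congr rfl fun i hi => Finset.sum_congr rfl fun j hj =>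
      Finset.sum_congr rfl fun h hh => ?_
    rw [gw_eq_integral (hy i hi j hj h hh) hσ]
    simp only [hg]
    ring
  rw [he, norm_mul]
  set Q : ℝ := N ^ (2 * σ) * D * ∑ i ∈ I, ‖γ i‖ ^ 2 with hQ
  have hQ0 : 0 ≤ Q := by
    have : 0 ≤ N := by linarith
    positivity
  have h1 : ‖∫ u : ℝ, ∑ i ∈ I, ∑ j ∈ I, γ i * conj (γ j) * ∑ h ∈ H,
        conj (cub (m i) h) * cub (m j) h * g i j h u‖ ≤
      ∫ u : ℝ, ‖Complex.Gamma (σ + u * Complex.I)‖ * Q := by
    refine norm_integral_le_of_norm_le ((P1b.integrable_normGamma hσ).mul_const Q)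
      (Filter.Eventually.of_forall fun u => ?_)
    have h2 := LSSep_point hσ (c := c) (by linarith) u I H m γ hm hI hx hN hD hB hH
    refine le_trans (le_of_eq ?_) (mul_le_mul_of_nonneg_left h2 (norm_nonneg _))
    rw [← norm_mul]
    congr 1
    simp only [Finset.mul_sum, hg]
    refine Finset.sum_congr rfl fun i _ => Finset.sum_congr rfl fun j _ =>
      Finset.sum_congr rfl fun h _ => ?_
    ring
  rw [integral_mul_const] at h1
  have h3 : ‖(1 / (2 * Real.pi) : ℂ)‖ ≤ 1 := by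
    rw [norm_div, norm_one, norm_mul, Complex.norm_real, Real.norm_of_nonneg Real.pi_pos.le,
      Complex.norm_ofNat, div_le_one (by positivity)]
    linarith [Real.pi_gt_three]
  calc _ ≤ 1 * ((∫ u : ℝ, ‖Complex.Gamma (σ + u * Complex.I)‖) * Q) :=
        mul_le_mul h3 h1 (norm_nonneg _) zero_le_one
    _ ≤ ((∫ u : ℝ, ‖Complex.Gamma (σ + u * Complex.I)‖) + 1) * Q := by
        rw [one_mul]
        exact mul_le_mul_of_nonneg_right (by linarith) hQ0
    _ = _ := by rw [hQ]; ring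

theorem LSSep_tail {f : O → ℂ} {g : O → ℝ} (H : Finset O) (hf : Summable f) (hg : Summable g)
    (hg0 : ∀ k, 0 ≤ g k) (h : ∀ k, k ∉ H → ‖f k‖ ≤ g k) :
    ‖∑' k, f k - ∑ k ∈ H, f k‖ ≤ ∑' k, g k := by
  classical
  have h1 : HasSum (fun k => if k ∈ H then f k else 0) (∑ k ∈ H, f k) := by
    have h2 : HasSum (fun k => if k ∈ H then f k else 0) (∑ k ∈ H, if k ∈ H then f k else 0) :=
      hasSum_sum_of_ne_finset_zero fun k hk => if_neg hk
    rwa [Finset.sum_congr rfl fun k hk => if_pos hk] at h2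
  rw [← (hf.hasSum.sub h1).tsum_eq]
  refine tsum_of_norm_bounded hg.hasSum fun k => ?_
  by_cases hk : k ∈ H
  · simpa [hk] using hg0 k
  · simpa [hk] using h k hk

open Classical in
/-- All non-zero frequencies. -/
theorem sep_all {η : ℝ} (hη : 0 < η) : ∃ C : ℝ, 0 < C ∧ ∀ (I : Finset O) (m : O → O) (γ : O → ℂ)
    (x N X D : ℝ), Set.InjOn m I → (∀ i ∈ I, PS (m i) ∧ nr (m i) ≤ N) → 1 ≤ x → 1 ≤ N → N ≤ X →
    0 ≤ D → (1 ≤ X ^ η * N ^ 2 / x → BndA (X ^ η * N ^ 2 / x) N D) →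
    ‖∑ i ∈ I, ∑ j ∈ I, γ i * conj (γ j) * ∑' h : O, if h = 0 then 0 else
        conj (cub (m i) h) * cub (m j) h * (gw (x * nr h / (nr (m i) * nr (m j))) : ℂ)‖ ≤
      C * (X ^ η * D + N * (1 + N ^ 2 / x) / X) * ∑ i ∈ I, ‖γ i‖ ^ 2 := by
  obtain ⟨C₁, hC₁, h₁⟩ := sep_fin (σ := η / 2) (by positivity)
  obtain ⟨C₂, hC₂, h₂⟩ := tsum_gw_tail_le η⁻¹ 0
  refine ⟨C₁ + 7 * C₂, by positivity, ?_⟩
  intro I m γ x N X D hm hI hx hN hNX hD hB
  have hx0 : 0 < x := by linarith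
  have hN0 : 0 < N := by linarith
  have hX1 : 1 ≤ X := hN.trans hNX
  have hX0 : 0 < X := by linarith
  have hL : 1 ≤ X ^ η := Real.one_le_rpow hX1 hη.le
  set K : ℝ := X ^ η * N ^ 2 / x with hKd
  have hK : 0 ≤ K := by positivity
  set Y : ℝ := N ^ 2 / x with hYd
  have hY : 0 < Y := by positivity
  have hKY : K = Y * X ^ η := by rw [hKd, hYd]; ring
  have hB' : BndA K N D := by
    by_cases h1 : 1 ≤ K
    · exact hB h1
    · intro S R β _ hR
      have hR0 : R = ∅ := Finset.eq_empty_of_forall_notMem fun k hk =>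
        h1 ((one_le_nr (hR k hk).1).trans (hR k hk).2)
      rw [hR0, Finset.sum_empty]
      exact mul_nonneg hD (N2_nonneg S β)
  have hfin := h₁ I m γ x N K D hm hI hx hN hK hD hB'
  set H : Finset O := (ball ⌊K⌋₊).erase 0 with hHd
  set f : O → O → O → ℂ := fun i j h =>
    conj (cub (m i) h) * cub (m j) h * (gw (x * nr h / (nr (m i) * nr (m j))) : ℂ) with hf
  have hpos : ∀ i ∈ I, 0 < nr (m i) := fun i hi => nr_pos (hI i hi).1.1.ne_zero
  have hfle : ∀ i ∈ I, ∀ j ∈ I, ∀ h, ‖f i j h‖ ≤ gw (nr h / Y) := fun i hi j hj h => by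
    have h3 : nr h / Y ≤ x * nr h / (nr (m i) * nr (m j)) := by
      have h4 : nr h / Y = x * nr h / (N * N) := by rw [hYd]; field_simp
      rw [h4]
      exact div_le_div_of_nonneg_left (mul_nonneg hx0.le (Nat.cast_nonneg _))
        (mul_pos (hpos i hi) (hpos j hj))
        (mul_le_mul (hI i hi).2 (hI j hj).2 (hpos j hj).le hN0.le)
    rw [hf]
    simp only
    rw [norm_mul, norm_mul, Complex.norm_conj, Complex.norm_real,
      Real.norm_of_nonneg (gw_pos _).le]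
    calc _ ≤ 1 * gw (x * nr h / (nr (m i) * nr (m j))) :=
          mul_le_mul_of_nonneg_right
            (mul_le_one₀ (norm_cub_le _ _) (norm_nonneg _) (norm_cub_le _ _)) (gw_pos _).le
      _ ≤ _ := by rw [one_mul]; exact gw_antitone h3
  have htail : ∀ i ∈ I, ∀ j ∈ I,
      ‖(∑' h : O, if h = 0 then 0 else f i j h) - ∑ h ∈ H, f i j h‖ ≤ C₂ * (1 + Y) / X :=
    fun i hi j hj => by
    have h3 : ∑ h ∈ H, f i j h = ∑ h ∈ H, if h = 0 then 0 else f i j h :=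
      Finset.sum_congr rfl fun h hh => (if_neg (Finset.ne_of_mem_erase hh)).symm
    have h4 := h₂ Y (X ^ η) hY hL
    have h5 : (X ^ η) ^ (-η⁻¹) = X⁻¹ := by
      rw [← Real.rpow_mul hX0.le, mul_neg, mul_inv_cancel₀ hη.ne', Real.rpow_neg_one]
    simp only [Real.rpow_zero, mul_one, abs_zero, zero_add, Real.rpow_one, h5] at h4
    rw [h3, div_eq_mul_inv]
    refine le_trans (LSSep_tail H ?_ ?_ ?_ ?_) h4
    · refine Summable.of_norm_bounded (summable_gw' hY) fun h => ?_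
      split_ifs
      · simpa using (gw_pos _).le
      · exact hfle i hi j hj h
    · refine Summable.of_nonneg_of_le (fun h => ?_) (fun h => ?_) (summable_gw' hY)
      · split_ifs
        · exact (gw_pos _).le
        · exact le_rfl
      · split_ifs
        · exact le_rfl
        · exact (gw_pos _).le
    · intro h
      split_ifs
      · exact (gw_pos _).le
      · exact le_rfl
    · intro h hh
      by_cases h0 : h = 0
      · rw [if_pos h0, norm_zero]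
        split_ifs
        · exact (gw_pos _).le
        · exact le_rfl
      · have h6 : Y * X ^ η ≤ nr h := by
          rw [← hKY]
          by_contra h7
          exact hh ((LSSep_mem hK).2 ⟨h0, (not_le.1 h7).le⟩)
        rw [if_neg h0, if_pos h6]
        exact hfle i hi j hj h
  have hcard : (I.card : ℝ) ≤ 7 * N := by
    rw [← Finset.card_image_of_injOn hm]
    refine card_le_of_nr_le hN0.le fun k hk => ?_
    obtain ⟨i, hi, rfl⟩ := Finset.mem_image.1 hk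
    exact ⟨(hI i hi).1.1.ne_zero, (hI i hi).2⟩
  set Q : ℝ := ∑ i ∈ I, ‖γ i‖ ^ 2 with hQ
  have hQ0 : 0 ≤ Q := Finset.sum_nonneg fun _ _ => by positivity
  have hsq : ∑ i ∈ I, ∑ j ∈ I, ‖γ i‖ * ‖γ j‖ ≤ 7 * N * Q := by
    rw [← Finset.sum_mul_sum, ← sq]
    exact sq_sum_le_card_mul_sum_sq.trans (mul_le_mul_of_nonneg_right hcard hQ0)
  have hT0 : 0 ≤ C₂ * (1 + Y) / X := by positivity
  have hrest : ‖∑ i ∈ I, ∑ j ∈ I, γ i * conj (γ j) *
      ((∑' h : O, if h = 0 then 0 else f i j h) - ∑ h ∈ H, f i j h)‖ ≤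
      7 * N * Q * (C₂ * (1 + Y) / X) := by
    refine le_trans ?_ (mul_le_mul_of_nonneg_right hsq hT0)
    rw [Finset.sum_mul]
    refine (norm_sum_le _ _).trans (Finset.sum_le_sum fun i hi => ?_)
    rw [Finset.sum_mul]
    refine (norm_sum_le _ _).trans (Finset.sum_le_sum fun j hj => ?_)
    rw [norm_mul, norm_mul, Complex.norm_conj]
    exact mul_le_mul_of_nonneg_left (htail i hi j hj) (by positivity)
  have he : ∑ i ∈ I, ∑ j ∈ I, γ i * conj (γ j) * (∑' h : O, if h = 0 then 0 else f i j h) =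
      ∑ i ∈ I, ∑ j ∈ I, γ i * conj (γ j) * ∑ h ∈ H, f i j h +
      ∑ i ∈ I, ∑ j ∈ I, γ i * conj (γ j) *
        ((∑' h : O, if h = 0 then 0 else f i j h) - ∑ h ∈ H, f i j h) := by
    rw [← Finset.sum_add_distrib]
    refine Finset.sum_congr rfl fun i _ => ?_
    rw [← Finset.sum_add_distrib]
    exact Finset.sum_congr rfl fun j _ => by ring
  have hNη : N ^ (2 * (η / 2)) ≤ X ^ η := by
    rw [show 2 * (η / 2) = η by ring]
    exact Real.rpow_le_rpow hN0.le hNX hη.le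
  have h8 : C₁ * N ^ (2 * (η / 2)) * D * Q ≤ C₁ * (X ^ η * D * Q) := by
    have := mul_le_mul_of_nonneg_right hNη (mul_nonneg hD hQ0)
    calc _ = C₁ * (N ^ (2 * (η / 2)) * (D * Q)) := by ring
      _ ≤ C₁ * (X ^ η * (D * Q)) := mul_le_mul_of_nonneg_left this hC₁.le
      _ = _ := by ring
  have h9 : 0 ≤ X ^ η * D * Q := by positivity
  have h10 : 0 ≤ N * (1 + Y) / X * Q := by positivity
  calc _ = _ := congrArg norm he
    _ ≤ _ := norm_add_le _ _
    _ ≤ C₁ * (X ^ η * D * Q) + 7 * N * Q * (C₂ * (1 + Y) / X) := add_le_add (hfin.trans h8) hrest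
    _ = C₁ * (X ^ η * D * Q) + 7 * C₂ * (N * (1 + Y) / X * Q) := by ring
    _ ≤ (C₁ + 7 * C₂) * (X ^ η * D * Q) + (C₁ + 7 * C₂) * (N * (1 + Y) / X * Q) :=
        add_le_add (mul_le_mul_of_nonneg_right (by linarith) h9)
          (mul_le_mul_of_nonneg_right (by linarith) h10)
    _ = _ := by ring

theorem LSSep_cube {y : ℝ} (hy : 0 ≤ y) (a : ℝ) : (y ^ (a / 3)) ^ 3 = y ^ a := by
  rw [← Real.rpow_natCast, ← Real.rpow_mul hy]
  congr 1
  push_cast
  ring

/-- The numerical inequality. -/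
theorem LSSep_num {L M N N' x X Γ : ℝ} (hL : 1 ≤ L) (hN' : 1 ≤ N') (hNN : N' ≤ N) (hNM : N ≤ M)
    (hNX : N ≤ X) (hx : 1 ≤ x) (hxM : x ≤ M) (hΓ : 0 ≤ Γ) :
    x * (L * (Γ * ((L * N' ^ 2 / x) ^ (1 / 3 : ℝ) * N' + (L * N' ^ 2 / x * N') ^ (2 / 3 : ℝ))) +
        N' * (1 + N' ^ 2 / x) / X) * (2 / N') ≤
      4 * L ^ 2 * (M + Γ * (M * N) ^ (2 / 3 : ℝ)) := by
  have hx0 : 0 < x := by linarith
  have hN0 : 0 < N' := by linarith
  have hL0 : 0 < L := by linarith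
  have hM0 : 0 < M := by linarith
  have hX1 : 1 ≤ X := by linarith
  have hNp : 0 < N := by linarith
  have hK0 : 0 ≤ L * N' ^ 2 / x := by positivity
  set k : ℝ := (L * N' ^ 2 / x) ^ (1 / 3 : ℝ) with hk
  set q : ℝ := (L * N' ^ 2 / x * N') ^ (2 / 3 : ℝ) with hq
  set R : ℝ := (M * N) ^ (2 / 3 : ℝ) with hR
  have hk3 : k ^ 3 = L * N' ^ 2 / x := by rw [hk, LSSep_cube hK0, Real.rpow_one]
  have hq3 : q ^ 3 = (L * N' ^ 2 / x * N') ^ 2 := by
    rw [hq, LSSep_cube (by positivity), Real.rpow_two]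
  have hR3 : R ^ 3 = (M * N) ^ 2 := by rw [hR, LSSep_cube (by positivity), Real.rpow_two]
  have hR0 : 0 ≤ R := by positivity
  have hL3 : L ≤ L ^ 3 := by nlinarith [mul_nonneg hL0.le (sub_nonneg.2 hL), sq_nonneg L]
  have hL23 : L ^ 2 ≤ L ^ 3 := pow_le_pow_right₀ hL (by norm_num)
  have h1 : x * k ≤ L * R := by
    refine le_of_pow_le_pow_left₀ (n := 3) (by norm_num) (by positivity) ?_
    calc (x * k) ^ 3 = L * (x * N') ^ 2 := by rw [mul_pow, hk3]; field_simp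
      _ ≤ L ^ 3 * (M * N) ^ 2 := by gcongr
      _ = (L * R) ^ 3 := by rw [mul_pow L R, hR3]
  have h2 : x * q / N' ≤ L * R := by
    refine le_of_pow_le_pow_left₀ (n := 3) (by norm_num) (by positivity) ?_
    calc (x * q / N') ^ 3 = L ^ 2 * (x * N' * (N' * N')) := by
          rw [div_pow, mul_pow, hq3]; field_simp
      _ ≤ L ^ 3 * (M * N * (M * N)) := by
          have : N' ≤ M := hNN.trans hNM
          gcongr
      _ = (L * R) ^ 3 := by rw [mul_pow L R, hR3]; ring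
  have h3 : (x + N' ^ 2) / X ≤ 2 * M := by
    rw [div_le_iff₀ (by linarith)]
    have h4 : x ≤ M * X := hxM.trans (le_mul_of_one_le_right hM0.le hX1)
    have h5 : N' ^ 2 ≤ M * X := by
      rw [sq]
      exact mul_le_mul (hNN.trans hNM) (hNN.trans hNX) hN0.le hM0.le
    linarith
  have h6 : M ≤ L ^ 2 * M := le_mul_of_one_le_left hM0.le (one_le_pow₀ hL)
  calc _ = 2 * (L * Γ) * (x * k + x * q / N') + 2 * ((x + N' ^ 2) / X) := by field_simp
    _ ≤ 2 * (L * Γ) * (L * R + L * R) + 2 * (2 * M) :=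
        add_le_add (mul_le_mul_of_nonneg_left (add_le_add h1 h2) (by positivity)) (by linarith)
    _ ≤ 2 * (L * Γ) * (L * R + L * R) + 4 * (L ^ 2 * M) := by linarith
    _ = _ := by ring

open Classical in
/-- The contribution of one pair `(G, E)`. -/
theorem one_GE {η : ℝ} (hη : 0 < η) : ∃ C : ℝ, 0 < C ∧ ∀ (X M N Γ : ℝ) (T G E : Finset O)
    (β : O → ℂ), 1 ≤ N → N ≤ X → N ≤ M → 0 ≤ Γ → StepH (X ^ η) M N Γ →
    (∀ b ∈ T, PS b ∧ N / 2 ≤ nr b ∧ nr b ≤ N ∧ G ⊆ pf b) → E ⊆ G →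
    ‖∑ n₁ ∈ T, ∑ n₂ ∈ T, β n₁ * conj (β n₂) * (((M / LS2.nP E : ℝ) : ℂ) *
        ∑' h : O, if h = 0 then 0 else dt M G E n₁ n₂ h)‖ ≤
      C * X ^ (2 * η) * (M + Γ * (M * N) ^ (2 / 3 : ℝ)) * N2 T β := by
  obtain ⟨C, hC, h⟩ := sep_all hη
  refine ⟨4 * C, by positivity, ?_⟩
  intro X M N Γ T G E β hN hNX hNM hΓ hS hT hEG
  have hX1 : 1 ≤ X := hN.trans hNX
  have hX0 : 0 < X := by linarith
  have hN0 : 0 < N := by linarith
  have hM0 : 0 < M := by linarith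
  have hL : 1 ≤ X ^ η := Real.one_le_rpow hX1 hη.le
  rcases T.eq_empty_or_nonempty with rfl | ⟨b₀, hb₀⟩
  · simp [N2]
  have hG0 : ∀ p ∈ G, p ≠ 0 := LS2.ne_zero_of_subset_pf (hT b₀ hb₀).2.2.2
  have hGp : 0 < LS2.nP G := LS2.nP_pos hG0
  have hG1 : 1 ≤ LS2.nP G := LS2.one_le_nP hG0
  have hE1 : 1 ≤ LS2.nP E := LS2.one_le_nP fun p hp => hG0 p (hEG hp)
  have hEp : 0 < LS2.nP E := by linarith
  have hEG' : LS2.nP E ≤ LS2.nP G := LS2.nP_mono hEG hG0
  have hprod : ∀ b ∈ T, (∏ p ∈ G, p) * LS2.cof G b = b := fun b hb =>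
    LS2.prod_mul_cof (hT b hb).1.1 (hT b hb).1.2 (hT b hb).2.2.2
  have hnr : ∀ b ∈ T, nr (LS2.cof G b) = nr b / LS2.nP G := fun b hb => by
    have h1 := congrArg nr (hprod b hb)
    rw [nr_mul, LS2.nr_prod] at h1
    rw [eq_div_iff hGp.ne', ← h1, mul_comm]
  have hPS : ∀ b ∈ T, PS (LS2.cof G b) := fun b hb =>
    ⟨LS2.primary_cof G b, (hT b hb).1.2.squarefree_of_dvd (Dvd.intro_left _ (hprod b hb))⟩
  set N' : ℝ := N / LS2.nP G with hN'd
  set x : ℝ := M / LS2.nP E with hxd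
  have hle : ∀ b ∈ T, nr (LS2.cof G b) ≤ N' := fun b hb => by
    rw [hnr b hb]
    exact div_le_div_of_nonneg_right (hT b hb).2.2.1 hGp.le
  have hge : ∀ b ∈ T, N' / 2 ≤ nr (LS2.cof G b) := fun b hb => by
    rw [hnr b hb, hN'd, div_right_comm]
    exact div_le_div_of_nonneg_right (hT b hb).2.1 hGp.le
  have hN' : 1 ≤ N' := (one_le_nr (hPS b₀ hb₀).1.ne_zero).trans (hle b₀ hb₀)
  have hN'0 : 0 < N' := by linarith
  have hNN : N' ≤ N := div_le_self hN0.le hG1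
  have hGN : LS2.nP G ≤ N := (one_le_div hGp).1 hN'
  have hx : 1 ≤ x := (one_le_div hEp).2 (by linarith)
  have hx0 : 0 < x := by linarith
  have hxM : x ≤ M := div_le_self hM0.le hE1
  have hinj : Set.InjOn (LS2.cof G) T := fun a ha b hb hab => by
    rw [← hprod a ha, ← hprod b hb]
    exact congrArg _ hab
  set a : O → ℂ := fun n =>
    cub (LS2.cof G n) (∏ p ∈ E, p) * (gc (LS2.cof G n) 1 / (nr (LS2.cof G n) : ℂ)) with ha
  set D : ℝ := Γ * ((X ^ η * N' ^ 2 / x) ^ (1 / 3 : ℝ) * N' +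
    (X ^ η * N' ^ 2 / x * N') ^ (2 / 3 : ℝ)) with hDd
  have hD : 0 ≤ D := by positivity
  have hK : X ^ η * N' ^ 2 / x ≤ X ^ η * N' * N / M := by
    have h1 : X ^ η * N' ^ 2 / x = X ^ η * N' * (N' * LS2.nP E) / M := by
      rw [hxd]; field_simp
    have h2 : N' * LS2.nP E ≤ N := by
      calc N' * LS2.nP E ≤ N' * LS2.nP G := mul_le_mul_of_nonneg_left hEG' hN'0.le
        _ = N := div_mul_cancel₀ _ hGp.ne'
    rw [h1]
    gcongr
  have hmain := h T (LS2.cof G) (fun n => β n * a n) x N' X D hinj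
    (fun b hb => ⟨hPS b hb, hle b hb⟩) hx hN' (hNN.trans hNX) hD
    (fun h1 => hS _ N' hN' hNN h1 hK)
  have hγ : ∑ n ∈ T, ‖β n * a n‖ ^ 2 ≤ 2 / N' * N2 T β := by
    rw [N2, Finset.mul_sum]
    refine Finset.sum_le_sum fun n hn => ?_
    have hp : 0 < nr (LS2.cof G n) := nr_pos (hPS n hn).1.ne_zero
    have h1 : ‖a n‖ ≤ Real.sqrt (nr (LS2.cof G n)) / nr (LS2.cof G n) := by
      rw [ha]
      simp only
      rw [norm_mul, norm_div, norm_gc (hPS n hn).1 (hPS n hn).2, Complex.norm_real,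
        Real.norm_of_nonneg hp.le]
      exact mul_le_of_le_one_left (by positivity) (norm_cub_le _ _)
    have h2 : ‖a n‖ ^ 2 ≤ 2 / N' := by
      refine (pow_le_pow_left₀ (norm_nonneg _) h1 2).trans ?_
      rw [div_pow, Real.sq_sqrt hp.le, div_le_div_iff₀ (by positivity) hN'0]
      nlinarith [hge n hn]
    rw [norm_mul, mul_pow, mul_comm]
    exact mul_le_mul_of_nonneg_right h2 (by positivity)
  have he : ∑ n₁ ∈ T, ∑ n₂ ∈ T, β n₁ * conj (β n₂) * ((x : ℂ) *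
        ∑' h : O, if h = 0 then 0 else dt M G E n₁ n₂ h) =
      (x : ℂ) * ∑ i ∈ T, ∑ j ∈ T, β i * a i * conj (β j * a j) * ∑' h : O, if h = 0 then 0 else
        conj (cub (LS2.cof G i) h) * cub (LS2.cof G j) h *
          (gw (x * nr h / (nr (LS2.cof G i) * nr (LS2.cof G j))) : ℂ) := by
    simp only [Finset.mul_sum]
    refine Finset.sum_congr rfl fun i _ => Finset.sum_congr rfl fun j _ => ?_
    have h1 : (∑' h : O, if h = 0 then 0 else dt M G E i j h) =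
        a i * conj (a j) * ∑' h : O, if h = 0 then 0 else
          conj (cub (LS2.cof G i) h) * cub (LS2.cof G j) h *
            (gw (x * nr h / (nr (LS2.cof G i) * nr (LS2.cof G j))) : ℂ) := by
      rw [← tsum_mul_left]
      refine tsum_congr fun k => ?_
      split_ifs
      · simp
      · have e : ∀ n, et G E n k = a n * conj (cub (LS2.cof G n) k) := fun n => rfl
        rw [dt, e, e, map_mul, Complex.conj_conj]
        ring
    rw [h1, map_mul (starRingEnd ℂ) (β j) (a j)]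
    generalize (∑' h : O, if h = 0 then 0 else
      conj (cub (LS2.cof G i) h) * cub (LS2.cof G j) h *
        (gw (x * nr h / (nr (LS2.cof G i) * nr (LS2.cof G j))) : ℂ)) = S
    ring
  have hnum := LSSep_num hL hN' hNN hNM hNX hx hxM hΓ
  have hP0 : 0 ≤ X ^ η * D + N' * (1 + N' ^ 2 / x) / X := by positivity
  have hL2 : X ^ (2 * η) = (X ^ η) ^ 2 := by
    rw [mul_comm, Real.rpow_mul hX0.le, Real.rpow_two]
  rw [he, norm_mul, Complex.norm_real, Real.norm_of_nonneg hx0.le, hL2]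
  calc _ ≤ x * (C * (X ^ η * D + N' * (1 + N' ^ 2 / x) / X) * (2 / N' * N2 T β)) :=
        mul_le_mul_of_nonneg_left
          (hmain.trans (mul_le_mul_of_nonneg_left hγ (mul_nonneg hC.le hP0))) hx0.le
    _ = C * N2 T β * (x * (X ^ η * D + N' * (1 + N' ^ 2 / x) / X) * (2 / N')) := by ring
    _ ≤ C * N2 T β * (4 * (X ^ η) ^ 2 * (M + Γ * (M * N) ^ (2 / 3 : ℝ))) :=
        mul_le_mul_of_nonneg_left hnum (mul_nonneg hC.le (N2_nonneg T β))
    _ = _ := by ring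

end Crest.Agent.R12
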