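import Crest.Agent.R12.LSPair
import Crest.Agent.R12.LSSep
import Crest.Agent.R12.LSRows

/-!
# Row 12, cubic large sieve: the recursive step
-/

set_option autoImplicit false

noncomputable section

namespace Crest.Agent.R12

open Crest.Agent.R17
open scoped ComplexConjugate

/-- One dyadic block of columns. -/
theorem step_blk {η : ℝ} (hη : 0 < η) : ∃ C : ℝ, 0 < C ∧ ∀ (X M N Γ : ℝ) (S K : Finset O)
    (β : O → ℂ), 1 ≤ N → N ≤ X → N ≤ M → 0 ≤ Γ → StepH (X ^ η) M N Γ →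
    (∀ b ∈ S, PS b ∧ N / 2 ≤ nr b ∧ nr b ≤ N) → (∀ k ∈ K, nr k ≤ M) →
    ∑ k ∈ K, ‖col S β k‖ ^ 2 ≤
      C * X ^ (3 * η) * (M + Γ * (M * N) ^ (2 / 3 : ℝ)) * N2 S β := by
  classical
  obtain ⟨C₁, hC₁, hGE⟩ := one_GE hη
  obtain ⟨C₆, hC₆, h6⟩ := pow_card_pf_le hη 6
  have hg := gw_pos 1
  refine ⟨(gw 1)⁻¹ * (C₆ * (1 + C₁)), by positivity, ?_⟩
  intro X M N Γ S K β hN hNX hNM hΓ hH hS hK
  have hM : 0 < M := by linarith
  have hX : 1 ≤ X := hN.trans hNX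
  obtain ⟨A, hA⟩ : ∃ A : ℝ, A = M + Γ * (M * N) ^ (2 / 3 : ℝ) := ⟨_, rfl⟩
  have hMA : M ≤ A := by
    rw [hA]
    exact le_add_of_nonneg_right (by positivity)
  have hA0 : 0 < A := hM.trans_le hMA
  rw [← hA]
  have h1 := rows_le_gauss hM S K β hK
  have h2 := pair_sum hM S β fun n hn => (hS n hn).1
  have h3 := bil_gcd S β (fun G n₁ n₂ => ∑ E ∈ G.powerset, (-1) ^ E.card *
      (((M / LS2.nP E : ℝ) : ℂ) * ∑' h : O, if h = 0 then 0 else dt M G E n₁ n₂ h))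
    (fun n => 2 ^ (pf n).card) (Λ := C₁ * X ^ (2 * η) * A) (by
      intro G T hT hG
      have e : ∑ n₁ ∈ T, ∑ n₂ ∈ T, β n₁ * conj (β n₂) * ∑ E ∈ G.powerset, (-1) ^ E.card *
          (((M / LS2.nP E : ℝ) : ℂ) * ∑' h : O, if h = 0 then 0 else dt M G E n₁ n₂ h) =
          ∑ E ∈ G.powerset, (-1) ^ E.card * ∑ n₁ ∈ T, ∑ n₂ ∈ T, β n₁ * conj (β n₂) *
            (((M / LS2.nP E : ℝ) : ℂ) * ∑' h : O, if h = 0 then 0 else dt M G E n₁ n₂ h) := by
        simp only [Finset.mul_sum]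
        rw [Finset.sum_comm (s := G.powerset)]
        refine Finset.sum_congr rfl fun n₁ _ => ?_
        rw [Finset.sum_comm (s := G.powerset)]
        exact Finset.sum_congr rfl fun n₂ _ => Finset.sum_congr rfl fun E _ => by ring
      rw [e]
      refine (norm_sum_le _ _).trans ((Finset.sum_le_card_nsmul _ _
        (C₁ * X ^ (2 * η) * A * N2 T β) fun E hE => ?_).trans ?_)
      · rw [norm_mul, norm_pow, norm_neg, norm_one, one_pow, one_mul, hA]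
        exact hGE X M N Γ T G E β hN hNX hNM hΓ hH
          (fun b hb => ⟨(hS b (hT hb)).1, (hS b (hT hb)).2.1, (hS b (hT hb)).2.2, hG b hb⟩)
          (Finset.mem_powerset.1 hE)
      · rw [Finset.card_powerset, nsmul_eq_mul, mul_left_comm, N2, Finset.mul_sum]
        refine mul_le_mul_of_nonneg_left (Finset.sum_le_sum fun n hn => ?_) (by positivity)
        refine mul_le_mul_of_nonneg_right ?_ (by positivity)
        push_cast
        exact pow_le_pow_right₀ one_le_two (Finset.card_le_card (hG n hn)))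
  have h4 : ∑ n ∈ S, 6 ^ (pf n).card * ‖β n‖ ^ 2 ≤ C₆ * X ^ η * N2 S β := by
    rw [N2, Finset.mul_sum]
    refine Finset.sum_le_sum fun n hn => mul_le_mul_of_nonneg_right ?_ (by positivity)
    exact (h6 n (hS n hn).1.1.ne_zero).trans (mul_le_mul_of_nonneg_left
      (Real.rpow_le_rpow (Nat.cast_nonneg _) ((hS n hn).2.2.trans hNX) hη.le) hC₆.le)
  have h5 : ∑ n ∈ S, 2 ^ (pf n).card * ‖β n‖ ^ 2 ≤ ∑ n ∈ S, 6 ^ (pf n).card * ‖β n‖ ^ 2 :=
    Finset.sum_le_sum fun n _ => mul_le_mul_of_nonneg_right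
      (pow_le_pow_left₀ zero_le_two (by norm_num) _) (by positivity)
  have h7 : ∑ n ∈ S, 3 ^ (pf n).card * (2 ^ (pf n).card * ‖β n‖ ^ 2) =
      ∑ n ∈ S, 6 ^ (pf n).card * ‖β n‖ ^ 2 :=
    Finset.sum_congr rfl fun n _ => by rw [← mul_assoc, ← mul_pow]; norm_num
  rw [h7] at h3
  have e3 : X ^ (3 * η) = X ^ (2 * η) * X ^ η := by
    rw [← Real.rpow_add (by linarith)]; congr 1; ring
  have h8 : 1 ≤ X ^ (2 * η) := Real.one_le_rpow hX (by positivity)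
  have hN2 := N2_nonneg S β
  have h9 : M * ∑ n ∈ S, 2 ^ (pf n).card * ‖β n‖ ^ 2 ≤ (X ^ (2 * η) * A) * (C₆ * X ^ η * N2 S β) :=
    mul_le_mul (hMA.trans (le_mul_of_one_le_left hA0.le h8)) (h5.trans h4)
      (Finset.sum_nonneg fun _ _ => by positivity) (by positivity)
  have h10 := mul_le_mul_of_nonneg_left h4 (by positivity : 0 ≤ C₁ * X ^ (2 * η) * A)
  rw [mul_assoc, mul_assoc, mul_assoc, le_inv_mul_iff₀ hg, e3]
  refine (h1.trans h2).trans ((add_le_add h9 (h3.trans h10)).trans_eq ?_)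
  ring

/-- All columns. -/
theorem step_core {η : ℝ} (hη : 0 < η) : ∃ C : ℝ, 0 < C ∧ ∀ (X M N Γ : ℝ), 1 ≤ N → N ≤ X →
    N ≤ M → 0 ≤ Γ → StepH (X ^ η) M N Γ →
    BndA M N (C * X ^ (4 * η) * (M + Γ * (M * N) ^ (2 / 3 : ℝ))) := by
  classical
  obtain ⟨C₁, hC₁, hb⟩ := step_blk hη
  have hl : 0 < Real.log 2 := Real.log_pos one_lt_two
  refine ⟨(1 + 1 / (η * Real.log 2)) * C₁, by positivity, ?_⟩
  intro X M N Γ hN hNX hNM hΓ hH S K β hS hK
  have hM : 0 < M := by linarith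
  have hX : 1 ≤ X := hN.trans hNX
  obtain ⟨A, hA⟩ : ∃ A : ℝ, A = M + Γ * (M * N) ^ (2 / 3 : ℝ) := ⟨_, rfl⟩
  have hA0 : 0 ≤ A := by rw [hA]; positivity
  rw [← hA]
  obtain ⟨g, hg⟩ : ∃ g : O → ℕ, g = fun b => Nat.log 2 ⌊N / nr b⌋₊ := ⟨_, rfl⟩
  have hb1 : ∀ b ∈ S, 1 ≤ nr b := fun b hb => one_le_nr (hS b hb).1.1.ne_zero
  have hmem : ∀ b ∈ S, g b ∈ Finset.range (Nat.log 2 ⌊X⌋₊ + 1) := by
    intro b hb
    rw [hg, Finset.mem_range, Nat.lt_succ_iff]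
    exact Nat.log_mono_right (Nat.floor_le_floor ((div_le_self (by linarith) (hb1 b hb)).trans hNX))
  have hrng : ∀ b ∈ S, N / 2 ^ g b / 2 ≤ nr b ∧ nr b ≤ N / 2 ^ g b := by
    intro b hb
    have h0 : 0 < nr b := by linarith [hb1 b hb]
    have h1 : 1 ≤ N / nr b := (one_le_div h0).2 (hS b hb).2
    have h2 : (2 : ℝ) ^ g b ≤ N / nr b := by
      have := Nat.pow_log_le_self 2 (Nat.floor_pos.2 h1).ne'
      rw [hg]
      exact le_trans (by exact_mod_cast this) (Nat.floor_le (by linarith))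
    have h3 : N / nr b < (2 : ℝ) ^ (g b + 1) := by
      have := (Nat.floor_lt (by linarith : 0 ≤ N / nr b)).1
        (Nat.lt_pow_succ_log_self one_lt_two ⌊N / nr b⌋₊)
      rw [hg]
      exact_mod_cast this
    rw [div_lt_iff₀ h0] at h3
    rw [le_div_iff₀ h0] at h2
    constructor
    · rw [div_div, ← pow_succ, div_le_iff₀ (by positivity)]
      linarith
    · rw [le_div_iff₀ (by positivity)]
      linarith
  have hblk : ∀ j, ∑ k ∈ K, ‖col (S.filter fun b => g b = j) β k‖ ^ 2 ≤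
      C₁ * X ^ (3 * η) * A * N2 (S.filter fun b => g b = j) β := by
    intro j
    rcases (S.filter fun b => g b = j).eq_empty_or_nonempty with h | ⟨b, hb'⟩
    · rw [h]
      simp [col, N2]
    obtain ⟨hbS, hbj⟩ := Finset.mem_filter.1 hb'
    have h1 : 1 ≤ N / 2 ^ j := (hb1 b hbS).trans (hbj ▸ (hrng b hbS).2)
    have h2 : N / 2 ^ j ≤ N := div_le_self (by linarith) (one_le_pow₀ one_le_two)
    refine (hb X M (N / 2 ^ j) Γ _ K β h1 (h2.trans hNX) (h2.trans hNM) hΓ ?_ ?_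
      fun k hk => (hK k hk).2).trans (mul_le_mul_of_nonneg_right ?_ (N2_nonneg _ _))
    · intro K' N' a1 a2 a3 a4
      refine hH K' N' a1 (a2.trans h2) a3 (a4.trans ?_)
      gcongr
    · intro c hc
      obtain ⟨hcS, hcj⟩ := Finset.mem_filter.1 hc
      exact ⟨(hS c hcS).1, hcj ▸ hrng c hcS⟩
    · rw [hA]
      gcongr
  have hc := LS2.Dual_log_le hη hX
  have e4 : X ^ (4 * η) = X ^ η * X ^ (3 * η) := by
    rw [← Real.rpow_add (by linarith)]; congr 1; ring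
  calc ∑ k ∈ K, ‖col S β k‖ ^ 2
      ≤ ∑ k ∈ K, ((Finset.range (Nat.log 2 ⌊X⌋₊ + 1)).card : ℝ) *
          ∑ j ∈ Finset.range (Nat.log 2 ⌊X⌋₊ + 1), ‖col (S.filter fun b => g b = j) β k‖ ^ 2 :=
        Finset.sum_le_sum fun k _ => by
          have := LS2.norm_sum_sq_le_fiber S _ g hmem fun b => β b * cub b k
          refine this.trans_eq ?_
          unfold col
          congr!
    _ = ((Nat.log 2 ⌊X⌋₊ + 1 : ℕ) : ℝ) * ∑ j ∈ Finset.range (Nat.log 2 ⌊X⌋₊ + 1),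
          ∑ k ∈ K, ‖col (S.filter fun b => g b = j) β k‖ ^ 2 := by
        rw [← Finset.mul_sum, Finset.sum_comm, Finset.card_range]
    _ ≤ ((1 + 1 / (η * Real.log 2)) * X ^ η) * (C₁ * X ^ (3 * η) * A * N2 S β) := by
        refine mul_le_mul hc ((Finset.sum_le_sum fun j _ => hblk j).trans_eq ?_)
          (Finset.sum_nonneg fun _ _ => Finset.sum_nonneg fun _ _ => by positivity) (by positivity)
        rw [← Finset.mul_sum]
        congr 1
        exact Finset.sum_fiberwise_of_maps_to hmem _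
    _ = _ := by rw [e4]; ring

theorem LSStep_cube1 {x H : ℝ} (hH : 0 ≤ H) (h : x ^ 3 ≤ 8 * H) : x ≤ 2 * H ^ (1 / 3 : ℝ) := by
  refine le_of_pow_le_pow_left₀ (n := 3) (by norm_num) (by positivity) (h.trans_eq ?_)
  rw [mul_pow, ← Real.rpow_natCast (H ^ _), ← Real.rpow_mul hH]
  norm_num

theorem LSStep_cube2 {x y H : ℝ} (hy : 0 ≤ y) (hH : 0 ≤ H) (h : x ^ 3 * y ^ 2 ≤ 64 * H ^ 2) :
    x * y ^ (2 / 3 : ℝ) ≤ 4 * H ^ (2 / 3 : ℝ) := by
  have e : ∀ z : ℝ, 0 ≤ z → (z ^ (2 / 3 : ℝ)) ^ 3 = z ^ 2 := fun z hz => by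
    rw [← Real.rpow_natCast (z ^ _), ← Real.rpow_mul hz]
    norm_num
  refine le_of_pow_le_pow_left₀ (n := 3) (by norm_num) (by positivity) ?_
  rw [mul_pow, mul_pow, e y hy, e H hH]
  linarith

theorem LSStep_pair {x y H G N : ℝ} (hy : 0 ≤ y) (hH : 0 ≤ H) (hG : 0 ≤ G) (hN : 0 ≤ N)
    (h1 : x ^ 3 ≤ 8 * H) (h2 : x ^ 3 * y ^ 2 ≤ 64 * H ^ 2) :
    7 * x * (G * (N + (N * y) ^ (2 / 3 : ℝ))) ≤ 0 + 14 * G * N * H ^ (1 / 3 : ℝ) +
      28 * G * N ^ (2 / 3 : ℝ) * H ^ (2 / 3 : ℝ) + 0 * H := by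
  have a1 := mul_le_mul_of_nonneg_left (LSStep_cube1 hH h1) (by positivity : 0 ≤ 7 * G * N)
  have a2 := mul_le_mul_of_nonneg_left (LSStep_cube2 hy hH h2)
    (by positivity : 0 ≤ 7 * G * N ^ (2 / 3 : ℝ))
  rw [Real.mul_rpow hN hy]
  linarith

/-- The induction hypothesis gives the hypothesis of the step. -/
theorem stepH_of_indQ {η : ℝ} (hη : 0 < η) : ∃ C : ℝ, 0 < C ∧ ∀ (X Γ Y ρ M N : ℝ), 0 ≤ Γ →
    1 ≤ N → N ≤ X → X ^ η ≤ ρ → X ^ η * N ≤ ρ * Y → ρ * N ≤ M → IndQ X Γ Y ρ →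
    StepH (X ^ η) M N (C * X ^ (2 * η) * Γ) := by
  obtain ⟨C₁, hC₁, hr⟩ := rows_all
  refine ⟨C₁ * (1 + 3 / η) ^ 3 * 28, by positivity, ?_⟩
  intro X Γ Y ρ M N hΓ hN hNX hρ hY hM hQ K N' hN' hN'N hK hKL
  have hX : 1 ≤ X := hN.trans hNX
  have e2 : X ^ (2 * η) = X ^ η * X ^ η := by
    rw [← Real.rpow_add (by linarith)]; congr 1; ring
  have hlog : (1 + Real.log X) ^ 3 ≤ (1 + 3 / η) ^ 3 * X ^ η := by
    have h1 := Real.log_le_rpow_div (x := X) (by linarith) (by positivity : 0 < η / 3)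
    have h2 : 1 ≤ X ^ (η / 3) := Real.one_le_rpow hX (by positivity)
    have h3 : X ^ η = (X ^ (η / 3)) ^ 3 := by
      rw [← Real.rpow_natCast (X ^ _), ← Real.rpow_mul (by linarith)]
      congr 1
      push_cast
      ring
    have h4 : X ^ (η / 3) / (η / 3) = 3 / η * X ^ (η / 3) := by field_simp
    rw [h3, ← mul_pow]
    exact pow_le_pow_left₀ (by linarith [Real.log_nonneg hX]) (by linarith) 3
  rw [e2]
  have hL : 1 ≤ X ^ η := Real.one_le_rpow hX hη.le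
  generalize X ^ η = L at *
  have hρ0 : 0 < ρ := by linarith
  have hM0 : 0 < M := lt_of_lt_of_le (by positivity) hM
  have hρK : ρ * K ≤ L * N' := by
    rw [le_div_iff₀ hM0] at hKL
    have h1 : K * (ρ * N) ≤ K * M := mul_le_mul_of_nonneg_left hM (by linarith)
    exact le_of_mul_le_mul_right (a := N) (by linarith) (by linarith)
  have hKN : K ≤ N' := by
    have h1 : L * N' ≤ ρ * N' := mul_le_mul_of_nonneg_right hρ (by linarith)
    exact le_of_mul_le_mul_left (hρK.trans h1) hρ0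
  have hKX : K ≤ X := hKN.trans (hN'N.trans hNX)
  have hB : ∀ H, 1 ≤ H → H ≤ K → Bnd H N' (Γ * L * (N' + (N' * H) ^ (2 / 3 : ℝ))) := by
    intro H h1 h2
    have h3 : ρ * H ≤ L * N' := (mul_le_mul_of_nonneg_left h2 hρ0.le).trans hρK
    have h4 : H ≤ Y := le_of_mul_le_mul_left
      (h3.trans ((mul_le_mul_of_nonneg_left hN'N (by linarith)).trans hY)) hρ0
    refine Bnd.dual (by positivity) ((hQ (L * N') H h1 (h2.trans hKX) h4 h3).mono
      (le_mul_of_one_le_left (by linarith) hL) le_rfl ?_)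
    have h5 : L ^ (2 / 3 : ℝ) ≤ L := by
      simpa using Real.rpow_le_rpow_of_exponent_le hL (by norm_num : (2 / 3 : ℝ) ≤ 1)
    rw [mul_assoc L, Real.mul_rpow (by linarith) (by positivity), mul_assoc Γ, mul_add L]
    gcongr
  have h := hr N' K 1 0 (14 * (Γ * L) * N') (28 * (Γ * L) * N' ^ (2 / 3 : ℝ)) 0 hK le_rfl le_rfl
    (by positivity) (by positivity) le_rfl (by
      intro H₀ H₁ H₂ a0 _ a1 b1 a2 b2 h8
      have c0 : 0 ≤ H₁ * H₂ ^ 2 := by positivity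
      have c1 : (H₁ * H₂ ^ 2) ^ 2 ≤ 64 * H₀ ^ 2 := by
        have := pow_le_pow_left₀ c0 h8 2
        linarith
      rcases le_total H₂ H₁ with c | c
      · refine BndP.mono (pairB_left (by positivity) (by linarith) (by linarith) (hB H₁ a1 b1))
          (fun _ hk => hk) le_rfl (LSStep_pair (by linarith) (by linarith) (by positivity)
            (by linarith) (le_trans ?_ h8) (le_trans ?_ c1))
        · calc H₂ ^ 3 = H₂ * H₂ ^ 2 := by ring
            _ ≤ _ := by gcongr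
        · calc H₂ ^ 3 * H₁ ^ 2 = H₂ ^ 3 * H₁ ^ 2 * 1 := by ring
            _ ≤ H₂ ^ 3 * H₁ ^ 2 * H₂ := by gcongr
            _ = _ := by ring
      · refine BndP.mono (pairB_right (by positivity) (by linarith) (by linarith) (hB H₂ a2 b2))
          (fun _ hk => hk) le_rfl (LSStep_pair (by linarith) (by linarith) (by positivity)
            (by linarith) (le_trans ?_ h8) (le_trans ?_ c1))
        · calc H₁ ^ 3 = H₁ * H₁ ^ 2 := by ring
            _ ≤ _ := by gcongr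
        · calc H₁ ^ 3 * H₂ ^ 2 = H₁ ^ 2 * H₂ ^ 2 * (H₁ * 1) := by ring
            _ ≤ H₁ ^ 2 * H₂ ^ 2 * (H₂ * H₂) := by gcongr
            _ = _ := by ring)
  refine BndP.mono h (fun k hk => ⟨hk.1, hk.2, one_le_cnd k⟩) le_rfl ?_
  have h1 : (1 + Real.log K) ^ 3 ≤ (1 + 3 / η) ^ 3 * L :=
    le_trans (pow_le_pow_left₀ (by linarith [Real.log_nonneg hK])
      (by linarith [Real.log_le_log (by linarith) hKX]) 3) hlog
  rw [Real.mul_rpow (by linarith) (by linarith)]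
  have h2 : 0 * (K / 1) ^ (1 / 3 : ℝ) + 14 * (Γ * L) * N' * K ^ (1 / 3 : ℝ) +
      28 * (Γ * L) * N' ^ (2 / 3 : ℝ) * K ^ (2 / 3 : ℝ) + 0 * K ≤
      28 * (Γ * L) * (K ^ (1 / 3 : ℝ) * N' + K ^ (2 / 3 : ℝ) * N' ^ (2 / 3 : ℝ)) := by
    have : 0 ≤ (Γ * L) * N' * K ^ (1 / 3 : ℝ) := by positivity
    linarith
  refine (mul_le_mul (mul_le_mul_of_nonneg_left h1 hC₁.le) h2 (by positivity)
    (by positivity)).trans_eq ?_
  ring

/-- The induction step. -/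
theorem indQ_step {η : ℝ} (hη : 0 < η) : ∃ C : ℝ, 1 ≤ C ∧ ∀ (X Γ Y ρ : ℝ), 1 ≤ X → 1 ≤ Γ →
    X ^ η ≤ ρ → IndQ X Γ Y ρ → IndQ X (C * X ^ (6 * η) * Γ) (ρ / X ^ η * Y) ρ := by
  obtain ⟨C₁, hC₁, h1⟩ := step_core hη
  obtain ⟨C₂, hC₂, h2⟩ := stepH_of_indQ hη
  refine ⟨1 + C₁ + C₁ * C₂, by nlinarith [mul_pos hC₁ hC₂], ?_⟩
  intro X Γ Y ρ hX hΓ hρ hQ M N hN hNX hNY hM
  have hL : 1 ≤ X ^ η := Real.one_le_rpow hX hη.le
  have hNM : N ≤ M := (le_mul_of_one_le_left (by linarith) (hL.trans hρ)).trans hM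
  have hY : X ^ η * N ≤ ρ * Y := by
    rw [div_mul_eq_mul_div, le_div_iff₀ (by linarith)] at hNY
    linarith
  have h3 := h2 X Γ Y ρ M N (by linarith) hN hNX hρ hY hM hQ
  refine (h1 X M N _ hN hNX hNM (by positivity) h3).bnd.mono le_rfl le_rfl ?_
  have e6 : X ^ (6 * η) = X ^ (4 * η) * X ^ (2 * η) := by
    rw [← Real.rpow_add (by linarith)]; congr 1; ring
  have h4 : 1 ≤ X ^ (2 * η) * Γ :=
    one_le_mul_of_one_le_of_one_le (Real.one_le_rpow hX (by positivity)) hΓ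
  have hM0 : 0 ≤ M := by linarith
  have h5 : 0 ≤ X ^ (4 * η) := by positivity
  have h6 : 0 ≤ (M * N) ^ (2 / 3 : ℝ) := by positivity
  rw [e6]
  generalize (M * N) ^ (2 / 3 : ℝ) = P at *
  generalize X ^ (4 * η) = U at *
  rw [mul_assoc C₂, mul_assoc (1 + C₁ + C₁ * C₂), mul_assoc U]
  generalize X ^ (2 * η) * Γ = V at *
  have a1 : C₁ * U * M * 1 ≤ C₁ * U * M * V := mul_le_mul_of_nonneg_left h4 (by positivity)
  have a2 : 0 ≤ (1 + C₁ * C₂) * (U * V * M) := by positivity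
  have a3 : 0 ≤ (1 + C₁) * (U * V * P) := by positivity
  linarith

end Crest.Agent.R12
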