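import Crest.Agent.R12.M4Abs

/-!
# Row 12, fourth moment: final form
-/

set_option autoImplicit false

noncomputable section

namespace Crest.Agent.R12

open Crest.Agent.R17
open scoped ComplexConjugate
open MeasureTheory

theorem M4_Lx (l : ℤ) {δ : ℝ} (h0 : 0 < δ) (h1 : δ ≤ 1 / 4) : ∃ C : ℝ, 0 < C ∧ ∃ J : ℕ,
    ∀ (R M u : ℝ) (c₀ : O) (K : Finset O), 1 ≤ M → M ≤ R → c₀ ≠ 0 →
      nr c₀ ≤ R → (∀ k ∈ K, k ≠ 0 ∧ nr k ≤ M ∧ ¬ Cube (k * c₀)) →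
      ∑ k ∈ K, ‖Lx (xi l (k * c₀)) (((1 / 2 + δ : ℝ) : ℂ) + u * Complex.I)‖ ^ 4 ≤
        C * R ^ (3 * δ) * M ^ (4 / 3 : ℝ) * nr (rad c₀) * (1 + |u|) ^ J := by
  obtain ⟨C₁, hC₁, J, hJ, H₁⟩ := Lam_bound l h0 h1
  obtain ⟨C₂, hC₂, H₂⟩ := Lx_cnd_one l (η := 3 * δ / 8) (by positivity)
  refine ⟨C₁ + 7 * C₂ ^ 4, by positivity, J, fun R M u c₀ K hM hMR hc₀ hcR hK => ?_⟩
  classical
  have hM0 : 0 < M := by linarith
  have hR0 : 0 < R := by linarith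
  have hr1 : 1 ≤ nr (rad c₀) := one_le_nr (primary_rad c₀).ne_zero
  have hU : 1 ≤ 1 + |u| := by linarith [abs_nonneg u]
  set s : ℂ := ((1 / 2 + δ : ℝ) : ℂ) + u * Complex.I with hs
  rw [← Finset.sum_filter_add_sum_filter_not K fun k => 1 < cnd (k * c₀)]
  have a1 : ∑ k ∈ K.filter fun k => 1 < cnd (k * c₀), ‖Lx (xi l (k * c₀)) s‖ ^ 4 ≤
      C₁ * R ^ (3 * δ) * M ^ (4 / 3 : ℝ) * nr (rad c₀) * (1 + |u|) ^ J := by
    refine le_trans (Finset.sum_le_sum fun k _ => ?_) (H₁ R M u c₀ _ hM hMR hc₀ hcR fun k hk =>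
      ⟨(hK k (Finset.mem_filter.1 hk).1).1, (hK k (Finset.mem_filter.1 hk).1).2.1,
        (Finset.mem_filter.1 hk).2⟩)
    have := Finset.single_le_sum (s := Finset.univ)
      (f := fun a : ZMod 3 × ZMod 3 => ‖Lx (xi l (k * c₀ * vv a)) s‖ ^ 4)
      (fun _ _ => by positivity) (Finset.mem_univ 0)
    simpa only [vv_zero, mul_one] using this
  have a2 : ∑ k ∈ K.filter fun k => ¬ 1 < cnd (k * c₀), ‖Lx (xi l (k * c₀)) s‖ ^ 4 ≤
      7 * C₂ ^ 4 * R ^ (3 * δ) * M ^ (4 / 3 : ℝ) * nr (rad c₀) * (1 + |u|) ^ J := by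
    refine (Finset.sum_le_card_nsmul _ _ (C₂ ^ 4 * R ^ (3 * δ) * (1 + |u|) ^ J) fun k hk => ?_).trans ?_
    · obtain ⟨hk1, hk2⟩ := Finset.mem_filter.1 hk
      obtain ⟨b1, b2, b3⟩ := hK k hk1
      have h2 := H₂ (k * c₀) s (mul_ne_zero b1 hc₀) b3 (not_lt.1 hk2) (by simp [hs]; linarith)
        (by simp [hs]; linarith)
      have e : s.im = u := by simp [hs]
      have e2 : nr (k * c₀) ≤ R ^ 2 := by
        rw [nr, nm_mul, sq]
        push_cast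
        exact mul_le_mul (b2.trans hMR) hcR (by positivity) hR0.le
      rw [e] at h2
      calc _ ≤ (C₂ * (R ^ 2) ^ (3 * δ / 8) * (1 + |u|) ^ 2) ^ 4 := by
            gcongr
            refine h2.trans ?_
            gcongr
        _ = C₂ ^ 4 * ((R ^ 2) ^ (3 * δ / 8)) ^ 4 * (1 + |u|) ^ 8 := by ring
        _ = C₂ ^ 4 * R ^ (3 * δ) * (1 + |u|) ^ 8 := by
            rw [← Real.rpow_natCast R, ← Real.rpow_mul hR0.le, ← Real.rpow_natCast (R ^ _),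
              ← Real.rpow_mul hR0.le]
            congr 3
            push_cast
            ring
        _ ≤ _ := by gcongr
    · have hc := card_le_of_nr_le (K := K.filter fun k => ¬ 1 < cnd (k * c₀)) hM0.le fun k hk =>
        ⟨(hK k (Finset.mem_filter.1 hk).1).1, (hK k (Finset.mem_filter.1 hk).1).2.1⟩
      have h3 : M ≤ M ^ (4 / 3 : ℝ) * nr (rad c₀) :=
        (Real.self_le_rpow_of_one_le hM (by norm_num)).trans
          (le_mul_of_one_le_right (by positivity) hr1)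
      rw [nsmul_eq_mul]
      calc _ ≤ 7 * (M ^ (4 / 3 : ℝ) * nr (rad c₀)) * (C₂ ^ 4 * R ^ (3 * δ) * (1 + |u|) ^ J) := by
            gcongr
            linarith
        _ = _ := by ring
  calc _ ≤ _ := add_le_add a1 a2
    _ = _ := by ring

/-- **Fourth moment over non-cube rows.** -/
theorem M4 (l : ℤ) {eps : ℝ} (h : 0 < eps) : ∃ C : ℝ, 0 < C ∧ ∃ J : ℕ,
    ∀ (R M Y : ℝ) (s : ℂ) (c0 : O) (K : Finset O), 1 ≤ M → M ≤ R → 0 < Y → Y ≤ R → c0 ≠ 0 →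
      nr c0 ≤ R → |s.re| ≤ 2 → (∀ k ∈ K, k ≠ 0 ∧ nr k ≤ M ∧ ¬ Cube (k * c0)) →
      ∑ k ∈ K, ‖Sm (xi l (k * c0)) Y s‖ ^ 4 ≤
        C * R ^ eps * (1 + |s.im|) ^ J * Y ^ 2 * M ^ (4 / 3 : ℝ) * nr (rad c0) := by
  set δ := min (1 / 4) (eps / 7) with hδ
  have h0 : 0 < δ := lt_min (by norm_num) (by positivity)
  have h1 : δ ≤ 1 / 4 := min_le_left _ _
  have h2 : δ ≤ eps / 7 := min_le_right _ _
  obtain ⟨C₁, hC₁, J, H₁⟩ := M4_Lx l h0 h1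
  obtain ⟨C₂, hC₂, H₂⟩ := sum_Wm_pow4 J
  refine ⟨C₂ * C₁, by positivity, J, fun R M Y s c₀ K hM hMR hY hYR hc₀ hcR hs hK => ?_⟩
  have hM0 : 0 < M := by linarith
  have hR1 : 1 ≤ R := by linarith
  have hR0 : 0 < R := by linarith
  have h3 := H₂ K (fun k u => ‖Lx (xi l (k * c₀)) (((1 / 2 + δ : ℝ) : ℂ) + u * Complex.I)‖)
    (1 / 2 + δ) (C₁ * R ^ (3 * δ) * M ^ (4 / 3 : ℝ) * nr (rad c₀)) s
    (by rw [abs_le] at hs ⊢; constructor <;> linarith [hs.1, hs.2])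
    (fun k hk => ((decay_xi l (mul_ne_zero (hK k hk).1 hc₀)
      (hK k hk).2.2).differentiable_Lx.continuous.comp (by fun_prop)).norm)
    (fun _ _ => norm_nonneg _) fun u => H₁ R M u c₀ K hM hMR hc₀ hcR hK
  have e1 : (Y ^ (1 / 2 + δ)) ^ 4 = Y ^ 2 * Y ^ (4 * δ) := by
    rw [← Real.rpow_natCast, ← Real.rpow_mul hY.le, ← Real.rpow_natCast, ← Real.rpow_add hY]
    congr 1
    push_cast
    ring
  have e2 : Y ^ (4 * δ) * R ^ (3 * δ) ≤ R ^ eps := by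
    calc _ ≤ R ^ (4 * δ) * R ^ (3 * δ) := by gcongr
      _ = R ^ (7 * δ) := by rw [← Real.rpow_add hR0]; congr 1; ring
      _ ≤ _ := Real.rpow_le_rpow_of_exponent_le hR1 (by linarith)
  calc _ ≤ ∑ k ∈ K, (Y ^ (1 / 2 + δ)) ^ 4 * (∫ u : ℝ,
          ‖Wm (((1 / 2 + δ : ℝ) : ℂ) + u * Complex.I + s)‖ *
            ‖Lx (xi l (k * c₀)) (((1 / 2 + δ : ℝ) : ℂ) + u * Complex.I)‖) ^ 4 := by
        refine Finset.sum_le_sum fun k hk => ?_
        rw [← mul_pow]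
        exact pow_le_pow_left₀ (norm_nonneg _) (norm_Sm_le_line l (mul_ne_zero (hK k hk).1 hc₀)
          (hK k hk).2.2 (by linarith) (by linarith) hY s) 4
    _ ≤ (Y ^ (1 / 2 + δ)) ^ 4 * (C₂ * (C₁ * R ^ (3 * δ) * M ^ (4 / 3 : ℝ) * nr (rad c₀)) *
          (1 + |s.im|) ^ J) := by
        rw [← Finset.mul_sum]
        gcongr
    _ = C₂ * C₁ * (Y ^ (4 * δ) * R ^ (3 * δ)) * (1 + |s.im|) ^ J * Y ^ 2 * M ^ (4 / 3 : ℝ) *
          nr (rad c₀) := by rw [e1]; ring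
    _ ≤ _ := by gcongr

end Crest.Agent.R12
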