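import Crest.Agent.R12.LS
import Crest.Agent.R12.Chr

/-!
# Row 12, fourth moment: short sums
-/

set_option autoImplicit false

noncomputable section

namespace Crest.Agent.R12

open Crest.Agent.R17
open scoped ComplexConjugate
open MeasureTheory

theorem M4Gen_log {η : ℝ} (hη : 0 < η) {X : ℝ} (hX : 1 ≤ X) :
    (1 + Real.log X) ^ 3 ≤ (1 + 3 / η) ^ 3 * X ^ η := by
  have h1 := Real.log_le_rpow_div (x := X) (by linarith) (show 0 < η / 3 by positivity)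
  have h2 : 1 ≤ X ^ (η / 3) := Real.one_le_rpow hX (by positivity)
  have h3 := Real.log_nonneg hX
  calc (1 + Real.log X) ^ 3 ≤ ((1 + 3 / η) * X ^ (η / 3)) ^ 3 := by
        gcongr
        have : X ^ (η / 3) / (η / 3) = 3 / η * X ^ (η / 3) := by field_simp
        linarith
    _ = _ := by
        rw [mul_pow, ← Real.rpow_natCast (X ^ (η / 3)), ← Real.rpow_mul (by linarith)]
        congr 2
        push_cast
        ring

theorem bndA_all {ε : ℝ} (hε : 0 < ε) : ∃ C : ℝ, 0 < C ∧ ∀ H B : ℝ, 1 ≤ H → 1 ≤ B →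
    BndA H B (C * (H * B) ^ ε * (H ^ (1 / 3 : ℝ) * B + H + (H * B) ^ (2 / 3 : ℝ))) := by
  obtain ⟨C, hC, h⟩ := LS_all hε
  refine ⟨C * (1 + 3 / ε) ^ 3, by positivity, fun H B hH hB S K β hS hK => ?_⟩
  refine (h H B 1 S K β hH hB le_rfl hS fun k hk =>
    ⟨(hK k hk).1, (hK k hk).2, one_le_cnd k⟩).trans
    (mul_le_mul_of_nonneg_right ?_ (N2_nonneg S β))
  have h1 : (1 + Real.log H) ^ 3 ≤ (1 + 3 / ε) ^ 3 * (H * B) ^ ε := by
    refine (M4Gen_log hε hH).trans ?_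
    gcongr
    exact le_mul_of_one_le_right (by linarith) hB
  have h2 : 1 ≤ (1 + 3 / ε) ^ 3 := one_le_pow₀ (by linarith [show 0 < 3 / ε by positivity])
  rw [div_one]
  calc _ ≤ C * (H ^ (1 / 3 : ℝ) * B * ((1 + 3 / ε) ^ 3 * (H * B) ^ ε) +
        (1 + 3 / ε) ^ 3 * ((H * B) ^ ε * (H + (H * B) ^ (2 / 3 : ℝ)))) :=
        mul_le_mul_of_nonneg_left (add_le_add (mul_le_mul_of_nonneg_left h1 (by positivity))
          (le_mul_of_one_le_left (by positivity) h2)) hC.le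
    _ = _ := by ring

/-- The large sieve for arbitrary primary columns and bounded coefficients. -/
theorem LS_gen {ε : ℝ} (hε : 0 < ε) : ∃ C : ℝ, 0 < C ∧ ∀ (H B F : ℝ) (S K : Finset O)
    (β : O → ℂ), 1 ≤ H → 1 ≤ B → (∀ b ∈ S, Primary b ∧ nr b ≤ B ∧ ‖β b‖ ≤ F) →
    (∀ k ∈ K, k ≠ 0 ∧ nr k ≤ H) →
    ∑ k ∈ K, ‖col S β k‖ ^ 2 ≤
      C * (H * B) ^ ε * (H ^ (1 / 3 : ℝ) * B + H + (H * B) ^ (2 / 3 : ℝ)) * B * F ^ 2 := by
  classical
  obtain ⟨C₁, hC₁, H₁⟩ := bndA_all (half_pos hε) |>.imp fun _ h => h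
  obtain ⟨C₂, hC₂, H₂⟩ := sum_powerful_le (half_pos (half_pos hε))
  refine ⟨7 * C₁ * C₂ ^ 2, by positivity, fun H B F S K β hH hB hS hK => ?_⟩
  choose! m h hm using fun (n : O) (hn : Primary n) => exists_sqfree_powerful hn
  have hB0 : 0 < B := by linarith
  set D := C₁ * (H * B) ^ (ε / 2) * (H ^ (1 / 3 : ℝ) * B + H + (H * B) ^ (2 / 3 : ℝ)) with hD
  have hD0 : 0 ≤ D := by positivity
  set P := (ball ⌊B⌋₊).filter Powerful with hP
  have hP0 : ∀ j ∈ P, 0 < nr j := fun j hj =>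
    lt_of_lt_of_le one_pos (one_le_nr (Finset.mem_filter.1 hj).2.1.ne_zero)
  have hnr : ∀ n ∈ S, nr (m n) * nr (h n) = nr n := fun n hn => by
    conv_rhs => rw [(hm n (hS n hn).1).2.2.2.2]
    simp [nr, nm_mul]
  have hmaps : ∀ n ∈ S, h n ∈ P := fun n hn => by
    obtain ⟨a1, -, a3, -, -⟩ := hm n (hS n hn).1
    refine Finset.mem_filter.2 ⟨mem_ball.2 (Nat.le_floor ?_), a3⟩
    have := one_le_nr a1.ne_zero
    have h2 := hnr n hn
    have h3 := (hS n hn).2.1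
    have h4 : 0 ≤ nr (h n) := by positivity
    change nr (h n) ≤ B
    nlinarith
  set c : O → O → ℂ := fun j k => ∑ n ∈ S.filter (fun n => h n = j), β n * 1 * cub (m n) k with hc
  set W := ∑ j ∈ P, nr j ^ (-(1 / 2 : ℝ)) with hW
  have hW0 : 0 ≤ W := Finset.sum_nonneg fun _ _ => by positivity
  have hWle : W ≤ C₂ * B ^ (ε / 2 / 2) := by
    refine (H₂ ⌊B⌋₊ (Nat.le_floor (by simpa using hB))).trans ?_
    gcongr
    exact Nat.floor_le hB0.le
  have h1 : ∀ k, ‖col S β k‖ ^ 2 ≤ W * ∑ j ∈ P, nr j ^ (1 / 2 : ℝ) * ‖c j k‖ ^ 2 := by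
    intro k
    have e : col S β k = ∑ j ∈ P, cub j k * c j k := by
      rw [col, ← Finset.sum_fiberwise_of_maps_to hmaps]
      refine Finset.sum_congr rfl fun j _ => ?_
      rw [hc, Finset.mul_sum]
      refine Finset.sum_congr rfl fun n hn => ?_
      obtain ⟨hn1, rfl⟩ := Finset.mem_filter.1 hn
      obtain ⟨a1, -, a3, -, a5⟩ := hm n (hS n hn1).1
      conv_lhs => rw [a5, cub_mul_left a1.ne_zero a3.1.ne_zero, ← a5]
      ring
    have e2 : ‖col S β k‖ ≤ ∑ j ∈ P, ‖c j k‖ := by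
      rw [e]
      refine (norm_sum_le _ _).trans (Finset.sum_le_sum fun j _ => ?_)
      rw [norm_mul]
      exact mul_le_of_le_one_left (norm_nonneg _) (norm_cub_le _ _)
    refine (pow_le_pow_left₀ (norm_nonneg _) e2 2).trans ?_
    refine Finset.sum_sq_le_sum_mul_sum_of_sq_le_mul P (fun _ _ => by positivity)
      (fun _ _ => by positivity) fun j hj => le_of_eq ?_
    rw [← mul_assoc, ← Real.rpow_add (hP0 j hj)]
    norm_num
  have h2 : ∀ j ∈ P, ∑ k ∈ K, ‖c j k‖ ^ 2 ≤ D * (7 * (B / nr j) * F ^ 2) := by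
    intro j hj
    have hj0 := hP0 j hj
    have hinj : Set.InjOn m (S.filter fun n => h n = j) := fun a ha b hb e => by
      obtain ⟨ha1, ha2⟩ := Finset.mem_filter.1 (Finset.mem_coe.1 ha)
      obtain ⟨hb1, hb2⟩ := Finset.mem_filter.1 (Finset.mem_coe.1 hb)
      rw [(hm a (hS a ha1).1).2.2.2.2, (hm b (hS b hb1).1).2.2.2.2, e, ha2, hb2]
    have hle : ∀ n ∈ S.filter (fun n => h n = j), nr (m n) ≤ B / nr j := fun n hn => by
      obtain ⟨hn1, rfl⟩ := Finset.mem_filter.1 hn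
      rw [le_div_iff₀ hj0, hnr n hn1]
      exact (hS n hn1).2.1
    have hj1 : B / nr j ≤ B :=
      div_le_self hB0.le (one_le_nr (Finset.mem_filter.1 hj).2.1.ne_zero)
    refine (BndP.index hD0 (H₁ H B hH hB) _ K m β (fun _ => 1) hinj (fun n hn =>
      ⟨⟨(hm n (hS n (Finset.mem_filter.1 hn).1).1).1, (hm n (hS n (Finset.mem_filter.1 hn).1).1).2.1⟩,
        (hle n hn).trans hj1⟩) (fun _ _ => by simp) hK).trans ?_
    gcongr
    refine (Finset.sum_le_card_nsmul _ _ (F ^ 2) fun n hn =>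
      pow_le_pow_left₀ (norm_nonneg _) (hS n (Finset.mem_filter.1 hn).1).2.2 2).trans ?_
    rw [nsmul_eq_mul, ← Finset.card_image_of_injOn hinj]
    gcongr
    refine card_le_of_nr_le (by positivity) fun x hx => ?_
    obtain ⟨n, hn, rfl⟩ := Finset.mem_image.1 hx
    exact ⟨(hm n (hS n (Finset.mem_filter.1 hn).1).1).1.ne_zero, hle n hn⟩
  have h3 : (B ^ (ε / 2 / 2)) ^ 2 ≤ (H * B) ^ (ε / 2) := by
    rw [← Real.rpow_natCast, ← Real.rpow_mul hB0.le, show ε / 2 / 2 * ((2 : ℕ) : ℝ) = ε / 2 by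
      push_cast; ring]
    gcongr
    exact le_mul_of_one_le_left hB0.le hH
  calc _ ≤ ∑ k ∈ K, W * ∑ j ∈ P, nr j ^ (1 / 2 : ℝ) * ‖c j k‖ ^ 2 :=
        Finset.sum_le_sum fun k _ => h1 k
    _ = W * ∑ j ∈ P, nr j ^ (1 / 2 : ℝ) * ∑ k ∈ K, ‖c j k‖ ^ 2 := by
        rw [← Finset.mul_sum, Finset.sum_comm]
        simp only [Finset.mul_sum]
    _ ≤ W * ∑ j ∈ P, nr j ^ (-(1 / 2 : ℝ)) * (D * (7 * B * F ^ 2)) := by
        refine mul_le_mul_of_nonneg_left (Finset.sum_le_sum fun j hj => ?_) hW0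
        have hj0 := hP0 j hj
        calc _ ≤ nr j ^ (1 / 2 : ℝ) * (D * (7 * (B / nr j) * F ^ 2)) :=
              mul_le_mul_of_nonneg_left (h2 j hj) (by positivity)
          _ = nr j ^ (1 / 2 : ℝ) / nr j * (D * (7 * B * F ^ 2)) := by ring
          _ = _ := by
              rw [← Real.rpow_sub_one hj0.ne']
              norm_num
    _ = W ^ 2 * (D * (7 * B * F ^ 2)) := by rw [← Finset.sum_mul, ← hW]; ring
    _ ≤ (C₂ * B ^ (ε / 2 / 2)) ^ 2 * (D * (7 * B * F ^ 2)) := by gcongr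
    _ ≤ C₂ ^ 2 * (H * B) ^ (ε / 2) * (D * (7 * B * F ^ 2)) := by rw [mul_pow]; gcongr
    _ = 7 * C₁ * C₂ ^ 2 * ((H * B) ^ (ε / 2) * (H * B) ^ (ε / 2)) *
        (H ^ (1 / 3 : ℝ) * B + H + (H * B) ^ (2 / 3 : ℝ)) * B * F ^ 2 := by rw [hD]; ring
    _ = _ := by rw [← Real.rpow_add (by positivity), add_halves]

/-- Fourth powers of character polynomials. -/
theorem LS_four {ε : ℝ} (hε : 0 < ε) : ∃ C : ℝ, 0 < C ∧ ∀ (H B : ℝ) (S K : Finset O)
    (β : O → ℂ), 1 ≤ H → 1 ≤ B → (∀ b ∈ S, Primary b ∧ nr b ≤ B ∧ ‖β b‖ ≤ 1) →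
    (∀ k ∈ K, k ≠ 0 ∧ nr k ≤ H) →
    ∑ k ∈ K, ‖col S β k‖ ^ 4 ≤ C * (H * B) ^ ε *
      (H ^ (1 / 3 : ℝ) * B ^ 2 + H + (H * B ^ 2) ^ (2 / 3 : ℝ)) * B ^ 2 := by
  classical
  obtain ⟨C₁, hC₁, H₁⟩ := LS_gen (show 0 < ε / 6 by positivity)
  obtain ⟨C₂, hC₂, H₂⟩ := card_pdiv_le (show 0 < ε / 6 by positivity)
  refine ⟨C₁ * C₂ ^ 2, by positivity, fun H B S K β hH hB hS hK => ?_⟩
  have hB0 : 0 < B := by linarith
  have hH0 : 0 < H := by linarith
  set S' := (S ×ˢ S).image fun z : O × O => z.1 * z.2 with hS'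
  set β' : O → ℂ := fun n => ∑ z ∈ (S ×ˢ S).filter (fun z : O × O => z.1 * z.2 = n), β z.1 * β z.2
    with hβ'
  have e : ∀ k, col S β k ^ 2 = col S' β' k := by
    intro k
    rw [sq, col, Finset.sum_mul_sum, ← Finset.sum_product', col,
      ← Finset.sum_fiberwise_of_maps_to (t := S') (g := fun z : O × O => z.1 * z.2)
        fun z hz => Finset.mem_image_of_mem _ hz]
    refine Finset.sum_congr rfl fun n _ => ?_
    rw [hβ', Finset.sum_mul]
    refine Finset.sum_congr rfl fun z hz => ?_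
    obtain ⟨hz1, rfl⟩ := Finset.mem_filter.1 hz
    obtain ⟨a1, a2⟩ := Finset.mem_product.1 hz1
    rw [cub_mul_left (hS _ a1).1.ne_zero (hS _ a2).1.ne_zero]
    ring
  have hB2 : 1 ≤ B ^ 2 := one_le_pow₀ hB
  have h1 := H₁ H (B ^ 2) (C₂ * (B ^ 2) ^ (ε / 6)) S' K β' hH hB2 (fun n hn => by
    obtain ⟨z, hz, rfl⟩ := Finset.mem_image.1 hn
    obtain ⟨a1, a2⟩ := Finset.mem_product.1 hz
    have hp := (hS _ a1).1.mul (hS _ a2).1
    have hn2 : nr (z.1 * z.2) ≤ B ^ 2 := by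
      rw [nr, nm_mul, sq]
      push_cast
      exact mul_le_mul (hS _ a1).2.1 (hS _ a2).2.1 (by positivity) hB0.le
    refine ⟨hp, hn2, (norm_sum_le _ _).trans ?_⟩
    refine (Finset.sum_le_card_nsmul _ _ 1 fun y hy => ?_).trans ?_
    · obtain ⟨b1, b2⟩ := Finset.mem_product.1 (Finset.mem_filter.1 hy).1
      rw [norm_mul]
      exact mul_le_one₀ (hS _ b1).2.2 (norm_nonneg _) (hS _ b2).2.2
    · rw [nsmul_eq_mul, mul_one]
      refine le_trans ?_ ((H₂ _ hp.ne_zero).trans (by gcongr))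
      refine Nat.cast_le.2 (Finset.card_le_card_of_injOn Prod.fst (fun y hy => ?_)
        fun y hy y' hy' e' => ?_)
      · obtain ⟨b1, b2⟩ := Finset.mem_filter.1 (Finset.mem_coe.1 hy)
        exact Finset.mem_coe.2 ((mem_pdiv hp.ne_zero).2
          ⟨(hS _ (Finset.mem_product.1 b1).1).1, ⟨y.2, b2.symm⟩⟩)
      · obtain ⟨b1, b2⟩ := Finset.mem_filter.1 (Finset.mem_coe.1 hy)
        obtain ⟨-, b4⟩ := Finset.mem_filter.1 (Finset.mem_coe.1 hy')
        refine Prod.ext e' (mul_left_cancel₀ (hS _ (Finset.mem_product.1 b1).1).1.ne_zero ?_)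
        rw [b2, e', b4]) hK
  have h2 : (H * B ^ 2) ^ (ε / 6) * ((B ^ 2) ^ (ε / 6)) ^ 2 ≤ (H * B) ^ ε := by
    have hHB : B ≤ H * B := le_mul_of_one_le_left hB0.le hH
    calc _ ≤ ((H * B) ^ 2) ^ (ε / 6) * (((H * B) ^ 2) ^ (ε / 6)) ^ 2 := by
          gcongr
          nlinarith
      _ = (((H * B) ^ 2) ^ (ε / 6)) ^ 3 := by ring
      _ = _ := by
          rw [← Real.rpow_natCast (H * B), ← Real.rpow_mul (by positivity),
            ← Real.rpow_natCast ((H * B) ^ _), ← Real.rpow_mul (by positivity)]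
          congr 1
          push_cast
          ring
  calc _ = ∑ k ∈ K, ‖col S' β' k‖ ^ 2 := by
        refine Finset.sum_congr rfl fun k _ => ?_
        rw [← e, norm_pow]
        ring
    _ ≤ _ := h1
    _ = C₁ * C₂ ^ 2 * ((H * B ^ 2) ^ (ε / 6) * ((B ^ 2) ^ (ε / 6)) ^ 2) *
        (H ^ (1 / 3 : ℝ) * B ^ 2 + H + (H * B ^ 2) ^ (2 / 3 : ℝ)) * B ^ 2 := by ring
    _ ≤ _ := by gcongr

/-- The fourth moment of smooth sums by the large sieve alone. -/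
theorem M4_short {ε : ℝ} (hε : 0 < ε) : ∃ C : ℝ, 0 < C ∧ ∀ (l : ℤ) (M Y τ : ℝ) (c₀ : O)
    (K : Finset O), 1 ≤ M → 1 ≤ Y → (∀ k ∈ K, k ≠ 0 ∧ nr k ≤ M) →
    ∑ k ∈ K, ‖Sm (xi l (k * c₀)) Y (τ * Complex.I)‖ ^ 4 ≤ C * (M * Y) ^ ε *
      (M ^ (1 / 3 : ℝ) * Y ^ 2 + M + (M * Y ^ 2) ^ (2 / 3 : ℝ)) * Y ^ 2 := by
  classical
  set e := min 1 (ε / 6) with he
  have e0 : 0 < e := lt_min one_pos (by positivity)
  have e1 : e ≤ 1 := min_le_left _ _
  have e2 : e ≤ ε / 6 := min_le_right _ _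
  obtain ⟨C₁, hC₁, H₁⟩ := LS_four e0
  obtain ⟨C₂, hC₂, H₂⟩ := tsum_norm_Sm_tail_le (1 / e) 0 0 le_rfl
  refine ⟨8 * (C₁ + 7 * C₂ ^ 4), by positivity, fun l M Y τ c₀ K hM hY hK => ?_⟩
  have hM0 : 0 < M := by linarith
  have hY0 : 0 < Y := by linarith
  have hMY : 1 ≤ M * Y := one_le_mul_of_one_le_of_one_le hM hY
  set L := (M * Y) ^ e with hL
  have hL1 : 1 ≤ L := Real.one_le_rpow hMY e0.le
  have hYL : 1 ≤ Y * L := one_le_mul_of_one_le_of_one_le hY hL1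
  set S := (ball ⌊Y * L⌋₊).filter Primary with hS
  set β : O → ℂ := fun n => cub n c₀ * arg n ^ l * Wc (nr n / Y) (τ * Complex.I) with hβ
  have h1 := H₁ M (Y * L) S K β hM hYL (fun n hn => by
    obtain ⟨a1, a2⟩ := Finset.mem_filter.1 hn
    refine ⟨a2, (Nat.cast_le.2 (mem_ball.1 a1)).trans (Nat.floor_le (by positivity)), ?_⟩
    have a3 := norm_Wc_le (nr n / Y) (τ * Complex.I)
    simp only [Complex.mul_re, Complex.ofReal_re, Complex.I_re, mul_zero, Complex.ofReal_im,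
      Complex.I_im, mul_one, sub_self, ne_eq, OfNat.ofNat_ne_zero, not_false_eq_true, zero_pow,
      zero_div, Real.exp_zero] at a3
    rw [hβ, norm_mul, norm_mul, norm_zpow, norm_arg a2.ne_zero, one_zpow, mul_one]
    exact mul_le_one₀ (norm_cub_le _ _) (norm_nonneg _) a3) hK
  have h2 : ∀ k, ‖Sm (xi l (k * c₀)) Y (τ * Complex.I)‖ ≤ ‖col S β k‖ + C₂ / M := by
    intro k
    have hs := summable_Sm (polyB_xi l (k * c₀)) hY0 (τ * Complex.I)
    have a1 : ∑ n ∈ S, xi l (k * c₀) n * Wc (nr n / Y) (τ * Complex.I) = col S β k := by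
      refine Finset.sum_congr rfl fun n hn => ?_
      rw [xi_of_primary (Finset.mem_filter.1 hn).2, cub_mul_right, hβ]
      ring
    have a2 := H₂ (xi l (k * c₀)) 1 Y L (τ * Complex.I) (polyB_xi l _) hY0 hL1 (by simp)
    have a3 : C₂ * 1 * Y ^ ((0 : ℝ) + 1) * L ^ (-(1 / e)) = C₂ / M := by
      rw [hL, ← Real.rpow_mul (by positivity), show e * -(1 / e) = -1 by field_simp,
        Real.rpow_neg_one, zero_add, Real.rpow_one]
      field_simp
    rw [a3] at a2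
    rw [Sm, ← hs.of_norm.sum_add_tsum_compl (s := S), a1]
    refine (norm_add_le _ _).trans (add_le_add le_rfl (le_trans ?_ a2))
    refine (norm_tsum_le_tsum_norm (hs.subtype _)).trans ?_
    rw [tsum_subtype ((S : Set O)ᶜ) fun n => ‖xi l (k * c₀) n * Wc (nr n / Y) (τ * Complex.I)‖]
    refine Summable.tsum_le_tsum (fun n => ?_) (hs.indicator _)
      (hs.of_nonneg_of_le (fun n => by split_ifs <;> positivity) fun n => by
        split_ifs <;> simp only [le_refl, norm_nonneg])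
    by_cases hn : n ∈ S
    · rw [Set.indicator_of_notMem (by simpa using hn)]
      split_ifs <;> positivity
    · rw [Set.indicator_of_mem (by simpa using hn)]
      split_ifs with h
      · have : ¬ Primary n := fun hp => hn (Finset.mem_filter.2 ⟨mem_ball.2 (Nat.le_floor h.2), hp⟩)
        simp [xi_of_not this]
      · exact le_rfl
  set D := M ^ (1 / 3 : ℝ) * Y ^ 2 + M + (M * Y ^ 2) ^ (2 / 3 : ℝ) with hD
  have hMD : M ≤ D := by
    have : 0 ≤ M ^ (1 / 3 : ℝ) * Y ^ 2 := by positivity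
    have : 0 ≤ (M * Y ^ 2) ^ (2 / 3 : ℝ) := by positivity
    linarith
  have hL2 : 1 ≤ L ^ 2 := one_le_pow₀ hL1
  have h3 : M ^ (1 / 3 : ℝ) * (Y * L) ^ 2 + M + (M * (Y * L) ^ 2) ^ (2 / 3 : ℝ) ≤ L ^ 2 * D := by
    have a1 : (M * (Y * L) ^ 2) ^ (2 / 3 : ℝ) ≤ L ^ 2 * (M * Y ^ 2) ^ (2 / 3 : ℝ) := by
      rw [show M * (Y * L) ^ 2 = L ^ 2 * (M * Y ^ 2) by ring,
        Real.mul_rpow (by positivity) (by positivity)]
      gcongr
      exact Real.rpow_le_self_of_one_le hL2 (by norm_num)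
    have a2 : M ≤ L ^ 2 * M := le_mul_of_one_le_left hM0.le hL2
    rw [hD]
    nlinarith
  have h4 : (M * (Y * L)) ^ e * L ^ 4 ≤ (M * Y) ^ ε := by
    have a1 : L ^ e ≤ L := Real.rpow_le_self_of_one_le hL1 e1
    calc _ = L * L ^ e * L ^ 4 := by
          rw [← mul_assoc, Real.mul_rpow (by positivity) (by positivity)]
      _ ≤ L * L * L ^ 4 := by gcongr
      _ = (M * Y) ^ (e * (6 : ℕ)) := by rw [Real.rpow_mul (by positivity), Real.rpow_natCast]; ring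
      _ ≤ _ := Real.rpow_le_rpow_of_exponent_le hMY (by push_cast; linarith)
  have h5 : 1 ≤ (M * Y) ^ ε := Real.one_le_rpow hMY hε.le
  have h6 : (K.card : ℝ) * (C₂ / M) ^ 4 ≤ 7 * C₂ ^ 4 * ((M * Y) ^ ε * D * Y ^ 2) := by
    have a1 : C₂ / M ≤ C₂ := div_le_self hC₂.le hM
    have a2 : M ≤ (M * Y) ^ ε * D * Y ^ 2 :=
      (hMD.trans (le_mul_of_one_le_left (by linarith) h5)).trans
        (le_mul_of_one_le_right (by positivity) (one_le_pow₀ hY))
    calc _ ≤ 7 * M * C₂ ^ 4 := by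
          gcongr
          exact card_le_of_nr_le hM0.le hK
      _ = 7 * C₂ ^ 4 * M := by ring
      _ ≤ _ := by gcongr
  have h7 : ∑ k ∈ K, ‖col S β k‖ ^ 4 ≤ C₁ * ((M * Y) ^ ε * D * Y ^ 2) := by
    calc _ ≤ C₁ * (M * (Y * L)) ^ e * (L ^ 2 * D) * (Y * L) ^ 2 := h1.trans (by gcongr)
      _ = C₁ * ((M * (Y * L)) ^ e * L ^ 4 * D * Y ^ 2) := by ring
      _ ≤ _ := by gcongr
  calc _ ≤ ∑ k ∈ K, 8 * (‖col S β k‖ ^ 4 + (C₂ / M) ^ 4) := by
        refine Finset.sum_le_sum fun k _ => (pow_le_pow_left₀ (norm_nonneg _) (h2 k) 4).trans ?_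
        have := add_pow_le (norm_nonneg (col S β k)) (show 0 ≤ C₂ / M by positivity) 4
        norm_num at this ⊢
        linarith
    _ = 8 * (∑ k ∈ K, ‖col S β k‖ ^ 4 + K.card * (C₂ / M) ^ 4) := by
        rw [← Finset.mul_sum, Finset.sum_add_distrib, Finset.sum_const, nsmul_eq_mul]
    _ ≤ 8 * (C₁ * ((M * Y) ^ ε * D * Y ^ 2) + 7 * C₂ ^ 4 * ((M * Y) ^ ε * D * Y ^ 2)) := by gcongr
    _ = _ := by ring

end Crest.Agent.R12
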