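import Crest.Agent.R12.M4FE
import Crest.Agent.R12.M4Gen

/-!
# Row 12, fourth moment: approximate functional equation and absorption
-/

set_option autoImplicit false

noncomputable section

namespace Crest.Agent.R12

open Crest.Agent.R17
open scoped ComplexConjugate
open MeasureTheory

/-- The approximate functional equation. -/
theorem Lx_split {δ : ℝ} (h0 : 0 < δ) (h1 : δ ≤ 1 / 4) : ∃ C : ℝ, 0 < C ∧
    ∀ (l : ℤ) (ka : O) (u X : ℝ), ka ≠ 0 → ¬ Cube ka → 1 ≤ X →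
      ‖Lx (xi l ka) (((1 / 2 + δ : ℝ) : ℂ) + u * Complex.I)‖ ≤ C +
        (∫ w in Set.Ioc 0 (Real.log X),
          ‖Sm (xi l ka) (Real.exp w) ((-u : ℝ) * Complex.I)‖ * Real.exp (-w / 2)) +
        C * X ^ (-(2 * δ)) * ∫ v : ℝ,
          ‖Wm (((1 / 2 - δ : ℝ) : ℂ) + v * Complex.I + (-u : ℝ) * Complex.I)‖ *
            ‖Lx (xi l ka) (((1 / 2 - δ : ℝ) : ℂ) + v * Complex.I)‖ := by
  obtain ⟨A, hA, h₁⟩ := LZC.small_le 0 le_rfl
  set I₁ := ∫ w : ℝ, Real.exp (-(1 / 4) * |w|) with hI₁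
  set I₂ := ∫ w : ℝ, Real.exp (-(2 * δ) * |w|) with hI₂
  have hI₁0 : 0 ≤ I₁ := integral_nonneg fun _ => (Real.exp_pos _).le
  have hI₂0 : 0 ≤ I₂ := integral_nonneg fun _ => (Real.exp_pos _).le
  refine ⟨A * I₁ + I₂ + 1, by positivity, fun l ka u X hka hc hX => ?_⟩
  have hX0 : 0 < X := by linarith
  set W := Real.log X with hW
  have hW0 : 0 ≤ W := Real.log_nonneg hX
  set s : ℂ := ((1 / 2 + δ : ℝ) : ℂ) + u * Complex.I with hs
  set E := ∫ v : ℝ, ‖Wm (((1 / 2 - δ : ℝ) : ℂ) + v * Complex.I + (-u : ℝ) * Complex.I)‖ *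
    ‖Lx (xi l ka) (((1 / 2 - δ : ℝ) : ℂ) + v * Complex.I)‖ with hE
  have hE0 : 0 ≤ E := integral_nonneg fun _ => by positivity
  set f : ℝ → ℝ := fun w =>
    ‖Sm (xi l ka) (Real.exp w) ((-u : ℝ) * Complex.I)‖ * Real.exp (-w / 2) with hf
  have hd := decay_xi l hka hc
  have hfc : Continuous f := (LZC.continuous_Sm hd.1 (-u)).norm.mul (by fun_prop)
  have key := hd.integral_Tt (-u) s
  have hρ : s + (-u : ℝ) * Complex.I = ((1 / 2 + δ : ℝ) : ℂ) := by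
    rw [hs]; push_cast; ring
  rw [hρ] at key
  have hre : s.re = 1 / 2 + δ := by simp [hs]
  have i1 : Integrable fun w : ℝ => A * Real.exp (-(1 / 4) * |w|) :=
    (LZC.integrable_exp_abs (by norm_num)).const_mul A
  have i2 : Integrable ((Set.Ioc 0 W).indicator f) :=
    (integrable_indicator_iff measurableSet_Ioc).2
      (hfc.integrableOn_Icc.mono_set Set.Ioc_subset_Icc_self)
  have i3 : Integrable fun w : ℝ => X ^ (-(2 * δ)) * E * Real.exp (-(2 * δ) * |w - W|) :=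
    ((LZC.integrable_exp_abs (by positivity)).comp_sub_right W).const_mul _
  have hpt : ∀ w : ℝ, ‖LZC.Tt (xi l ka) s ((-u : ℝ) * Complex.I) w‖ ≤
      A * Real.exp (-(1 / 4) * |w|) + (Set.Ioc 0 W).indicator f w +
        X ^ (-(2 * δ)) * E * Real.exp (-(2 * δ) * |w - W|) := by
    intro w
    have p1 : 0 ≤ A * Real.exp (-(1 / 4) * |w|) := by positivity
    have p2 : 0 ≤ (Set.Ioc 0 W).indicator f w :=
      Set.indicator_nonneg (fun _ _ => by rw [hf]; positivity) w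
    have p3 : 0 ≤ X ^ (-(2 * δ)) * E * Real.exp (-(2 * δ) * |w - W|) := by positivity
    rw [LZC.norm_Tt, hre]
    rcases le_or_gt w 0 with hw | hw
    · have b1 := (h₁ (xi l ka) (Real.exp w) (-u) hd.1 (Real.exp_pos w)).1
      have : Real.exp (-(1 / 2 + δ) * w) * ‖Sm (xi l ka) (Real.exp w) ((-u : ℝ) * Complex.I)‖ ≤
          A * Real.exp (-(1 / 4) * |w|) := by
        calc _ ≤ Real.exp (-(1 / 2 + δ) * w) * (A * Real.exp w) := by gcongr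
          _ = A * Real.exp (-(1 / 2 + δ) * w + w) := by rw [Real.exp_add]; ring
          _ ≤ _ := by
            gcongr
            rw [abs_of_nonpos hw]
            nlinarith
      linarith
    rcases le_or_gt w W with hW' | hW'
    · rw [Set.indicator_of_mem (show w ∈ Set.Ioc 0 W from ⟨hw, hW'⟩)]
      have : Real.exp (-(1 / 2 + δ) * w) * ‖Sm (xi l ka) (Real.exp w) ((-u : ℝ) * Complex.I)‖ ≤
          f w := by
        rw [hf, mul_comm]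
        simp only
        gcongr
        nlinarith
      linarith
    · have b1 := norm_Sm_le_line l hka hc (σ := 1 / 2 - δ) (by linarith) (by linarith)
        (Real.exp_pos w) ((-u : ℝ) * Complex.I)
      rw [← hE, ← Real.exp_mul] at b1
      have : Real.exp (-(1 / 2 + δ) * w) * ‖Sm (xi l ka) (Real.exp w) ((-u : ℝ) * Complex.I)‖ ≤
          X ^ (-(2 * δ)) * E * Real.exp (-(2 * δ) * |w - W|) := by
        calc _ ≤ Real.exp (-(1 / 2 + δ) * w) * (Real.exp (w * (1 / 2 - δ)) * E) := by gcongr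
          _ = E * Real.exp (-(1 / 2 + δ) * w + w * (1 / 2 - δ)) := by rw [Real.exp_add]; ring
          _ = _ := by
            rw [abs_of_pos (sub_pos.2 hW'), Real.rpow_def_of_pos hX0, ← hW, mul_comm _ E,
              mul_assoc, ← Real.exp_add]
            congr 2
            ring
      linarith
  have i12 : Integrable fun w : ℝ => A * Real.exp (-(1 / 4) * |w|) + (Set.Ioc 0 W).indicator f w :=
    i1.add i2
  have hI := norm_integral_le_of_norm_le (i12.add i3) (Filter.Eventually.of_forall hpt)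
  simp only [Pi.add_apply] at hI
  rw [key, integral_add i12 i3, integral_add i1 i2, integral_const_mul,
    integral_const_mul, integral_indicator measurableSet_Ioc,
    integral_sub_right_eq_self (fun w : ℝ => Real.exp (-(2 * δ) * |w|)) W, ← hI₁, ← hI₂,
    norm_mul] at hI
  have h3 := SWL_one_le_norm_Wm (1 / 2 + δ)
  have h4 : ‖Lx (xi l ka) s‖ ≤ ‖Lx (xi l ka) s‖ * ‖Wm ((1 / 2 + δ : ℝ) : ℂ)‖ :=
    le_mul_of_one_le_right (norm_nonneg _) h3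
  have h6 : 0 ≤ A * I₁ := mul_nonneg hA.le hI₁0
  have h5 : X ^ (-(2 * δ)) * E * I₂ ≤ (A * I₁ + I₂ + 1) * X ^ (-(2 * δ)) * E := by
    rw [mul_comm _ I₂, mul_assoc (A * I₁ + I₂ + 1)]
    exact mul_le_mul_of_nonneg_right (by linarith only [h6])
      (mul_nonneg (Real.rpow_nonneg hX0.le _) hE0)
  linarith only [h4, h5, hI, hI₂0]

theorem M4Abs_three (a b c : ℝ) :
    (a + b + c) ^ 4 ≤ 27 * (a ^ 4 + b ^ 4 + c ^ 4) := by
  have h1 : (a + b + c) ^ 2 ≤ 3 * (a ^ 2 + b ^ 2 + c ^ 2) := by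
    nlinarith [sq_nonneg (a - b), sq_nonneg (b - c), sq_nonneg (a - c)]
  have h2 : (a ^ 2 + b ^ 2 + c ^ 2) ^ 2 ≤ 3 * (a ^ 4 + b ^ 4 + c ^ 4) := by
    nlinarith [sq_nonneg (a ^ 2 - b ^ 2), sq_nonneg (b ^ 2 - c ^ 2), sq_nonneg (a ^ 2 - c ^ 2)]
  calc (a + b + c) ^ 4 = ((a + b + c) ^ 2) ^ 2 := by ring
    _ ≤ (3 * (a ^ 2 + b ^ 2 + c ^ 2)) ^ 2 := by gcongr
    _ ≤ _ := by nlinarith

theorem M4Abs_log {η : ℝ} (hη : 0 < η) {X : ℝ} (hX : 1 ≤ X) :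
    Real.log X ^ 4 ≤ (4 / η) ^ 4 * X ^ η := by
  have h1 := Real.log_le_rpow_div (x := X) (by linarith) (show 0 < η / 4 by positivity)
  calc Real.log X ^ 4 ≤ (X ^ (η / 4) / (η / 4)) ^ 4 := by
        gcongr
        exact Real.log_nonneg hX
    _ = (4 / η) ^ 4 * (X ^ (η / 4)) ^ 4 := by field_simp
    _ = _ := by
        rw [← Real.rpow_natCast (X ^ (η / 4)), ← Real.rpow_mul (by linarith)]
        congr 2
        push_cast
        ring

theorem M4Abs_Lam (l : ℤ) (c₀ : O) (K : Finset O) (s : ℂ) : Lam l c₀ K s =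
    ∑ z ∈ K ×ˢ (Finset.univ : Finset (ZMod 3 × ZMod 3)),
      ‖Lx (xi l (z.1 * c₀ * vv z.2)) s‖ ^ 4 := by
  rw [Lam, Finset.sum_product]

theorem Lam_step (l : ℤ) {δ η : ℝ} (h0 : 0 < δ) (h1 : δ ≤ 1 / 4) (hη : 0 < η) (J : ℕ) :
    ∃ C : ℝ, 0 < C ∧ ∀ (R M B X u : ℝ) (c₀ : O) (K : Finset O), 1 ≤ M → M ≤ R → c₀ ≠ 0 →
      nr c₀ ≤ R → (∀ k ∈ K, k ≠ 0 ∧ nr k ≤ M ∧ 1 < cnd (k * c₀)) → 1 ≤ X →
      (∀ v : ℝ, Lam l c₀ K (((1 / 2 + δ : ℝ) : ℂ) + v * Complex.I) ≤ B * (1 + |v|) ^ J) →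
      Lam l c₀ K (((1 / 2 + δ : ℝ) : ℂ) + u * Complex.I) ≤
        C * (M * X) ^ η * (M ^ (1 / 3 : ℝ) * X ^ 2 + M + (M * X ^ 2) ^ (2 / 3 : ℝ)) +
        C * X ^ (-(8 * δ)) * R ^ (8 * η) * (M * nr (rad c₀)) ^ (4 * δ) *
          (B * (1 + |u|) ^ (J + 4)) := by
  obtain ⟨C₁, hC₁, H₁⟩ := Lx_split h0 h1
  obtain ⟨C₂, hC₂, H₂⟩ := M4_short (half_pos hη)
  obtain ⟨C₃, hC₃, H₃⟩ := sum_Wm_pow4 (J + 4)
  obtain ⟨C₄, hC₄, H₄⟩ := Lam_fe l h0 h1 hη
  refine ⟨27 * (63 * C₁ ^ 4 + (4 / (η / 2)) ^ 4 * (9 * C₂) + C₁ ^ 4 * C₃ * C₄), by positivity,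
    fun R M B X u c₀ K hM hMR hc₀ hcR hK hX hB => ?_⟩
  have hX0 : 0 < X := by linarith
  have hM0 : 0 < M := by linarith
  have hR0 : 0 < R := by linarith
  have hB0 : 0 ≤ B := by
    have h2 := hB 0
    have h3 : 0 ≤ Lam l c₀ K (((1 / 2 + δ : ℝ) : ℂ) + (0 : ℝ) * Complex.I) :=
      Finset.sum_nonneg fun _ _ => Finset.sum_nonneg fun _ _ => by positivity
    simpa using h3.trans h2
  set T := K ×ˢ (Finset.univ : Finset (ZMod 3 × ZMod 3)) with hT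
  have hT' : ∀ z ∈ T, z.1 * c₀ * vv z.2 ≠ 0 ∧ ¬ Cube (z.1 * c₀ * vv z.2) := fun z hz => by
    obtain ⟨a1, -, a3⟩ := hK z.1 (Finset.mem_product.1 hz).1
    exact ⟨mul_ne_zero (mul_ne_zero a1 hc₀) (vv_ne_zero _),
      not_cube_of_cnd (mul_ne_zero a1 hc₀) a3 _⟩
  classical
  set f : O × (ZMod 3 × ZMod 3) → ℝ → ℝ := fun z w =>
    ‖Sm (xi l (z.1 * c₀ * vv z.2)) (Real.exp w) ((-u : ℝ) * Complex.I)‖ * Real.exp (-w / 2) with hf
  set g : O × (ZMod 3 × ZMod 3) → ℝ → ℝ := fun z v =>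
    ‖Lx (xi l (z.1 * c₀ * vv z.2)) (((1 / 2 - δ : ℝ) : ℂ) + v * Complex.I)‖ with hg
  set D := M ^ (1 / 3 : ℝ) * X ^ 2 + M + (M * X ^ 2) ^ (2 / 3 : ℝ) with hD
  have hMD : M ≤ D := by
    have : 0 ≤ M ^ (1 / 3 : ℝ) * X ^ 2 := by positivity
    have : 0 ≤ (M * X ^ 2) ^ (2 / 3 : ℝ) := by positivity
    linarith
  have hMX : 1 ≤ M * X := one_le_mul_of_one_le_of_one_le hM hX
  -- the short part
  have S₂ : ∑ z ∈ T, (∫ w in Set.Ioc 0 (Real.log X), f z w) ^ 4 ≤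
      Real.log X ^ 4 * (9 * (C₂ * (M * X) ^ (η / 2) * D)) := by
    refine sum_Ioc_pow4 T f (Real.log_nonneg hX)
      (fun z _ => (LZC.continuous_Sm (polyB_xi l _) (-u)).norm.mul (by fun_prop))
      (fun z w => by rw [hf]; positivity) fun w hw0 hw1 => ?_
    have hY1 : 1 ≤ Real.exp w := Real.one_le_exp hw0
    have hY2 : Real.exp w ≤ X := (Real.le_log_iff_exp_le hX0).1 hw1
    rw [hT, Finset.sum_product_right]
    refine (Finset.sum_le_card_nsmul _ _ (C₂ * (M * X) ^ (η / 2) * D) fun a _ => ?_).trans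
      (by simp)
    have h2 := H₂ l M (Real.exp w) (-u) (c₀ * vv a) K hM hY1 fun k hk => ⟨(hK k hk).1, (hK k hk).2.1⟩
    have e : Real.exp w ^ 2 * Real.exp (-w / 2) ^ 4 = 1 := by
      rw [← Real.exp_nat_mul, ← Real.exp_nat_mul, ← Real.exp_add]
      convert Real.exp_zero using 2
      push_cast
      ring
    simp only [hf, mul_pow, mul_assoc _ c₀]
    rw [← Finset.sum_mul]
    calc _ ≤ C₂ * (M * Real.exp w) ^ (η / 2) * (M ^ (1 / 3 : ℝ) * Real.exp w ^ 2 + M +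
          (M * Real.exp w ^ 2) ^ (2 / 3 : ℝ)) * Real.exp w ^ 2 * Real.exp (-w / 2) ^ 4 := by
          gcongr
      _ = C₂ * (M * Real.exp w) ^ (η / 2) * (M ^ (1 / 3 : ℝ) * Real.exp w ^ 2 + M +
          (M * Real.exp w ^ 2) ^ (2 / 3 : ℝ)) := by rw [mul_assoc, e, mul_one]
      _ ≤ _ := by rw [hD]; gcongr
  -- the long part
  set B' := C₄ * R ^ (8 * η) * (M * nr (rad c₀)) ^ (4 * δ) * B with hB'
  have S₃ : ∑ z ∈ T, (∫ v : ℝ,
      ‖Wm (((1 / 2 - δ : ℝ) : ℂ) + v * Complex.I + (-u : ℝ) * Complex.I)‖ * g z v) ^ 4 ≤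
      C₃ * B' * (1 + |u|) ^ (J + 4) := by
    have h3 := H₃ T g (1 / 2 - δ) B' ((-u : ℝ) * Complex.I)
      (by simp only [Complex.mul_re, Complex.ofReal_re, Complex.I_re, Complex.ofReal_im,
            Complex.I_im]
          rw [abs_le]; constructor <;> linarith)
      (fun z hz => ((decay_xi l (hT' z hz).1 (hT' z hz).2).differentiable_Lx.continuous.comp
        (by fun_prop)).norm)
      (fun z v => norm_nonneg _) fun v => by
        have h4 := H₄ R M c₀ K v hM hMR hc₀ hcR hK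
        rw [M4Abs_Lam] at h4
        refine h4.trans ?_
        calc _ ≤ C₄ * R ^ (8 * η) * (M * nr (rad c₀)) ^ (4 * δ) * (1 + |v|) ^ 4 *
              (B * (1 + |v|) ^ J) := by
              gcongr
              exact hB v
          _ = _ := by rw [hB']; ring
    simpa using h3
  have hcard : (T.card : ℝ) ≤ 63 * M := by
    have := card_le_of_nr_le hM0.le fun k hk => (⟨(hK k hk).1, (hK k hk).2.1⟩ : k ≠ 0 ∧ nr k ≤ M)
    rw [hT, Finset.card_product]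
    simp only [Finset.card_univ, Fintype.card_prod, ZMod.card]
    push_cast
    linarith
  have hsum : Lam l c₀ K (((1 / 2 + δ : ℝ) : ℂ) + u * Complex.I) ≤
      27 * (T.card * C₁ ^ 4 + ∑ z ∈ T, (∫ w in Set.Ioc 0 (Real.log X), f z w) ^ 4 +
        (C₁ * X ^ (-(2 * δ))) ^ 4 * ∑ z ∈ T, (∫ v : ℝ,
          ‖Wm (((1 / 2 - δ : ℝ) : ℂ) + v * Complex.I + (-u : ℝ) * Complex.I)‖ * g z v) ^ 4) := by
    rw [M4Abs_Lam, ← hT, Finset.mul_sum, ← nsmul_eq_mul, ← Finset.sum_const,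
      ← Finset.sum_add_distrib, ← Finset.sum_add_distrib, Finset.mul_sum]
    refine Finset.sum_le_sum fun z hz => ?_
    rw [← mul_pow]
    refine le_trans ?_ (M4Abs_three _ _ _)
    exact pow_le_pow_left₀ (norm_nonneg _) (H₁ l _ u X (hT' z hz).1 (hT' z hz).2 hX) 4
  have hlog := M4Abs_log (half_pos hη) hX
  have e1 : (X ^ (-(2 * δ))) ^ 4 = X ^ (-(8 * δ)) := by
    rw [← Real.rpow_natCast, ← Real.rpow_mul hX0.le]
    congr 1
    push_cast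
    ring
  have e2 : X ^ (η / 2) * (M * X) ^ (η / 2) ≤ (M * X) ^ η := by
    calc _ ≤ (M * X) ^ (η / 2) * (M * X) ^ (η / 2) := by
          gcongr
          exact le_mul_of_one_le_left hX0.le hM
      _ = _ := by rw [← Real.rpow_add (by positivity), add_halves]
  have e3 : 1 ≤ (M * X) ^ η := Real.one_le_rpow hMX hη.le
  have hD0 : 0 ≤ D := by linarith
  set P := (M * X) ^ η * D with hP
  set Q := X ^ (-(8 * δ)) * R ^ (8 * η) * (M * nr (rad c₀)) ^ (4 * δ) *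
    (B * (1 + |u|) ^ (J + 4)) with hQ
  have hP0 : 0 ≤ P := by positivity
  have hQ0 : 0 ≤ Q := by positivity
  have t1 : T.card * C₁ ^ 4 ≤ 63 * C₁ ^ 4 * P := by
    have : M ≤ P := hMD.trans (le_mul_of_one_le_left hD0 e3)
    calc _ ≤ 63 * P * C₁ ^ 4 := by gcongr; linarith
      _ = _ := by ring
  have t2 : Real.log X ^ 4 * (9 * (C₂ * (M * X) ^ (η / 2) * D)) ≤
      (4 / (η / 2)) ^ 4 * (9 * C₂) * P := by
    calc _ ≤ (4 / (η / 2)) ^ 4 * X ^ (η / 2) * (9 * (C₂ * (M * X) ^ (η / 2) * D)) := by gcongr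
      _ = (4 / (η / 2)) ^ 4 * (9 * C₂) * (X ^ (η / 2) * (M * X) ^ (η / 2) * D) := by ring
      _ ≤ _ := by rw [hP]; gcongr
  have t3 : (C₁ * X ^ (-(2 * δ))) ^ 4 * (C₃ * B' * (1 + |u|) ^ (J + 4)) =
      C₁ ^ 4 * C₃ * C₄ * Q := by
    rw [mul_pow, e1, hB', hQ]; ring
  have t4 : (C₁ * X ^ (-(2 * δ))) ^ 4 * ∑ z ∈ T, (∫ v : ℝ,
      ‖Wm (((1 / 2 - δ : ℝ) : ℂ) + v * Complex.I + (-u : ℝ) * Complex.I)‖ * g z v) ^ 4 ≤
      C₁ ^ 4 * C₃ * C₄ * Q := by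
    rw [← t3]; gcongr
  have q1 : 0 ≤ 63 * C₁ ^ 4 * Q := by positivity
  have q2 : 0 ≤ (4 / (η / 2)) ^ 4 * (9 * C₂) * Q := by positivity
  have q3 : 0 ≤ C₁ ^ 4 * C₃ * C₄ * P := by positivity
  calc _ ≤ 27 * (63 * C₁ ^ 4 * P + (4 / (η / 2)) ^ 4 * (9 * C₂) * P + C₁ ^ 4 * C₃ * C₄ * Q) := by
        linarith
    _ ≤ 27 * (63 * C₁ ^ 4 + (4 / (η / 2)) ^ 4 * (9 * C₂) + C₁ ^ 4 * C₃ * C₄) * (P + Q) := by
        nlinarith
    _ = _ := by rw [hP, hQ]; ring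

/-- One improvement: half of the bound is absorbed. -/
theorem Lam_half (l : ℤ) {δ : ℝ} (h0 : 0 < δ) (h1 : δ ≤ 1 / 4) : ∃ C : ℝ, 0 < C ∧ ∃ J : ℕ, 8 ≤ J ∧
    ∀ (R M B u : ℝ) (c₀ : O) (K : Finset O), 1 ≤ M → M ≤ R → c₀ ≠ 0 →
      nr c₀ ≤ R → (∀ k ∈ K, k ≠ 0 ∧ nr k ≤ M ∧ 1 < cnd (k * c₀)) → 0 ≤ B →
      (∀ v : ℝ, Lam l c₀ K (((1 / 2 + δ : ℝ) : ℂ) + v * Complex.I) ≤ B * (1 + |v|) ^ J) →
      Lam l c₀ K (((1 / 2 + δ : ℝ) : ℂ) + u * Complex.I) ≤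
        (C * R ^ (3 * δ) * M ^ (4 / 3 : ℝ) * nr (rad c₀) + B / 2) * (1 + |u|) ^ J := by
  obtain ⟨C, hC, H⟩ := Lam_step l h0 h1 (η := δ ^ 2) (by positivity) (max 8 (⌈1 / δ⌉₊ + 1))
  set J := max 8 (⌈1 / δ⌉₊ + 1) with hJ
  set S := max 1 ((2 * C) ^ (1 / (8 * δ))) with hS
  have hS1 : 1 ≤ S := le_max_left _ _
  have hS0 : 0 < S := by linarith
  have hSC : 2 * C ≤ S ^ (8 * δ) := by
    calc 2 * C = ((2 * C) ^ (1 / (8 * δ))) ^ (8 * δ) := by
          rw [← Real.rpow_mul (by positivity), one_div_mul_cancel (by positivity), Real.rpow_one]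
      _ ≤ _ := Real.rpow_le_rpow (by positivity) (le_max_right _ _) (by positivity)
  refine ⟨C * S ^ (δ ^ 2) * (3 * S ^ 2), by positivity, J, le_max_left _ _,
    fun R M B u c₀ K hM hMR hc₀ hcR hK hB0 hB => ?_⟩
  have hM0 : 0 < M := by linarith
  have hR1 : 1 ≤ R := by linarith
  have hR0 : 0 < R := by linarith
  set r := nr (rad c₀) with hr
  have hr1 : 1 ≤ r := one_le_nr (primary_rad c₀).ne_zero
  have hrR : r ≤ R := le_trans (Nat.cast_le.2 (nm_le_of_dvd (rad_dvd c₀) hc₀)) hcR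
  have hr0 : 0 < r := by linarith
  set U := 1 + |u| with hU
  have hU1 : 1 ≤ U := by rw [hU]; linarith [abs_nonneg u]
  have hU0 : 0 < U := by linarith
  set Z := S * R ^ δ * U ^ (1 / (2 * δ)) with hZ
  have hRδ : 1 ≤ R ^ δ := Real.one_le_rpow hR1 h0.le
  have hUδ : 1 ≤ U ^ (1 / (2 * δ)) := Real.one_le_rpow hU1 (by positivity)
  have hZ1 : 1 ≤ Z :=
    one_le_mul_of_one_le_of_one_le (one_le_mul_of_one_le_of_one_le hS1 hRδ) hUδ
  have hZ0 : 0 < Z := by linarith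
  have hq1 : 1 ≤ M * r := one_le_mul_of_one_le_of_one_le hM hr1
  set X := (M * r) ^ (1 / 2 : ℝ) * Z with hX
  have hq2 : 1 ≤ (M * r) ^ (1 / 2 : ℝ) := Real.one_le_rpow hq1 (by norm_num)
  have hX1 : 1 ≤ X := one_le_mul_of_one_le_of_one_le hq2 hZ1
  have hX2 : X ^ 2 = M * r * Z ^ 2 := by
    rw [hX, mul_pow, ← Real.rpow_natCast, ← Real.rpow_mul (by positivity)]
    norm_num
  have main := H R M B X u c₀ K hM hMR hc₀ hcR hK hX1 hB
  rw [← hr, ← hU] at main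
  -- the absorbed term
  have a1 : X ^ (-(8 * δ)) * R ^ (8 * δ ^ 2) * (M * r) ^ (4 * δ) * U ^ 4 = (S ^ (8 * δ))⁻¹ := by
    have e1 : ((M * r) ^ (1 / 2 : ℝ)) ^ (-(8 * δ)) * (M * r) ^ (4 * δ) = 1 := by
      rw [← Real.rpow_mul (by positivity), ← Real.rpow_add (by positivity),
        show 1 / 2 * -(8 * δ) + 4 * δ = 0 by ring, Real.rpow_zero]
    have e2 : (R ^ δ) ^ (-(8 * δ)) * R ^ (8 * δ ^ 2) = 1 := by
      rw [← Real.rpow_mul hR0.le, ← Real.rpow_add hR0,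
        show δ * -(8 * δ) + 8 * δ ^ 2 = 0 by ring, Real.rpow_zero]
    have e3 : (U ^ (1 / (2 * δ))) ^ (-(8 * δ)) * U ^ 4 = 1 := by
      rw [← Real.rpow_mul hU0.le, ← Real.rpow_natCast, ← Real.rpow_add hU0,
        show 1 / (2 * δ) * -(8 * δ) + ((4 : ℕ) : ℝ) = 0 by push_cast; field_simp; ring,
        Real.rpow_zero]
    rw [hX, hZ, Real.mul_rpow (x := (M * r) ^ (1 / 2 : ℝ)) (by positivity) (by positivity),
      Real.mul_rpow (x := S * R ^ δ) (by positivity) (by positivity),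
      Real.mul_rpow (x := S) (by positivity) (by positivity), ← Real.rpow_neg hS0.le]
    calc _ = S ^ (-(8 * δ)) * (((M * r) ^ (1 / 2 : ℝ)) ^ (-(8 * δ)) * (M * r) ^ (4 * δ)) *
          ((R ^ δ) ^ (-(8 * δ)) * R ^ (8 * δ ^ 2)) * ((U ^ (1 / (2 * δ))) ^ (-(8 * δ)) * U ^ 4) := by
          ring
      _ = _ := by rw [e1, e2, e3]; ring
  have a2 : C * X ^ (-(8 * δ)) * R ^ (8 * δ ^ 2) * (M * r) ^ (4 * δ) * (B * U ^ (J + 4)) ≤
      B / 2 * U ^ J := by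
    have hS8 : 0 < S ^ (8 * δ) := by positivity
    calc _ = C * (X ^ (-(8 * δ)) * R ^ (8 * δ ^ 2) * (M * r) ^ (4 * δ) * U ^ 4) * (B * U ^ J) := by
          ring
      _ = C / S ^ (8 * δ) * (B * U ^ J) := by rw [a1, div_eq_mul_inv]
      _ ≤ 1 / 2 * (B * U ^ J) := by
          refine mul_le_mul_of_nonneg_right ?_ (by positivity)
          rw [div_le_iff₀ hS8]
          linarith only [hSC]
      _ = _ := by ring
  -- the main term
  have hM43 : M ^ (1 / 3 : ℝ) * M = M ^ (4 / 3 : ℝ) := by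
    rw [← Real.rpow_add_one hM0.ne']; norm_num
  have hM13 : 1 ≤ M ^ (1 / 3 : ℝ) := Real.one_le_rpow hM (by norm_num)
  have hrZ : 1 ≤ r * Z ^ 2 := one_le_mul_of_one_le_of_one_le hr1 (one_le_pow₀ hZ1)
  have b1 : M ^ (1 / 3 : ℝ) * X ^ 2 = M ^ (4 / 3 : ℝ) * (r * Z ^ 2) := by
    rw [hX2, ← hM43]; ring
  have b2 : M ≤ M ^ (4 / 3 : ℝ) * (r * Z ^ 2) := by
    rw [← hM43]
    exact (le_mul_of_one_le_left hM0.le hM13).trans (le_mul_of_one_le_right (by positivity) hrZ)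
  have b3 : (M * X ^ 2) ^ (2 / 3 : ℝ) ≤ M ^ (4 / 3 : ℝ) * (r * Z ^ 2) := by
    rw [hX2, show M * (M * r * Z ^ 2) = M ^ 2 * (r * Z ^ 2) by ring,
      Real.mul_rpow (by positivity) (by positivity), ← Real.rpow_natCast, ← Real.rpow_mul hM0.le,
      show ((2 : ℕ) : ℝ) * (2 / 3) = 4 / 3 by norm_num]
    gcongr
    exact Real.rpow_le_self_of_one_le hrZ (by norm_num)
  have hq3 : (M * r) ^ (1 / 2 : ℝ) ≤ R := by
    calc _ ≤ (R * R) ^ (1 / 2 : ℝ) := by gcongr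
      _ = R := by rw [← sq, ← Real.rpow_natCast, ← Real.rpow_mul hR0.le]; norm_num
  have hRδ' : R ^ δ ≤ R := Real.rpow_le_self_of_one_le hR1 (by linarith)
  have b4 : (M * X) ^ (δ ^ 2) ≤ S ^ (δ ^ 2) * R ^ (3 * δ ^ 2) * U ^ (δ / 2) := by
    have : M * X ≤ S * R ^ 3 * U ^ (1 / (2 * δ)) := by
      calc M * X = M * (M * r) ^ (1 / 2 : ℝ) * R ^ δ * (S * U ^ (1 / (2 * δ))) := by
            rw [hX, hZ]; ring
        _ ≤ R * R * R * (S * U ^ (1 / (2 * δ))) := by gcongr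
        _ = _ := by ring
    calc _ ≤ (S * R ^ 3 * U ^ (1 / (2 * δ))) ^ (δ ^ 2) := by gcongr
      _ = _ := by
          rw [Real.mul_rpow (by positivity) (by positivity),
            Real.mul_rpow (by positivity) (by positivity), ← Real.rpow_natCast R,
            ← Real.rpow_mul hR0.le, ← Real.rpow_mul hU0.le,
            show 1 / (2 * δ) * δ ^ 2 = δ / 2 by field_simp]
          norm_num
  have b5 : Z ^ 2 = S ^ 2 * R ^ (2 * δ) * U ^ (1 / δ) := by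
    rw [hZ, mul_pow, mul_pow, ← Real.rpow_natCast (R ^ δ), ← Real.rpow_natCast (U ^ _),
      ← Real.rpow_mul hR0.le, ← Real.rpow_mul hU0.le,
      show 1 / (2 * δ) * ((2 : ℕ) : ℝ) = 1 / δ by push_cast; field_simp,
      show δ * ((2 : ℕ) : ℝ) = 2 * δ by push_cast; ring]
  have b6 : R ^ (3 * δ ^ 2) * R ^ (2 * δ) ≤ R ^ (3 * δ) := by
    rw [← Real.rpow_add hR0]
    exact Real.rpow_le_rpow_of_exponent_le hR1 (by nlinarith only [h0, h1])
  have b7 : U ^ (δ / 2) * U ^ (1 / δ) ≤ U ^ J := by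
    rw [← Real.rpow_add hU0, ← Real.rpow_natCast]
    refine Real.rpow_le_rpow_of_exponent_le hU1 ?_
    have : ((⌈1 / δ⌉₊ + 1 : ℕ) : ℝ) ≤ J := by exact_mod_cast le_max_right _ _
    push_cast at this
    linarith only [this, Nat.le_ceil (1 / δ), h1]
  have a3 : C * (M * X) ^ (δ ^ 2) * (M ^ (1 / 3 : ℝ) * X ^ 2 + M + (M * X ^ 2) ^ (2 / 3 : ℝ)) ≤
      C * S ^ (δ ^ 2) * (3 * S ^ 2) * R ^ (3 * δ) * M ^ (4 / 3 : ℝ) * r * U ^ J := by
    calc _ ≤ C * (S ^ (δ ^ 2) * R ^ (3 * δ ^ 2) * U ^ (δ / 2)) *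
          (3 * (M ^ (4 / 3 : ℝ) * (r * Z ^ 2))) := by
          gcongr
          linarith only [b1, b2, b3]
      _ = C * S ^ (δ ^ 2) * (3 * S ^ 2) * (R ^ (3 * δ ^ 2) * R ^ (2 * δ)) * M ^ (4 / 3 : ℝ) * r *
          (U ^ (δ / 2) * U ^ (1 / δ)) := by rw [b5]; ring
      _ ≤ _ := by gcongr
  calc _ ≤ _ := main
    _ ≤ _ := add_le_add a3 a2
    _ = _ := by ring

theorem Lam_bound (l : ℤ) {δ : ℝ} (h0 : 0 < δ) (h1 : δ ≤ 1 / 4) : ∃ C : ℝ, 0 < C ∧ ∃ J : ℕ,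
    8 ≤ J ∧ ∀ (R M u : ℝ) (c₀ : O) (K : Finset O), 1 ≤ M → M ≤ R → c₀ ≠ 0 →
      nr c₀ ≤ R → (∀ k ∈ K, k ≠ 0 ∧ nr k ≤ M ∧ 1 < cnd (k * c₀)) →
      Lam l c₀ K (((1 / 2 + δ : ℝ) : ℂ) + u * Complex.I) ≤
        C * R ^ (3 * δ) * M ^ (4 / 3 : ℝ) * nr (rad c₀) * (1 + |u|) ^ J := by
  obtain ⟨C, hC, J, hJ, H⟩ := Lam_half l h0 h1
  obtain ⟨C₁, hC₁, H₁⟩ := Lx_poly l
  refine ⟨2 * C, by positivity, J, hJ, fun R M u c₀ K hM hMR hc₀ hcR hK => ?_⟩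
  set A := C * R ^ (3 * δ) * M ^ (4 / 3 : ℝ) * nr (rad c₀) with hA
  have hR0 : 0 < R := by linarith
  have hM0 : 0 < M := by linarith
  have hA0 : 0 ≤ A := by positivity
  set B₀ := ∑ k ∈ K, ∑ a : ZMod 3 × ZMod 3, (C₁ * nr (k * c₀ * vv a) ^ 2) ^ 4 with hB₀
  have hB₀0 : 0 ≤ B₀ := Finset.sum_nonneg fun _ _ => Finset.sum_nonneg fun _ _ => by positivity
  have base : ∀ v : ℝ, Lam l c₀ K (((1 / 2 + δ : ℝ) : ℂ) + v * Complex.I) ≤
      B₀ * (1 + |v|) ^ J := by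
    intro v
    have hv : 1 ≤ 1 + |v| := by linarith [abs_nonneg v]
    rw [Lam, hB₀, Finset.sum_mul]
    refine Finset.sum_le_sum fun k hk => ?_
    rw [Finset.sum_mul]
    refine Finset.sum_le_sum fun a _ => ?_
    obtain ⟨a1, -, a3⟩ := hK k hk
    have h2 := H₁ (k * c₀ * vv a) (((1 / 2 + δ : ℝ) : ℂ) + v * Complex.I)
      (mul_ne_zero (mul_ne_zero a1 hc₀) (vv_ne_zero _)) (not_cube_of_cnd (mul_ne_zero a1 hc₀) a3 _)
      (by simp; linarith) (by simp; linarith)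
    have e : (((1 / 2 + δ : ℝ) : ℂ) + v * Complex.I).im = v := by simp
    rw [e] at h2
    calc _ ≤ (C₁ * nr (k * c₀ * vv a) ^ 2 * (1 + |v|) ^ 2) ^ 4 := by gcongr
      _ = (C₁ * nr (k * c₀ * vv a) ^ 2) ^ 4 * (1 + |v|) ^ 8 := by ring
      _ ≤ _ := by gcongr
  have iter : ∀ n : ℕ, ∀ v : ℝ, Lam l c₀ K (((1 / 2 + δ : ℝ) : ℂ) + v * Complex.I) ≤
      (2 * A + B₀ * (1 / 2) ^ n) * (1 + |v|) ^ J := by
    intro n
    induction n with
    | zero =>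
      intro v
      refine (base v).trans ?_
      gcongr
      simp [hA0]
    | succ n ih =>
      intro v
      refine (H R M _ v c₀ K hM hMR hc₀ hcR hK (by positivity) ih).trans (le_of_eq ?_)
      rw [← hA]
      ring
  have lim : Filter.Tendsto (fun n : ℕ => (2 * A + B₀ * (1 / 2) ^ n) * (1 + |u|) ^ J) Filter.atTop
      (nhds ((2 * A + B₀ * 0) * (1 + |u|) ^ J)) :=
    (((tendsto_pow_atTop_nhds_zero_of_lt_one (by norm_num) (by norm_num)).const_mul B₀).const_add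
      _).mul_const _
  refine (ge_of_tendsto' lim fun n => iter n u).trans (le_of_eq ?_)
  rw [hA]
  ring

end Crest.Agent.R12
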