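import Crest.Agent.R12.Chr
import Crest.Agent.R12.ThPois

/-!
# Row 12, Siegel–Walfisz block: smooth sums of periodic functions
-/

set_option autoImplicit false

noncomputable section

namespace Crest.Agent.R12

open Crest.Agent.R17
open scoped ComplexConjugate Topology
open Filter MeasureTheory

/-- **Smooth sums of periodic functions with an angular twist** (`Sm_eq_lineI`, `hecke_vor`,
`dual_le`, `Mom_Wm_le`; `F` bounds the finite Fourier transform). -/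
theorem Sm_per (l : ℤ) {j : ℕ} (hj : 1 ≤ j) (B : ℝ) : ∃ C : ℝ, 0 < C ∧
    ∀ (q : O) (f : O → ℂ) (F X : ℝ) (s : ℂ), q ≠ 0 → (∀ x y, q ∣ x - y → f x = f y) → f 0 = 0 →
      (∀ h, h ≠ 0 → ‖ft q f h‖ ≤ F) → 0 < X → |s.re| ≤ B →
      ‖Sm (fun n => f n * arg n ^ l) X s -
          (if l = 0 then (LBB.cc : ℂ) * LBB.avg q f * X * Wm (1 + s) else 0)‖ ≤
        C * F * min (1 + |s.im|)
          (Real.sqrt (X / nr q) * (nr q * (1 + |s.im|) ^ 2 / X) ^ j) := by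
  obtain ⟨C, hC, h⟩ := dual_le (gamOK_H l.natAbs) hj
  obtain ⟨C₀, hC₀, h₀⟩ := Mom_Wm_le (1 / 2) B 0
  obtain ⟨C₁, hC₁, h₁⟩ := Mom_Wm_le (-(1 / 2)) B 2
  obtain ⟨C₂, hC₂, h₂⟩ := Mom_Wm_le (1 / 2 - j) B (2 * j)
  have hc := LBB.cc_pos
  refine ⟨C * (Real.sqrt (C₀ * C₁) / LBB.cc + C₂ / LBB.cc ^ (2 * j)), by positivity,
    fun q f F X s hq hf h0 hF hX hs => ?_⟩
  have hN := nr_pos hq
  have F0 : 0 ≤ F := (norm_nonneg _).trans (hF 1 one_ne_zero)
  have hb : CubeB (ftA q f l) F := cubeB_of_bound (by simp [ftA]) fun ν => by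
    unfold ftA
    split_ifs with hν
    · simpa using F0
    · rw [norm_mul]
      exact (mul_le_of_le_one_right (norm_nonneg _) (norm_arg_zpow_le _ _)).trans (hF ν hν)
  have key := h _ _ F (LBB.cc ^ 2 / nr q) (stripDecay_Wm hX s) hb (by positivity)
  have e : (if l = 0 then (LBB.cc : ℂ) * LBB.avg q f * X * Wm (1 + s) else 0) =
      if l = 0 then (LBB.cc : ℂ) * LBB.avg q f * (Wm (1 + s) * (X : ℂ) ^ (1 : ℂ)) else 0 := by
    rw [Complex.cpow_one]
    split_ifs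
    · ring
    · rfl
  rw [Sm_eq_lineI (ThPois_polyB l hq hf h0) hX s,
    hecke_vor l hq hf h0 (stripDecay_Wm hX s) (by norm_num), e, add_sub_cancel_left, norm_mul,
    norm_mul, norm_mul, norm_pow, norm_neg, norm_one, one_pow, one_mul, norm_zpow, norm_arg hq,
    one_zpow, one_mul, Complex.norm_real, Real.norm_of_nonneg (by positivity)]
  refine (mul_le_mul_of_nonneg_left key (by positivity)).trans ?_
  set T : ℝ := 1 + |s.im| with hT
  have hT0 : 0 < T := by positivity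
  have a1 : Real.sqrt (Mom (fun s' => Wm (s' + s) * (X : ℂ) ^ s') (1 / 2) 0 *
      Mom (fun s' => Wm (s' + s) * (X : ℂ) ^ s') (-(1 / 2)) 2) ≤ Real.sqrt (C₀ * C₁) * T := by
    have b1 := mul_le_mul (h₀ X s hX hs) (h₁ X s hX hs) (Mom_nonneg _ _ _) (by positivity)
    have b2 : C₀ * T ^ 0 * X ^ (1 / 2 : ℝ) * (C₁ * T ^ 2 * X ^ (-(1 / 2) : ℝ)) =
        C₀ * C₁ * T ^ 2 := by
      rw [Real.rpow_neg hX.le]
      have : X ^ (1 / 2 : ℝ) ≠ 0 := by positivity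
      field_simp
    rw [b2] at b1
    calc _ ≤ Real.sqrt (C₀ * C₁ * T ^ 2) := Real.sqrt_le_sqrt b1
      _ = _ := by rw [Real.sqrt_mul (by positivity), Real.sqrt_sq hT0.le]
  have a2 : LBB.cc / nr q * (C₂ * T ^ (2 * j) * X ^ (1 / 2 - j : ℝ) *
      (LBB.cc ^ 2 / nr q) ^ (-(1 / 2 + j : ℝ))) =
      C₂ / LBB.cc ^ (2 * j) * (Real.sqrt (X / nr q) * (nr q * T ^ 2 / X) ^ j) := by
    have := Real.sqrt_pos.2 hN
    rw [Real.sqrt_div hX.le, Real.rpow_sub hX, Real.rpow_neg (by positivity),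
      Real.rpow_add (by positivity), ← Real.sqrt_eq_rpow, ← Real.sqrt_eq_rpow, Real.rpow_natCast,
      Real.rpow_natCast, Real.sqrt_div (by positivity), Real.sqrt_sq hc.le, div_pow, div_pow,
      mul_pow, ← pow_mul, ← pow_mul]
    field_simp
    rw [Real.sq_sqrt hN.le]
  have x1 : 0 ≤ Real.sqrt (C₀ * C₁) / LBB.cc := by positivity
  have x2 : 0 ≤ C₂ / LBB.cc ^ (2 * j) := by positivity
  rw [mul_left_comm, mul_right_comm C _ F, mul_assoc (C * F)]
  refine mul_le_mul_of_nonneg_left ?_ (by positivity)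
  rw [mul_min_of_nonneg _ _ (by positivity), mul_min_of_nonneg _ _ (by positivity)]
  refine min_le_min ?_ ?_
  · calc _ ≤ LBB.cc / nr q * (Real.sqrt (C₀ * C₁) * T / (LBB.cc ^ 2 / nr q)) := by gcongr
      _ = Real.sqrt (C₀ * C₁) / LBB.cc * T := by field_simp
      _ ≤ _ := by gcongr; linarith
  · calc _ ≤ LBB.cc / nr q * (C₂ * T ^ (2 * j) * X ^ (1 / 2 - j : ℝ) *
          (LBB.cc ^ 2 / nr q) ^ (-(1 / 2 + j : ℝ))) := by gcongr; exact h₂ X s hX hs
      _ ≤ _ := by rw [a2]; gcongr; linarith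

theorem norm_ft_le_nr {q : O} (hq : q ≠ 0) {f : O → ℂ} (hf : ∀ x, ‖f x‖ ≤ 1) (h : O) :
    ‖ft q f h‖ ≤ nr q := by
  refine (LBB.norm_ft_le q f h).trans ((Finset.sum_le_card_nsmul _ _ 1 fun x _ => hf x).trans_eq ?_)
  rw [card_res hq, nsmul_eq_mul, mul_one]

/-- Non-principal row characters. -/
theorem Sm_xi_le (l : ℤ) {j : ℕ} (hj : 1 ≤ j) (B : ℝ) : ∃ C : ℝ, 0 < C ∧
    ∀ (ka : O) (X : ℝ) (s : ℂ), ka ≠ 0 → ¬ Cube ka → 0 < X → |s.re| ≤ B →
      ‖Sm (xi l ka) X s‖ ≤ C * nr ka ^ (j + 1) * (1 + |s.im|) ^ (2 * j) * X ^ (1 / 2 - j : ℝ) := by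
  obtain ⟨C, hC, h⟩ := Sm_per l hj B
  have h9 := nr_pos ThCtA_nine_ne
  refine ⟨C * nr (9 : O) ^ (j + 1), by positivity, fun ka X s hk hc hX hs => ?_⟩
  have hq : 9 * ka ≠ 0 := mul_ne_zero ThCtA_nine_ne hk
  have key := h (9 * ka) (xi 0 ka) _ X s hq (xi_per' hk) (xi_zero 0 ka)
    (fun y _ => norm_ft_le_nr hq (norm_xi_le 0 ka) y) hX hs
  rw [avg_xi' hk hc, mul_zero, zero_mul, zero_mul, ite_self, sub_zero,
    ← funext (xi_eq l ka)] at key
  have n1 := one_le_nr hq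
  calc _ ≤ C * nr (9 * ka) * (Real.sqrt X * (nr (9 * ka) * (1 + |s.im|) ^ 2 / X) ^ j) := by
        refine key.trans (mul_le_mul_of_nonneg_left ((min_le_right _ _).trans ?_) (by positivity))
        gcongr
        exact div_le_self hX.le n1
    _ = _ := by
        rw [Real.rpow_sub hX, ← Real.sqrt_eq_rpow, Real.rpow_natCast, nr_mul, div_pow, mul_pow,
          mul_pow, ← pow_mul]
        ring

/-- The primary elements (`q = 3`, mean value `1/9`). -/
theorem Sm_pri_le : ∃ C : ℝ, 0 < C ∧ ∀ X τ : ℝ, 0 < X →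
    ‖Sm E2.pri X (τ * Complex.I)‖ ≤ C * (X * Real.exp (-τ ^ 2 / 4) + (1 + |τ|)) := by
  obtain ⟨C, hC, h⟩ := Sm_per 0 le_rfl 0
  have h3 := nr_pos E2.three_ne
  have hc := LBB.cc_pos
  set K := LBB.cc * ‖LBB.avg 3 E2.pri‖ * (Real.sqrt Real.pi * Real.exp (1 / 4)) with hK
  have K0 : 0 ≤ K := by positivity
  refine ⟨C * nr (3 : O) + K, by positivity, fun X τ hX => ?_⟩
  have key := h 3 E2.pri _ X (τ * Complex.I) E2.three_ne E2.pri_per
    (if_neg fun h0 => h0.ne_zero rfl)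
    (fun y _ => norm_ft_le_nr E2.three_ne (fun x => by unfold E2.pri; split_ifs <;> simp) y) hX
    (by simp)
  simp only [zpow_zero, mul_one, if_true] at key
  have e : ‖(LBB.cc : ℂ) * LBB.avg 3 E2.pri * X * Wm (1 + τ * Complex.I)‖ =
      K * (X * Real.exp (-τ ^ 2 / 4)) := by
    rw [norm_mul, norm_mul, norm_mul, norm_Wm, Complex.norm_real, Complex.norm_real,
      Real.norm_of_nonneg hc.le, Real.norm_of_nonneg hX.le,
      show ((1 + τ * Complex.I).re ^ 2 - (1 + τ * Complex.I).im ^ 2) / 4 = 1 / 4 + -τ ^ 2 / 4 by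
        simp; ring, Real.exp_add, hK]
    ring
  have k2 := key.trans (mul_le_mul_of_nonneg_left (min_le_left _ _) (by positivity))
  rw [show ((τ : ℂ) * Complex.I).im = τ by simp] at k2
  refine (norm_le_norm_sub_add _ _).trans ((add_le_add k2 e.le).trans ?_)
  have x1 : 0 ≤ X * Real.exp (-τ ^ 2 / 4) := by positivity
  have x2 : 0 ≤ 1 + |τ| := by positivity
  nlinarith [mul_nonneg K0 x2, mul_nonneg (mul_pos hC h3).le x1]

end Crest.Agent.R12
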