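import Crest.Agent.R12.M4Chr
import Crest.Agent.R12.LSPair
import Crest.Agent.R12.SWSm
import Crest.Agent.R17.LBasicAuxD4

/-!
# Row 12, fourth moment: the dual Dirichlet series
-/

set_option autoImplicit false

noncomputable section

namespace Crest.Agent.R12

open Crest.Agent.R17
open scoped ComplexConjugate
open MeasureTheory

theorem M4Dual_norm_cpow {n : O} (hn : n ≠ 0) (t : ℂ) :
    ‖(nr n : ℂ) ^ (-t)‖ = nr n ^ (-t.re) := by
  rw [Complex.norm_cpow_eq_rpow_re_of_pos (nr_pos hn), Complex.neg_re]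

theorem M4Dual_cpow_mul (g n : O) (t : ℂ) :
    (nr (g * n) : ℂ) ^ t = (nr g : ℂ) ^ t * (nr n : ℂ) ^ t := by
  rw [nr_mul, Complex.ofReal_mul,
    Complex.mul_cpow_ofReal_nonneg (Nat.cast_nonneg _) (Nat.cast_nonneg _)]

theorem M4Dual_summable {b : O → ℂ} {F : ℝ} (h0 : b 0 = 0) (hb : ∀ n, ‖b n‖ ≤ F) {t : ℂ}
    (ht : 1 < t.re) : Summable fun n => b n * (nr n : ℂ) ^ (-t) := by
  have hF : 0 ≤ F := (norm_nonneg _).trans (hb 0)
  refine Summable.of_norm_bounded ((summable_nr_rpow ht).mul_left F) fun n => ?_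
  rcases eq_or_ne n 0 with rfl | hn
  · rw [h0, zero_mul, norm_zero]; positivity
  · rw [norm_mul, M4Dual_norm_cpow hn]
    exact mul_le_mul_of_nonneg_right (hb n) (by positivity)

theorem M4Dual_smooth : ∃ C : ℝ, 0 < C ∧
    (Summable fun g : {g : O // g ≠ 0 ∧ pf g ⊆ pf 1} => nr g.1 ^ (-(1 / 4 : ℝ))) ∧
    ∑' g : {g : O // g ≠ 0 ∧ pf g ⊆ pf 1}, nr g.1 ^ (-(1 / 4 : ℝ)) ≤ C := by
  obtain ⟨C, hC, h⟩ := sum_smooth_le (ε := 1) (σ := 1 / 4) one_pos (by norm_num)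
  have hw1 : ∀ S : Finset {g : O // g ≠ 0 ∧ pf g ⊆ pf 1},
      ∑ g ∈ S, nr g.1 ^ (-(1 / 4 : ℝ)) ≤ C := by
    intro S
    have := h 1 (S.map (Function.Embedding.subtype _)) one_ne_zero fun g hg => by
      obtain ⟨g', -, rfl⟩ := Finset.mem_map.1 hg
      exact g'.2
    rw [Finset.sum_map, show nr (1 : O) = 1 by simp [nr], Real.one_rpow, mul_one] at this
    exact this
  have hs : Summable fun g : {g : O // g ≠ 0 ∧ pf g ⊆ pf 1} => nr g.1 ^ (-(1 / 4 : ℝ)) :=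
    summable_of_sum_le (fun _ => by positivity) hw1
  exact ⟨C, hC, hs, hs.tsum_le_of_sum_le hw1⟩

open Classical in
theorem M4Dual_split {G : O → ℂ} (hG : Summable G) (h0 : G 0 = 0) :
    ∑' h : O, G h = ∑' g : {g : O // g ≠ 0 ∧ pf g ⊆ pf 1},
      ∑' n : O, if Primary n then G (g.1 * n) else 0 := by
  have hinj := LBD.D4_injective 1
  have hsupp : Function.support G ⊆ Set.range
      fun z : {g : O // g ≠ 0 ∧ pf g ⊆ pf 1} × {h : O // Primary h ∧ IsCoprime h 1} =>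
        z.1.1 * z.2.1 := by
    intro x hx
    obtain ⟨g, k, hg, hk, rfl⟩ := LBD.D4_exists_split one_ne_zero x (fun h' => hx (h' ▸ h0))
    exact ⟨(⟨g, hg⟩, ⟨k, hk⟩), rfl⟩
  have hs2 : Summable
      fun z : {g : O // g ≠ 0 ∧ pf g ⊆ pf 1} × {h : O // Primary h ∧ IsCoprime h 1} =>
        G (z.1.1 * z.2.1) := hG.comp_injective hinj
  rw [← hinj.tsum_eq hsupp, hs2.tsum_prod]
  refine tsum_congr fun g => ?_
  have e := tsum_subtype {h : O | Primary h ∧ IsCoprime h 1} fun k => G (g.1 * k)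
  refine e.trans (tsum_congr fun k => ?_)
  simp only [Set.indicator_apply, Set.mem_ofPred_eq, isCoprime_one_right, and_true]

theorem M4Dual_cub_pair {h₁ h₂ : O} (a₁ : PS h₁) (a₂ : PS h₂) (y : O) :
    cub (h₁ * h₂ ^ 2) y = cub h₁ y * conj (cub h₂ y) := by
  rw [cub_mul_left a₁.1.ne_zero (pow_ne_zero 2 a₂.1.ne_zero), cub_pow_left a₂.1.ne_zero, conj_cub]

theorem M4Dual_vv_per (a : ZMod 3 × ZMod 3) (x y : O) (h : (9 : O) ∣ x - y) :
    xi 0 (vv a) x = xi 0 (vv a) y :=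
  xi_per (vv_ne_zero a) x y (by rwa [rad, pf_vv, Finset.prod_empty, mul_one])

theorem M4Dual_nr_nine : nr (9 : O) = 81 := by
  have := nm_natCast 9
  simp only [Nat.cast_ofNat] at this
  rw [nr, this]
  norm_num

open Classical in
/-- Splitting off units and powers of `λ`. -/
theorem dual_expand : ∃ C : ℝ, 0 < C ∧ ∀ (Ψ χ : O → ℂ) (F : ℝ),
    (∀ x y, (9 : O) ∣ x - y → Ψ x = Ψ y) → (∀ x, ‖Ψ x‖ ≤ F) → (∀ x y, χ (x * y) = χ x * χ y) →
    (∀ x, ‖χ x‖ ≤ 1) → ∃ E : ZMod 3 × ZMod 3 → ℂ → ℂ,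
      (∀ a, DifferentiableOn ℂ (E a) {t | 1 / 4 < t.re}) ∧
      (∀ a t, 1 / 4 < t.re → ‖E a t‖ ≤ C * F) ∧
      ∀ t : ℂ, 1 < t.re → Dser (fun h => if h = 0 then 0 else Ψ h * χ h) t =
        ∑ a, E a t * Dser (fun n => if Primary n then χ n * conj (cub n (vv a)) else 0) t := by
  obtain ⟨C, hC, hs, hle⟩ := M4Dual_smooth
  refine ⟨9 * C, by positivity, fun Ψ χ F hΨ hF hχ hχ1 => ?_⟩
  have hF0 : 0 ≤ F := (norm_nonneg _).trans (hF 0)
  have hex : ∀ g : O, ∃ c : ZMod 3 × ZMod 3 → ℂ, (∀ a, ‖c a‖ ≤ 9 * F) ∧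
      ∀ n, Primary n → Ψ (g * n) = ∑ a, c a * conj (cub n (vv a)) := fun g =>
    expand9 (Ψ := fun x => Ψ (g * x))
      (fun x y h => hΨ _ _ (by rw [← mul_sub]; exact h.mul_left _)) fun x => hF _
  choose c hc hc' using hex
  have hb : ∀ (a : ZMod 3 × ZMod 3) (g : {g : O // g ≠ 0 ∧ pf g ⊆ pf 1}) (t : ℂ), 1 / 4 < t.re →
      ‖c g.1 a * χ g.1 * (nr g.1 : ℂ) ^ (-t)‖ ≤ 9 * F * nr g.1 ^ (-(1 / 4 : ℝ)) := by
    intro a g t ht
    rw [norm_mul, norm_mul, M4Dual_norm_cpow g.2.1]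
    exact mul_le_mul ((mul_le_of_le_one_right (norm_nonneg _) (hχ1 _)).trans (hc _ _))
      (Real.rpow_le_rpow_of_exponent_le (one_le_nr g.2.1) (by linarith)) (by positivity)
      (by positivity)
  have hs' := hs.mul_left (9 * F)
  refine ⟨fun a t => ∑' g : {g : O // g ≠ 0 ∧ pf g ⊆ pf 1}, c g.1 a * χ g.1 * (nr g.1 : ℂ) ^ (-t),
    fun a => ?_, fun a t ht => ?_, fun t ht => ?_⟩
  · refine Complex.differentiableOn_tsum_of_summable_norm hs' (fun g => ?_)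
      (isOpen_lt continuous_const Complex.continuous_re) fun g t ht => hb a g t ht
    exact ((differentiable_neg.const_cpow
      (Or.inl (Complex.ofReal_ne_zero.2 (nr_pos g.2.1).ne'))).const_mul _).differentiableOn
  · refine (tsum_of_norm_bounded hs'.hasSum fun g => hb a g t ht).trans ?_
    rw [tsum_mul_left]
    calc _ ≤ 9 * F * C := by gcongr
      _ = _ := by ring
  · have ht' : 1 / 4 < t.re := by linarith
    have hsa : ∀ a : ZMod 3 × ZMod 3, Summable fun n : O =>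
        (if Primary n then χ n * conj (cub n (vv a)) else 0) * (nr n : ℂ) ^ (-t) := fun a =>
      M4Dual_summable (F := 1) (if_neg fun h => h.ne_zero rfl) (fun n => by
        split_ifs
        · rw [norm_mul, Complex.norm_conj]
          exact mul_le_one₀ (hχ1 _) (norm_nonneg _) (norm_cub_le _ _)
        · simp) ht
    have hG : Summable fun h : O => (if h = 0 then 0 else Ψ h * χ h) * (nr h : ℂ) ^ (-t) :=
      M4Dual_summable (F := F) (if_pos rfl) (fun n => by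
        split_ifs
        · simpa using hF0
        · rw [norm_mul]
          exact (mul_le_of_le_one_right (norm_nonneg _) (hχ1 _)).trans (hF _)) ht
    rw [Dser, M4Dual_split hG (by simp)]
    simp only [← tsum_mul_right]
    rw [← Summable.tsum_finsetSum fun a _ =>
      (Summable.of_norm_bounded hs' fun g => hb a g t ht').mul_right _]
    refine tsum_congr fun g => ?_
    simp only [Dser, ← tsum_mul_left]
    rw [← Summable.tsum_finsetSum fun a _ => (hsa a).mul_left _]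
    refine tsum_congr fun n => ?_
    by_cases hn : Primary n
    · simp only [if_pos hn, if_neg (mul_ne_zero g.2.1 hn.ne_zero)]
      rw [hc' _ _ hn, hχ, M4Dual_cpow_mul, Finset.sum_mul, Finset.sum_mul]
      exact Finset.sum_congr rfl fun a _ => by ring
    · simp only [if_neg hn, zero_mul, mul_zero, Finset.sum_const_zero]

theorem rad_pair {h₁ h₂ : O} (a₁ : PS h₁) (a₂ : PS h₂) (h : IsCoprime h₁ h₂)
    (a : ZMod 3 × ZMod 3) : rad (h₁ * h₂ ^ 2 * vv a) = h₁ * h₂ := by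
  have n₁ := a₁.1.ne_zero
  have n₂ := a₂.1.ne_zero
  have hsq : Squarefree (h₁ * h₂) := squarefree_mul_iff.2 ⟨h.isRelPrime, a₁.2, a₂.2⟩
  rw [← (a₁.1.mul a₂.1).eq_rad hsq, rad, rad,
    pf_mul (mul_ne_zero n₁ (pow_ne_zero 2 n₂)) (vv_ne_zero a), pf_vv, Finset.union_empty,
    pf_mul n₁ (pow_ne_zero 2 n₂), pf_pow two_ne_zero, pf_mul n₁ n₂]

theorem xi_per_pair {h₁ h₂ : O} (a₁ : PS h₁) (a₂ : PS h₂) (hc : IsCoprime h₁ h₂)
    (a : ZMod 3 × ZMod 3) (x y : O) (h : 9 * (h₁ * h₂) ∣ x - y) : xi 0 (h₁ * h₂ ^ 2 * vv a) x = xi 0 (h₁ * h₂ ^ 2 * vv a) y := by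
  exact xi_per (mul_ne_zero (mul_ne_zero a₁.1.ne_zero (pow_ne_zero 2 a₂.1.ne_zero)) (vv_ne_zero a))
    x y (by rwa [rad_pair a₁ a₂ hc])

/-- The finite Fourier transform of a primitive row character. -/
theorem ft_xi {h₁ h₂ : O} (a₁ : PS h₁) (a₂ : PS h₂) (h : IsCoprime h₁ h₂) (a : ZMod 3 × ZMod 3) :
    ∃ (τ : ℂ) (Ψ : O → ℂ), ‖τ‖ ≤ Real.sqrt (nr h₁ * nr h₂) ∧
      (∀ x y, (9 : O) ∣ x - y → Ψ x = Ψ y) ∧ (∀ x, ‖Ψ x‖ ≤ 81) ∧
      ∀ k, ft (9 * (h₁ * h₂)) (xi 0 (h₁ * h₂ ^ 2 * vv a)) k =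
        τ * (Ψ k * conj (cub (h₁ * h₂ ^ 2) k)) := by
  have n₁ := a₁.1.ne_zero
  have n₂ := a₂.1.ne_zero
  have hz : Primary (h₁ * h₂ ^ 2) := a₁.1.mul (a₂.1.pow 2)
  have e1 : xi 0 (h₁ * h₂ ^ 2 * vv a) =
      fun x => xi 0 (vv a) x * (cub h₁ x * conj (cub h₂ x)) := by
    funext x
    rw [mul_comm, xi_mul_row, ← M4Dual_cub_pair a₁ a₂]
    by_cases hx : Primary x
    · rw [cub_recip hx hz]
    · rw [xi_of_not hx, zero_mul, zero_mul]
  have hc : IsCoprime (9 : O) (h₁ * h₂) := by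
    rw [show (9 : O) = 3 ^ 2 by norm_num]
    exact (a₁.1.mul a₂.1).isCoprime_three.symm.pow_left
  refine ⟨cub h₁ 9 * conj (cub h₂ 9) * (gc h₁ 1 * conj (gc h₂ 1)),
    ft 9 fun x => xi 0 (vv a) (h₁ * h₂ * x), ?_, fun x y hxy => ?_, fun x => ?_, fun k => ?_⟩
  · rw [norm_mul, norm_mul, norm_mul, Complex.norm_conj, Complex.norm_conj, norm_gc a₁.1 a₁.2,
      norm_gc a₂.1 a₂.2, Real.sqrt_mul (Nat.cast_nonneg _)]
    exact mul_le_of_le_one_left (by positivity)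
      (mul_le_one₀ (norm_cub_le _ _) (norm_nonneg _) (norm_cub_le _ _))
  · exact Finset.sum_congr rfl fun z _ => by
      rw [eq_congr (x := x * z) (y := y * z) (by rw [← sub_mul]; exact hxy.mul_right _)]
  · exact (norm_ft_le_nr ThCtA_nine_ne (fun x => norm_xi_le _ _ _) x).trans_eq M4Dual_nr_nine
  · rw [e1, ft_mul ThCtA_nine_ne (mul_ne_zero n₁ n₂) hc _ (fun x => cub h₁ x * conj (cub h₂ x))
      (M4Dual_vv_per a) fun x y hxy => by
        rw [LSPair_per _ x y ((dvd_mul_right _ _).trans hxy),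
          LSPair_per _ x y ((dvd_mul_left _ _).trans hxy)]]
    have e2 : ft (h₁ * h₂) (fun y => cub h₁ (9 * y) * conj (cub h₂ (9 * y))) k =
        cub h₁ 9 * conj (cub h₂ 9) * ft (h₁ * h₂) (fun y => cub h₁ y * conj (cub h₂ y)) k := by
      rw [ft, ft, Finset.mul_sum]
      refine Finset.sum_congr rfl fun y _ => ?_
      rw [cub_mul_right, cub_mul_right, map_mul]
      ring
    rw [e2, ft_pair a₁ a₂ h, M4Dual_cub_pair a₁ a₂]
    simp only [map_mul]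
    ring

/-- The dual series is a combination of the conjugate series of the family. -/
theorem Dser_ftA : ∃ C : ℝ, 0 < C ∧ ∀ (l : ℤ) (h₁ h₂ : O) (a : ZMod 3 × ZMod 3), PS h₁ → PS h₂ →
    IsCoprime h₁ h₂ → ∃ E : ZMod 3 × ZMod 3 → ℂ → ℂ,
      (∀ b, DifferentiableOn ℂ (E b) {t | 1 / 4 < t.re}) ∧
      (∀ b t, 1 / 4 < t.re → ‖E b t‖ ≤ C * Real.sqrt (nr h₁ * nr h₂)) ∧
      ∀ t : ℂ, 1 < t.re → Dser (ftA (9 * (h₁ * h₂)) (xi 0 (h₁ * h₂ ^ 2 * vv a)) l) t =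
        ∑ b, E b t * Dser (xi (-l) ((h₁ * h₂ ^ 2 * vv b) ^ 2)) t := by
  classical
  obtain ⟨C, hC, H⟩ := dual_expand
  refine ⟨C * 81, by positivity, fun l h₁ h₂ a a₁ a₂ h => ?_⟩
  obtain ⟨τ, Ψ, hτ, hΨ, hΨ', hft⟩ := ft_xi a₁ a₂ h a
  have hz : Primary (h₁ * h₂ ^ 2) := a₁.1.mul (a₂.1.pow 2)
  obtain ⟨E, e1, e2, e3⟩ := H Ψ (fun x => conj (cub (h₁ * h₂ ^ 2) x) * arg x ^ (-l)) 81 hΨ hΨ'
    (fun x y => by rw [cub_mul_right, arg_mul, mul_zpow, map_mul]; ring)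
    (fun x => by
      rw [norm_mul, Complex.norm_conj]
      exact mul_le_one₀ (norm_cub_le _ _) (norm_nonneg _) (norm_arg_zpow_le _ _))
  refine ⟨fun b t => τ * E b t, fun b => (e1 b).const_mul τ, fun b t ht => ?_, fun t ht => ?_⟩
  · rw [norm_mul, mul_comm]
    exact mul_le_mul (e2 b t ht) hτ (norm_nonneg _) (by positivity)
  · have e4 : ∀ b : ZMod 3 × ZMod 3, xi (-l) ((h₁ * h₂ ^ 2 * vv b) ^ 2) = fun n =>
        if Primary n then conj (cub (h₁ * h₂ ^ 2) n) * arg n ^ (-l) * conj (cub n (vv b))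
        else 0 := by
      intro b
      funext n
      by_cases hn : Primary n
      · rw [xi_of_primary hn, if_pos hn, cub_pow_right, ← conj_cub, cub_mul_right,
          cub_recip hn hz, map_mul]
        ring
      · rw [xi_of_not hn, if_neg hn]
    simp only [e4, mul_assoc τ, ← Finset.mul_sum]
    rw [← e3 t ht, Dser, Dser, ← tsum_mul_left]
    refine tsum_congr fun n => ?_
    rw [ftA, hft]
    split_ifs <;> ring

end Crest.Agent.R12
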