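import Crest.Agent.R12.SWSm
import Crest.Agent.R17.LZeroAuxC

/-!
# Row 12, Siegel–Walfisz block: the L-function and its size near the line Re s = 1
-/

set_option autoImplicit false

noncomputable section

namespace Crest.Agent.R12

open Crest.Agent.R17
open scoped ComplexConjugate Topology
open Filter MeasureTheory

/-- The continuation of a Dirichlet series whose smooth sums decay. -/
def Lx (b : O → ℂ) (s : ℂ) : ℂ := (Wm s)⁻¹ * ∫ w : ℝ, LZC.Tt b s 0 w

/-- Rapid decay of the smooth sums. -/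
def Decay (b : O → ℂ) : Prop := PolyB b 1 0 ∧ ∀ τ J : ℝ, ∃ C : ℝ, ∀ X : ℝ, 1 ≤ X →
  ‖Sm b X (τ * Complex.I)‖ ≤ C * X ^ (-J)

theorem decay_xi (l : ℤ) {ka : O} (h : ka ≠ 0) (hc : ¬ Cube ka) : Decay (xi l ka) := by
  refine ⟨polyB_xi l ka, fun τ J => ?_⟩
  obtain ⟨C, hC, hb⟩ := Sm_xi_le l (j := ⌈|J|⌉₊ + 1) (by omega) 0
  refine ⟨C * nr ka ^ (⌈|J|⌉₊ + 1 + 1) * (1 + |τ|) ^ (2 * (⌈|J|⌉₊ + 1)), fun X hX => ?_⟩
  have h1 := hb ka X (τ * Complex.I) h hc (by linarith) (by simp)
  have him : (τ * Complex.I : ℂ).im = τ := by simp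
  rw [him] at h1
  refine h1.trans (mul_le_mul_of_nonneg_left ?_ ?_)
  · refine Real.rpow_le_rpow_of_exponent_le hX ?_
    have h2 := Nat.le_ceil |J|
    have h3 := le_abs_self J
    push_cast
    linarith
  · have := (nr_pos h).le
    positivity

/-- Compare `LZC.differentiable_mellin`. -/
theorem Decay.differentiable_mellin {b : O → ℂ} (h : Decay b) (τ : ℝ) :
    Differentiable ℂ (mellin fun X => Sm b X (τ * Complex.I)) := by
  intro s
  have hb := h.1
  refine mellin_differentiableAt_of_isBigO_rpow (a := s.re + 1) (b := -(1 + |s.re|)) ?_ ?_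
    (lt_add_one _) ?_ (by linarith [neg_abs_le s.re])
  · refine ContinuousOn.locallyIntegrableOn ?_ measurableSet_Ioi
    have h1 := (LZC.continuous_Sm hb τ).comp_continuousOn
      (Real.continuousOn_log.mono (t := Set.Ioi 0) fun x hx => ne_of_gt hx)
    refine h1.congr fun x hx => ?_
    simp only [Function.comp, Real.exp_log hx]
  · obtain ⟨C, hC⟩ := h.2 τ (s.re + 1)
    refine Asymptotics.IsBigO.of_bound C ?_
    filter_upwards [eventually_ge_atTop (1 : ℝ)] with X hX
    have hX0 : 0 < X := by linarith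
    rw [Real.norm_of_nonneg (by positivity)]
    exact hC X hX
  · obtain ⟨C, -, hC⟩ := LZC.small_le |s.re| (abs_nonneg _)
    refine Asymptotics.IsBigO.of_bound C ?_
    filter_upwards [self_mem_nhdsWithin] with X hX
    have hX0 : 0 < X := hX
    rw [Real.norm_of_nonneg (by positivity), neg_neg]
    exact (hC _ X τ hb hX0).2

theorem SWL_integral_hc (z : ℂ) : ∫ y, LZC.hc z y = Wm z := by
  rw [LZC.hc_eq, integral_cexp_quadratic (by simp) z 0, Wm, Real.sqrt_eq_rpow,
    Complex.ofReal_cpow Real.pi_pos.le]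
  congr 1
  · simp
  · congr 1
    ring

theorem SWL_Lx_eq_mellin (b : O → ℂ) (s : ℂ) :
    Lx b s = (Wm s)⁻¹ * mellin (fun X => Sm b X ((0 : ℝ) * Complex.I)) (-s) := by
  rw [Lx, LZC.mellin_eq]
  simp

theorem Decay.differentiable_Lx {b : O → ℂ} (h : Decay b) : Differentiable ℂ (Lx b) := by
  have e : Lx b = fun s => (Wm s)⁻¹ * mellin (fun X => Sm b X ((0 : ℝ) * Complex.I)) (-s) :=
    funext (SWL_Lx_eq_mellin b)
  rw [e]
  exact (differentiable_Wm.inv Wm_ne_zero).mul ((h.differentiable_mellin 0).comp differentiable_neg)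

/-- `LZC.integral_Tt`; `∫ hc z = Wm z`. -/
theorem Lx_eq {b : O → ℂ} (hb : PolyB b 1 0) {s : ℂ} (hs : 1 < s.re) : Lx b s = Dser b s := by
  rw [Lx, LZC.integral_Tt hb hs, add_zero, SWL_integral_hc, Dser, mul_comm, mul_assoc,
    mul_inv_cancel₀ (Wm_ne_zero s), mul_one]

/-- Identity theorem, compare `LZC.integral_Tt_rc`. -/
theorem Decay.integral_Tt {b : O → ℂ} (h : Decay b) (τ : ℝ) (s : ℂ) :
    ∫ w : ℝ, LZC.Tt b s (τ * Complex.I) w = Lx b s * Wm (s + τ * Complex.I) := by
  have hf : Differentiable ℂ fun s => mellin (fun X => Sm b X (τ * Complex.I)) (-s) :=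
    (h.differentiable_mellin τ).comp differentiable_neg
  have hg : Differentiable ℂ fun s => Lx b s * Wm (s + τ * Complex.I) :=
    h.differentiable_Lx.mul (differentiable_Wm.comp (differentiable_id.add_const _))
  have key := AnalyticOnNhd.eq_of_eventuallyEq (Complex.analyticOnNhd_univ_iff_differentiable.2 hf)
    (Complex.analyticOnNhd_univ_iff_differentiable.2 hg) (z₀ := 2) (by
      have : ∀ᶠ z : ℂ in 𝓝 2, 1 < z.re :=
        (isOpen_lt continuous_const Complex.continuous_re).mem_nhds (by simp)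
      filter_upwards [this] with z hz
      rw [LZC.mellin_eq, LZC.integral_Tt h.1 hz, Lx_eq h.1 hz, SWL_integral_hc, Dser])
  rw [← LZC.mellin_eq]
  exact congrFun key s

theorem SWL_one_le_log {Q : ℝ} (hQ : 3 ≤ Q) : 1 ≤ Real.log Q := by
  rw [Real.le_log_iff_exp_le (by linarith)]
  linarith [Real.exp_one_lt_d9]

theorem SWL_one_le_norm_Wm (σ : ℝ) : 1 ≤ ‖Wm σ‖ := by
  rw [norm_Wm]
  refine one_le_mul_of_one_le_of_one_le ?_ (Real.one_le_exp ?_)
  · rw [Real.one_le_sqrt]
    linarith [Real.pi_gt_three]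
  · simp only [Complex.ofReal_re, Complex.ofReal_im]
    nlinarith [sq_nonneg σ]

/-- The majorant of the integrand. -/
def SWLg (A B W w : ℝ) : ℝ :=
  A * Real.exp (-1 * |w|) + (Set.Icc 0 W).indicator (fun _ => A * Real.exp 8) w +
    B * Real.exp (-(1 / 2) * |w - W|)

theorem SWL_integrable_ind (c W : ℝ) :
    Integrable ((Set.Icc (0 : ℝ) W).indicator fun _ : ℝ => c) :=
  (integrable_indicator_iff measurableSet_Icc).2 (integrableOn_const measure_Icc_lt_top.ne)

theorem SWL_integrable_g (A B W : ℝ) : Integrable (SWLg A B W) :=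
  (((LZC.integrable_exp_abs one_pos).const_mul A).add (SWL_integrable_ind _ W)).add
    (((LZC.integrable_exp_abs one_half_pos).comp_sub_right W).const_mul B)

theorem SWL_integral_g (A B : ℝ) {W : ℝ} (hW : 0 ≤ W) : ∫ w, SWLg A B W w =
    A * (∫ w : ℝ, Real.exp (-1 * |w|)) + W * (A * Real.exp 8) +
      B * ∫ w : ℝ, Real.exp (-(1 / 2) * |w|) := by
  unfold SWLg
  have i1 : Integrable fun w : ℝ => A * Real.exp (-1 * |w|) +
      (Set.Icc 0 W).indicator (fun _ => A * Real.exp 8) w :=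
    ((LZC.integrable_exp_abs one_pos).const_mul A).add (SWL_integrable_ind _ W)
  rw [integral_add i1
    (((LZC.integrable_exp_abs one_half_pos).comp_sub_right W).const_mul B),
    integral_add ((LZC.integrable_exp_abs one_pos).const_mul A) (SWL_integrable_ind _ W),
    integral_const_mul, integral_const_mul, integral_indicator_const _ measurableSet_Icc,
    integral_sub_right_eq_self (fun w : ℝ => Real.exp (-(1 / 2) * |w|)) W]
  simp [hW]

/-- Take `τ = -Im s` and split the integral at `w = 0` and `w = 8 log Q` (`LZC.small_le`,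
`Sm_xi_le` with `j = 1`). -/
theorem norm_Lx_le (l : ℤ) : ∃ C : ℝ, 0 < C ∧ ∀ (ka : O) (Q : ℝ) (s : ℂ), ka ≠ 0 → ¬ Cube ka →
    3 ≤ Q → nr ka ≤ Q → |s.im| ≤ Q → 1 - 1 / Real.log Q ≤ s.re → s.re ≤ 3 →
    ‖Lx (xi l ka) s‖ ≤ C * Real.log Q := by
  obtain ⟨A, hA, h₁⟩ := LZC.small_le 3 (by norm_num)
  obtain ⟨B, hB, h₂⟩ := Sm_xi_le l (j := 1) le_rfl 0
  set I₁ := ∫ w : ℝ, Real.exp (-1 * |w|) with hI₁
  set I₂ := ∫ w : ℝ, Real.exp (-(1 / 2) * |w|) with hI₂
  have hI₁0 : 0 ≤ I₁ := integral_nonneg fun _ => (Real.exp_pos _).le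
  have hI₂0 : 0 ≤ I₂ := integral_nonneg fun _ => (Real.exp_pos _).le
  refine ⟨A * I₁ + 8 * (A * Real.exp 8) + 4 * B * I₂, by positivity,
    fun ka Q s hka hc hQ hn him hre1 hre3 => ?_⟩
  have hL := SWL_one_le_log hQ
  have hL0 : 0 < Real.log Q := by linarith
  have hQ0 : 0 < Q := by linarith
  have hinv : 1 / Real.log Q ≤ 1 := by rw [div_le_one hL0]; exact hL
  have hre0 : 0 ≤ s.re := by linarith
  have hd := decay_xi l hka hc
  have key := hd.integral_Tt (-s.im) s
  have hρ : s + (-s.im : ℝ) * Complex.I = (s.re : ℂ) := by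
    apply Complex.ext <;> simp
  rw [hρ] at key
  have hpt : ∀ w : ℝ, ‖LZC.Tt (xi l ka) s ((-s.im : ℝ) * Complex.I) w‖ ≤
      SWLg A (4 * B) (8 * Real.log Q) w := by
    intro w
    obtain ⟨b1, b2⟩ := h₁ (xi l ka) (Real.exp w) (-s.im) hd.1 (Real.exp_pos w)
    have p1 : 0 ≤ A * Real.exp (-1 * |w|) := by positivity
    have p2 : 0 ≤ (Set.Icc 0 (8 * Real.log Q)).indicator (fun _ => A * Real.exp 8) w :=
      Set.indicator_nonneg (fun _ _ => by positivity) w
    have p3 : 0 ≤ 4 * B * Real.exp (-(1 / 2) * |w - 8 * Real.log Q|) := by positivity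
    rw [LZC.norm_Tt, SWLg]
    rcases le_total w 0 with hw | hw
    · have : Real.exp (-s.re * w) * ‖Sm (xi l ka) (Real.exp w) ((-s.im : ℝ) * Complex.I)‖ ≤
          A * Real.exp (-1 * |w|) := by
        rw [← Real.exp_mul] at b2
        calc _ ≤ Real.exp (-s.re * w) * (A * Real.exp (w * (1 + 3))) := by gcongr
          _ = A * Real.exp (-s.re * w + w * (1 + 3)) := by rw [Real.exp_add]; ring
          _ ≤ _ := by
            gcongr
            rw [abs_of_nonpos hw]
            nlinarith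
      linarith
    rcases le_total w (8 * Real.log Q) with hW | hW
    · have : Real.exp (-s.re * w) * ‖Sm (xi l ka) (Real.exp w) ((-s.im : ℝ) * Complex.I)‖ ≤
          A * Real.exp 8 := by
        calc _ ≤ Real.exp (-s.re * w) * (A * Real.exp w) := by gcongr
          _ = A * Real.exp (-s.re * w + w) := by rw [Real.exp_add]; ring
          _ ≤ _ := by
            gcongr
            have e1 : (1 - s.re) * w ≤ 1 / Real.log Q * w :=
              mul_le_mul_of_nonneg_right (by linarith) hw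
            have e2 : 1 / Real.log Q * w ≤ 1 / Real.log Q * (8 * Real.log Q) := by gcongr
            have e3 : 1 / Real.log Q * (8 * Real.log Q) = 8 := by field_simp
            linarith
      rw [Set.indicator_of_mem (show w ∈ Set.Icc 0 (8 * Real.log Q) from ⟨hw, hW⟩)]
      linarith
    · have b3 := h₂ ka (Real.exp w) ((-s.im : ℝ) * Complex.I) hka hc (Real.exp_pos w) (by simp)
      have him' : ((-s.im : ℝ) * Complex.I : ℂ).im = -s.im := by simp
      rw [him', abs_neg, ← Real.exp_mul] at b3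
      have hn0 := (nr_pos hka).le
      have ha0 := abs_nonneg s.im
      have e4 : Real.exp (4 * Real.log Q) = Q ^ 4 := by
        rw [mul_comm, Real.exp_mul, Real.exp_log hQ0]
        exact_mod_cast Real.rpow_natCast Q 4
      have : Real.exp (-s.re * w) * ‖Sm (xi l ka) (Real.exp w) ((-s.im : ℝ) * Complex.I)‖ ≤
          4 * B * Real.exp (-(1 / 2) * |w - 8 * Real.log Q|) := by
        have e5 : Real.exp (-s.re * w) ≤ 1 := Real.exp_le_one_iff.2 (by nlinarith)
        calc _ ≤ 1 * (B * nr ka ^ (1 + 1) * (1 + |s.im|) ^ (2 * 1) *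
              Real.exp (w * (1 / 2 - (1 : ℕ)))) := by gcongr
          _ ≤ 1 * (B * Q ^ (1 + 1) * (2 * Q) ^ (2 * 1) *
              Real.exp (w * (1 / 2 - (1 : ℕ)))) := by gcongr; linarith
          _ = 4 * B * (Q ^ 4 * Real.exp (w * (1 / 2 - (1 : ℕ)))) := by ring
          _ = _ := by
            rw [← e4, ← Real.exp_add, abs_of_nonneg (by linarith)]
            congr 2
            push_cast
            ring
      linarith
  have hI := norm_integral_le_of_norm_le (SWL_integrable_g A (4 * B) (8 * Real.log Q))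
    (Eventually.of_forall hpt)
  rw [key, norm_mul, SWL_integral_g _ _ (by positivity), ← hI₁, ← hI₂] at hI
  have h1 : ‖Lx (xi l ka) s‖ ≤ ‖Lx (xi l ka) s‖ * ‖Wm s.re‖ :=
    le_mul_of_one_le_right (norm_nonneg _) (SWL_one_le_norm_Wm _)
  have h2 : A * I₁ ≤ A * I₁ * Real.log Q := le_mul_of_one_le_right (by positivity) hL
  have h3 : 4 * B * I₂ ≤ 4 * B * I₂ * Real.log Q := le_mul_of_one_le_right (by positivity) hL
  nlinarith

/-- Cauchy's estimate on a disc of radius `1 / (4 log Q)` (`norm_Lx_le` for `Q²`) and the mean value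
inequality. -/
theorem norm_Lx_sub_le (l : ℤ) : ∃ C : ℝ, 0 < C ∧ ∀ (ka : O) (Q σ σ' t : ℝ), ka ≠ 0 → ¬ Cube ka →
    3 ≤ Q → nr ka ≤ Q → |t| ≤ Q → 1 - 1 / (4 * Real.log Q) ≤ σ → σ ≤ σ' → σ' ≤ 2 →
    ‖Lx (xi l ka) (σ' + t * Complex.I) - Lx (xi l ka) (σ + t * Complex.I)‖ ≤
      C * Real.log Q ^ 2 * (σ' - σ) := by
  obtain ⟨C, hC, h⟩ := norm_Lx_le l
  refine ⟨8 * C, by positivity, fun ka Q σ σ' t hka hc hQ hn ht h1 h2 h3 => ?_⟩
  have hL := SWL_one_le_log hQ
  have hL0 : 0 < Real.log Q := by linarith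
  have hd := (decay_xi l hka hc).differentiable_Lx
  set r := 1 / (4 * Real.log Q) with hr
  have hr0 : 0 < r := by positivity
  have hr1 : r ≤ 1 := by
    rw [hr, div_le_one (by positivity)]
    linarith
  have hlog : Real.log (Q ^ 2) = 2 * Real.log Q := by rw [Real.log_pow]; norm_num
  set S : Set ℂ := {z | σ ≤ z.re ∧ z.re ≤ σ' ∧ z.im = t} with hS
  have hconv : Convex ℝ S := by
    intro x hx y hy a b ha hb hab
    obtain ⟨x1, x2, x3⟩ := hx
    obtain ⟨y1, y2, y3⟩ := hy
    refine ⟨?_, ?_, ?_⟩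
    · simp only [Complex.add_re, Complex.real_smul, Complex.re_ofReal_mul]
      nlinarith [mul_le_mul_of_nonneg_left x1 ha, mul_le_mul_of_nonneg_left y1 hb]
    · simp only [Complex.add_re, Complex.real_smul, Complex.re_ofReal_mul]
      nlinarith [mul_le_mul_of_nonneg_left x2 ha, mul_le_mul_of_nonneg_left y2 hb]
    · simp only [Complex.add_im, Complex.real_smul, Complex.im_ofReal_mul, x3, y3]
      rw [← add_mul, hab, one_mul]
  have hder : ∀ z ∈ S, ‖deriv (Lx (xi l ka)) z‖ ≤ 8 * C * Real.log Q ^ 2 := by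
    intro z hz
    obtain ⟨z1, z2, z3⟩ := hz
    have hb := Complex.norm_deriv_le_of_forall_mem_sphere_norm_le (c := z) (C := C * (2 * Real.log Q))
      hr0 hd.diffContOnCl (fun w hw => by
        have hw' : ‖w - z‖ = r := by simpa [dist_eq_norm] using hw
        have a1 := Complex.abs_re_le_norm (w - z)
        have a2 := Complex.abs_im_le_norm (w - z)
        rw [hw', Complex.sub_re] at a1
        rw [hw', Complex.sub_im, z3] at a2
        obtain ⟨a3, a4⟩ := abs_le.1 a1
        obtain ⟨a5, a6⟩ := abs_le.1 a2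
        obtain ⟨t1, t2⟩ := abs_le.1 ht
        rw [← hlog]
        refine h ka (Q ^ 2) w hka hc (by nlinarith) (by nlinarith)
          (abs_le.2 ⟨by nlinarith, by nlinarith⟩) ?_ (by linarith)
        have e : 1 / Real.log (Q ^ 2) = 2 * r := by
          rw [hlog, hr]
          field_simp
          norm_num
        rw [e]
        linarith)
    refine hb.trans (le_of_eq ?_)
    rw [hr]
    field_simp
    norm_num
  have key := hconv.norm_image_sub_le_of_norm_deriv_le (fun z _ => hd z) hder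
    (x := σ + t * Complex.I) (y := σ' + t * Complex.I) ⟨by simp, by simpa using h2, by simp⟩
    ⟨by simpa using h2, by simp, by simp⟩
  refine key.trans (le_of_eq ?_)
  rw [add_sub_add_right_eq_sub, ← Complex.ofReal_sub, Complex.norm_real,
    Real.norm_of_nonneg (by linarith)]

end Crest.Agent.R12
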