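import Crest.Agent.R12.M4Chr
import Crest.Agent.R12.SWL
import Crest.Agent.R17.LS2Ker

/-!
# Row 12, fourth moment: growth, Euler factors and contour representation of the L-functions
-/

set_option autoImplicit false

noncomputable section

namespace Crest.Agent.R12

open Crest.Agent.R17
open scoped ComplexConjugate
open MeasureTheory

/-- Identity theorem from the half plane `Re s > 1`. -/
theorem M4Eul_ext {f g : ℂ → ℂ} (hf : Differentiable ℂ f) (hg : Differentiable ℂ g)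
    (h : ∀ z : ℂ, 1 < z.re → f z = g z) (s : ℂ) : f s = g s := by
  have key := AnalyticOnNhd.eq_of_eventuallyEq (Complex.analyticOnNhd_univ_iff_differentiable.2 hf)
    (Complex.analyticOnNhd_univ_iff_differentiable.2 hg) (z₀ := 2) (by
      have : ∀ᶠ z : ℂ in nhds 2, 1 < z.re :=
        (isOpen_lt continuous_const Complex.continuous_re).mem_nhds (by simp)
      filter_upwards [this] with z hz using h z hz)
  exact congrFun key s

open Classical in
theorem M4Eul_xi_cube (l : ℤ) (ka : O) {c : O} (hc0 : c ≠ 0) (n : O) :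
    xi l (ka * c ^ 3) n = if ∀ p ∈ pf c, ¬ p ∣ n then xi l ka n else 0 := by
  by_cases hn : Primary n
  · have e : IsCoprime n c ↔ ∀ p ∈ pf c, ¬ p ∣ n := by
      rw [LS2.isCoprime_iff_pf hn]
      constructor
      · intro h p hp hpn
        obtain ⟨h1, h2, h3⟩ := BasicB.of_mem_pf hp
        exact h p ((mem_pf hn.ne_zero).2 ⟨h1, h2, hpn⟩) h3
      · intro h p hp hpc
        obtain ⟨h1, h2, h3⟩ := BasicB.of_mem_pf hp
        exact h p ((mem_pf hc0).2 ⟨h1, h2, hpc⟩) h3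
    rw [xi_mul_row, cub_pow_right]
    by_cases hco : IsCoprime n c
    · rw [if_pos (e.1 hco), cub_pow_three hn hco, mul_one]
    · rw [if_neg fun h => hco (e.2 h), (cub_eq_zero_iff hn).2 hco, zero_pow three_ne_zero, mul_zero]
  · rw [xi_of_not hn, xi_of_not hn, ite_self]

theorem M4Eul_term_mul (l : ℤ) (ka : O) (s : ℂ) {m : O} (hm : Primary m) (n : O) :
    xi l ka (m * n) * (nr (m * n) : ℂ) ^ (-s) =
      xi l ka m * (nr m : ℂ) ^ (-s) * (xi l ka n * (nr n : ℂ) ^ (-s)) := by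
  rw [xi_mul l ka hm, nr_mul, Complex.ofReal_mul,
    Complex.mul_cpow_ofReal_nonneg (Nat.cast_nonneg _) (Nat.cast_nonneg _)]
  ring

theorem M4Eul_term_prod (l : ℤ) (ka : O) (s : ℂ) (T : Finset O) (hT : ∀ p ∈ T, Primary p) :
    xi l ka (∏ p ∈ T, p) * (nr (∏ p ∈ T, p) : ℂ) ^ (-s) =
      ∏ p ∈ T, xi l ka p * (nr p : ℂ) ^ (-s) := by
  classical
  induction T using Finset.induction_on with
  | empty => simp [xi_one, nr]
  | insert a T ha ih =>
    rw [Finset.prod_insert ha, Finset.prod_insert ha,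
      M4Eul_term_mul l ka s (hT a (Finset.mem_insert_self _ _)),
      ih fun p hp => hT p (Finset.mem_insert_of_mem hp)]

theorem M4Eul_Dser_cube (l : ℤ) (ka : O) {c : O} (hc0 : c ≠ 0) {s : ℂ} (hs : 1 < s.re) :
    Dser (xi l (ka * c ^ 3)) s =
      Dser (xi l ka) s * ∏ p ∈ pf c, (1 - xi l ka p * (nr p : ℂ) ^ (-s)) := by
  classical
  have hS : ∀ p ∈ pf c, Prime p ∧ Primary p := fun p hp =>
    ⟨(BasicB.of_mem_pf hp).1, (BasicB.of_mem_pf hp).2.1⟩
  have h1 := LS2.tsum_sieve hS (cm_xi l ka hs).summable.of_norm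
  have h2 : Dser (xi l (ka * c ^ 3)) s =
      ∑' n : O, if ∀ p ∈ pf c, ¬ p ∣ n then xi l ka n * (nr n : ℂ) ^ (-s) else 0 := by
    refine tsum_congr fun n => ?_
    rw [M4Eul_xi_cube l ka hc0]
    split_ifs
    · rfl
    · exact zero_mul _
  have h3 : ∏ p ∈ pf c, (1 - xi l ka p * (nr p : ℂ) ^ (-s)) =
      ∑ T ∈ (pf c).powerset, (-1) ^ T.card * ∏ p ∈ T, xi l ka p * (nr p : ℂ) ^ (-s) := by
    simp only [sub_eq_add_neg, Finset.prod_one_add, Finset.prod_neg]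
  rw [h2, h3, Finset.mul_sum]
  refine Eq.trans (by convert h1) (Finset.sum_congr rfl fun T hT => ?_)
  have hT' : ∀ p ∈ T, Primary p := fun p hp => (hS p (Finset.mem_powerset.1 hT hp)).2
  simp only [M4Eul_term_mul l ka s (Primary.prod hT'), M4Eul_term_prod l ka s T hT', tsum_mul_left,
    Dser]
  ring

theorem M4Eul_four : (4 : ℝ) ^ (-(1 / 4) : ℝ) ≤ 3 / 4 := by
  refine le_of_pow_le_pow_left₀ (n := 4) (by norm_num) (by norm_num) ?_
  rw [← Real.rpow_natCast, ← Real.rpow_mul (by norm_num)]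
  norm_num

/-- Polynomial growth. -/
theorem Lx_poly (l : ℤ) : ∃ C : ℝ, 0 < C ∧ ∀ (ka : O) (s : ℂ), ka ≠ 0 → ¬ Cube ka → 0 ≤ s.re →
    s.re ≤ 2 → ‖Lx (xi l ka) s‖ ≤ C * nr ka ^ 2 * (1 + |s.im|) ^ 2 := by
  obtain ⟨A, hA, h₁⟩ := LZC.small_le 2 (by norm_num)
  obtain ⟨B, hB, h₂⟩ := Sm_xi_le l (j := 1) le_rfl 0
  set I₂ := ∫ w : ℝ, Real.exp (-(1 / 2) * |w|) with hI₂
  have hI₂0 : 0 ≤ I₂ := integral_nonneg fun _ => (Real.exp_pos _).le
  refine ⟨(A + B) * (I₂ + 1), by positivity, fun ka s hka hc hre0 hre2 => ?_⟩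
  have hd := decay_xi l hka hc
  have key := hd.integral_Tt (-s.im) s
  have hρ : s + (-s.im : ℝ) * Complex.I = (s.re : ℂ) := by
    apply Complex.ext <;> simp
  rw [hρ] at key
  have hn1 := one_le_nr hka
  have ha0 := abs_nonneg s.im
  set P := nr ka ^ 2 * (1 + |s.im|) ^ 2 with hP
  have hP1 : 1 ≤ P := one_le_mul_of_one_le_of_one_le (one_le_pow₀ hn1) (one_le_pow₀ (by linarith))
  have hpt : ∀ w : ℝ, ‖LZC.Tt (xi l ka) s ((-s.im : ℝ) * Complex.I) w‖ ≤
      (A + B) * P * Real.exp (-(1 / 2) * |w|) := by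
    intro w
    rw [LZC.norm_Tt]
    rcases le_total w 0 with hw | hw
    · obtain ⟨-, b2⟩ := h₁ (xi l ka) (Real.exp w) (-s.im) hd.1 (Real.exp_pos w)
      rw [← Real.exp_mul] at b2
      calc _ ≤ Real.exp (-s.re * w) * (A * Real.exp (w * (1 + 2))) := by gcongr
        _ = A * 1 * Real.exp (-s.re * w + w * (1 + 2)) := by rw [Real.exp_add]; ring
        _ ≤ _ := by
          gcongr
          · linarith
          · rw [abs_of_nonpos hw]
            nlinarith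
    · have b3 := h₂ ka (Real.exp w) ((-s.im : ℝ) * Complex.I) hka hc (Real.exp_pos w) (by simp)
      have him' : ((-s.im : ℝ) * Complex.I : ℂ).im = -s.im := by simp
      rw [him', abs_neg, ← Real.exp_mul] at b3
      have e5 : Real.exp (-s.re * w) ≤ 1 := Real.exp_le_one_iff.2 (by nlinarith)
      calc _ ≤ 1 * (B * nr ka ^ (1 + 1) * (1 + |s.im|) ^ (2 * 1) *
            Real.exp (w * (1 / 2 - (1 : ℕ)))) := by gcongr
        _ = B * P * Real.exp (-(1 / 2) * |w|) := by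
          rw [abs_of_nonneg hw, hP, show w * (1 / 2 - (1 : ℕ)) = -(1 / 2) * w by push_cast; ring]
          ring
        _ ≤ _ := by
          gcongr
          linarith
  have hI := norm_integral_le_of_norm_le
    ((LZC.integrable_exp_abs one_half_pos).const_mul ((A + B) * P))
    (Filter.Eventually.of_forall hpt)
  rw [key, norm_mul, integral_const_mul, ← hI₂] at hI
  have h1 : ‖Lx (xi l ka) s‖ ≤ ‖Lx (xi l ka) s‖ * ‖Wm s.re‖ :=
    le_mul_of_one_le_right (norm_nonneg _) (SWL_one_le_norm_Wm _)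
  calc _ ≤ (A + B) * P * I₂ := h1.trans hI
    _ ≤ (A + B) * P * (I₂ + 1) := by gcongr; linarith
    _ = _ := by rw [hP]; ring

/-- Smooth sums as integrals over any line in the critical strip. -/
theorem Sm_eq_line (l : ℤ) {ka : O} (h : ka ≠ 0) (hc : ¬ Cube ka) {σ X : ℝ} (h0 : 0 ≤ σ)
    (h2 : σ ≤ 2) (hX : 0 < X) (t : ℂ) :
    Sm (xi l ka) X t = (1 / (2 * Real.pi) : ℂ) * ∫ u : ℝ, Wm (σ + u * Complex.I + t) *
      (X : ℂ) ^ ((σ : ℂ) + u * Complex.I) * Lx (xi l ka) (σ + u * Complex.I) := by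
  obtain ⟨C, -, hC⟩ := Lx_poly l
  rw [Sm_eq_integral (polyB_xi l ka) hX (σ := 2) (by norm_num) t,
    ← Wm_shift (σ₁ := 2) (T := 0) (C := C * nr ka ^ 2) (J := 2) h2 hX t
      (decay_xi l h hc).differentiable_Lx.differentiableOn
      (fun w hw _ => hC ka w h hc (h0.trans hw.1) hw.2)]
  congr 1
  refine integral_congr_ae (Filter.Eventually.of_forall fun u => ?_)
  have e : Lx (xi l ka) ((2 : ℝ) + u * Complex.I) = Dser (xi l ka) ((2 : ℝ) + u * Complex.I) :=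
    Lx_eq (polyB_xi l ka) (by simp)
  simp only [e, Dser]

theorem norm_Sm_le_line (l : ℤ) {ka : O} (h : ka ≠ 0) (hc : ¬ Cube ka) {σ X : ℝ} (h0 : 0 ≤ σ)
    (h2 : σ ≤ 2) (hX : 0 < X) (t : ℂ) :
    ‖Sm (xi l ka) X t‖ ≤ X ^ σ *
      ∫ u : ℝ, ‖Wm (σ + u * Complex.I + t)‖ * ‖Lx (xi l ka) (σ + u * Complex.I)‖ := by
  rw [Sm_eq_line l h hc h0 h2 hX t, norm_mul, ← integral_const_mul]
  have h1 : ‖(1 / (2 * Real.pi) : ℂ)‖ ≤ 1 := by
    rw [norm_div, norm_one, norm_mul, Complex.norm_real, Real.norm_of_nonneg Real.pi_pos.le,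
      Complex.norm_ofNat, div_le_one (by positivity)]
    linarith [Real.pi_gt_three]
  refine (mul_le_of_le_one_left (norm_nonneg _) h1).trans
    ((norm_integral_le_integral_norm _).trans (le_of_eq ?_))
  refine integral_congr_ae (Filter.Eventually.of_forall fun u => ?_)
  have e : ((σ : ℂ) + u * Complex.I).re = σ := by simp
  simp only [norm_mul, norm_cpow_line hX, e]
  ring

/-- Puncturing. -/
theorem Lx_cube (l : ℤ) {ka c : O} (h : ka ≠ 0) (hc : ¬ Cube ka) (hc0 : c ≠ 0) (s : ℂ) :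
    Lx (xi l (ka * c ^ 3)) s =
      Lx (xi l ka) s * ∏ p ∈ pf c, (1 - xi l ka p * (nr p : ℂ) ^ (-s)) := by
  have hk : ka * c ^ 3 ≠ 0 := mul_ne_zero h (pow_ne_zero 3 hc0)
  have hc' : ¬ Cube (ka * c ^ 3) := fun h' => hc ((cube_mul_cube_iff hc0).1 h')
  have hf := (decay_xi l hk hc').differentiable_Lx
  have hg : Differentiable ℂ fun s : ℂ =>
      Lx (xi l ka) s * ∏ p ∈ pf c, (1 - xi l ka p * (nr p : ℂ) ^ (-s)) := by
    refine (decay_xi l h hc).differentiable_Lx.mul (Differentiable.fun_finsetProd fun p hp => ?_)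
    refine (differentiable_const _).sub ((differentiable_const _).mul ?_)
    refine differentiable_neg.const_cpow (Or.inl ?_)
    exact Complex.ofReal_ne_zero.2 (nr_pos (BasicB.of_mem_pf hp).1.ne_zero).ne'
  refine M4Eul_ext hf hg (fun z hz => ?_) s
  rw [Lx_eq (polyB_xi _ _) hz, Lx_eq (polyB_xi _ _) hz, M4Eul_Dser_cube l ka hc0 hz]

theorem norm_euler_le (l : ℤ) (ka c : O) {s : ℂ} (hs : 0 ≤ s.re) :
    ‖∏ p ∈ pf c, (1 - xi l ka p * (nr p : ℂ) ^ (-s))‖ ≤ 2 ^ (pf c).card := by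
  rw [norm_prod, ← Finset.prod_const]
  refine Finset.prod_le_prod (fun _ _ => norm_nonneg _) fun p hp => ?_
  have hp0 := (BasicB.of_mem_pf hp).1.ne_zero
  have h1 : ‖xi l ka p * (nr p : ℂ) ^ (-s)‖ ≤ 1 := by
    rw [norm_mul, Complex.norm_cpow_eq_rpow_re_of_pos (nr_pos hp0), Complex.neg_re]
    exact mul_le_one₀ (norm_xi_le _ _ _) (by positivity)
      (Real.rpow_le_one_of_one_le_of_nonpos (one_le_nr hp0) (by linarith))
  refine (norm_sub_le _ _).trans ?_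
  rw [norm_one]
  linarith

theorem le_norm_euler (l : ℤ) (ka c : O) {s : ℂ} (hs : 1 / 4 ≤ s.re) :
    1 ≤ 4 ^ (pf c).card * ‖∏ p ∈ pf c, (1 - xi l ka p * (nr p : ℂ) ^ (-s))‖ := by
  rw [norm_prod, ← Finset.prod_const, ← Finset.prod_mul_distrib]
  refine Finset.one_le_prod fun p hp => ?_
  obtain ⟨hp1, hp2, -⟩ := BasicB.of_mem_pf hp
  have h4 : (4 : ℝ) ≤ nr p := by
    have a1 := nm_prime_mod hp1 hp2
    have a2 := CountAux.two_le_nm hp1
    exact_mod_cast (show 4 ≤ nm p by omega)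
  have h1 : ‖xi l ka p * (nr p : ℂ) ^ (-s)‖ ≤ 3 / 4 := by
    rw [norm_mul, Complex.norm_cpow_eq_rpow_re_of_pos (by linarith), Complex.neg_re]
    refine (mul_le_of_le_one_left (by positivity) (norm_xi_le _ _ _)).trans ?_
    calc nr p ^ (-s.re) ≤ nr p ^ (-(1 / 4) : ℝ) :=
          Real.rpow_le_rpow_of_exponent_le (by linarith) (by linarith)
      _ ≤ (4 : ℝ) ^ (-(1 / 4) : ℝ) :=
          Real.rpow_le_rpow_of_nonpos (by norm_num) h4 (by norm_num)
      _ ≤ 3 / 4 := M4Eul_four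
  have h2 := norm_sub_norm_le (1 : ℂ) (xi l ka p * (nr p : ℂ) ^ (-s))
  rw [norm_one] at h2
  linarith

theorem conj_Lx (l : ℤ) {ka : O} (h : ka ≠ 0) (hc : ¬ Cube ka) (s : ℂ) :
    Lx (xi (-l) (ka ^ 2)) s = conj (Lx (xi l ka) (conj s)) := by
  have hf := (decay_xi (-l) (pow_ne_zero 2 h) fun h' => hc h'.of_sq).differentiable_Lx
  have hg : Differentiable ℂ fun s : ℂ => conj (Lx (xi l ka) (conj s)) := fun z =>
    differentiableAt_conj_conj_iff.2 ((decay_xi l h hc).differentiable_Lx _)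
  refine M4Eul_ext hf hg (fun z hz => ?_) s
  rw [Lx_eq (polyB_xi _ _) hz, Lx_eq (polyB_xi _ _) (by simpa using hz), Dser, Dser,
    Complex.conj_tsum]
  refine tsum_congr fun n => ?_
  rw [map_mul, conj_xi, ← map_neg, Complex.cpow_conj _ _ (by
    rw [Complex.arg_ofReal_of_nonneg (Nat.cast_nonneg _)]; exact Real.pi_pos.ne),
    Complex.conj_conj, Complex.conj_ofReal]

/-- Rows of conductor one. -/
theorem Lx_cnd_one (l : ℤ) {η : ℝ} (hη : 0 < η) : ∃ C : ℝ, 0 < C ∧ ∀ (ka : O) (s : ℂ), ka ≠ 0 →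
    ¬ Cube ka → cnd ka ≤ 1 → 0 ≤ s.re → s.re ≤ 2 →
    ‖Lx (xi l ka) s‖ ≤ C * nr ka ^ η * (1 + |s.im|) ^ 2 := by
  obtain ⟨C₁, hC₁, h₁⟩ := Lx_poly l
  obtain ⟨C₂, hC₂, h₂⟩ := pow_card_pf_le hη 2
  refine ⟨C₁ * 9 ^ 2 * C₂, by positivity, fun ka s hka hc hcnd hs0 hs2 => ?_⟩
  obtain ⟨a, c, x, y, hc0, hx, hy, -, hk, hcn⟩ := row_decomp' hka
  have x1 := one_le_nr hx.1.ne_zero
  have y1 := one_le_nr hy.1.ne_zero
  have hx1 : x = 1 := hx.1.eq_one_of_isUnit (isUnit_iff_nm.2 (by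
    have : nr x = 1 := le_antisymm (by nlinarith) x1
    exact_mod_cast this))
  have hy1 : y = 1 := hy.1.eq_one_of_isUnit (isUnit_iff_nm.2 (by
    have : nr y = 1 := le_antisymm (by nlinarith) y1
    exact_mod_cast this))
  rw [hx1, hy1, one_pow, one_mul, one_mul] at hk
  have hv : ¬ Cube (vv a) := fun h' => hc (hk ▸ h'.mul (cube_pow_three c))
  have hcle : nr c ≤ nr ka := by
    have c1 := one_le_nr hc0
    rw [hk, nr_mul, nr_pow]
    calc nr c = 1 * nr c ^ 1 := by ring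
      _ ≤ _ := by
        gcongr
        · exact one_le_nr (vv_ne_zero a)
        · norm_num
  have b1 := h₁ (vv a) s (vv_ne_zero a) hv hs0 hs2
  have b2 := (norm_euler_le l (vv a) c hs0).trans (h₂ c hc0)
  have b3 : nr c ^ η ≤ nr ka ^ η := Real.rpow_le_rpow (Nat.cast_nonneg _) hcle hη.le
  have b4 := nr_vv_le a
  calc ‖Lx (xi l ka) s‖ = ‖Lx (xi l (vv a)) s‖ *
        ‖∏ p ∈ pf c, (1 - xi l (vv a) p * (nr p : ℂ) ^ (-s))‖ := by
        rw [← norm_mul, ← Lx_cube l (vv_ne_zero a) hv hc0, ← hk]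
    _ ≤ (C₁ * 9 ^ 2 * (1 + |s.im|) ^ 2) * (C₂ * nr ka ^ η) := by
        refine mul_le_mul (b1.trans ?_) (b2.trans ?_) (norm_nonneg _) (by positivity)
        · gcongr
        · gcongr
    _ = _ := by ring

end Crest.Agent.R12
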