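import Crest.Agent.R12.ThGamA

/-!
# Row 12, fourth moment: the gamma ratio near the critical line, Hölder's inequality
-/

set_option autoImplicit false

noncomputable section

namespace Crest.Agent.R12

open Crest.Agent.R17
open scoped ComplexConjugate
open MeasureTheory

/-- `Γ(z + a) / Γ(z) = z B(z + a, 1 - a) / Γ(1 - a)`. -/
theorem norm_Gamma_ratio_le {x a : ℝ} (hx : 0 < x) (h0 : 0 < a) (h1 : a < 1) :
    ∃ C : ℝ, 0 < C ∧ ∀ v : ℝ, ‖Complex.Gamma (x + a + v * Complex.I) *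
      (Complex.Gamma (x + v * Complex.I))⁻¹‖ ≤ C * (1 + |v|) := by
  obtain ⟨B, hB⟩ : ∃ B : ℝ, B = ∫ y : ℝ in (0 : ℝ)..1,
      y ^ (x + a - 1) * ‖(1 - (y : ℂ)) ^ ((1 - a : ℂ) - 1)‖ := ⟨_, rfl⟩
  refine ⟨(1 + x) * (|B| + 1) * (‖(Complex.Gamma (1 - a))⁻¹‖ + 1), by positivity, fun v => ?_⟩
  have hz : 0 < ((x : ℂ) + v * Complex.I).re := by simpa using hx
  have hs : 0 < ((x : ℂ) + a + v * Complex.I).re := by simp; linarith
  have ht : 0 < (1 - (a : ℂ)).re := by simpa using h1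
  have hz0 : (x : ℂ) + v * Complex.I ≠ 0 := fun h => by rw [h] at hz; simp at hz
  have e := Complex.Gamma_mul_Gamma_eq_betaIntegral hs ht
  rw [show (x : ℂ) + a + v * Complex.I + (1 - a) = x + v * Complex.I + 1 by ring,
    Complex.Gamma_add_one _ hz0] at e
  have g1 := Complex.Gamma_ne_zero_of_re_pos hz
  have g2 := Complex.Gamma_ne_zero_of_re_pos ht
  have e2 : Complex.Gamma (x + a + v * Complex.I) * (Complex.Gamma (x + v * Complex.I))⁻¹ =
      (x + v * Complex.I) * Complex.betaIntegral (x + a + v * Complex.I) (1 - a) *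
        (Complex.Gamma (1 - a))⁻¹ := by
    field_simp
    linear_combination e
  have b1 : ‖Complex.betaIntegral (x + a + v * Complex.I) (1 - a)‖ ≤ |B| + 1 := by
    refine (intervalIntegral.norm_integral_le_integral_norm zero_le_one).trans ?_
    refine le_trans (le_of_eq ?_) ((le_abs_self B).trans (le_add_of_nonneg_right zero_le_one))
    rw [hB]
    refine intervalIntegral.integral_congr_ae (Filter.Eventually.of_forall fun y hy => ?_)
    rw [Set.uIoc_of_le zero_le_one] at hy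
    rw [norm_mul, Complex.norm_cpow_eq_rpow_re_of_pos hy.1]
    simp
  have b2 : ‖(x : ℂ) + v * Complex.I‖ ≤ (1 + x) * (1 + |v|) := by
    refine (norm_add_le _ _).trans ?_
    rw [norm_mul, Complex.norm_I, mul_one, Complex.norm_real, Complex.norm_real,
      Real.norm_of_nonneg hx.le, Real.norm_eq_abs]
    nlinarith [abs_nonneg v]
  rw [e2, norm_mul, norm_mul]
  calc _ ≤ (1 + x) * (1 + |v|) * (|B| + 1) * (‖(Complex.Gamma (1 - a))⁻¹‖ + 1) := by
        gcongr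
        exact le_add_of_nonneg_right zero_le_one
    _ = _ := by ring

theorem norm_gamH_le (m : ℕ) {δ : ℝ} (h0 : 0 < δ) (h1 : δ < 1 / 2) : ∃ C : ℝ, 0 < C ∧ ∀ v : ℝ,
    ‖gamH m (((1 / 2 + δ : ℝ) : ℂ) + v * Complex.I)‖ ≤ C * (1 + |v|) := by
  have hm : (0 : ℝ) ≤ m / 2 := by positivity
  obtain ⟨C, hC, h⟩ := norm_Gamma_ratio_le (x := 1 / 2 - δ + m / 2) (a := 2 * δ) (by linarith)
    (by linarith) (by linarith)
  refine ⟨C, hC, fun v => le_trans (le_of_eq ?_) (h v)⟩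
  have e1 : ((1 / 2 + δ : ℝ) : ℂ) + v * Complex.I - 1 / 2 + ((1 / 2 + m / 2 : ℝ) : ℂ) =
      ((1 / 2 - δ + m / 2 : ℝ) : ℂ) + ((2 * δ : ℝ) : ℂ) + v * Complex.I := by
    push_cast; ring
  have e2 : 1 / 2 - (((1 / 2 + δ : ℝ) : ℂ) + v * Complex.I) + ((1 / 2 + m / 2 : ℝ) : ℂ) =
      conj (((1 / 2 - δ + m / 2 : ℝ) : ℂ) + v * Complex.I) := by
    rw [map_add, map_mul, Complex.conj_ofReal, Complex.conj_ofReal, Complex.conj_I]
    push_cast; ring
  rw [gamH, gamR, e1, e2, Complex.Gamma_conj, norm_mul, norm_mul, norm_inv, norm_inv,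
    Complex.norm_conj]

theorem M4Gam_one (μ : Measure ℝ) (w f : ℝ → ℝ) (hw : Integrable w μ) (hw0 : ∀ u, 0 ≤ w u)
    (h1 : Integrable (fun u => w u * f u) μ) (h4 : Integrable (fun u => w u * f u ^ 4) μ)
    (hf0 : ∀ u, 0 ≤ f u) :
    (∫ u, w u * f u ∂μ) ^ 4 ≤ (∫ u, w u ∂μ) ^ 3 * ∫ u, w u * f u ^ 4 ∂μ := by
  have hA : 0 ≤ ∫ u, w u ∂μ := integral_nonneg hw0
  have hI : 0 ≤ ∫ u, w u * f u ∂μ := integral_nonneg fun u => mul_nonneg (hw0 u) (hf0 u)
  have hF : 0 ≤ ∫ u, w u * f u ^ 4 ∂μ :=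
    integral_nonneg fun u => mul_nonneg (hw0 u) (pow_nonneg (hf0 u) 4)
  rcases hI.eq_or_lt with hI0 | hI0
  · rw [← hI0, zero_pow four_ne_zero]
    positivity
  rcases hA.eq_or_lt with hA0 | hA0
  · have hz := (integral_eq_zero_iff_of_nonneg hw0 hw).1 hA0.symm
    refine absurd (integral_eq_zero_of_ae ?_) hI0.ne'
    filter_upwards [hz] with u hu
    simp [hu]
  obtain ⟨r, hr⟩ : ∃ r, r = (∫ u, w u * f u ∂μ) / ∫ u, w u ∂μ := ⟨_, rfl⟩
  have hr0 : 0 < r := by rw [hr]; positivity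
  have key : ∫ u, 4 * r ^ 3 * (w u * f u) ∂μ ≤ ∫ u, (3 * r ^ 4 * w u + w u * f u ^ 4) ∂μ := by
    refine integral_mono (h1.const_mul _) ((hw.const_mul _).add h4) fun u => ?_
    have p1 : 0 ≤ f u ^ 2 + 2 * r * f u + 3 * r ^ 2 := by have := hf0 u; positivity
    have := mul_nonneg (hw0 u) (mul_nonneg (sq_nonneg (f u - r)) p1)
    simp only
    nlinarith
  rw [integral_const_mul, integral_add (hw.const_mul _) h4, integral_const_mul] at key
  have e : ∫ u, w u * f u ∂μ = r * ∫ u, w u ∂μ := by rw [hr]; field_simp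
  rw [e] at key ⊢
  generalize ∫ u, w u ∂μ = A at *
  calc (r * A) ^ 4 = A ^ 3 * (r ^ 4 * A) := by ring
    _ ≤ _ := by gcongr; nlinarith

/-- Hölder's inequality for a family. -/
theorem sum_integral_pow4 {α : Type*} (T : Finset α) (μ : Measure ℝ) (w g : ℝ → ℝ)
    (f : α → ℝ → ℝ) (hw : Integrable w μ) (hw0 : ∀ u, 0 ≤ w u)
    (hg : Integrable (fun u => w u * g u) μ) (hf : ∀ k ∈ T, AEStronglyMeasurable (f k) μ)
    (hf0 : ∀ k u, 0 ≤ f k u) (h : ∀ᵐ u ∂μ, ∑ k ∈ T, f k u ^ 4 ≤ g u) :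
    ∑ k ∈ T, (∫ u, w u * f k u ∂μ) ^ 4 ≤ (∫ u, w u ∂μ) ^ 3 * ∫ u, w u * g u ∂μ := by
  have h4 : ∀ k ∈ T, Integrable (fun u => w u * f k u ^ 4) μ := fun k hk => by
    refine hg.mono' (hw.1.mul ((hf k hk).pow 4)) ?_
    filter_upwards [h] with u hu
    rw [Real.norm_of_nonneg (mul_nonneg (hw0 u) (pow_nonneg (hf0 k u) 4))]
    exact mul_le_mul_of_nonneg_left ((Finset.single_le_sum (f := fun k => f k u ^ 4)
      (fun i _ => pow_nonneg (hf0 i u) 4) hk).trans hu) (hw0 u)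
  have h1 : ∀ k ∈ T, Integrable (fun u => w u * f k u) μ := fun k hk => by
    refine (hw.add (h4 k hk)).mono' (hw.1.mul (hf k hk)) (Filter.Eventually.of_forall fun u => ?_)
    rw [Real.norm_of_nonneg (mul_nonneg (hw0 u) (hf0 k u))]
    have : f k u ≤ 1 + f k u ^ 4 := by
      nlinarith [sq_nonneg (f k u ^ 2 - 1 / 2), sq_nonneg (f k u - 1 / 2)]
    have := mul_le_mul_of_nonneg_left this (hw0 u)
    simp only [Pi.add_apply]
    linarith
  have hA : 0 ≤ ∫ u, w u ∂μ := integral_nonneg hw0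
  refine (Finset.sum_le_sum fun k hk => M4Gam_one μ w (f k) hw hw0 (h1 k hk) (h4 k hk)
    (hf0 k)).trans ?_
  rw [← Finset.mul_sum, ← integral_finsetSum _ h4]
  refine mul_le_mul_of_nonneg_left (integral_mono_ae (integrable_finsetSum _ h4) hg ?_)
    (pow_nonneg hA 3)
  filter_upwards [h] with u hu
  rw [← Finset.mul_sum]
  exact mul_le_mul_of_nonneg_left hu (hw0 u)

theorem M4Gam_int {φ : ℝ → ℝ} (hφ : Continuous φ) (h0 : ∀ u, 0 ≤ φ u) {A c : ℝ}
    (h : ∀ u, φ u ≤ A / (1 + (u + c) ^ 2)) : Integrable φ ∧ ∫ u, φ u ≤ A * Real.pi := by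
  have hi : Integrable fun u : ℝ => A * (1 + (u + c) ^ 2)⁻¹ :=
    (integrable_inv_one_add_sq.comp_add_right c).const_mul A
  have h1 : Integrable φ := hi.mono' hφ.aestronglyMeasurable
    (Filter.Eventually.of_forall fun u => by rw [Real.norm_of_nonneg (h0 u)]; exact h u)
  refine ⟨h1, (integral_mono h1 hi h).trans_eq ?_⟩
  rw [integral_const_mul, integral_add_right_eq_self (fun u : ℝ => (1 + u ^ 2)⁻¹) c,
    integral_univ_inv_one_add_sq]

/-- Hölder's inequality against the Gaussian kernel. -/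
theorem sum_Wm_pow4 (J : ℕ) : ∃ C : ℝ, 0 < C ∧ ∀ {α : Type} (T : Finset α) (f : α → ℝ → ℝ)
    (σ B : ℝ) (t : ℂ), |σ + t.re| ≤ 4 → (∀ k ∈ T, Continuous (f k)) → (∀ k u, 0 ≤ f k u) →
    (∀ u, ∑ k ∈ T, f k u ^ 4 ≤ B * (1 + |u|) ^ J) →
    ∑ k ∈ T, (∫ u : ℝ, ‖Wm (σ + u * Complex.I + t)‖ * f k u) ^ 4 ≤ C * B * (1 + |t.im|) ^ J := by
  obtain ⟨A₀, hA₀, h₀⟩ := norm_Wm_mul_le 4 0
  obtain ⟨A₁, hA₁, h₁⟩ := norm_Wm_mul_le 4 J
  have hpi := Real.pi_pos
  refine ⟨(A₀ * Real.pi) ^ 3 * (A₁ * Real.pi), by positivity, ?_⟩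
  intro α T f σ B t ht hf hf0 h
  have hB : 0 ≤ B := by
    have := (Finset.sum_nonneg fun k _ => pow_nonneg (hf0 k 0) 4).trans (h 0)
    simpa using this
  have hc : Continuous fun u : ℝ => ‖Wm (σ + u * Complex.I + t)‖ :=
    (differentiable_Wm.continuous.comp (by fun_prop)).norm
  have hre : ∀ u : ℝ, |((σ : ℂ) + u * Complex.I + t).re| ≤ 4 := fun u => by simpa using ht
  have him : ∀ u : ℝ, ((σ : ℂ) + u * Complex.I).im = u := fun u => by simp
  obtain ⟨i0, b0⟩ := M4Gam_int hc (fun u => norm_nonneg _) (A := A₀) (c := t.im) fun u => by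
    simpa only [him, pow_zero, mul_one] using h₀ _ t (hre u)
  obtain ⟨i1, b1⟩ := M4Gam_int (φ := fun u : ℝ => ‖Wm (σ + u * Complex.I + t)‖ *
      (B * (1 + |u|) ^ J)) (hc.mul (by fun_prop)) (fun u => by positivity)
      (A := B * (A₁ * (1 + |t.im|) ^ J)) (c := t.im) fun u => by
    have := mul_le_mul_of_nonneg_left (h₁ _ t (hre u)) hB
    rw [him] at this
    rw [mul_left_comm, mul_div_assoc]
    exact this
  refine (sum_integral_pow4 T volume _ (fun u => B * (1 + |u|) ^ J) f i0 (fun u => norm_nonneg _)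
    i1 (fun k hk => (hf k hk).aestronglyMeasurable) hf0 (Filter.Eventually.of_forall h)).trans ?_
  have p0 : 0 ≤ ∫ u : ℝ, ‖Wm (σ + u * Complex.I + t)‖ := integral_nonneg fun u => norm_nonneg _
  have p1 : 0 ≤ ∫ u : ℝ, ‖Wm (σ + u * Complex.I + t)‖ * (B * (1 + |u|) ^ J) :=
    integral_nonneg fun u => by positivity
  calc _ ≤ (A₀ * Real.pi) ^ 3 * (B * (A₁ * (1 + |t.im|) ^ J) * Real.pi) := by gcongr
    _ = _ := by ring

/-- Hölder's inequality on an interval. -/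
theorem sum_Ioc_pow4 {α : Type*} (T : Finset α) (f : α → ℝ → ℝ) {W E : ℝ} (hW : 0 ≤ W)
    (hf : ∀ k ∈ T, Continuous (f k)) (hf0 : ∀ k u, 0 ≤ f k u)
    (h : ∀ u, 0 ≤ u → u ≤ W → ∑ k ∈ T, f k u ^ 4 ≤ E) :
    ∑ k ∈ T, (∫ u in Set.Ioc 0 W, f k u) ^ 4 ≤ W ^ 4 * E := by
  have key := sum_integral_pow4 T (volume.restrict (Set.Ioc 0 W)) (fun _ => 1) (fun _ => E) f
    (integrable_const _) (fun _ => zero_le_one) (integrable_const _)
    (fun k hk => (hf k hk).aestronglyMeasurable) hf0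
    ((ae_restrict_iff' measurableSet_Ioc).2 (Filter.Eventually.of_forall fun u hu =>
      h u hu.1.le hu.2))
  simp only [one_mul, integral_const, MeasurableSet.univ, measureReal_restrict_apply,
    Set.univ_inter, Real.volume_real_Ioc, sub_zero, smul_eq_mul, mul_one, max_eq_left hW] at key
  calc _ ≤ _ := key
    _ = _ := by ring

end Crest.Agent.R12
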