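import Crest.Agent.R12.M4Eul
import Crest.Agent.R12.M4Gam
import Crest.Agent.R12.M4Dual

/-!
# Row 12, fourth moment: the functional equation as an inequality
-/

set_option autoImplicit false

noncomputable section

namespace Crest.Agent.R12

open Crest.Agent.R17
open scoped ComplexConjugate
open MeasureTheory

/-- Primitive rows. -/
theorem fe_prim (l : ℤ) {δ : ℝ} (h0 : 0 < δ) (h1 : δ ≤ 1 / 4) : ∃ C : ℝ, 0 < C ∧
    ∀ (h₁ h₂ : O) (a : ZMod 3 × ZMod 3) (v : ℝ), PS h₁ → PS h₂ → IsCoprime h₁ h₂ →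
      1 < nr h₁ * nr h₂ →
      ‖Lx (xi l (h₁ * h₂ ^ 2 * vv a)) (((1 / 2 - δ : ℝ) : ℂ) + v * Complex.I)‖ ≤
        C * (nr h₁ * nr h₂) ^ δ * (1 + |v|) *
          ∑ b, ‖Lx (xi l (h₁ * h₂ ^ 2 * vv b)) (((1 / 2 + δ : ℝ) : ℂ) + v * Complex.I)‖ := by
  obtain ⟨C₁, hC₁, H₁⟩ := Dser_ftA
  obtain ⟨C₂, hC₂, H₂⟩ := norm_gamH_le l.natAbs h0 (by linarith)
  refine ⟨C₂ * C₁, by positivity, fun h₁ h₂ a v a₁ a₂ hc hr => ?_⟩
  have n1 := a₁.1.ne_zero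
  have n2 := a₂.1.ne_zero
  have hz : h₁ * h₂ ^ 2 ≠ 0 := mul_ne_zero n1 (pow_ne_zero _ n2)
  have hne : ∀ b, h₁ * h₂ ^ 2 * vv b ≠ 0 := fun b => mul_ne_zero hz (vv_ne_zero b)
  have hnc : ∀ b, ¬ Cube (h₁ * h₂ ^ 2 * vv b) := fun b =>
    not_cube_of_cnd hz (by rwa [cnd_pair a₁ a₂ hc]) b
  have hq : (9 : O) * (h₁ * h₂) ≠ 0 := mul_ne_zero ThCtA_nine_ne (mul_ne_zero n1 n2)
  obtain ⟨E, E1, E2, E3⟩ := H₁ l h₁ h₂ a a₁ a₂ hc
  obtain ⟨L₀, L1, -, L3, L4⟩ := hecke_fe l hq (xi_per_pair a₁ a₂ hc a) (xi_zero _ _)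
  have hav : LBB.avg (9 * (h₁ * h₂)) (xi 0 (h₁ * h₂ ^ 2 * vv a)) = 0 := by
    have := avg_xi (hne a) (hnc a)
    rwa [rad_pair a₁ a₂ hc] at this
  simp only [hav, ite_self, zero_mul, zero_div, add_zero, ← xi_eq] at L3 L4
  have hd := decay_xi l (hne a) (hnc a)
  have hL : L₀ = Lx (xi l (h₁ * h₂ ^ 2 * vv a)) :=
    AnalyticOnNhd.eq_of_eventuallyEq (Complex.analyticOnNhd_univ_iff_differentiable.2 L1)
      (Complex.analyticOnNhd_univ_iff_differentiable.2 hd.differentiable_Lx) (z₀ := 2) (by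
        have : ∀ᶠ z : ℂ in nhds 2, 7 / 6 < z.re :=
          (isOpen_lt continuous_const Complex.continuous_re).mem_nhds (by norm_num)
        filter_upwards [this] with z hz
        rw [← L3 z hz, Lx_eq hd.1 (by linarith)])
  have hd' : ∀ b, Decay (xi (-l) ((h₁ * h₂ ^ 2 * vv b) ^ 2)) := fun b =>
    decay_xi _ (pow_ne_zero _ (hne b)) fun h => hnc b h.of_sq
  set U : Set ℂ := {t | 1 / 2 < t.re} with hU
  have hUo : IsOpen U := isOpen_lt continuous_const Complex.continuous_re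
  have hcc : (LBB.cc : ℂ) ≠ 0 := by exact_mod_cast thPoisA_cc_pos.ne'
  have hq1 : 1 ≤ nr ((9 : O) * (h₁ * h₂)) := one_le_nr hq
  have hq0 : ((nr ((9 : O) * (h₁ * h₂)) : ℝ) : ℂ) ≠ 0 := by
    exact_mod_cast (lt_of_lt_of_le one_pos hq1).ne'
  set G : ℂ → ℂ := fun t => (-1) ^ (-l).toNat * arg (9 * (h₁ * h₂)) ^ l *
    (LBB.cc : ℂ) ^ (1 - 2 * t) * (nr ((9 : O) * (h₁ * h₂)) : ℂ) ^ (t - 1) * gamH l.natAbs t *
      ∑ b, E b t * Lx (xi (-l) ((h₁ * h₂ ^ 2 * vv b) ^ 2)) t with hG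
  have hGd : DifferentiableOn ℂ G U := by
    refine DifferentiableOn.mul (DifferentiableOn.mul (Differentiable.differentiableOn ?_)
      ((gamOK_H _).1.mono fun t ht => le_of_lt (show 1 / 2 < t.re from ht))) ?_
    · exact (((differentiable_const _).mul
        (Differentiable.const_cpow (by fun_prop) (Or.inl hcc))).mul
        (Differentiable.const_cpow (by fun_prop) (Or.inl hq0)))
    · refine DifferentiableOn.fun_sum fun b _ => DifferentiableOn.mul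
        ((E1 b).mono fun t ht => ?_) (hd' b).differentiable_Lx.differentiableOn
      simp only [hU, Set.mem_ofPred_eq] at ht ⊢
      linarith
  have hFd : DifferentiableOn ℂ (fun t => L₀ (1 - t)) U :=
    (L1.comp (by fun_prop)).differentiableOn
  have heq : Set.EqOn (fun t => L₀ (1 - t)) G U :=
    (hFd.analyticOnNhd hUo).eqOn_of_preconnected_of_eventuallyEq (hGd.analyticOnNhd hUo)
      (convex_halfSpace_re_gt _).isPreconnected (z₀ := 2) (by simp [hU]; norm_num) (by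
        have : ∀ᶠ z : ℂ in nhds 2, 7 / 6 < z.re :=
          (isOpen_lt continuous_const Complex.continuous_re).mem_nhds (by norm_num)
        filter_upwards [this] with z hz
        rw [L4 z hz, E3 z (by linarith), hG]
        simp only [fun b => Lx_eq (hd' b).1 (show 1 < z.re by linarith)])
  set t : ℂ := ((1 / 2 + δ : ℝ) : ℂ) + (-v : ℝ) * Complex.I with ht
  have htre : t.re = 1 / 2 + δ := by simp [ht]
  have e1 : ((1 / 2 - δ : ℝ) : ℂ) + v * Complex.I = 1 - t := by rw [ht]; push_cast; ring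
  have e2 : conj t = ((1 / 2 + δ : ℝ) : ℂ) + v * Complex.I := by
    rw [ht, map_add, map_mul, Complex.conj_ofReal, Complex.conj_ofReal, Complex.conj_I]
    push_cast
    ring
  have key := heq (show t ∈ U by simp only [hU, Set.mem_ofPred_eq, htre]; linarith)
  simp only [hL] at key
  rw [e1, key, hG]
  set r := nr h₁ * nr h₂ with hr'
  have hr0 : 0 < r := by linarith
  have b1 : ‖(LBB.cc : ℂ) ^ (1 - 2 * t)‖ ≤ 1 := by
    rw [Complex.norm_cpow_eq_rpow_re_of_pos thPoisA_cc_pos]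
    refine Real.rpow_le_one_of_one_le_of_nonpos ?_ (by simp [htre]; linarith)
    have := pois_three_le
    unfold LBB.cc
    linarith
  have b2 : ‖(nr ((9 : O) * (h₁ * h₂)) : ℂ) ^ (t - 1)‖ ≤ r ^ (δ - 1 / 2) := by
    rw [Complex.norm_cpow_eq_rpow_re_of_pos (by linarith),
      show (t - 1).re = δ - 1 / 2 by simp [htre]; ring]
    refine Real.rpow_le_rpow_of_nonpos hr0 ?_ (by linarith)
    have := one_le_nr ThCtA_nine_ne
    simp only [nr, nm_mul, hr'] at this ⊢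
    push_cast
    exact le_mul_of_one_le_left (by positivity) this
  have b3 : ‖gamH l.natAbs t‖ ≤ C₂ * (1 + |v|) := by
    have := H₂ (-v)
    rwa [abs_neg] at this
  have b4 : ‖∑ b, E b t * Lx (xi (-l) ((h₁ * h₂ ^ 2 * vv b) ^ 2)) t‖ ≤ C₁ * Real.sqrt r *
      ∑ b, ‖Lx (xi l (h₁ * h₂ ^ 2 * vv b)) (((1 / 2 + δ : ℝ) : ℂ) + v * Complex.I)‖ := by
    rw [Finset.mul_sum]
    refine (norm_sum_le _ _).trans (Finset.sum_le_sum fun b _ => ?_)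
    rw [norm_mul, conj_Lx l (hne b) (hnc b), e2, RCLike.norm_conj]
    gcongr
    exact E2 b t (by linarith)
  have b5 : r ^ (δ - 1 / 2) * Real.sqrt r = r ^ δ := by
    rw [Real.sqrt_eq_rpow, ← Real.rpow_add hr0]
    congr 1
    ring
  simp only [norm_mul, norm_pow, norm_neg, norm_one, one_pow, norm_zpow, norm_arg hq, one_zpow,
    one_mul]
  calc _ ≤ 1 * r ^ (δ - 1 / 2) * (C₂ * (1 + |v|)) * (C₁ * Real.sqrt r *
        ∑ b, ‖Lx (xi l (h₁ * h₂ ^ 2 * vv b)) (((1 / 2 + δ : ℝ) : ℂ) + v * Complex.I)‖) := by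
        gcongr
    _ = _ := by rw [← b5]; ring

/-- All rows of conductor larger than one. -/
theorem fe_ineq (l : ℤ) {δ η : ℝ} (h0 : 0 < δ) (h1 : δ ≤ 1 / 4) (hη : 0 < η) : ∃ C : ℝ, 0 < C ∧
    ∀ (ka : O) (a : ZMod 3 × ZMod 3) (v : ℝ), ka ≠ 0 → 1 < cnd ka →
      ‖Lx (xi l (ka * vv a)) (((1 / 2 - δ : ℝ) : ℂ) + v * Complex.I)‖ ≤
        C * nr ka ^ η * cnd ka ^ δ * (1 + |v|) *
          ∑ b, ‖Lx (xi l (ka * vv b)) (((1 / 2 + δ : ℝ) : ℂ) + v * Complex.I)‖ := by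
  obtain ⟨C₁, hC₁, H₁⟩ := fe_prim l h0 h1
  obtain ⟨C₂, hC₂, H₂⟩ := pow_card_pf_le hη 8
  refine ⟨C₁ * C₂, by positivity, fun ka a v hka hc => ?_⟩
  obtain ⟨a₀, c, h₁, h₂, hc0, a₁, a₂, hco, e, ec⟩ := row_decomp' hka
  have hz : h₁ * h₂ ^ 2 ≠ 0 := mul_ne_zero a₁.1.ne_zero (pow_ne_zero _ a₂.1.ne_zero)
  have hr : 1 < nr h₁ * nr h₂ := ec ▸ hc
  have hne : ∀ b, h₁ * h₂ ^ 2 * vv b ≠ 0 := fun b => mul_ne_zero hz (vv_ne_zero b)
  have hnc : ∀ b, ¬ Cube (h₁ * h₂ ^ 2 * vv b) := fun b =>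
    not_cube_of_cnd hz (by rwa [cnd_pair a₁ a₂ hco]) b
  have hL : ∀ b s, Lx (xi l (ka * vv b)) s = Lx (xi l (h₁ * h₂ ^ 2 * vv (a₀ + b))) s *
      ∏ p ∈ pf c, (1 - xi l (h₁ * h₂ ^ 2 * vv (a₀ + b)) p * (nr p : ℂ) ^ (-s)) := by
    intro b s
    obtain ⟨m, m0, m1, m2⟩ := vv_mul a₀ b
    have e3 : ka * vv b = h₁ * h₂ ^ 2 * vv (a₀ + b) * (c * m) ^ 3 := by
      rw [e]
      linear_combination (h₁ * h₂ ^ 2 * c ^ 3) * m2
    rw [e3, Lx_cube l (hne _) (hnc _) (mul_ne_zero hc0 m0), pf_mul hc0 m0, m1, Finset.union_empty]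
  set s₁ : ℂ := ((1 / 2 - δ : ℝ) : ℂ) + v * Complex.I with hs₁
  set s₂ : ℂ := ((1 / 2 + δ : ℝ) : ℂ) + v * Complex.I with hs₂
  have b1 : ‖Lx (xi l (ka * vv a)) s₁‖ ≤
      ‖Lx (xi l (h₁ * h₂ ^ 2 * vv (a₀ + a))) s₁‖ * 2 ^ (pf c).card := by
    rw [hL, norm_mul]
    gcongr
    exact norm_euler_le l _ c (by simp [hs₁]; linarith)
  have b2 : ∑ b, ‖Lx (xi l (h₁ * h₂ ^ 2 * vv b)) s₂‖ ≤
      4 ^ (pf c).card * ∑ b, ‖Lx (xi l (ka * vv b)) s₂‖ := by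
    rw [← Equiv.sum_comp (Equiv.addLeft a₀), Finset.mul_sum]
    refine Finset.sum_le_sum fun b _ => ?_
    rw [hL, norm_mul, mul_left_comm, Equiv.coe_addLeft]
    exact le_mul_of_one_le_right (norm_nonneg _) (le_norm_euler l _ c (by simp [hs₂]; linarith))
  have b3 : (8 : ℝ) ^ (pf c).card ≤ C₂ * nr ka ^ η := by
    refine (H₂ c hc0).trans ?_
    gcongr
    exact Nat.cast_le.2 (nm_le_of_dvd ⟨h₁ * h₂ ^ 2 * vv a₀ * c ^ 2, by rw [e]; ring⟩ hka)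
  have b4 := H₁ h₁ h₂ (a₀ + a) v a₁ a₂ hco hr
  rw [← hs₁, ← hs₂] at b4
  rw [ec]
  calc _ ≤ C₁ * (nr h₁ * nr h₂) ^ δ * (1 + |v|) * (4 ^ (pf c).card *
        ∑ b, ‖Lx (xi l (ka * vv b)) s₂‖) * 2 ^ (pf c).card := by
        refine b1.trans ?_
        gcongr
        refine b4.trans ?_
        gcongr
    _ = C₁ * 8 ^ (pf c).card * (nr h₁ * nr h₂) ^ δ * (1 + |v|) *
        ∑ b, ‖Lx (xi l (ka * vv b)) s₂‖ := by
        rw [show (8 : ℝ) = 4 * 2 by norm_num, mul_pow]; ring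
    _ ≤ C₁ * (C₂ * nr ka ^ η) * (nr h₁ * nr h₂) ^ δ * (1 + |v|) *
        ∑ b, ‖Lx (xi l (ka * vv b)) s₂‖ := by gcongr
    _ = _ := by ring

/-- The fourth moment of the family of L-functions. -/
def Lam (l : ℤ) (c₀ : O) (K : Finset O) (s : ℂ) : ℝ :=
  ∑ k ∈ K, ∑ a : ZMod 3 × ZMod 3, ‖Lx (xi l (k * c₀ * vv a)) s‖ ^ 4

theorem Lam_fe (l : ℤ) {δ η : ℝ} (h0 : 0 < δ) (h1 : δ ≤ 1 / 4) (hη : 0 < η) : ∃ C : ℝ, 0 < C ∧
    ∀ (R M : ℝ) (c₀ : O) (K : Finset O) (v : ℝ), 1 ≤ M → M ≤ R → c₀ ≠ 0 → nr c₀ ≤ R →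
      (∀ k ∈ K, k ≠ 0 ∧ nr k ≤ M ∧ 1 < cnd (k * c₀)) →
      Lam l c₀ K (((1 / 2 - δ : ℝ) : ℂ) + v * Complex.I) ≤
        C * R ^ (8 * η) * (M * nr (rad c₀)) ^ (4 * δ) * (1 + |v|) ^ 4 *
          Lam l c₀ K (((1 / 2 + δ : ℝ) : ℂ) + v * Complex.I) := by
  obtain ⟨C, hC, H⟩ := fe_ineq l h0 h1 hη
  refine ⟨9 ^ 4 * C ^ 4, by positivity, fun R M c₀ K v hM hMR hc₀ hcR hK => ?_⟩
  have hM0 : 0 < M := by linarith
  have hR0 : 0 < R := by linarith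
  rw [Lam, Lam, Finset.mul_sum]
  refine Finset.sum_le_sum fun k hk => ?_
  obtain ⟨b1, b2, b3⟩ := hK k hk
  set x : ZMod 3 × ZMod 3 → ℝ := fun b =>
    ‖Lx (xi l (k * c₀ * vv b)) (((1 / 2 + δ : ℝ) : ℂ) + v * Complex.I)‖ with hx
  have e2 : nr (k * c₀) ≤ R ^ 2 := by
    rw [nr, nm_mul, sq]
    push_cast
    exact mul_le_mul (b2.trans hMR) hcR (by positivity) hR0.le
  have e3 : cnd (k * c₀) ≤ M * nr (rad c₀) := (cnd_mul_le b1 hc₀).trans (by gcongr)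
  have e4 : (∑ b, x b) ^ 4 ≤ 9 ^ 3 * ∑ b, x b ^ 4 := by
    have := pow_sum_le_card_mul_sum_pow (s := (Finset.univ : Finset (ZMod 3 × ZMod 3))) (f := x)
      (fun b _ => norm_nonneg _) 3
    simpa using this
  have e5 : ((R ^ 2) ^ η) ^ 4 = R ^ (8 * η) := by
    rw [← Real.rpow_natCast R, ← Real.rpow_mul hR0.le, ← Real.rpow_natCast (R ^ _),
      ← Real.rpow_mul hR0.le]
    congr 1
    push_cast
    ring
  have e6 : ((M * nr (rad c₀)) ^ δ) ^ 4 = (M * nr (rad c₀)) ^ (4 * δ) := by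
    rw [← Real.rpow_natCast, ← Real.rpow_mul (by positivity), mul_comm δ]
    norm_num
  refine (Finset.sum_le_card_nsmul _ _ ((C * (R ^ 2) ^ η * (M * nr (rad c₀)) ^ δ * (1 + |v|)) ^ 4 *
    (9 ^ 3 * ∑ b, x b ^ 4)) fun a _ => ?_).trans (le_of_eq ?_)
  · calc _ ≤ (C * (R ^ 2) ^ η * (M * nr (rad c₀)) ^ δ * (1 + |v|) * ∑ b, x b) ^ 4 := by
          gcongr
          refine (H (k * c₀) a v (mul_ne_zero b1 hc₀) b3).trans ?_
          have : 0 ≤ cnd (k * c₀) := by linarith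
          gcongr
      _ ≤ _ := by rw [mul_pow _ (∑ b, x b)]; gcongr
  · change _ = _ * ∑ b, x b ^ 4
    simp only [Finset.card_univ, Fintype.card_prod, ZMod.card, nsmul_eq_mul, mul_pow, e5, e6]
    push_cast
    ring

end Crest.Agent.R12
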