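import Crest.Agent.R12.Main1
import Crest.Agent.R12.GlueC

/-!
# Row 12, analytic half: the main theorem
-/

set_option autoImplicit false

noncomputable section

namespace Crest.Agent.R12

open Crest.Agent.R17
open scoped ComplexConjugate Topology
open Filter MeasureTheory

theorem Main_mem {x : ℝ} (hx : 0 ≤ x) {p : O} :
    p ∈ primesLe ⌊x⌋₊ ↔ nr p ≤ x ∧ Prime p ∧ Primary p := by
  classical
  rw [primesLe, Finset.mem_filter, mem_ball, Nat.le_floor_iff hx, nr]

/-- Dyadic summation. -/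
theorem log_weighted (l : ℤ) {ε : ℝ} (hε : 0 < ε) : ∃ C : ℝ, ∀ x : ℝ, 0 ≤ x →
    ‖∑ p ∈ primesLe ⌊x⌋₊, dfc l p * (Real.log (nr p) : ℂ)‖ ≤ ε * x ^ (5 / 6 : ℝ) + C := by
  classical
  obtain ⟨C, X₀, hC, h⟩ := sharp_bound l
  set q : ℝ := (1 / 2 : ℝ) ^ (5 / 6 : ℝ) with hq
  have hq1 : q < 1 := Real.rpow_lt_one (by norm_num) (by norm_num) (by norm_num)
  have ht : Tendsto (fun X : ℝ => C * Real.log X ^ (-(1 / 5 : ℝ))) atTop (𝓝 (C * 0)) :=
    ((tendsto_rpow_neg_atTop (by norm_num)).comp Real.tendsto_log_atTop).const_mul C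
  rw [mul_zero] at ht
  obtain ⟨X₁, hX₁⟩ := eventually_atTop.1 (((ht.eventually_le_const
    (show 0 < ε * (1 - q) from mul_pos hε (by linarith))).and (eventually_ge_atTop X₀)).and
      (eventually_ge_atTop 1))
  have h1 : 1 ≤ X₁ := (hX₁ X₁ le_rfl).2
  set a : O → ℂ := fun p => dfc l p * (Real.log (nr p) : ℂ) with ha
  set C₀ := ∑ p ∈ primesLe ⌊X₁⌋₊, ‖a p‖ with hC₀
  have base : ∀ x : ℝ, 0 ≤ x → x ≤ X₁ →
      ‖∑ p ∈ primesLe ⌊x⌋₊, a p‖ ≤ ε * x ^ (5 / 6 : ℝ) + C₀ := fun x hx hx1 => by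
    refine (norm_sum_le _ _).trans (le_add_of_nonneg_of_le (by positivity) ?_)
    refine Finset.sum_le_sum_of_subset_of_nonneg (fun p hp => ?_) fun _ _ _ => norm_nonneg _
    rw [Main_mem hx] at hp
    exact (Main_mem (by linarith)).2 ⟨hp.1.trans hx1, hp.2⟩
  have key : ∀ (n : ℕ) (x : ℝ), 0 ≤ x → x ≤ X₁ * 2 ^ n →
      ‖∑ p ∈ primesLe ⌊x⌋₊, a p‖ ≤ ε * x ^ (5 / 6 : ℝ) + C₀ := fun n => by
    induction n with
    | zero => exact fun x hx hx1 => base x hx (by simpa using hx1)
    | succ n ih =>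
      intro x hx hx1
      rcases le_total x X₁ with h2 | h2
      · exact base x hx h2
      obtain ⟨⟨h3, h4⟩, -⟩ := hX₁ x h2
      have h5 := h x h4
      have h6 := ih (x / 2) (by linarith) (by rw [pow_succ] at hx1; linarith)
      have e : (primesLe ⌊x⌋₊).filter (fun p => ¬ x / 2 < nr p) = primesLe ⌊x / 2⌋₊ := by
        ext p
        rw [Finset.mem_filter, Main_mem hx, Main_mem (by linarith), not_lt]
        exact ⟨fun h => ⟨h.2, h.1.2⟩, fun h => ⟨⟨by linarith [h.1], h.2⟩, h.1⟩⟩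
      rw [← Finset.sum_filter_add_sum_filter_not _ (fun p => x / 2 < nr p), e]
      refine (norm_add_le_of_le h5 h6).trans ?_
      rw [div_eq_mul_one_div x 2, Real.mul_rpow hx (by norm_num), ← hq, mul_right_comm C]
      nlinarith [mul_le_mul_of_nonneg_right h3 (Real.rpow_nonneg hx (5 / 6))]
  refine ⟨C₀, fun x hx => ?_⟩
  obtain ⟨n, hn⟩ := pow_unbounded_of_one_lt x (show (1 : ℝ) < 2 by norm_num)
  exact key n x hx (hn.le.trans (le_mul_of_one_le_left (by positivity) h1))

/-- **Main theorem**: `N p ≤ √X` is trivial; on `√X < N p ≤ X` use `BVn.abel` with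
`φ(m) = log X / log m` (variation `≤ 8`) and `log_weighted`. -/
theorem mainO : MainO := by
  classical
  intro l
  have hc : 0 ≤ cP := div_nonneg (by positivity)
    (mul_nonneg (by norm_num) (Real.Gamma_pos_of_pos (by norm_num)).le)
  refine NormedAddGroup.tendsto_nhds_zero.2 fun ε hε => ?_
  obtain ⟨C, h⟩ := log_weighted l (ε := ε / 32) (by positivity)
  have ht := GlueC.tendsto_sqrt_div.const_mul (8 * (1 + cP) + 16 * |C|)
  rw [mul_zero] at ht
  filter_upwards [ht.eventually_lt_const (show 0 < ε / 2 by positivity),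
    eventually_ge_atTop 3] with X h1 hX
  have hX3 : (3 : ℝ) ≤ X := by exact_mod_cast hX
  have hX0 : (0 : ℝ) < X := by linarith
  set L := Real.log X with hL
  have hL1 : 1 ≤ L := by
    rw [hL, Real.le_log_iff_exp_le hX0]
    linarith [Real.exp_one_lt_d9]
  have hs1 : 1 ≤ Real.sqrt X := Real.one_le_sqrt.2 (by linarith)
  have hp0 : 0 < (X : ℝ) ^ (5 / 6 : ℝ) := by positivity
  set ψ : ℕ → ℝ := fun m => L / 2 / max (Real.log m) (L / 2) with hψ
  have hm0 : ∀ m : ℕ, 0 < max (Real.log m) (L / 2) := fun m => lt_max_of_lt_right (by linarith)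
  have hlog : Monotone fun m : ℕ => Real.log m := fun m n hmn => by
    rcases Nat.eq_zero_or_pos m with rfl | hm
    · simpa using Real.log_natCast_nonneg n
    · exact Real.log_le_log (by exact_mod_cast hm) (by exact_mod_cast hmn)
  have b1 := bvn_of_antitone (φ := ψ)
    (fun m n hmn => div_le_div_of_nonneg_left (by linarith) (hm0 m) (max_le_max_right _ (hlog hmn)))
    (fun m => div_nonneg (by linarith) (hm0 m).le)
    (fun m => (div_le_one (hm0 m)).2 (le_max_right _ _))
  have b2 := bvn_ind (P := fun m : ℕ => Real.sqrt X < m)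
    fun a b c hab _ ha _ => ha.trans_le (by exact_mod_cast hab)
  have b3 := (b2.mul b1).abel (fun p => Prime p ∧ Primary p)
    (fun p => dfc l p * (Real.log (nr p) : ℂ)) X (E := ε / 32 * (X : ℝ) ^ (5 / 6 : ℝ) + |C|)
    fun x hx => by
      have h2 := h x (Nat.cast_nonneg _)
      rw [Nat.floor_natCast] at h2
      rw [primesLe] at h2
      refine le_trans (le_of_eq_of_le (by congr) h2) (add_le_add ?_ (le_abs_self _))
      gcongr
  have e : (∑ p ∈ primesLe X, dfc l p) * (L : ℂ) =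
      (∑ p ∈ (primesLe X).filter (fun p => nr p ≤ Real.sqrt X), dfc l p) * (L : ℂ) +
        2 * ∑ p ∈ primesLe X, dfc l p * (Real.log (nr p) : ℂ) *
          ((if Real.sqrt X < nm p then 1 else 0) * (ψ (nm p) : ℂ)) := by
    rw [Finset.sum_filter, Finset.sum_mul, Finset.sum_mul, Finset.mul_sum,
      ← Finset.sum_add_distrib]
    refine Finset.sum_congr rfl fun p _ => ?_
    by_cases hp : nr p ≤ Real.sqrt X
    · rw [if_pos hp, if_neg (not_lt.2 hp)]
      ring
    · have hp' : Real.sqrt X < nm p := not_le.1 hp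
      have h3 : L / 2 ≤ Real.log (nm p) := by
        rw [hL, ← Real.log_sqrt hX0.le]
        exact Real.log_le_log (by linarith) hp'.le
      have h4 : (Real.log (nm p) : ℂ) ≠ 0 := Complex.ofReal_ne_zero.2 (by linarith)
      rw [if_neg hp, if_pos hp', hψ]
      simp only [max_eq_left h3, nr]
      push_cast at h4 ⊢
      field_simp
      ring
  have h5 : ‖∑ p ∈ (primesLe X).filter (fun p => nr p ≤ Real.sqrt X), dfc l p‖ ≤
      8 * (1 + cP) * Real.sqrt X := by
    refine (norm_sum_le _ _).trans ((Finset.sum_le_card_nsmul _ _ (1 + cP) fun p hp => ?_).trans ?_)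
    · obtain ⟨-, hp, hp'⟩ := Finset.mem_filter.1 (Finset.mem_filter.1 hp).1
      have := norm_ff_le l p
      rwa [ff, if_pos ⟨hp', hp.squarefree⟩] at this
    · have h6 := card_le_of_nr_le (K := (primesLe X).filter fun p => nr p ≤ Real.sqrt X)
        (Real.sqrt_nonneg X) fun p hp => ⟨(Finset.mem_filter.1
          (Finset.mem_filter.1 hp).1).2.1.ne_zero, (Finset.mem_filter.1 hp).2⟩
      rw [nsmul_eq_mul]
      nlinarith
  have h7 : ‖∑ p ∈ primesLe X, dfc l p‖ * L ≤
      (8 * (1 + cP) + 16 * |C|) * (Real.sqrt X * L) + ε / 2 * (X : ℝ) ^ (5 / 6 : ℝ) := by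
    have h8 := congrArg norm e
    rw [norm_mul, Complex.norm_real, Real.norm_of_nonneg (by linarith)] at h8
    rw [h8]
    refine (norm_add_le _ _).trans ?_
    rw [norm_mul, norm_mul, Complex.norm_real, Real.norm_of_nonneg (by linarith),
      Complex.norm_ofNat]
    have h9 : ‖∑ p ∈ primesLe X, dfc l p * (Real.log (nr p) : ℂ) *
        ((if Real.sqrt X < nm p then 1 else 0) * (ψ (nm p) : ℂ))‖ ≤
        2 * (2 * 2) * (ε / 32 * (X : ℝ) ^ (5 / 6 : ℝ) + |C|) := by
      convert b3; rw [primesLe]; congr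
    have h10 : 1 ≤ Real.sqrt X * L := one_le_mul_of_one_le_of_one_le hs1 hL1
    nlinarith [mul_le_mul_of_nonneg_right h5 (show 0 ≤ L by linarith), abs_nonneg C,
      mul_le_mul_of_nonneg_left h10 (abs_nonneg C)]
  rw [norm_div, Complex.norm_real, Real.norm_of_nonneg (by positivity), div_div_eq_mul_div,
    div_lt_iff₀ hp0]
  rw [GlueC.G, div_div_eq_mul_div, ← mul_div_assoc, div_lt_iff₀ hp0] at h1
  linarith

end Crest.Agent.R12
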