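import Crest.Agent.R12.WtC1

/-!
# Row 12, analytic half: the smooth steps are admissible
-/

set_option autoImplicit false

noncomputable section

namespace Crest.Agent.R12

open Crest.Agent.R17
open scoped ComplexConjugate Topology
open Filter MeasureTheory

/-- `w Φ(w)` -/
def WtC_g (T : ℝ) (w : ℂ) : ℂ :=
  Complex.exp (w ^ 2 / (4 * ((2 * T : ℝ) : ℂ) ^ 2)) - Complex.exp (w ^ 2 / (4 * (T : ℂ) ^ 2))

/-- the Mellin transform of `DT T` -/
def WtC_phi (T : ℝ) : ℂ → ℂ := dslope (WtC_g T) 0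

/-- the integrand of `Φ(w) = ∫_T^{2T} k τ w dτ` -/
def WtC_k (τ : ℝ) (w : ℂ) : ℂ :=
  -(w / (2 * (τ : ℂ) ^ 3)) * Complex.exp (w ^ 2 / (4 * (τ : ℂ) ^ 2))

/-- the common majorant of the Gaussians -/
def WtC_E (T : ℝ) (w : ℂ) : ℝ := Real.exp (w.re ^ 2 / (4 * T ^ 2) - w.im ^ 2 / (16 * T ^ 2))

theorem WtC_E_pos (T : ℝ) (w : ℂ) : 0 < WtC_E T w := Real.exp_pos _

theorem WtC_diff_g (T : ℝ) : Differentiable ℂ (WtC_g T) := by
  unfold WtC_g
  fun_prop

theorem WtC_diff_phi (T : ℝ) : Differentiable ℂ (WtC_phi T) :=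
  differentiableOn_univ.1 ((Complex.differentiableOn_dslope univ_mem).2
    (WtC_diff_g T).differentiableOn)

theorem WtC_mul_phi (T : ℝ) (w : ℂ) : w * WtC_phi T w = WtC_g T w := by
  have h := sub_smul_dslope (WtC_g T) 0 w
  have h0 : WtC_g T 0 = 0 := by simp [WtC_g]
  rwa [sub_zero, h0, sub_zero, smul_eq_mul] at h

theorem WtC_phi_zero (T : ℝ) : WtC_phi T 0 = 0 := by
  have h1 : ∀ a : ℂ, HasDerivAt (fun w : ℂ => Complex.exp (w ^ 2 / a)) 0 0 := by
    intro a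
    have := ((hasDerivAt_pow 2 (0 : ℂ)).div_const a).cexp
    simpa using this
  rw [WtC_phi, dslope_same]
  have := ((h1 (4 * ((2 * T : ℝ) : ℂ) ^ 2)).sub (h1 (4 * (T : ℂ) ^ 2))).deriv
  rw [sub_zero] at this
  exact this

theorem WtC_norm_exp {T τ : ℝ} (hT : 0 < T) (h1 : T ≤ τ) (h2 : τ ≤ 2 * T) (w : ℂ) :
    ‖Complex.exp (w ^ 2 / (4 * (τ : ℂ) ^ 2))‖ ≤ WtC_E T w := by
  have hτ : 0 < τ := hT.trans_le h1
  have e : (4 * (τ : ℂ) ^ 2) = ((4 * τ ^ 2 : ℝ) : ℂ) := by push_cast; ring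
  rw [Complex.norm_exp, e, Complex.div_ofReal_re, WtC_E, Real.exp_le_exp, sq w, Complex.mul_re,
    sub_div, ← sq, ← sq]
  have a1 : w.re ^ 2 / (4 * τ ^ 2) ≤ w.re ^ 2 / (4 * T ^ 2) := by gcongr
  have a2 : w.im ^ 2 / (16 * T ^ 2) ≤ w.im ^ 2 / (4 * τ ^ 2) :=
    div_le_div_of_nonneg_left (sq_nonneg _) (by positivity) (by nlinarith)
  linarith

theorem WtC_norm_k {T τ : ℝ} (hT : 0 < T) (h1 : T ≤ τ) (h2 : τ ≤ 2 * T) (w : ℂ) :
    ‖WtC_k τ w‖ ≤ ‖w‖ / (2 * T ^ 3) * WtC_E T w := by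
  have hτ : 0 < τ := hT.trans_le h1
  rw [WtC_k, norm_mul, norm_neg, norm_div, norm_mul, norm_pow, Complex.norm_real, Complex.norm_two,
    Real.norm_of_nonneg hτ.le]
  exact mul_le_mul (by gcongr) (WtC_norm_exp hT h1 h2 w) (norm_nonneg _) (by positivity)

theorem WtC_contOn_k {T : ℝ} (hT : 0 < T) (w : ℂ) :
    ContinuousOn (fun τ : ℝ => WtC_k τ w) (Set.uIcc T (2 * T)) := by
  intro τ hτ
  rw [Set.uIcc_of_le (by linarith)] at hτ
  have h0 : (τ : ℂ) ≠ 0 := Complex.ofReal_ne_zero.2 (hT.trans_le hτ.1).ne'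
  have h1 : (2 * (τ : ℂ) ^ 3) ≠ 0 := mul_ne_zero two_ne_zero (pow_ne_zero _ h0)
  have h2 : (4 * (τ : ℂ) ^ 2) ≠ 0 := mul_ne_zero (by norm_num) (pow_ne_zero _ h0)
  refine ContinuousAt.continuousWithinAt ?_
  unfold WtC_k
  fun_prop (disch := assumption)

theorem WtC_phi_eq {T : ℝ} (hT : 0 < T) (w : ℂ) :
    WtC_phi T w = ∫ τ in T..2 * T, WtC_k τ w := by
  by_cases hw : w = 0
  · rw [hw, WtC_phi_zero]
    simp [WtC_k]
  refine mul_left_cancel₀ hw ?_
  rw [WtC_mul_phi, ← intervalIntegral.integral_const_mul, WtC_g]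
  refine (intervalIntegral.integral_eq_sub_of_hasDerivAt
    (f := fun τ : ℝ => Complex.exp (w ^ 2 / (4 * (τ : ℂ) ^ 2))) (fun τ hτ => ?_)
    ((continuousOn_const.mul (WtC_contOn_k hT w)).intervalIntegrable)).symm
  rw [Set.uIcc_of_le (by linarith)] at hτ
  have h0 : (τ : ℂ) ≠ 0 := Complex.ofReal_ne_zero.2 (hT.trans_le hτ.1).ne'
  have h2 : (4 * (τ : ℂ) ^ 2) ≠ 0 := mul_ne_zero (by norm_num) (pow_ne_zero _ h0)
  have h3 := ((hasDerivAt_const (τ : ℂ) (w ^ 2)).div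
    ((hasDerivAt_pow 2 (τ : ℂ)).const_mul 4) h2).cexp.comp_ofReal
  refine h3.congr_deriv ?_
  simp only [WtC_k, Pi.div_apply, Pi.mul_apply]
  field_simp
  ring

theorem WtC_bound1 {T : ℝ} (hT : 0 < T) (w : ℂ) :
    ‖WtC_phi T w‖ ≤ ‖w‖ / (2 * T ^ 2) * WtC_E T w := by
  rw [WtC_phi_eq hT]
  refine (intervalIntegral.norm_integral_le_of_norm_le_const
    (C := ‖w‖ / (2 * T ^ 3) * WtC_E T w) fun τ hτ => ?_).trans (le_of_eq ?_)
  · rw [Set.uIoc_of_le (by linarith)] at hτ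
    exact WtC_norm_k hT hτ.1.le hτ.2 w
  · rw [abs_of_pos (by linarith)]
    field_simp
    ring

theorem WtC_bound2 {T : ℝ} (hT : 0 < T) (w : ℂ) : ‖w‖ * ‖WtC_phi T w‖ ≤ 2 * WtC_E T w := by
  rw [← norm_mul, WtC_mul_phi, WtC_g, two_mul (WtC_E T w)]
  exact (norm_sub_le _ _).trans (add_le_add (WtC_norm_exp hT (by linarith) le_rfl w)
    (WtC_norm_exp hT le_rfl (by linarith) w))

theorem WtC_bound3 {T : ℝ} (hT : 1 ≤ T) (w : ℂ) : T * ‖WtC_phi T w‖ ≤ 2 * WtC_E T w := by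
  have hT0 : 0 < T := by linarith
  have hE := WtC_E_pos T w
  rcases le_total T ‖w‖ with h | h
  · exact (mul_le_mul_of_nonneg_right h (norm_nonneg _)).trans (WtC_bound2 hT0 w)
  · refine (mul_le_mul_of_nonneg_left (WtC_bound1 hT0 w) hT0.le).trans ?_
    rw [← mul_assoc]
    refine mul_le_mul_of_nonneg_right ?_ hE.le
    rw [← mul_div_assoc, div_le_iff₀ (by positivity)]
    nlinarith

theorem WtC_int {b : ℝ} (hb : 0 < b) (A B d : ℝ) :
    Integrable fun u : ℝ => (A + B * |u + d|) * Real.exp (-b * (u + d) ^ 2) := by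
  have h : Integrable fun u : ℝ => (A + B * |u|) * Real.exp (-b * u ^ 2) := by
    refine (((integrable_exp_neg_mul_sq hb).const_mul A).add
      ((integrable_mul_exp_neg_mul_sq hb).abs.const_mul B)).congr
      (Eventually.of_forall fun u => ?_)
    simp only [Pi.add_apply, abs_mul, abs_of_pos (Real.exp_pos _)]
    ring
  exact h.comp_add_right d

theorem WtC_E_line (T : ℝ) (s₀ : ℂ) (u : ℝ) : WtC_E T (((0 : ℝ) : ℂ) + u * Complex.I + s₀) =
    Real.exp (s₀.re ^ 2 / (4 * T ^ 2)) * Real.exp (-(1 / (16 * T ^ 2)) * (u + s₀.im) ^ 2) := by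
  rw [WtC_E, ← Real.exp_add]
  congr 1
  simp only [Complex.add_re, Complex.add_im, Complex.ofReal_re, Complex.ofReal_im, Complex.mul_re,
    Complex.mul_im, Complex.I_re, Complex.I_im]
  ring

theorem WtC_norm_line (s₀ : ℂ) (u : ℝ) :
    ‖((0 : ℝ) : ℂ) + u * Complex.I + s₀‖ ≤ |s₀.re| + |u + s₀.im| := by
  refine (Complex.norm_le_abs_re_add_abs_im _).trans (le_of_eq ?_)
  simp

theorem WtC_norm_cpow {y : ℝ} (hy : 0 < y) (u : ℝ) :
    ‖(y : ℂ) ^ (-(((0 : ℝ) : ℂ) + u * Complex.I))‖ = 1 := by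
  rw [Complex.norm_cpow_eq_rpow_re_of_pos hy]
  simp

theorem WtC_cont_cpow {y : ℝ} (hy : 0 < y) :
    Continuous fun u : ℝ => (y : ℂ) ^ (-(((0 : ℝ) : ℂ) + u * Complex.I)) :=
  Continuous.const_cpow (by fun_prop) (Or.inl (Complex.ofReal_ne_zero.2 hy.ne'))

theorem WtC_intE {T : ℝ} (hT : 0 < T) (s₀ : ℂ) (A B : ℝ) : Integrable fun u : ℝ =>
    (A + B * |u + s₀.im|) * WtC_E T (((0 : ℝ) : ℂ) + u * Complex.I + s₀) := by
  refine ((WtC_int (b := 1 / (16 * T ^ 2)) (by positivity) A B s₀.im).const_mul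
    (Real.exp (s₀.re ^ 2 / (4 * T ^ 2)))).congr (Eventually.of_forall fun u => ?_)
  simp only [WtC_E_line]
  ring

/-- the Mellin transform of `log y` times the Gaussian -/
theorem WtC_line {τ y : ℝ} (hτ : 0 < τ) (hy : 0 < y) (s₀ : ℂ) :
    lineI 0 (fun s => WtC_k τ (s + s₀) * (y : ℂ) ^ (-s)) =
      -((Real.log y / Real.sqrt Real.pi * Real.exp (-(τ * Real.log y) ^ 2) : ℝ) : ℂ) *
        (y : ℂ) ^ s₀ := by
  have hy0 : (y : ℂ) ≠ 0 := Complex.ofReal_ne_zero.2 hy.ne'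
  have h0 : (τ : ℂ) ≠ 0 := Complex.ofReal_ne_zero.2 hτ.ne'
  let f : ℝ → ℂ := fun u => Complex.exp ((((0 : ℝ) : ℂ) + u * Complex.I + s₀) ^ 2 /
    (4 * (τ : ℂ) ^ 2)) * (y : ℂ) ^ (-(((0 : ℝ) : ℂ) + u * Complex.I))
  have hc : Continuous f := Continuous.mul (by fun_prop) (WtC_cont_cpow hy)
  have hn : ∀ u, ‖f u‖ ≤ WtC_E τ (((0 : ℝ) : ℂ) + u * Complex.I + s₀) := fun u => by
    simp only [f]
    rw [norm_mul, WtC_norm_cpow hy, mul_one]
    exact WtC_norm_exp hτ le_rfl (by linarith) _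
  have hf : Integrable f := by
    refine (WtC_intE hτ s₀ 1 0).mono' hc.aestronglyMeasurable (Eventually.of_forall fun u => ?_)
    simpa using hn u
  have hwf : Integrable fun u : ℝ => (((0 : ℝ) : ℂ) + u * Complex.I + s₀) * f u := by
    refine (WtC_intE hτ s₀ |s₀.re| 1).mono' (Continuous.mul (by fun_prop) hc).aestronglyMeasurable
      (Eventually.of_forall fun u => ?_)
    rw [norm_mul, one_mul]
    exact mul_le_mul (WtC_norm_line s₀ u) (hn u) (norm_nonneg _) (by positivity)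
  have hd : ∀ u : ℝ, HasDerivAt f
      (Complex.I / (2 * (τ : ℂ) ^ 2) * ((((0 : ℝ) : ℂ) + u * Complex.I + s₀) * f u) -
        Complex.I * (Real.log y : ℂ) * f u) u := by
    intro u
    have a0 : HasDerivAt (fun z : ℂ => ((0 : ℝ) : ℂ) + z * Complex.I) Complex.I (u : ℂ) := by
      simpa using ((hasDerivAt_id (u : ℂ)).mul_const Complex.I).const_add ((0 : ℝ) : ℂ)
    have a1 := (((a0.add_const s₀).pow 2).div_const (4 * (τ : ℂ) ^ 2)).cexp
    have a2 := a0.neg.const_cpow (c := (y : ℂ)) (Or.inl hy0)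
    refine (a1.mul a2).comp_ofReal.congr_deriv ?_
    simp only [f, Complex.ofReal_log hy.le, Pi.pow_apply, Pi.neg_apply]
    field_simp
    ring
  have hz := integral_eq_zero_of_hasDerivAt_of_integrable hd
    ((hwf.const_mul _).sub (hf.const_mul _)) hf
  rw [integral_sub (hwf.const_mul _) (hf.const_mul _), integral_const_mul, integral_const_mul,
    sub_eq_zero] at hz
  have hg := gauss_eq_lineI hτ hy s₀
  have e1 : lineI 0 (fun s => WtC_k τ (s + s₀) * (y : ℂ) ^ (-s)) =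
      (1 / (2 * Real.pi) : ℂ) * (-(1 / (2 * (τ : ℂ) ^ 3)) *
        ∫ u : ℝ, (((0 : ℝ) : ℂ) + u * Complex.I + s₀) * f u) := by
    rw [lineI, ← integral_const_mul (-(1 / (2 * (τ : ℂ) ^ 3)))]
    congr 1
    refine integral_congr_ae (Eventually.of_forall fun u => ?_)
    simp only [WtC_k, f]
    ring
  have e2 : lineI 0 (fun s => Complex.exp ((s + s₀) ^ 2 / (4 * (τ : ℂ) ^ 2)) * (y : ℂ) ^ (-s)) =
      (1 / (2 * Real.pi) : ℂ) * ∫ u : ℝ, f u := rfl
  have e3 : ∫ u : ℝ, (((0 : ℝ) : ℂ) + u * Complex.I + s₀) * f u =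
      2 * (τ : ℂ) ^ 2 * (Real.log y : ℂ) * ∫ u : ℝ, f u := by
    have hI := Complex.I_ne_zero
    generalize ∫ u : ℝ, (((0 : ℝ) : ℂ) + u * Complex.I + s₀) * f u = A at hz ⊢
    field_simp at hz
    linear_combination hz
  rw [e2] at hg
  rw [e1, e3]
  push_cast at hg ⊢
  field_simp at hg ⊢
  linear_combination (Real.log y : ℂ) * hg

theorem WtC_rep {T y : ℝ} (hT : 0 < T) (hy : 0 < y) (s₀ : ℂ) :
    ((DT T y : ℝ) : ℂ) * (y : ℂ) ^ s₀ =
      lineI 0 fun s => WtC_phi T (s + s₀) * (y : ℂ) ^ (-s) := by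
  have hint : Integrable (Function.uncurry fun (τ u : ℝ) =>
      WtC_k τ (((0 : ℝ) : ℂ) + u * Complex.I + s₀) * (y : ℂ) ^ (-(((0 : ℝ) : ℂ) + u * Complex.I)))
      ((volume.restrict (Set.uIoc T (2 * T))).prod volume) := by
    have : IsFiniteMeasure (volume.restrict (Set.uIoc T (2 * T))) :=
      isFiniteMeasure_restrict.2 (by simp)
    refine ((WtC_intE hT s₀ (|s₀.re| / (2 * T ^ 3)) (1 / (2 * T ^ 3))).comp_snd _).mono' ?_ ?_
    · refine Measurable.aestronglyMeasurable (Measurable.mul ?_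
        ((WtC_cont_cpow hy).measurable.comp measurable_snd))
      unfold WtC_k
      fun_prop
    · have h1 : ∀ᵐ p : ℝ × ℝ ∂((volume.restrict (Set.uIoc T (2 * T))).prod volume),
          p.1 ∈ Set.uIoc T (2 * T) :=
        Measure.quasiMeasurePreserving_fst.ae (ae_restrict_mem measurableSet_uIoc)
      filter_upwards [h1] with p hp
      rw [Set.uIoc_of_le (by linarith)] at hp
      rw [Function.uncurry, norm_mul, WtC_norm_cpow hy, mul_one]
      refine (WtC_norm_k hT hp.1.le hp.2 _).trans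
        (mul_le_mul_of_nonneg_right ?_ (WtC_E_pos _ _).le)
      rw [one_div, inv_mul_eq_div, ← add_div]
      exact div_le_div_of_nonneg_right (WtC_norm_line s₀ p.2) (by positivity)
  have hsw := intervalIntegral_integral_swap hint
  have e1 : (lineI 0 fun s => WtC_phi T (s + s₀) * (y : ℂ) ^ (-s)) =
      ∫ τ in T..2 * T, lineI 0 (fun s => WtC_k τ (s + s₀) * (y : ℂ) ^ (-s)) := by
    simp only [lineI]
    rw [intervalIntegral.integral_const_mul, hsw]
    simp only [WtC_phi_eq hT, intervalIntegral.integral_mul_const]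
  have e2 : ∫ τ in T..2 * T, lineI 0 (fun s => WtC_k τ (s + s₀) * (y : ℂ) ^ (-s)) =
      ∫ τ in T..2 * T,
        -((Real.log y / Real.sqrt Real.pi * Real.exp (-(τ * Real.log y) ^ 2) : ℝ) : ℂ) *
          (y : ℂ) ^ s₀ := by
    refine intervalIntegral.integral_congr fun τ hτ => ?_
    rw [Set.uIcc_of_le (by linarith)] at hτ
    exact WtC_line (hT.trans_le hτ.1) hy s₀
  rw [e1, e2, intervalIntegral.integral_mul_const, intervalIntegral.integral_neg,
    intervalIntegral.integral_ofReal, intervalIntegral.integral_const_mul, ← Complex.ofReal_neg]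
  congr 2
  have e3 := intervalIntegral.smul_integral_comp_mul_right (fun u : ℝ => Real.exp (-u ^ 2))
    (a := T) (b := 2 * T) (Real.log y)
  rw [DT, Ec_sub, intervalIntegral.integral_symm, ← e3, smul_eq_mul]
  ring

theorem WtC_abs_DT (T y : ℝ) : |DT T y| ≤ Real.exp (-(T * Real.log y) ^ 2) := by
  have key : ∀ x : ℝ, 0 ≤ x → |Ec (2 * x) - Ec x| ≤ Real.exp (-x ^ 2) := by
    intro x hx
    have h1 := Ec_le_exp hx
    have h2 := Ec_nonneg (2 * x)
    have h3 : Ec (2 * x) ≤ Ec x := antitone_Ec (by linarith)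
    have h4 := Real.exp_pos (-x ^ 2)
    rw [abs_le]
    constructor <;> linarith
  rw [DT, mul_assoc]
  generalize T * Real.log y = x
  rcases le_total 0 x with hx | hx
  · exact key x hx
  · have h := key (-x) (by linarith)
    have h1 := Ec_add_neg x
    have h2 := Ec_add_neg (2 * x)
    rw [neg_sq, mul_neg, abs_sub_comm] at h
    rwa [show Ec (2 * x) - Ec x = Ec (-x) - Ec (-(2 * x)) by linarith]

theorem WtC_sp {T y : ℝ} (hT : 4 ≤ T) (hy : 0 < y) {s₀ : ℂ} (hs : ‖s₀‖ ≤ 1) :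
    ‖(((8 * Real.exp 2)⁻¹ * DT T y : ℝ) : ℂ) * (y : ℂ) ^ s₀‖ ≤
      Real.exp (-(2 * T) * |Real.log y|) := by
  have h1 : ‖(y : ℂ) ^ s₀‖ ≤ Real.exp |Real.log y| := by
    rw [Complex.norm_cpow_eq_rpow_re_of_pos hy, Real.rpow_def_of_pos hy, Real.exp_le_exp]
    refine (le_abs_self _).trans ?_
    rw [abs_mul]
    exact mul_le_of_le_one_right (abs_nonneg _) ((Complex.abs_re_le_norm s₀).trans hs)
  have h2 : (8 * Real.exp 2)⁻¹ ≤ Real.exp (-2) := by
    rw [Real.exp_neg]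
    exact inv_anti₀ (Real.exp_pos 2) (by linarith [Real.exp_pos 2])
  rw [norm_mul, Complex.norm_real, Real.norm_eq_abs, abs_mul, abs_of_pos (by positivity)]
  calc _ ≤ Real.exp (-2) * Real.exp (-(T * Real.log y) ^ 2) * Real.exp |Real.log y| := by
        gcongr
        exact WtC_abs_DT T y
    _ ≤ _ := by
        rw [← Real.exp_add, ← Real.exp_add, Real.exp_le_exp, mul_pow, ← sq_abs (Real.log y)]
        have h3 := abs_nonneg (Real.log y)
        generalize |Real.log y| = L at h3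
        have h4 : 4 * L ≤ T * L := mul_le_mul_of_nonneg_right hT h3
        nlinarith [sq_nonneg (T * L - 9 / 8)]

theorem WtC_E_le {T : ℝ} (hT : 4 ≤ T) {s s₀ : ℂ} (hs : |s.re| ≤ 2) (hs₀ : ‖s₀‖ ≤ 1) :
    WtC_E T (s + s₀) ≤ Real.exp 2 * Real.exp (-|s.im| / (2 * T)) := by
  have hT0 : 0 < T := by linarith
  have h1 : |(s + s₀).re| ≤ 3 := by
    rw [Complex.add_re]
    linarith [abs_add_le s.re s₀.re, Complex.abs_re_le_norm s₀]
  have h2 : |s.im| ≤ |(s + s₀).im| + 1 := by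
    have := abs_sub (s + s₀).im s₀.im
    rw [Complex.add_im, add_sub_cancel_right, ← Complex.add_im] at this
    linarith [Complex.abs_im_le_norm s₀]
  rw [WtC_E, ← Real.exp_add, Real.exp_le_exp, ← sq_abs (s + s₀).re, ← sq_abs (s + s₀).im]
  have h3 := abs_nonneg (s + s₀).re
  generalize |(s + s₀).re| = a at *
  generalize |(s + s₀).im| = b at *
  have h4 : a ^ 2 / (4 * T ^ 2) ≤ 1 / 2 := by
    rw [div_le_iff₀ (by positivity)]
    nlinarith
  have h5 : b / (2 * T) - 1 ≤ b ^ 2 / (16 * T ^ 2) := by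
    have e1 : b / (2 * T) = 2 * (b / (4 * T)) := by field_simp; ring
    have e2 : b ^ 2 / (16 * T ^ 2) = (b / (4 * T)) ^ 2 := by field_simp; ring
    rw [e1, e2]
    nlinarith [sq_nonneg (b / (4 * T) - 1)]
  have h6 : |s.im| / (2 * T) ≤ b / (2 * T) + 1 / 2 := by
    have : 1 / (2 * T) ≤ 1 / 2 := one_div_le_one_div_of_le two_pos (by linarith)
    have h7 : |s.im| / (2 * T) ≤ (b + 1) / (2 * T) := by gcongr
    rw [add_div] at h7
    linarith
  rw [neg_div]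
  linarith

theorem WtC_strip {T : ℝ} (hT : 1 ≤ T) (c : ℂ) (s₀ : ℂ) :
    StripDecay fun s => c * WtC_phi T (s + s₀) := by
  have hT0 : 0 < T := by linarith
  refine ⟨((WtC_diff_phi T).comp (differentiable_id.add_const s₀)).const_mul c, fun a b => ?_⟩
  refine ⟨‖c‖ * (2 * Real.exp ((|a| + |b| + |s₀.re|) ^ 2 / (4 * T ^ 2) + 400 * T ^ 2 +
    10 * |s₀.im|)), fun s ha hb => ?_⟩
  rw [norm_mul, mul_assoc, mul_assoc]
  refine mul_le_mul_of_nonneg_left ?_ (norm_nonneg _)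
  refine (le_mul_of_one_le_left (norm_nonneg _) hT).trans ((WtC_bound3 hT _).trans ?_)
  refine mul_le_mul_of_nonneg_left ?_ zero_le_two
  have h1 : |(s + s₀).re| ≤ |a| + |b| + |s₀.re| := by
    have : |s.re| ≤ |a| + |b| := abs_le.2
      ⟨by linarith [neg_abs_le a, abs_nonneg b], by linarith [le_abs_self b, abs_nonneg a]⟩
    rw [Complex.add_re]
    linarith [abs_add_le s.re s₀.re]
  have h2 : |s.im| ≤ |(s + s₀).im| + |s₀.im| := by
    have := abs_sub (s + s₀).im s₀.im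
    rwa [Complex.add_im, add_sub_cancel_right, ← Complex.add_im] at this
  rw [WtC_E, ← Real.exp_add, Real.exp_le_exp, ← sq_abs (s + s₀).re, ← sq_abs (s + s₀).im]
  have h3 : |(s + s₀).re| ^ 2 / (4 * T ^ 2) ≤ (|a| + |b| + |s₀.re|) ^ 2 / (4 * T ^ 2) := by
    gcongr
  generalize |(s + s₀).im| = t at *
  have h5 : 10 * t - 400 * T ^ 2 ≤ t ^ 2 / (16 * T ^ 2) := by
    rw [le_div_iff₀ (by positivity)]
    nlinarith [sq_nonneg (t - 80 * T ^ 2)]
  linarith

/-- `Φ(s) = (exp (s²/16T²) - exp (s²/4T²)) / s = -s ∫_{1/16T²}^{1/4T²} exp (s² u) du`; the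
representation follows from `∂_τ Ec (τ log y) = -(log y / √π) exp (-τ² log² y)` and the
`s₀`-derivative of `gauss_eq_lineI`, or from `Ec (T log y) = lim_{R → ∞} ∫_0^R` of the Gaussians. -/
theorem admS_DT : ∃ c : ℝ, 0 < c ∧ ∀ T : ℝ, 4 ≤ T →
    ∃ Φ : ℂ → ℂ, AdmS (fun y => ((c * DT T y : ℝ) : ℂ)) Φ (2 * T) T := by
  have hc : 0 < (8 * Real.exp 2)⁻¹ := by positivity
  have he := Real.exp_pos 2
  refine ⟨(8 * Real.exp 2)⁻¹, hc, fun T hT =>
    ⟨fun s => (((8 * Real.exp 2)⁻¹ : ℝ) : ℂ) * WtC_phi T s, fun s₀ hs₀ => ?_⟩⟩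
  have hT0 : 0 < T := by linarith
  have hT1 : 1 ≤ T := by linarith
  refine ⟨hT1, by linarith, WtC_strip hT1 _ s₀, fun y hy => ?_, fun s hs => ?_, fun s hs => ?_,
    fun y hy => ?_, fun y hy _ => WtC_sp hT hy hs₀⟩
  · dsimp only
    rw [Complex.ofReal_mul, mul_assoc, WtC_rep hT0 hy]
    simp only [lineI, mul_assoc, integral_const_mul]
    ring
  · have h1 := WtC_bound2 hT0 (s + s₀)
    have h2 := (le_mul_of_one_le_left (norm_nonneg _) hT1).trans (WtC_bound3 hT1 (s + s₀))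
    have h3 := WtC_E_le hT hs hs₀
    have h4 : |s.im| ≤ ‖s + s₀‖ + 1 := by
      have := norm_sub_le (s + s₀) s₀
      rw [add_sub_cancel_right] at this
      linarith [Complex.abs_im_le_norm s]
    have h5 := mul_le_mul_of_nonneg_right h4 (norm_nonneg (WtC_phi T (s + s₀)))
    have h6 := WtC_E_pos T (s + s₀)
    rw [norm_mul, Complex.norm_real, Real.norm_of_nonneg hc.le, inv_mul_le_iff₀ (by positivity),
      mul_left_comm, le_inv_mul_iff₀ (by positivity)]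
    nlinarith
  · have h2 := WtC_bound3 hT1 (s + s₀)
    have h3 := WtC_E_le hT hs hs₀
    have h4 : Real.exp (-|s.im| / (2 * T)) ≤ 1 :=
      Real.exp_le_one_iff.2 (div_nonpos_of_nonpos_of_nonneg (neg_nonpos.2 (abs_nonneg _))
        (by positivity))
    rw [norm_mul, Complex.norm_real, Real.norm_of_nonneg hc.le, inv_mul_le_iff₀ (by positivity),
      le_mul_inv_iff₀ hT0]
    nlinarith
  · refine (WtC_sp hT hy hs₀).trans (Real.exp_le_exp.2 ?_)
    nlinarith [abs_nonneg (Real.log y)]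

end Crest.Agent.R12
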