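import Crest.Agent.R12.CmbJ
import Crest.Agent.R12.WtC
import Crest.Agent.R12.GlueDefs

/-!
# Row 12, analytic half: the main theorem
-/

set_option autoImplicit false

noncomputable section

namespace Crest.Agent.R12

open Crest.Agent.R17
open scoped ComplexConjugate Topology
open Filter MeasureTheory

open Classical in
/-- The terms of `PSum`. -/
def Main0_t (l : ℤ) (v : ℝ → ℂ) (X : ℝ) (n : O) : ℂ :=
  if Prime n then ff l n * (Real.log (nr n) : ℂ) * v (nr n / X) else 0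

theorem Main0_PSum (l : ℤ) (v : ℝ → ℂ) (X : ℝ) : PSum l v X = ∑' n, Main0_t l v X n := rfl

theorem Main0_summable (l : ℤ) : ∃ X₀ : ℝ, ∀ X ≥ X₀, ∀ (v : ℝ → ℂ) (Φ : ℂ → ℂ) (T T₁ : ℝ),
    AdmS v Φ T T₁ → Real.log X ^ 2 ≤ T → Summable (Main0_t l v X) := by
  obtain ⟨X₀, h⟩ := Adm.tail_le
  refine ⟨X₀, fun X hX v Φ T T₁ hv hT => ?_⟩
  have h1 := (h X hX _ _ T T₁ (hv 0 (by simp)) hT).2.1
  simp only [Complex.cpow_zero, mul_one] at h1
  refine Summable.of_norm_bounded (h1.mul_left (1 + cP)) fun n => ?_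
  have hc := AFa_cP_pos
  unfold Main0_t
  split_ifs with hn
  · have h2 := one_le_nr hn.ne_zero
    rw [norm_mul, norm_mul, Complex.norm_real, Real.norm_of_nonneg (Real.log_nonneg h2), mul_assoc]
    refine mul_le_mul (norm_ff_le l n) (mul_le_mul_of_nonneg_right ?_ (norm_nonneg _))
      (mul_nonneg (Real.log_nonneg h2) (norm_nonneg _)) (by positivity)
    linarith [Real.log_le_sub_one_of_pos (x := nr n) (by linarith)]
  · rw [norm_zero]; positivity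

theorem Main0_scale (l : ℤ) {c : ℝ} (hc : 0 < c) (g : ℝ → ℝ) (X : ℝ) {B : ℝ}
    (h1 : Summable (Main0_t l (fun y => ((c * g y : ℝ) : ℂ)) X))
    (h2 : ‖PSum l (fun y => ((c * g y : ℝ) : ℂ)) X‖ ≤ B) :
    Summable (Main0_t l (fun y => (g y : ℂ)) X) ∧ ‖PSum l (fun y => (g y : ℂ)) X‖ ≤ c⁻¹ * B := by
  have hc' : (c : ℂ) ≠ 0 := by exact_mod_cast hc.ne'
  have e : Main0_t l (fun y => (g y : ℂ)) X =
      fun n => (c : ℂ)⁻¹ * Main0_t l (fun y => ((c * g y : ℝ) : ℂ)) X n := by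
    funext n
    unfold Main0_t
    split_ifs
    · push_cast; field_simp
    · rw [mul_zero]
  refine ⟨e ▸ h1.mul_left _, ?_⟩
  rw [Main0_PSum, e, tsum_mul_left, norm_mul, norm_inv, Complex.norm_real, Real.norm_of_nonneg hc.le]
  exact mul_le_mul_of_nonneg_left h2 (by positivity)

theorem Main0_DT (l : ℤ) : ∃ (c : ℕ) (C X₀ : ℝ), 2 ≤ c ∧ 0 < C ∧ ∀ X ≥ X₀, ∀ T : ℝ, 4 ≤ T →
    1 ≤ Real.log X → Real.log X ^ c ≤ 2 * T → 2 * T ≤ 8 * X ^ (1 / 6 : ℝ) * Real.log X ^ 3 →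
    Summable (Main0_t l (fun y => (DT T y : ℂ)) X) ∧
      ‖PSum l (fun y => (DT T y : ℂ)) X‖ ≤ C * X ^ (5 / 6 : ℝ) / Real.log X ^ 2 := by
  obtain ⟨c, C, X₀, hc, hC, h⟩ := regime_thin l
  obtain ⟨X₁, h₁⟩ := Main0_summable l
  obtain ⟨a, ha, h₂⟩ := admS_DT
  refine ⟨c, a⁻¹ * C, max X₀ X₁, hc, by positivity, fun X hX T hT hL h1 h2 => ?_⟩
  obtain ⟨Φ, hΦ⟩ := h₂ T hT
  have b1 := h X ((le_max_left _ _).trans hX) _ Φ (2 * T)
    (by rwa [mul_div_cancel_left₀ T two_ne_zero]) h1 h2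
  have b2 := h₁ X ((le_max_right _ _).trans hX) _ Φ _ _ hΦ ((pow_le_pow_right₀ hL hc).trans h1)
  have b3 := Main0_scale l ha (DT T) X b2 b1
  refine ⟨b3.1, b3.2.trans (le_of_eq ?_)⟩
  ring

theorem Main0_step (l : ℤ) : ∃ (c : ℕ) (C X₀ : ℝ), 2 ≤ c ∧ 0 < C ∧ ∀ X ≥ X₀, ∀ T B : ℝ,
    Real.log X ^ c ≤ T → T ≤ X ^ (1 / 6 : ℝ) * Real.log X ^ 3 →
    Summable (Main0_t l (fun y => (VT T y : ℂ)) X) → ‖PSum l (fun y => (VT T y : ℂ)) X‖ ≤ B →
    Summable (Main0_t l (fun y => (VT (2 * T) y : ℂ)) X) ∧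
      ‖PSum l (fun y => (VT (2 * T) y : ℂ)) X‖ ≤ B + C * X ^ (5 / 6 : ℝ) / Real.log X ^ 2 := by
  obtain ⟨c, C, X₀, hc, hC, h⟩ := Main0_DT l
  refine ⟨c, 5 * C, max (2 * |X₀|) (Real.exp 10), hc, by positivity,
    fun X hX T B h1 h2 s0 b0 => ?_⟩
  have hX1 : 2 * |X₀| ≤ X := (le_max_left _ _).trans hX
  have hX2 : Real.exp 10 ≤ X := (le_max_right _ _).trans hX
  have hX0 : 0 < X := (Real.exp_pos _).trans_le hX2
  have hL : 10 ≤ Real.log X := (Real.le_log_iff_exp_le hX0).2 hX2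
  have hl := Real.log_two_gt_d9
  have hl' := Real.log_two_lt_d9
  have hL2 : Real.log (X / 2) = Real.log X - Real.log 2 := Real.log_div hX0.ne' two_ne_zero
  have hT : 4 ≤ T := by
    have := (pow_le_pow_right₀ (by linarith) hc).trans h1
    nlinarith
  have p1 : 0 < X ^ (1 / 6 : ℝ) := by positivity
  have p2 : 0 < X ^ (5 / 6 : ℝ) := by positivity
  have p3 : 0 < X ^ (1 / 6 : ℝ) * Real.log X ^ 3 := by positivity
  obtain ⟨s1, b1⟩ := h X (by linarith [le_abs_self X₀, abs_nonneg X₀]) T hT (by linarith)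
    (by linarith) (by linarith)
  have q1 : Real.log (X / 2) ^ c ≤ Real.log X ^ c :=
    pow_le_pow_left₀ (by linarith) (by linarith) c
  have q2 : X ^ (1 / 6 : ℝ) / 2 ≤ (X / 2) ^ (1 / 6 : ℝ) := by
    rw [Real.div_rpow hX0.le zero_le_two]
    refine div_le_div_of_nonneg_left p1.le (by positivity) ?_
    simpa using Real.rpow_le_rpow_of_exponent_le one_le_two (show (1 / 6 : ℝ) ≤ 1 by norm_num)
  have q3 : (9 / 10 * Real.log X) ^ 3 ≤ Real.log (X / 2) ^ 3 :=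
    pow_le_pow_left₀ (by linarith) (by linarith) 3
  have q4 := mul_le_mul q2 q3 (by positivity) (by positivity)
  obtain ⟨s2, b2⟩ := h (X / 2) (by linarith [le_abs_self X₀]) T hT (by linarith)
    (by linarith) (by nlinarith)
  have b3 : C * (X / 2) ^ (5 / 6 : ℝ) / Real.log (X / 2) ^ 2 ≤
      4 * (C * X ^ (5 / 6 : ℝ) / Real.log X ^ 2) := by
    have r1 : (X / 2) ^ (5 / 6 : ℝ) ≤ X ^ (5 / 6 : ℝ) :=
      Real.rpow_le_rpow (by positivity) (by linarith) (by norm_num)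
    have r2 : (Real.log X / 2) ^ 2 ≤ Real.log (X / 2) ^ 2 :=
      pow_le_pow_left₀ (by linarith) (by linarith) 2
    calc _ ≤ C * X ^ (5 / 6 : ℝ) / (Real.log X / 2) ^ 2 :=
          div_le_div₀ (by positivity) (mul_le_mul_of_nonneg_left r1 hC.le) (by positivity) r2
      _ = _ := by field_simp; ring
  have e : Main0_t l (fun y => (VT (2 * T) y : ℂ)) X = fun n =>
      Main0_t l (fun y => (VT T y : ℂ)) X n + Main0_t l (fun y => (DT T y : ℂ)) X n -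
        Main0_t l (fun y => (DT T y : ℂ)) (X / 2) n := by
    funext n
    unfold Main0_t
    split_ifs
    · have : nr n / (X / 2) = 2 * (nr n / X) := by field_simp
      simp only [VT_two_mul, this]
      push_cast
      ring
    · simp
  refine ⟨e ▸ (s0.add s1).sub s2, ?_⟩
  rw [Main0_PSum, e, (s0.add s1).tsum_sub s2, s0.tsum_add s1, ← Main0_PSum, ← Main0_PSum,
    ← Main0_PSum]
  refine (norm_sub_le _ _).trans ((add_le_add (norm_add_le _ _) (b2.trans b3)).trans ?_)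
  have : 5 * C * X ^ (5 / 6 : ℝ) / Real.log X ^ 2 = 5 * (C * X ^ (5 / 6 : ℝ) / Real.log X ^ 2) := by
    ring
  linarith

/-- `VT_two_mul` iterated from `T₀ = (log X)^c` to the first `T_J = 2^J T₀ ≥ X^{1/6} log³ X`;
`regime_a` for `VT T₀`, `regime_thin` for `DT T_j` at the scales `X` and `X/2` (`J ≤ log X`). -/
theorem smooth_bound (l : ℤ) : ∃ C X₀ : ℝ, 0 < C ∧ ∀ X ≥ X₀, ∃ T : ℝ,
    X ^ (1 / 6 : ℝ) * Real.log X ^ 3 ≤ T ∧ ‖PSum l (fun y => (VT T y : ℂ)) X‖ ≤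
      C * X ^ (5 / 6 : ℝ) * Real.log X ^ (-(1 / 5 : ℝ)) := by
  classical
  obtain ⟨c, C, X₀, hc, hC, h⟩ := Main0_step l
  obtain ⟨C₁, X₁, hC₁, h₁⟩ := regime_a l c
  obtain ⟨X₂, h₂⟩ := Main0_summable l
  obtain ⟨a, ha, h₃⟩ := admS_VT
  refine ⟨a⁻¹ * C₁ + 3 * C, max (max X₀ X₁) (max X₂ (Real.exp 10)), by positivity,
    fun X hX => ?_⟩
  have hX0' : X₀ ≤ X := le_trans ((le_max_left _ _).trans (le_max_left _ _)) hX
  have hX1 : X₁ ≤ X := le_trans ((le_max_right _ _).trans (le_max_left _ _)) hX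
  have hX2 : X₂ ≤ X := le_trans ((le_max_left _ _).trans (le_max_right _ _)) hX
  have hX3 : Real.exp 10 ≤ X := le_trans ((le_max_right _ _).trans (le_max_right _ _)) hX
  have hX0 : 0 < X := (Real.exp_pos _).trans_le hX3
  have hL : 10 ≤ Real.log X := (Real.le_log_iff_exp_le hX0).2 hX3
  have hT2 : Real.log X ^ 2 ≤ Real.log X ^ c := pow_le_pow_right₀ (by linarith) hc
  have hT0 : 0 < Real.log X ^ c := by positivity
  obtain ⟨Φ, hΦ⟩ := h₃ (Real.log X ^ c) (by nlinarith)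
  obtain ⟨s0, b0⟩ := Main0_scale l ha (VT (Real.log X ^ c)) X (h₂ X hX2 _ Φ _ _ hΦ hT2)
    (h₁ X hX1 _ Φ _ _ hΦ hT2 le_rfl)
  have key : ∀ j : ℕ,
      (∀ i < j, ¬ X ^ (1 / 6 : ℝ) * Real.log X ^ 3 ≤ 2 ^ i * Real.log X ^ c) →
      Summable (Main0_t l (fun y => (VT (2 ^ j * Real.log X ^ c) y : ℂ)) X) ∧
        ‖PSum l (fun y => (VT (2 ^ j * Real.log X ^ c) y : ℂ)) X‖ ≤
          a⁻¹ * (C₁ * X ^ (5 / 6 : ℝ) * Real.log X ^ (-(1 / 5 : ℝ))) +
            j * (C * X ^ (5 / 6 : ℝ) / Real.log X ^ 2) := by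
    intro j
    induction j with
    | zero =>
      intro _
      rw [pow_zero, one_mul, Nat.cast_zero, zero_mul, add_zero]
      exact ⟨s0, b0⟩
    | succ j ih =>
      intro hj
      obtain ⟨s1, b1⟩ := ih fun i hi => hj i (hi.trans (Nat.lt_succ_self j))
      have := h X hX0' _ _ (le_mul_of_one_le_left hT0.le (one_le_pow₀ one_le_two))
        (not_le.1 (hj j (Nat.lt_succ_self j))).le s1 b1
      rw [← mul_assoc, ← pow_succ'] at this
      refine ⟨this.1, this.2.trans (le_of_eq ?_)⟩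
      push_cast
      ring
  have hj₀ : X ^ (1 / 6 : ℝ) * Real.log X ^ 3 ≤ 2 ^ ⌈2 * Real.log X⌉₊ * Real.log X ^ c := by
    have hl := Real.log_two_gt_d9
    have e1 : (2 : ℝ) ^ ⌈2 * Real.log X⌉₊ = Real.exp (⌈2 * Real.log X⌉₊ * Real.log 2) := by
      rw [Real.exp_nat_mul, Real.exp_log two_pos]
    have e2 : X ^ (1 / 6 : ℝ) * Real.log X ≤ 2 ^ ⌈2 * Real.log X⌉₊ := by
      have e3 := Nat.le_ceil (2 * Real.log X)
      have e4 : Real.log X ≤ Real.exp (Real.log X) := by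
        linarith [Real.add_one_le_exp (Real.log X)]
      rw [e1, Real.rpow_def_of_pos hX0]
      refine (mul_le_mul_of_nonneg_left e4 (Real.exp_pos _).le).trans ?_
      rw [← Real.exp_add]
      refine Real.exp_le_exp.2 ?_
      nlinarith
    calc X ^ (1 / 6 : ℝ) * Real.log X ^ 3 = X ^ (1 / 6 : ℝ) * Real.log X * Real.log X ^ 2 := by ring
      _ ≤ _ := mul_le_mul e2 hT2 (by positivity) (by positivity)
  have hex : ∃ j : ℕ, X ^ (1 / 6 : ℝ) * Real.log X ^ 3 ≤ 2 ^ j * Real.log X ^ c := ⟨_, hj₀⟩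
  refine ⟨_, Nat.find_spec hex, (key _ fun i hi => Nat.find_min hex hi).2.trans ?_⟩
  have hJ : (Nat.find hex : ℝ) ≤ 3 * Real.log X := by
    have e1 : (Nat.find hex : ℝ) ≤ ⌈2 * Real.log X⌉₊ := by exact_mod_cast Nat.find_min' hex hj₀
    have e2 := Nat.ceil_lt_add_one (show 0 ≤ 2 * Real.log X by linarith)
    linarith
  have p2 : 0 < X ^ (5 / 6 : ℝ) := by positivity
  have e3 : (Real.log X)⁻¹ ≤ Real.log X ^ (-(1 / 5 : ℝ)) := by
    rw [← Real.rpow_neg_one]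
    exact Real.rpow_le_rpow_of_exponent_le (by linarith) (by norm_num)
  have e4 : (Nat.find hex : ℝ) * (C * X ^ (5 / 6 : ℝ) / Real.log X ^ 2) ≤
      3 * C * X ^ (5 / 6 : ℝ) * Real.log X ^ (-(1 / 5 : ℝ)) :=
    calc _ ≤ 3 * Real.log X * (C * X ^ (5 / 6 : ℝ) / Real.log X ^ 2) :=
          mul_le_mul_of_nonneg_right hJ (by positivity)
      _ = 3 * C * X ^ (5 / 6 : ℝ) * (Real.log X)⁻¹ := by field_simp
      _ ≤ _ := mul_le_mul_of_nonneg_left e3 (by positivity)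
  linarith

end Crest.Agent.R12
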