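import Crest.Agent.R12.Main0

/-!
# Row 12, analytic half: the main theorem
-/

set_option autoImplicit false

noncomputable section

namespace Crest.Agent.R12

open Crest.Agent.R17
open scoped ComplexConjugate Topology
open Filter MeasureTheory

theorem Main1_log {N Y L T : ℝ} (hN : 0 < N) (hY : 0 < Y) (hL : Real.log Y ≤ L) (hL0 : 0 ≤ L) :
    Real.log N * Real.exp (-(T + 1) * |Real.log (N / Y)|) ≤
      (L + 1) * Real.exp (-(T - 1 + 1) * |Real.log (N / Y)|) := by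
  have h1 : Real.log N ≤ L + |Real.log (N / Y)| := by
    have := le_abs_self (Real.log (N / Y))
    rw [Real.log_div hN.ne' hY.ne'] at this ⊢
    linarith
  have h0 := abs_nonneg (Real.log (N / Y))
  generalize |Real.log (N / Y)| = t at h1 h0 ⊢
  have h2 : L + t ≤ (L + 1) * Real.exp t := by nlinarith [Real.add_one_le_exp t]
  have h3 : Real.exp (-(T - 1 + 1) * t) = Real.exp t * Real.exp (-(T + 1) * t) := by
    rw [← Real.exp_add]
    congr 1
    ring
  rw [h3, ← mul_assoc]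
  exact mul_le_mul_of_nonneg_right (h1.trans h2) (Real.exp_pos _).le

open Classical in
theorem Main1_pt (l : ℤ) {X T : ℝ} (hX : 1 ≤ X) (hT : 1 ≤ T) (n : O) :
    ‖(if n ∈ (primesLe ⌊X⌋₊).filter (fun p => X / 2 < nr p) then
        dfc l n * (Real.log (nr n) : ℂ) else 0) -
      (if Prime n then ff l n * (Real.log (nr n) : ℂ) * (VT T (nr n / X) : ℂ) else 0)‖ ≤
    2 * (1 + cP) * (Real.log X + 1) *
      ((if Primary n then Real.exp (-(T - 1 + 1) * |Real.log (nr n / X)|) else 0) +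
        if Primary n then Real.exp (-(T - 1 + 1) * |Real.log (nr n / (X / 2))|) else 0) := by
  have hc := AFa_cP_pos
  have hL := Real.log_nonneg hX
  have hX0 : 0 < X := by linarith
  have hm : n ∈ (primesLe ⌊X⌋₊).filter (fun p => X / 2 < nr p) ↔
      (Prime n ∧ Primary n) ∧ 1 / 2 < nr n / X ∧ nr n / X ≤ 1 := by
    unfold primesLe
    rw [Finset.mem_filter, Finset.mem_filter, mem_ball, Nat.le_floor_iff hX0.le,
      lt_div_iff₀ hX0, div_le_one hX0, show 1 / 2 * X = X / 2 by ring]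
    tauto
  by_cases h2 : Primary n
  swap
  · have : ff l n = 0 := if_neg fun h => h2 h.1
    rw [if_neg fun h => h2 (hm.1 h).1.2, if_neg h2, if_neg h2, this]
    simp
  rw [if_pos h2, if_pos h2]
  by_cases h1 : Prime n
  swap
  · rw [if_neg fun h => h1 (hm.1 h).1.1, if_neg h1, sub_zero, norm_zero]
    positivity
  have hN := nr_pos h2.ne_zero
  have e1 : (if n ∈ (primesLe ⌊X⌋₊).filter (fun p => X / 2 < nr p) then
      dfc l n * (Real.log (nr n) : ℂ) else 0) = ff l n * (Real.log (nr n) : ℂ) *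
        ((if 1 / 2 < nr n / X ∧ nr n / X ≤ 1 then 1 else 0 : ℝ) : ℂ) := by
    by_cases h : 1 / 2 < nr n / X ∧ nr n / X ≤ 1
    · rw [if_pos (hm.2 ⟨⟨h1, h2⟩, h⟩), if_pos h, AFa_ff_of l ⟨h2, h1.squarefree⟩,
        Complex.ofReal_one, mul_one]
      rfl
    · rw [if_neg fun h' => h (hm.1 h').2, if_neg h, Complex.ofReal_zero, mul_zero]
  have l0 : 0 ≤ Real.log (nr n) := Real.log_nonneg (one_le_nr h2.ne_zero)
  have b1 := abs_ind_sub_VT_le hT (div_pos hN hX0)
  rw [show 2 * (nr n / X) = nr n / (X / 2) by field_simp] at b1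
  have b2 := Main1_log (T := T) hN hX0 le_rfl hL
  have b3 := Main1_log (T := T) hN (half_pos hX0)
    (Real.log_le_log (half_pos hX0) (half_le_self hX0.le)) hL
  rw [e1, if_pos h1, ← mul_sub, ← Complex.ofReal_sub, norm_mul, norm_mul, Complex.norm_real,
    Complex.norm_real, Real.norm_of_nonneg l0, Real.norm_eq_abs, mul_assoc]
  refine (mul_le_mul (norm_ff_le l n) (mul_le_mul_of_nonneg_left b1 l0)
    (mul_nonneg l0 (abs_nonneg _)) (by positivity)).trans ?_
  rw [mul_comm 2 (1 + cP), mul_assoc, mul_assoc]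
  exact mul_le_mul_of_nonneg_left (by linarith) (by positivity)

theorem Main1_num {X T : ℝ} (hX : 9 ≤ X) (hT : X ^ (1 / 6 : ℝ) * Real.log X ^ 3 ≤ T) :
    2 ≤ T ∧ (Real.log X + 1) * (X / (T - 1) + Real.sqrt X) ≤
      1462 * X ^ (5 / 6 : ℝ) * Real.log X ^ (-(1 / 5 : ℝ)) := by
  have hX0 : 0 < X := by linarith
  have hL : 2 ≤ Real.log X := by
    rw [Real.le_log_iff_exp_le hX0, show (2 : ℝ) = 1 + 1 by norm_num, Real.exp_add]
    nlinarith [Real.exp_one_lt_d9, Real.exp_pos 1]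
  have h1 : 1 ≤ X ^ (1 / 6 : ℝ) := Real.one_le_rpow (by linarith) (by norm_num)
  have h2 : Real.log X ≤ 9 * X ^ (1 / 9 : ℝ) := by
    have := Real.log_le_rpow_div hX0.le (show (0 : ℝ) < 1 / 9 by norm_num)
    linarith
  have h3 : Real.log X ^ 3 ≤ 729 * X ^ (1 / 3 : ℝ) := by
    refine (pow_le_pow_left₀ (by linarith) h2 3).trans_eq ?_
    rw [mul_pow, ← Real.rpow_natCast (X ^ _), ← Real.rpow_mul hX0.le]
    norm_num
  have h4 : Real.sqrt X * X ^ (1 / 3 : ℝ) = X ^ (5 / 6 : ℝ) := by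
    rw [Real.sqrt_eq_rpow, ← Real.rpow_add hX0]
    norm_num
  have h5 : X ^ (5 / 6 : ℝ) * X ^ (1 / 6 : ℝ) = X := by
    rw [← Real.rpow_add hX0]
    norm_num
  have h6 : (Real.log X)⁻¹ ≤ Real.log X ^ (-(1 / 5 : ℝ)) := by
    rw [← Real.rpow_neg_one]
    exact Real.rpow_le_rpow_of_exponent_le (by linarith) (by norm_num)
  have p5 : 0 < X ^ (5 / 6 : ℝ) := Real.rpow_pos_of_pos hX0 _
  have hs := Real.sqrt_nonneg X
  generalize Real.log X ^ (-(1 / 5 : ℝ)) = E at h6 ⊢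
  generalize Real.log X = L at hT hL h3 h6 ⊢
  have hL3 : 8 ≤ L ^ 3 := le_trans (by norm_num) (pow_le_pow_left₀ (by norm_num) hL 3)
  have hT8 : 8 ≤ T := by nlinarith
  refine ⟨by linarith, ?_⟩
  have k1 : X / (T - 1) ≤ 2 * X ^ (5 / 6 : ℝ) / L ^ 3 := by
    rw [div_le_div_iff₀ (by linarith) (by linarith)]
    nlinarith [mul_le_mul_of_nonneg_left hT p5.le]
  have k2 : Real.sqrt X ≤ 729 * X ^ (5 / 6 : ℝ) / L ^ 3 := by
    rw [le_div_iff₀ (by linarith), ← h4]
    nlinarith [mul_le_mul_of_nonneg_left h3 hs]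
  have k3 : (L + 1) / L ^ 3 ≤ 2 * L⁻¹ := by
    rw [div_le_iff₀ (by linarith), show 2 * L⁻¹ * L ^ 3 = 2 * L ^ 2 by field_simp]
    nlinarith
  calc (L + 1) * (X / (T - 1) + Real.sqrt X)
      ≤ (L + 1) * (2 * X ^ (5 / 6 : ℝ) / L ^ 3 + 729 * X ^ (5 / 6 : ℝ) / L ^ 3) :=
        mul_le_mul_of_nonneg_left (add_le_add k1 k2) (by linarith)
    _ = 731 * X ^ (5 / 6 : ℝ) * ((L + 1) / L ^ 3) := by ring
    _ ≤ 731 * X ^ (5 / 6 : ℝ) * (2 * E) :=
        mul_le_mul_of_nonneg_left (by linarith) (by positivity)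
    _ = _ := by ring

open Classical in
/-- `abs_ind_sub_VT_le`, `thin_count` (use `log N ≤ log X + N/X`-type bounds to absorb the
logarithm: `log N · exp (-(T+1)|log y|) ≤ (log X + 1) exp (-T |log y|)`). -/
theorem sharp_bound (l : ℤ) : ∃ C X₀ : ℝ, 0 < C ∧ ∀ X ≥ X₀,
    ‖∑ p ∈ (primesLe ⌊X⌋₊).filter (fun p => X / 2 < nr p), dfc l p * (Real.log (nr p) : ℂ)‖ ≤
      C * X ^ (5 / 6 : ℝ) * Real.log X ^ (-(1 / 5 : ℝ)) := by
  obtain ⟨C₁, X₁, hC₁, h₁⟩ := smooth_bound l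
  obtain ⟨C₂, hC₂, h₂⟩ := thin_count
  have hc := AFa_cP_pos
  refine ⟨C₁ + 4 * (1 + cP) * C₂ * 1462, max X₁ 9, by positivity, fun X hX => ?_⟩
  obtain ⟨T, hT, hP⟩ := h₁ X (le_trans (le_max_left _ _) hX)
  have hX9 : 9 ≤ X := le_trans (le_max_right _ _) hX
  have hX0 : 0 < X := by linarith
  have hL : 0 ≤ Real.log X := Real.log_nonneg (by linarith)
  obtain ⟨hT2, hnum⟩ := Main1_num hX9 hT
  obtain ⟨s1, t1⟩ := h₂ (T - 1) X (by linarith) hX0
  obtain ⟨s2, t2⟩ := h₂ (T - 1) (X / 2) (by linarith) (half_pos hX0)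
  have hpt := Main1_pt l (X := X) (T := T) (by linarith) (by linarith)
  have hg := (s1.hasSum.add s2.hasSum).mul_left (2 * (1 + cP) * (Real.log X + 1))
  have he := Summable.of_norm_bounded hg.summable hpt
  have hb := tsum_of_norm_bounded hg hpt
  have ha : HasSum (fun n => if n ∈ (primesLe ⌊X⌋₊).filter (fun p => X / 2 < nr p) then
      dfc l n * (Real.log (nr n) : ℂ) else 0)
      (∑ p ∈ (primesLe ⌊X⌋₊).filter (fun p => X / 2 < nr p), dfc l p * (Real.log (nr p) : ℂ)) := by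
    have := hasSum_sum_of_ne_finset_zero (L := SummationFilter.unconditional O)
      (s := (primesLe ⌊X⌋₊).filter (fun p => X / 2 < nr p))
      (f := fun n => if n ∈ (primesLe ⌊X⌋₊).filter (fun p => X / 2 < nr p) then
        dfc l n * (Real.log (nr n) : ℂ) else 0) fun n hn => if_neg hn
    rwa [Finset.sum_congr rfl fun n hn => if_pos hn] at this
  have hs := (ha.sub he.hasSum).tsum_eq
  simp only [sub_sub_cancel] at hs
  unfold PSum at hP
  rw [hs] at hP
  have m1 := t1.trans (mul_le_mul_of_nonneg_left (min_le_left _ _) hC₂.le)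
  have m2 := t2.trans (mul_le_mul_of_nonneg_left ((min_le_left _ _).trans (add_le_add
    (div_le_div_of_nonneg_right (half_le_self hX0.le) (by linarith))
    (Real.sqrt_le_sqrt (half_le_self hX0.le)))) hC₂.le)
  have m3 := hb.trans (mul_le_mul_of_nonneg_left (add_le_add m1 m2) (by positivity))
  have m4 := mul_le_mul_of_nonneg_left hnum (show 0 ≤ 4 * (1 + cP) * C₂ by positivity)
  refine (norm_le_norm_sub_add _ _).trans ((add_le_add hP m3).trans ?_)
  linarith

end Crest.Agent.R12
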