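import Crest.Agent.R12.AFa
import Crest.Agent.R12.SWRough

/-!
# Row 12, analytic half: divisor moments
-/

set_option autoImplicit false

noncomputable section

namespace Crest.Agent.R12

open Crest.Agent.R17
open scoped ComplexConjugate Topology
open Filter MeasureTheory

theorem Mom0_dvd_nm (p : O) : p ∣ (nm p : O) := by
  refine ⟨⟨p.re - p.im, -p.im⟩, ?_⟩
  have h := nm_cast p
  ext <;> simp [h] <;> ring

theorem Mom0_dvd_primorial {p : O} (hp : Prime p) {n : ℕ} (h : nm p ≤ n) :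
    p ∣ (primorial n : O) := by
  have h0 : nm p ≠ 0 := fun h => hp.ne_zero (nm_eq_zero.1 h)
  have h1 := Mom0_dvd_nm p
  rw [← Nat.prod_primeFactorsList h0, Nat.cast_list_prod, hp.dvd_prod_iff] at h1
  obtain ⟨a, ha, h1⟩ := h1
  obtain ⟨q, hq, rfl⟩ := List.mem_map.1 ha
  exact h1.trans (Nat.cast_dvd_cast ((Nat.prime_of_mem_primeFactorsList hq).dvd_primorial_iff.2
    ((Nat.le_of_mem_primeFactorsList hq).trans h)))

open Classical in
/-- Chebyshev (`primorial_le_four_pow` or `Chebyshev.theta_le_log4_mul_x`, `exists_prime_nm`). -/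
theorem cheb : ∃ C : ℝ, 0 < C ∧ ∀ (y : ℝ) (P : Finset O), 0 ≤ y →
    (∀ p ∈ P, Prime p ∧ Primary p ∧ nr p ≤ y) → ∑ p ∈ P, Real.log (nr p) ≤ C * y := by
  refine ⟨8, by norm_num, fun y P hy hP => ?_⟩
  have hn : (primorial ⌊y⌋₊ : O) ≠ 0 := fun h => by
    have h1 := nm_natCast (primorial ⌊y⌋₊)
    rw [h, nm_zero] at h1
    exact (pow_pos (primorial_pos _) 2).ne h1
  have h1 := nm_le_of_dvd (BasicB.prod_dvd_of_subset hn (s := P) fun p hp => (mem_pf hn).2
    ⟨(hP p hp).1, (hP p hp).2.1, Mom0_dvd_primorial (hP p hp).1 (Nat.le_floor (hP p hp).2.2)⟩) hn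
  rw [nm_prod, nm_natCast] at h1
  have h2 := h1.trans (Nat.pow_le_pow_left (primorial_le_four_pow _) 2)
  have h3 : ∏ p ∈ P, nr p ≤ ((4 : ℝ) ^ ⌊y⌋₊) ^ 2 := by exact_mod_cast h2
  rw [← Real.log_prod fun p hp => (nr_pos (hP p hp).1.ne_zero).ne']
  refine (Real.log_le_log (Finset.prod_pos fun p hp => nr_pos (hP p hp).1.ne_zero) h3).trans ?_
  rw [Real.log_pow, Real.log_pow]
  have h4 : Real.log 4 ≤ 4 := (Real.log_le_sub_one_of_pos (by norm_num)).trans (by norm_num)
  have h5 := mul_le_mul (Nat.floor_le hy) h4 (Real.log_nonneg (by norm_num)) hy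
  push_cast
  linarith

theorem Mom0_block : ∃ C : ℝ, 0 < C ∧ ∀ (z : ℝ) (P : Finset O), 2 ≤ z →
    (∀ p ∈ P, Prime p ∧ Primary p ∧ z < nr p ∧ nr p ≤ 2 * z) →
    ∑ p ∈ P, (nr p)⁻¹ ≤ C / Real.log z := by
  obtain ⟨C, hC, h⟩ := cheb
  refine ⟨2 * C, by positivity, fun z P hz hP => ?_⟩
  have hl : 0 < Real.log z := Real.log_pos (by linarith)
  have hz0 : 0 < z := by linarith
  have h1 := h (2 * z) P (by linarith) fun p hp => ⟨(hP p hp).1, (hP p hp).2.1, (hP p hp).2.2.2⟩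
  calc ∑ p ∈ P, (nr p)⁻¹ ≤ ∑ p ∈ P, Real.log (nr p) / (z * Real.log z) := by
        refine Finset.sum_le_sum fun p hp => ?_
        have h2 := (hP p hp).2.2.1.le
        rw [le_div_iff₀ (by positivity), ← mul_assoc]
        refine (mul_le_of_le_one_left hl.le ?_).trans (Real.log_le_log hz0 h2)
        rw [inv_mul_le_iff₀ (by linarith)]
        linarith
    _ ≤ C * (2 * z) / (z * Real.log z) := by
        rw [← Finset.sum_div]
        gcongr
    _ = _ := by field_simp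

/-- Dyadic blocks and `cheb`. -/
theorem mertens : ∃ C : ℝ, 0 < C ∧ ∀ (w y : ℝ) (P : Finset O), 2 ≤ w → w ≤ y →
    (∀ p ∈ P, Prime p ∧ Primary p ∧ w < nr p ∧ nr p ≤ y) →
    ∑ p ∈ P, (nr p)⁻¹ ≤ C * (1 + Real.log (Real.log y / Real.log w)) := by
  classical
  obtain ⟨C, hC, h⟩ := Mom0_block
  have h2 := Real.log_two_gt_d9
  refine ⟨4 * C, by positivity, fun w y P hw hy hP => ?_⟩
  have hlw : Real.log 2 ≤ Real.log w := Real.log_le_log two_pos hw
  have hlw0 : 0 < Real.log w := by linarith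
  obtain ⟨J, hJ⟩ := pow_unbounded_of_one_lt y (one_lt_two (α := ℝ))
  replace hJ := hJ.le
  induction J generalizing y P with
  | zero =>
    rw [pow_zero] at hJ
    linarith
  | succ J ih =>
    have hly : Real.log w ≤ Real.log y := Real.log_le_log (by linarith) hy
    rcases le_total y (2 * w) with h3 | h3
    · have h4 := h w P hw fun p hp =>
        ⟨(hP p hp).1, (hP p hp).2.1, (hP p hp).2.2.1, (hP p hp).2.2.2.trans h3⟩
      have h5 : 0 ≤ Real.log (Real.log y / Real.log w) :=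
        Real.log_nonneg ((one_le_div hlw0).2 hly)
      have h6 : C / Real.log w ≤ 4 * C := by
        rw [div_le_iff₀ hlw0]
        nlinarith
      nlinarith
    · have h4 := ih (y / 2) (P.filter fun p => nr p ≤ y / 2) (by linarith) (fun p hp => by
        obtain ⟨a, b⟩ := Finset.mem_filter.1 hp
        exact ⟨(hP p a).1, (hP p a).2.1, (hP p a).2.2.1, b⟩) (by rw [pow_succ] at hJ; linarith)
      have h5 := h (y / 2) (P.filter fun p => ¬ nr p ≤ y / 2) (by linarith) fun p hp => by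
        obtain ⟨a, b⟩ := Finset.mem_filter.1 hp
        exact ⟨(hP p a).1, (hP p a).2.1, not_le.1 b, by linarith [(hP p a).2.2.2]⟩
      rw [← Finset.sum_filter_add_sum_filter_not P fun p => nr p ≤ y / 2]
      have h6 : Real.log y = Real.log (y / 2) + Real.log 2 := by
        rw [Real.log_div (by linarith) two_ne_zero]
        ring
      have h7 : Real.log 2 ≤ Real.log (y / 2) := Real.log_le_log two_pos (by linarith)
      rw [h6]
      generalize Real.log (y / 2) = a at *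
      have ha : 0 < a := by linarith
      have h8 := Real.one_sub_inv_le_log_of_pos (x := (a + Real.log 2) / a) (by positivity)
      have h9 : 1 / (4 * a) ≤ 1 - ((a + Real.log 2) / a)⁻¹ := by
        rw [inv_div, one_sub_div (by positivity), div_le_div_iff₀ (by positivity) (by positivity)]
        nlinarith
      have h10 : C / a = 4 * C * (1 / (4 * a)) := by field_simp
      rw [Real.log_div (by positivity) ha.ne'] at h8
      rw [Real.log_div ha.ne' hlw0.ne'] at h4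
      rw [Real.log_div (by positivity) hlw0.ne']
      nlinarith [mul_le_mul_of_nonneg_left (h9.trans h8) (by positivity : 0 ≤ 4 * C)]

theorem Mom0_nr_eq {b : O} (hb : PS b) : nr b = ∏ p ∈ pf b, nr p := by
  conv_lhs => rw [← hb.1.eq_rad hb.2, rad, nr, nm_prod, Nat.cast_prod]

/-- Euler product: `∑ k^ω / N ≤ ∏ (1 + k / N p) ≤ exp (k ∑ 1 / N p)`. -/
theorem sum_pow_div_le {k : ℝ} (hk : 0 ≤ k) (P S : Finset O)
    (hS : ∀ b ∈ S, PS b ∧ pf b ⊆ P) :
    ∑ b ∈ S, k ^ (pf b).card / nr b ≤ Real.exp (k * ∑ p ∈ P, (nr p)⁻¹) := by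
  classical
  have hinj : Set.InjOn pf (S : Set O) := fun a ha b hb h => by
    rw [← (hS a ha).1.1.eq_rad (hS a ha).1.2, ← (hS b hb).1.1.eq_rad (hS b hb).1.2, rad, rad, h]
  rw [Finset.mul_sum]
  refine le_trans ?_ (Real.prod_one_add_le_exp_sum P fun p => by positivity)
  rw [Finset.prod_one_add]
  refine le_trans (le_of_eq ?_) (Finset.sum_le_sum_of_subset_of_nonneg (s := S.image pf)
    (fun T hT => ?_) fun T _ _ => Finset.prod_nonneg fun p _ => by positivity)
  · rw [Finset.sum_image hinj]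
    refine Finset.sum_congr rfl fun b hb => ?_
    rw [Finset.prod_mul_distrib, Finset.prod_const, Finset.prod_inv_distrib,
      ← Mom0_nr_eq (hS b hb).1, div_eq_mul_inv]
  · obtain ⟨b, hb, rfl⟩ := Finset.mem_image.1 hT
    exact Finset.mem_powerset.2 (hS b hb).2

theorem Mom0_div {b p : O} (hb : PS b) (hp : p ∈ pf b) :
    PS (b / p) ∧ p * (b / p) = b ∧ pf (b / p) ⊆ pf b ∧ (pf b).card = (pf (b / p)).card + 1 := by
  obtain ⟨p1, p2, p3⟩ := BasicB.of_mem_pf hp
  obtain ⟨-, h2, h3, h4⟩ := hb.div ((mem_pdiv hb.ne_zero).2 ⟨p2, p3⟩)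
  refine ⟨h2, h4, ?_, ?_⟩
  · conv_rhs => rw [← h4, pf_mul p1.ne_zero h2.ne_zero]
    exact Finset.subset_union_right
  · conv_lhs => rw [← h4, card_pf_mul p1.ne_zero h2.ne_zero h3, pf_prime p1 p2,
      Finset.card_singleton, add_comm]

theorem Mom0_log : ∃ C : ℝ, 0 < C ∧ ∀ (k y : ℝ) (P S : Finset O), 0 ≤ k → 0 ≤ y →
    (∀ b ∈ S, PS b ∧ pf b ⊆ P ∧ nr b ≤ y) →
    ∑ b ∈ S, k ^ (pf b).card * Real.log (nr b) ≤
      C * k * y * Real.exp (k * ∑ p ∈ P, (nr p)⁻¹) := by
  classical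
  obtain ⟨C, hC, h⟩ := cheb
  refine ⟨C, hC, fun k y P S hk hy hS => ?_⟩
  set A : Finset (Σ _ : O, O) := S.sigma pf with hA
  set M : Finset O := A.image fun x => x.1 / x.2 with hM
  set Q : O → Finset O := fun m => (S.biUnion pf).filter fun p => nr p ≤ y / nr m with hQ
  set F : (Σ _ : O, O) → ℝ := fun x => k * k ^ (pf x.1).card * Real.log (nr x.2) with hF
  have hmem : ∀ x ∈ A, x.1 ∈ S ∧ x.2 ∈ pf x.1 := fun x hx => Finset.mem_sigma.1 hx
  have hinj : Set.InjOn (fun x : (Σ _ : O, O) => (⟨x.1 / x.2, x.2⟩ : Σ _ : O, O)) A := by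
    rintro ⟨a, p⟩ hx ⟨b, q⟩ hy e
    obtain ⟨e1, e2⟩ := Sigma.mk.inj e
    have e3 : p = q := eq_of_heq e2
    subst e3
    have a1 := (Mom0_div (hS _ (hmem _ hx).1).1 (hmem _ hx).2).2.1
    have a2 := (Mom0_div (hS _ (hmem _ hy).1).1 (hmem _ hy).2).2.1
    simp only at a1 a2 e1
    rw [← a1, e1, a2]
  have hMs : ∀ m ∈ M, PS m ∧ pf m ⊆ P := fun m hm => by
    obtain ⟨x, hx, rfl⟩ := Finset.mem_image.1 hm
    obtain ⟨a1, -, a3, -⟩ := Mom0_div (hS _ (hmem _ hx).1).1 (hmem _ hx).2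
    exact ⟨a1, a3.trans (hS _ (hmem _ hx).1).2.1⟩
  calc ∑ b ∈ S, k ^ (pf b).card * Real.log (nr b)
      = ∑ x ∈ A, F ⟨x.1 / x.2, x.2⟩ := by
        rw [hA, Finset.sum_sigma]
        refine Finset.sum_congr rfl fun b hb => ?_
        rw [Mom0_nr_eq (hS b hb).1, Real.log_prod fun p hp =>
          (nr_pos (BasicB.pf_sub hp).1.ne_zero).ne', Finset.mul_sum]
        refine Finset.sum_congr rfl fun p hp => ?_
        rw [(Mom0_div (hS b hb).1 hp).2.2.2, pow_succ']
    _ ≤ ∑ x ∈ M.sigma Q, F x := by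
        rw [← Finset.sum_image hinj]
        refine Finset.sum_le_sum_of_subset_of_nonneg (fun z hz => ?_) fun z _ _ =>
          mul_nonneg (by positivity) (Real.log_natCast_nonneg _)
        obtain ⟨x, hx, rfl⟩ := Finset.mem_image.1 hz
        obtain ⟨a1, a2, -, -⟩ := Mom0_div (hS _ (hmem _ hx).1).1 (hmem _ hx).2
        refine Finset.mem_sigma.2 ⟨Finset.mem_image_of_mem _ hx, Finset.mem_filter.2
          ⟨Finset.mem_biUnion.2 ⟨_, (hmem _ hx).1, (hmem _ hx).2⟩, ?_⟩⟩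
        rw [le_div_iff₀ (nr_pos a1.ne_zero), ← nr_mul, a2]
        exact (hS _ (hmem _ hx).1).2.2
    _ ≤ ∑ m ∈ M, C * k * y * (k ^ (pf m).card / nr m) := by
        rw [Finset.sum_sigma]
        refine Finset.sum_le_sum fun m hm => ?_
        have h1 := h (y / nr m) (Q m) (by positivity) fun p hp => by
          obtain ⟨a, b⟩ := Finset.mem_filter.1 hp
          obtain ⟨c, -, hc⟩ := Finset.mem_biUnion.1 a
          exact ⟨(BasicB.pf_sub hc).1, (BasicB.pf_sub hc).2, b⟩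
        simp only [hF]
        rw [← Finset.mul_sum]
        exact (mul_le_mul_of_nonneg_left h1 (by positivity)).trans_eq (by ring)
    _ ≤ _ := by
        rw [← Finset.mul_sum]
        exact mul_le_mul_of_nonneg_left (sum_pow_div_le hk P M hMs) (by positivity)

/-- `∑ g(b) log N b = ∑_{b = m p} k g(m) log N p ≤ C k y ∑ g(m) / N m`, and the part `N b ≤ √y`
is bounded by `√y ∑ g / N`. -/
theorem sum_pow_le : ∃ C : ℝ, 0 < C ∧ ∀ (k y : ℝ) (P S : Finset O), 1 ≤ k → 2 ≤ y →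
    (∀ b ∈ S, PS b ∧ pf b ⊆ P ∧ nr b ≤ y) →
    ∑ b ∈ S, k ^ (pf b).card ≤
      C * k * (y / Real.log y) * Real.exp (k * ∑ p ∈ P, (nr p)⁻¹) := by
  obtain ⟨C, hC, h⟩ := Mom0_log
  refine ⟨2 * C + 2, by positivity, fun k y P S hk hy hS => ?_⟩
  have hk0 : 0 ≤ k := by linarith
  have hy0 : 0 < y := by linarith
  have hl : 0 < Real.log y := Real.log_pos (by linarith)
  have h1 := h k y P S hk0 hy0.le hS
  have h2 := sum_pow_div_le hk0 P S fun b hb => ⟨(hS b hb).1, (hS b hb).2.1⟩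
  have h3 : ∀ b ∈ S, Real.log y ≤ 2 * Real.log (nr b) + 2 * y / nr b := by
    intro b hb
    have b1 := (hS b hb).1.one_le
    have b2 := Real.log_le_sub_one_of_pos (x := y / nr b) (by positivity)
    have b3 := Real.log_nonneg b1
    have b4 : 0 ≤ y / nr b := by positivity
    rw [Real.log_div hy0.ne' (by positivity)] at b2
    rw [mul_div_assoc]
    linarith
  have h4 : (∑ b ∈ S, k ^ (pf b).card) * Real.log y ≤
      2 * ∑ b ∈ S, k ^ (pf b).card * Real.log (nr b) + 2 * y * ∑ b ∈ S, k ^ (pf b).card / nr b := by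
    rw [Finset.sum_mul, Finset.mul_sum, Finset.mul_sum, ← Finset.sum_add_distrib]
    exact Finset.sum_le_sum fun b hb =>
      (mul_le_mul_of_nonneg_left (h3 b hb) (by positivity)).trans_eq (by ring)
  generalize Real.exp (k * ∑ p ∈ P, (nr p)⁻¹) = E at *
  have hE : 0 ≤ E := (Finset.sum_nonneg fun b _ => by positivity).trans h2
  rw [← mul_div_assoc, div_mul_eq_mul_div, le_div_iff₀ hl]
  nlinarith [mul_le_mul_of_nonneg_left h2 hy0.le, mul_le_mul_of_nonneg_right hk (mul_nonneg hy0.le hE)]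

end Crest.Agent.R12
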