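import Crest.Agent.R12.Mom0

/-!
# Row 12, analytic half: divisor moments
-/

set_option autoImplicit false

noncomputable section

namespace Crest.Agent.R12

open Crest.Agent.R17
open scoped ComplexConjugate Topology
open Filter MeasureTheory

theorem Mom1_two_lt {p : O} (hp : Prime p) : 2 < nr p := by
  have h1 := CountAux.two_le_nm hp
  have h2 : nm p ≠ 2 := fun h => by
    have h3 := nm_cast p
    rw [h] at h3
    push_cast at h3
    have a1 : p.im ≤ 1 := by nlinarith [sq_nonneg (2 * p.re - p.im)]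
    have a2 : -1 ≤ p.im := by nlinarith [sq_nonneg (2 * p.re - p.im)]
    have a3 : p.re ≤ 1 := by nlinarith [sq_nonneg (2 * p.im - p.re)]
    have a4 : -1 ≤ p.re := by nlinarith [sq_nonneg (2 * p.im - p.re)]
    generalize p.re = x at *
    generalize p.im = y at *
    interval_cases x <;> interval_cases y <;> simp at h3
  have h3 : 2 < nm p := by omega
  exact_mod_cast h3

open Classical in
/-- Primary primes with `w < N p ≤ y`. -/
def Mom1_P (w y : ℝ) : Finset O :=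
  (ball ⌊y⌋₊).filter fun p => Prime p ∧ Primary p ∧ w < nr p

theorem Mom1_mem {w y : ℝ} {p : O} :
    p ∈ Mom1_P w y ↔ Prime p ∧ Primary p ∧ w < nr p ∧ nr p ≤ y := by
  classical
  rw [Mom1_P, Finset.mem_filter, mem_ball]
  have key : Prime p → (nm p ≤ ⌊y⌋₊ ↔ nr p ≤ y) := fun h =>
    Nat.le_floor_iff' (mt nm_eq_zero.1 h.ne_zero)
  exact ⟨fun h => ⟨h.2.1, h.2.2.1, h.2.2.2, (key h.2.1).1 h.1⟩,
    fun h => ⟨(key h.1).2 h.2.2.2, h.1, h.2.1, h.2.2.1⟩⟩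

theorem Mom1_sub {w y : ℝ} {b : O} (hb : b ≠ 0) (hy : nr b ≤ y) (hw : Rough w b) :
    pf b ⊆ Mom1_P w y := fun p hp => by
  obtain ⟨h1, h2, h3⟩ := (mem_pf hb).1 hp
  refine Mom1_mem.2 ⟨h1, h2, hw p hp, le_trans ?_ hy⟩
  exact_mod_cast nm_le_of_dvd h3 hb

theorem mom_crude (k : ℝ) : ∃ (C : ℝ) (J : ℕ), 0 < C ∧ ∀ R y : ℝ, 3 ≤ R → 0 ≤ y → y ≤ R →
    ∑ b ∈ rng 1 y, |k| ^ (pf b).card ≤ C * y * Real.log R ^ J ∧
    ∑ b ∈ rng 1 y, |k| ^ (pf b).card / nr b ≤ C * Real.log R ^ J := by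
  obtain ⟨C₀, hC₀, hM⟩ := mertens
  have hl2 : 0 < Real.log 2 := Real.log_pos (by norm_num)
  refine ⟨(Real.exp 1 / Real.log 2) ^ ⌈|k| * C₀⌉₊, ⌈|k| * C₀⌉₊, by positivity,
    fun R y hR hy hyR => ?_⟩
  have hk := abs_nonneg k
  have hE : 1 ≤ Real.log R / Real.log 2 := by
    rw [le_div_iff₀ hl2, one_mul]
    exact Real.log_le_log (by norm_num) (by linarith)
  have hlE := Real.log_nonneg hE
  have h2 : ∑ b ∈ rng 1 y, |k| ^ (pf b).card / nr b ≤
      (Real.exp 1 / Real.log 2) ^ ⌈|k| * C₀⌉₊ * Real.log R ^ ⌈|k| * C₀⌉₊ := by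
    have a1 := sum_pow_div_le hk (Mom1_P 2 R) (rng 1 y) fun b hb =>
      ⟨(mem_rng.1 hb).1, Mom1_sub (mem_rng.1 hb).1.ne_zero ((mem_rng.1 hb).2.2.trans hyR)
        fun p hp => Mom1_two_lt (BasicB.of_mem_pf hp).1⟩
    have a2 := hM 2 R (Mom1_P 2 R) le_rfl (by linarith) fun p hp => Mom1_mem.1 hp
    refine a1.trans ?_
    have a3 : |k| * ∑ p ∈ Mom1_P 2 R, (nr p)⁻¹ ≤
        (⌈|k| * C₀⌉₊ : ℝ) * (1 + Real.log (Real.log R / Real.log 2)) := by
      calc _ ≤ |k| * (C₀ * (1 + Real.log (Real.log R / Real.log 2))) :=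
            mul_le_mul_of_nonneg_left a2 hk
        _ = (|k| * C₀) * (1 + Real.log (Real.log R / Real.log 2)) := by ring
        _ ≤ _ := mul_le_mul_of_nonneg_right (Nat.le_ceil _) (by linarith)
    refine (Real.exp_le_exp.2 a3).trans (le_of_eq ?_)
    rw [Real.exp_nat_mul, Real.exp_add, Real.exp_log (by linarith), ← mul_pow]
    congr 1
    ring
  refine ⟨?_, h2⟩
  calc ∑ b ∈ rng 1 y, |k| ^ (pf b).card ≤ ∑ b ∈ rng 1 y, y * (|k| ^ (pf b).card / nr b) := by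
        refine Finset.sum_le_sum fun b hb => ?_
        have b1 := nr_pos (mem_rng.1 hb).1.ne_zero
        have b2 := (mem_rng.1 hb).2.2
        rw [← mul_div_assoc, le_div_iff₀ b1, mul_comm y]
        exact mul_le_mul_of_nonneg_left b2 (by positivity)
    _ = y * ∑ b ∈ rng 1 y, |k| ^ (pf b).card / nr b := by rw [Finset.mul_sum]
    _ ≤ y * ((Real.exp 1 / Real.log 2) ^ ⌈|k| * C₀⌉₊ * Real.log R ^ ⌈|k| * C₀⌉₊) :=
        mul_le_mul_of_nonneg_left h2 hy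
    _ = _ := by ring

open Classical in
/-- `log y / log w ≤ 2 (log X)^{1-θ}`; take `θ = 1 - ε / (C k)`. -/
theorem mom_rough {k ε : ℝ} (hk : 1 ≤ k) (hε : 0 < ε) : ∃ θ C X₀ : ℝ, 0 < θ ∧ θ < 1 ∧ 0 < C ∧
    ∀ X ≥ X₀, ∀ y : ℝ, X ^ (1 / 10 : ℝ) ≤ y → y ≤ 2 * X →
      ∑ b ∈ (rng 1 y).filter (Rough (wX θ X)), k ^ (pf b).card ≤
        C * y * Real.log X ^ (-1 + ε) := by
  obtain ⟨C₀, hC₀, hM⟩ := mertens
  obtain ⟨C₁, hC₁, hS⟩ := sum_pow_le
  have hk0 : 0 < k := by linarith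
  obtain ⟨δ, hδ0, hδ1, hδ⟩ : ∃ δ : ℝ, 0 < δ ∧ δ ≤ 1 / 2 ∧ k * C₀ * δ ≤ ε := by
    refine ⟨min (1 / 2) (ε / (k * C₀)), lt_min (by norm_num) (by positivity), min_le_left _ _, ?_⟩
    calc k * C₀ * min (1 / 2) (ε / (k * C₀)) ≤ k * C₀ * (ε / (k * C₀)) :=
          mul_le_mul_of_nonneg_left (min_le_right _ _) (by positivity)
      _ = ε := by field_simp
  refine ⟨1 - δ, C₁ * k * 10 * Real.exp (k * C₀ * 2), Real.exp ((10 : ℝ) ^ δ⁻¹), by linarith,
    by linarith, by positivity, fun X hX y hy1 hy2 => ?_⟩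
  have hX0 : 0 < X := lt_of_lt_of_le (Real.exp_pos _) hX
  have hL : (10 : ℝ) ^ δ⁻¹ ≤ Real.log X := (Real.le_log_iff_exp_le hX0).2 hX
  have h10 : (1 : ℝ) ≤ (10 : ℝ) ^ δ⁻¹ := Real.one_le_rpow (by norm_num) (by positivity)
  set L := Real.log X with hLdef
  have hL1 : 1 ≤ L := h10.trans hL
  have hL0 : 0 < L := by linarith
  have hLδ : 10 ≤ L ^ δ := by
    calc (10 : ℝ) = ((10 : ℝ) ^ δ⁻¹) ^ δ := by
          rw [Real.rpow_inv_rpow (by norm_num) hδ0.ne']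
      _ ≤ L ^ δ := Real.rpow_le_rpow (by positivity) hL hδ0.le
  have hθ1 : 1 ≤ L ^ (1 - δ) := Real.one_le_rpow hL1 (by linarith)
  have hprod : L ^ (1 - δ) * L ^ δ = L := by
    rw [← Real.rpow_add hL0, sub_add_cancel, Real.rpow_one]
  have hy0 : 0 < y := lt_of_lt_of_le (Real.rpow_pos_of_pos hX0 _) hy1
  have hly1 : L / 10 ≤ Real.log y := by
    have := Real.log_le_log (Real.rpow_pos_of_pos hX0 _) hy1
    rw [Real.log_rpow hX0] at this
    linarith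
  have hl2 : Real.log 2 ≤ 1 := by linarith [Real.log_two_lt_d9]
  have hly2 : Real.log y ≤ 2 * L := by
    have := Real.log_le_log hy0 hy2
    rw [Real.log_mul (by norm_num) hX0.ne'] at this
    linarith
  have hw : wX (1 - δ) X = Real.exp (L ^ (1 - δ)) := rfl
  have hw2 : 2 ≤ wX (1 - δ) X := by
    rw [hw]
    linarith [Real.add_one_le_exp (L ^ (1 - δ))]
  have hwy : wX (1 - δ) X ≤ y := by
    rw [hw, ← Real.le_log_iff_exp_le hy0]
    nlinarith
  have a1 := hS k y (Mom1_P (wX (1 - δ) X) y) ((rng 1 y).filter (Rough (wX (1 - δ) X))) hk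
    (hw2.trans hwy) fun b hb => by
      obtain ⟨b1, b2⟩ := Finset.mem_filter.1 hb
      obtain ⟨b3, -, b4⟩ := mem_rng.1 b1
      exact ⟨b3, Mom1_sub b3.ne_zero b4 b2, b4⟩
  have a2 := hM (wX (1 - δ) X) y (Mom1_P (wX (1 - δ) X) y) hw2 hwy fun p hp => Mom1_mem.1 hp
  have hly0 : 0 < Real.log y := by linarith
  have a3 : Real.log (Real.log y / Real.log (wX (1 - δ) X)) ≤ 1 + δ * Real.log L := by
    rw [hw, Real.log_exp]
    have b1 : Real.log y / L ^ (1 - δ) ≤ 2 * L ^ δ := by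
      rw [div_le_iff₀ (by linarith)]
      nlinarith
    have b2 := Real.log_le_log (by positivity) b1
    rw [Real.log_mul (by norm_num) (by positivity), Real.log_rpow hL0] at b2
    linarith
  have hlL := Real.log_nonneg hL1
  have a4 : k * ∑ p ∈ Mom1_P (wX (1 - δ) X) y, (nr p)⁻¹ ≤ k * C₀ * 2 + Real.log L * ε := by
    calc _ ≤ k * (C₀ * (1 + (1 + δ * Real.log L))) := by
          refine mul_le_mul_of_nonneg_left (a2.trans ?_) hk0.le
          exact mul_le_mul_of_nonneg_left (by linarith) hC₀.le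
      _ = k * C₀ * 2 + Real.log L * (k * C₀ * δ) := by ring
      _ ≤ _ := by gcongr
  have a5 : y / Real.log y ≤ 10 * y / L := by
    rw [div_le_div_iff₀ hly0 hL0]
    nlinarith
  refine a1.trans ?_
  calc C₁ * k * (y / Real.log y) * Real.exp (k * ∑ p ∈ Mom1_P (wX (1 - δ) X) y, (nr p)⁻¹)
      ≤ C₁ * k * (10 * y / L) * Real.exp (k * C₀ * 2 + Real.log L * ε) := by gcongr
    _ = _ := by
        rw [Real.exp_add, ← Real.rpow_def_of_pos hL0, Real.rpow_add hL0, Real.rpow_neg_one]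
        field_simp

end Crest.Agent.R12
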