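import Crest.Agent.R12.QA0
import Crest.Agent.R17.GramAuxA

/-!
# Row 12, analytic half: fourth moments of smooth coefficients
-/

set_option autoImplicit false

noncomputable section

namespace Crest.Agent.R12

open Crest.Agent.R17
open scoped ComplexConjugate Topology
open Filter MeasureTheory

theorem QA_split {a b : O} (ha : Primary a) (hb : Primary b) : ∃ a' b' : O, Primary a' ∧
    Primary b' ∧ a = pgcd a b * a' ∧ b = pgcd a b * b' ∧ IsCoprime a' b' := by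
  have hg := primary_pgcd a b
  obtain ⟨⟨a', h1⟩, ⟨b', h2⟩⟩ := (dvd_pgcd_iff ha.ne_zero hb.ne_zero hg).1 dvd_rfl
  have h3 : Primary a' := hg.of_mul (h1 ▸ ha)
  have h4 : Primary b' := hg.of_mul (h2 ▸ hb)
  refine ⟨a', b', h3, h4, h1, h2, (pgcd_eq_one_iff h3 h4.ne_zero).1 ?_⟩
  have h5 := pgcd_mul_left hg h3.ne_zero h4.ne_zero
  rw [← h1, ← h2] at h5
  exact (mul_eq_left₀ hg.ne_zero).1 h5.symm

theorem QA_lcm (a b : O) : ∃ r : O, Primary a → Primary b → Primary r ∧ nr a ≤ nr r ∧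
    nr r ≤ nr a * nr b ∧ ∀ n, r ∣ n ↔ a ∣ n ∧ b ∣ n := by
  by_cases h : Primary a ∧ Primary b
  swap
  · exact ⟨0, fun h1 h2 => absurd ⟨h1, h2⟩ h⟩
  obtain ⟨a', b', h1, h2, h3, h4, h5⟩ := QA_split h.1 h.2
  have hg := primary_pgcd a b
  generalize pgcd a b = g at h3 h4 hg
  refine ⟨a * b', fun ha hb => ⟨ha.mul h2, ?_, ?_, fun n => ⟨fun hn => ⟨?_, ?_⟩, ?_⟩⟩⟩
  · rw [nr_mul]
    exact le_mul_of_one_le_right (Nat.cast_nonneg _) (one_le_nr h2.ne_zero)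
  · rw [nr_mul]
    exact mul_le_mul_of_nonneg_left
      (Nat.cast_le.2 (nm_le_of_dvd (h4 ▸ dvd_mul_left b' g) hb.ne_zero)) (Nat.cast_nonneg _)
  · exact (dvd_mul_right a b').trans hn
  · exact Dvd.dvd.trans ⟨a', by rw [h3, h4]; ring⟩ hn
  · rintro ⟨⟨k, rfl⟩, hn⟩
    refine mul_dvd_mul_left a (h5.symm.dvd_of_dvd_mul_left ?_)
    rw [h4, h3, mul_assoc] at hn
    exact (mul_dvd_mul_iff_left hg.ne_zero).1 hn

open Classical in
theorem QA_dvd_mul {r n₁ : O} (hr : Primary r) (h₁ : Primary n₁) (n₂ : O) :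
    (if r ∣ n₁ * n₂ then (1 : ℂ) else 0) = ∑ r₁ ∈ pdiv r, ∑ j ∈ pdiv (r / r₁),
      if r₁ * j ∣ n₁ ∧ r / r₁ ∣ n₂ then mu j else 0 := by
  obtain ⟨r', n', h1, h2, h3, h4, h5⟩ := QA_split hr h₁
  have hg := primary_pgcd r n₁
  have key : ∀ (g a b : O), Primary g → Primary a → b ≠ 0 →
      ∑ j ∈ pdiv (g * a / g), (if g * j ∣ g * b ∧ g * a / g ∣ n₂ then mu j else 0) =
        if IsCoprime a b ∧ a ∣ n₂ then 1 else 0 := by
    intro g a b hg ha hb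
    rw [mul_div_cancel_left₀ _ hg.ne_zero]
    by_cases hd : a ∣ n₂
    · simp only [hd, and_true, mul_dvd_mul_iff_left hg.ne_zero]
      rw [← sum_mu_coprime ha hb, Finset.sum_filter]
    · simp [hd]
  rw [Finset.sum_eq_single (pgcd r n₁)]
  · generalize pgcd r n₁ = g at h3 h4 hg
    subst h3 h4
    rw [key g r' n' hg h1 h2.ne_zero, mul_assoc]
    refine if_congr ?_ rfl rfl
    rw [mul_dvd_mul_iff_left hg.ne_zero]
    exact ⟨fun h => ⟨h5, h5.dvd_of_dvd_mul_left h⟩, fun h => h.2.mul_left _⟩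
  · intro g hgr hne
    obtain ⟨p1, a, rfl⟩ := (mem_pdiv hr.ne_zero).1 hgr
    by_cases hd : g ∣ n₁
    · obtain ⟨b, rfl⟩ := hd
      have ha := p1.of_mul hr
      have hb := p1.of_mul h₁
      rw [key g a b p1 ha hb.ne_zero, if_neg]
      rintro ⟨hc, -⟩
      apply hne
      rw [pgcd_mul_left p1 ha.ne_zero hb.ne_zero, (pgcd_eq_one_iff ha hb.ne_zero).2 hc, mul_one]
    · exact Finset.sum_eq_zero fun j _ => if_neg fun h => hd ((dvd_mul_right g j).trans h.1)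
  · intro h
    exact absurd ((mem_pdiv hr.ne_zero).2 ⟨hg, Dvd.intro _ h3.symm⟩) h

open Classical in
theorem QA_sqf {d n : O} (hd : PS d) (hn : Primary n) {R : ℝ} (hR : nr n ≤ R) :
    (if Squarefree (d * n) then (1 : ℂ) else 0) =
      ∑ m ∈ (ball ⌊R⌋₊).filter (fun m => Primary m ∧ nr m ^ 2 ≤ R), ∑ f ∈ pdiv d,
        if m ^ 2 ∣ n ∧ f ∣ n then mu m * mu f else 0 := by
  have h1 : (if Squarefree (d * n) then (1 : ℂ) else 0) =
      (if Squarefree n then 1 else 0) * if IsCoprime d n then 1 else 0 := by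
    rw [ite_zero_mul_ite_zero, mul_one]
    refine if_congr ?_ rfl rfl
    rw [squarefree_mul_iff]
    exact ⟨fun h => ⟨h.2.2, h.1.isCoprime⟩, fun h => ⟨h.2.isRelPrime, hd.2, h.1⟩⟩
  have h2 : (if Squarefree n then (1 : ℂ) else 0) =
      ∑ m ∈ (ball ⌊R⌋₊).filter (fun m => Primary m ∧ nr m ^ 2 ≤ R),
        if m ^ 2 ∣ n then mu m else 0 := by
    rw [← GrA.sum_mu_sq hn, tsum_eq_sum (s := (ball ⌊R⌋₊).filter fun m => Primary m ∧ nr m ^ 2 ≤ R)]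
    · refine Finset.sum_congr rfl fun m hm => if_congr ?_ rfl rfl
      exact and_iff_right (Finset.mem_filter.1 hm).2.1
    · intro m hm
      refine if_neg fun h => hm ?_
      have a1 : nr m ^ 2 ≤ R := by
        rw [← nr_pow]
        exact (Nat.cast_le.2 (nm_le_of_dvd h.2 hn.ne_zero)).trans hR
      have a2 := one_le_nr h.1.ne_zero
      exact Finset.mem_filter.2 ⟨mem_ball.2 (Nat.le_floor (by nlinarith)), h.1, a1⟩
  rw [h1, h2, ← sum_mu_coprime hd.1 hn.ne_zero, Finset.sum_filter (s := pdiv d), Finset.sum_mul_sum]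
  exact Finset.sum_congr rfl fun m _ => Finset.sum_congr rfl fun f _ => ite_zero_mul_ite_zero _ _ _ _

theorem QA_prod4 (A B : Finset O) (C : O → O → Finset O) (D : O → O → O → Finset O) :
    ∃ Q : Finset (O × O × O × O),
      (∀ q ∈ Q, q.1 ∈ A ∧ q.2.1 ∈ B ∧ q.2.2.1 ∈ C q.1 q.2.1 ∧ q.2.2.2 ∈ D q.1 q.2.1 q.2.2.1) ∧
      ∀ (V : Type) [AddCommMonoid V] (F : O × O × O × O → V),
        ∑ q ∈ Q, F q = ∑ a ∈ A, ∑ b ∈ B, ∑ c ∈ C a b, ∑ e ∈ D a b c, F (a, b, c, e) := by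
  classical
  refine ⟨(A.sigma fun a => B.sigma fun b => (C a b).sigma fun c => D a b c).image
    fun x => (x.1, x.2.1, x.2.2.1, x.2.2.2), fun q hq => ?_, fun V _ F => ?_⟩
  · obtain ⟨x, hx, rfl⟩ := Finset.mem_image.1 hq
    simpa only [Finset.mem_sigma] using hx
  · rw [Finset.sum_image]
    · simp only [Finset.sum_sigma]
    · rintro ⟨a, b, c, e⟩ - ⟨a', b', c', e'⟩ - h
      simp only [Prod.mk.injEq] at h
      obtain ⟨rfl, rfl, rfl, rfl⟩ := h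
      rfl

open Classical in
/-- Removing the squarefreeness of `d n₁ n₂`:
`μ²(n) 1_{(n, d) = 1} = ∑_{m² ∣ n} μ(m) ∑_{f ∣ d, f ∣ n} μ(f)` and, with `r = m² f / (m, f)`,
`1_{r ∣ n₁ n₂} = ∑_{r₁ ∣ r} ∑_{j ∣ r / r₁} μ(j) 1_{r₁ j ∣ n₁} 1_{r / r₁ ∣ n₂}`;
`N(r₁ j) N(r / r₁) ≥ N r ≥ N(m)²`.  (The index type keeps the tuples `(m, f, r₁, j)` apart.) -/
theorem exists_sqf_expand {ε : ℝ} (hε : 0 < ε) : ∃ C : ℝ, 0 < C ∧ ∀ (d : O) (R : ℝ), PS d → 1 ≤ R →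
    ∃ (Q : Finset (O × O × O × O)) (q₁ q₂ : O × O × O × O → O) (c : O × O × O × O → ℂ),
      (∀ q ∈ Q, Primary (q₁ q) ∧ Primary (q₂ q) ∧ nr (q₁ q) * nr (q₂ q) ≤ (R * nr d) ^ 2) ∧
      ∑ q ∈ Q, ‖c q‖ / Real.sqrt (nr (q₁ q) * nr (q₂ q)) ≤ C * (R * nr d) ^ ε ∧
      ∀ n₁ n₂ : O, Primary n₁ → Primary n₂ → nr (n₁ * n₂) ≤ R →
        (if Squarefree (d * (n₁ * n₂)) then (1 : ℂ) else 0) =
          ∑ q ∈ Q, if q₁ q ∣ n₁ ∧ q₂ q ∣ n₂ then c q else 0 := by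
  obtain ⟨C₁, hC₁, hcard⟩ := card_pdiv_le (show 0 < ε / 4 by positivity)
  obtain ⟨C₂, hC₂, hsum⟩ := sum_nr_rpow_le (show -1 < -1 + ε / 4 by linarith)
  choose r hr using QA_lcm
  refine ⟨C₂ * C₁ ^ 3, by positivity, fun d R hd hR => ?_⟩
  obtain ⟨Ms, hMs⟩ : ∃ Ms, Ms = (ball ⌊R⌋₊).filter (fun m => Primary m ∧ nr m ^ 2 ≤ R) := ⟨_, rfl⟩
  have hd1 := one_le_nr hd.1.ne_zero
  have hM' : ∀ m ∈ Ms, m ∈ ball ⌊R⌋₊ ∧ Primary m ∧ nr m ^ 2 ≤ R := fun m hm => by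
    rwa [hMs, Finset.mem_filter] at hm
  have hM : ∀ m ∈ Ms, Primary m ∧ nr m ^ 2 ≤ R := fun m hm => (hM' m hm).2
  have hr' : ∀ m ∈ Ms, ∀ f ∈ pdiv d, Primary (r (m ^ 2) f) ∧ nr m ^ 2 ≤ nr (r (m ^ 2) f) ∧
      nr (r (m ^ 2) f) ≤ R * nr d ∧ ∀ n, r (m ^ 2) f ∣ n ↔ m ^ 2 ∣ n ∧ f ∣ n := by
    intro m hm f hf
    obtain ⟨f1, f2⟩ := (mem_pdiv hd.1.ne_zero).1 hf
    obtain ⟨a1, a2, a3, a4⟩ := hr _ _ ((hM m hm).1.pow 2) f1
    rw [nr_pow] at a2 a3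
    exact ⟨a1, a2, a3.trans (mul_le_mul (hM m hm).2 (Nat.cast_le.2 (nm_le_of_dvd f2 hd.1.ne_zero))
      (Nat.cast_nonneg _) (by linarith)), a4⟩
  have hq : ∀ {r r₁ j : O}, Primary r → r₁ ∈ pdiv r → j ∈ pdiv (r / r₁) → Primary (r₁ * j) ∧
      Primary (r / r₁) ∧ nr (r / r₁) ≤ nr r ∧ nr r ≤ nr (r₁ * j) * nr (r / r₁) ∧
        nr (r₁ * j) * nr (r / r₁) ≤ nr r ^ 2 := by
    intro r r₁ j h0 h1 h2
    obtain ⟨a1, a2, a3⟩ := AF.primary_div h0 h1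
    obtain ⟨b1, b2⟩ := (mem_pdiv a2.ne_zero).1 h2
    have e : nr (r₁ * j) * nr (r / r₁) = nr r * nr j := by
      rw [← nr_mul, mul_right_comm, a3, nr_mul]
    have c1 : r / r₁ ∣ r := Dvd.intro_left _ a3
    rw [e, sq]
    exact ⟨a1.mul b1, a2, Nat.cast_le.2 (nm_le_of_dvd c1 h0.ne_zero),
      le_mul_of_one_le_right (Nat.cast_nonneg _) (one_le_nr b1.ne_zero),
      mul_le_mul_of_nonneg_left (Nat.cast_le.2 (nm_le_of_dvd (b2.trans c1) h0.ne_zero))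
        (Nat.cast_nonneg _)⟩
  obtain ⟨Q, hQ, hQs⟩ := QA_prod4 Ms (pdiv d) (fun m f => pdiv (r (m ^ 2) f))
    fun m f r₁ => pdiv (r (m ^ 2) f / r₁)
  refine ⟨Q, fun q => q.2.2.1 * q.2.2.2, fun q => r (q.1 ^ 2) q.2.1 / q.2.2.1,
    fun q => mu q.1 * mu q.2.1 * mu q.2.2.2, fun q hq' => ?_, ?_, fun n₁ n₂ h₁ h₂ hn => ?_⟩
  · obtain ⟨a1, a2, a3, a4⟩ := hQ q hq'
    obtain ⟨b1, -, b3, -⟩ := hr' _ a1 _ a2
    obtain ⟨c1, c2, -, -, c5⟩ := hq b1 a3 a4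
    exact ⟨c1, c2, c5.trans (pow_le_pow_left₀ (Nat.cast_nonneg _) b3 2)⟩
  · rw [hQs]
    obtain ⟨T, hT⟩ : ∃ T : ℝ, T = C₁ * (R * nr d) ^ (ε / 4) := ⟨_, rfl⟩
    have hT0 : 0 ≤ T := by rw [hT]; positivity
    have hc : ∀ n : O, n ≠ 0 → nr n ≤ R * nr d → ((pdiv n).card : ℝ) ≤ T := fun n h0 h1 =>
      (hcard n h0).trans (hT ▸ mul_le_mul_of_nonneg_left
        (Real.rpow_le_rpow (Nat.cast_nonneg _) h1 (by positivity)) hC₁.le)
    have hs : ∀ {n : O} {F : O → ℝ} {y : ℝ}, n ≠ 0 → nr n ≤ R * nr d → 0 ≤ y →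
        (∀ x ∈ pdiv n, F x ≤ y) → ∑ x ∈ pdiv n, F x ≤ T * y := fun h0 h1 hy h =>
      (Finset.sum_le_card_nsmul _ _ _ h).trans
        (by rw [nsmul_eq_mul]; exact mul_le_mul_of_nonneg_right (hc _ h0 h1) hy)
    refine (Finset.sum_le_sum (g := fun m => T * (T * (T * nr m ^ (-1 + ε / 4)))) fun m hm =>
      ?_).trans ?_
    · have m1 := one_le_nr (hM m hm).1.ne_zero
      refine hs hd.1.ne_zero (le_mul_of_one_le_left (by linarith) hR) (by positivity)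
        fun f hf => ?_
      obtain ⟨b1, b2, b3, -⟩ := hr' m hm f hf
      refine hs b1.ne_zero b3 (by positivity) fun r₁ hr₁ => ?_
      obtain ⟨-, a2, a3⟩ := AF.primary_div b1 hr₁
      refine hs a2.ne_zero (le_trans (Nat.cast_le.2 (nm_le_of_dvd (Dvd.intro_left _ a3)
        b1.ne_zero)) b3) (by positivity) fun j hj => ?_
      obtain ⟨-, -, -, c4, -⟩ := hq b1 hr₁ hj
      refine le_trans ?_ (Real.rpow_le_rpow_of_exponent_le m1 (by linarith : -1 ≤ -1 + ε / 4))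
      rw [Real.rpow_neg_one, ← one_div]
      refine div_le_div₀ zero_le_one ?_ (by linarith) (Real.le_sqrt_of_sq_le (b2.trans c4))
      rw [norm_mul, norm_mul]
      exact mul_le_one₀ (mul_le_one₀ (norm_mu_le _) (norm_nonneg _) (norm_mu_le _))
        (norm_nonneg _) (norm_mu_le _)
    · simp only [← Finset.mul_sum]
      have h1 : ∑ m ∈ Ms, nr m ^ (-1 + ε / 4) ≤ C₂ * (R * nr d) ^ (ε / 4) := by
        refine (Finset.sum_le_sum_of_subset_of_nonneg (fun m hm => Finset.mem_erase.2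
          ⟨(hM m hm).1.ne_zero, (hM' m hm).1⟩) fun _ _ _ => by positivity).trans
          ((hsum ⌊R⌋₊ (Nat.floor_pos.2 hR)).trans ?_)
        rw [add_neg_cancel_left]
        exact mul_le_mul_of_nonneg_left (Real.rpow_le_rpow (Nat.cast_nonneg _)
          ((Nat.floor_le (by linarith)).trans (le_mul_of_one_le_right (by linarith) hd1))
          (by positivity)) hC₂.le
      have h2 : (R * nr d) ^ ε = ((R * nr d) ^ (ε / 4)) ^ 4 := by
        rw [← Real.rpow_mul_natCast (by positivity)]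
        congr 1
        push_cast
        ring
      calc _ ≤ T * (T * (T * (C₂ * (R * nr d) ^ (ε / 4)))) := by gcongr
        _ = _ := by rw [h2, hT]; ring
  · rw [hQs, QA_sqf hd (h₁.mul h₂) hn, ← hMs]
    refine Finset.sum_congr rfl fun m hm => Finset.sum_congr rfl fun f hf => ?_
    obtain ⟨b1, -, -, b4⟩ := hr' m hm f hf
    have := congrArg (fun z => mu m * mu f * z) (QA_dvd_mul b1 h₁ n₂)
    simp only [Finset.mul_sum, mul_ite, mul_one, mul_zero, b4] at this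
    exact this

end Crest.Agent.R12
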