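import Crest.Agent.R12.AFb
import Crest.Agent.R12.M4
import Crest.Agent.R12.Chr

/-!
# Row 12, analytic half: fourth moments of smooth coefficients
-/

set_option autoImplicit false

noncomputable section

namespace Crest.Agent.R12

open Crest.Agent.R17
open scoped ComplexConjugate Topology
open Filter MeasureTheory

/-- A fourth moment estimate for all the dilates of `φ`. -/
def Fam4 (l : ℤ) (φ : AF) (Y Γ R : ℝ) (J : ℕ) : Prop :=
  ∀ (q c : O) (M : ℝ) (s : ℂ) (K : Finset O), Primary q → c ≠ 0 → nr c ≤ R → 1 ≤ M →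
    |s.re| ≤ 1 → (∀ k ∈ K, k ≠ 0 ∧ nr k ≤ M ∧ ¬ Cube (k * c)) →
    ∑ k ∈ K, ‖∑' n : O, φ (q * n) * xi l (k * c) n * ((nr (q * n) / Y : ℝ) : ℂ) ^ s‖ ^ 4 ≤
      Γ * (1 + |s.im|) ^ J * (Y / nr q) ^ 2 * M ^ (27 / 20 : ℝ) * nr (rad c)

/-- The majorant of `|φ(n) (N n / Y)^s|`, `|Re s| ≤ 1`. -/
def mw (φ : AF) (Y : ℝ) (n : O) : ℝ := ‖φ n‖ * max (nr n / Y) (Y / nr n)

/-- The smooth coefficients: one log-Gaussian or a product of two. -/
def QW (X : ℝ) (β : AF) (Y : ℝ) : Prop :=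
  β = gW Y ∨ ∃ Y₁ Y₂ : ℝ, X⁻¹ ≤ Y₁ ∧ Y₁ ≤ X ∧ X⁻¹ ≤ Y₂ ∧ Y₂ ≤ X ∧ Y₁ * Y₂ = Y ∧ β = gW Y₁ * gW Y₂

theorem Fam4.mono {l : ℤ} {φ : AF} {Y Γ Γ' R : ℝ} {J : ℕ} (h : Fam4 l φ Y Γ R J) (hΓ : Γ ≤ Γ') :
    Fam4 l φ Y Γ' R J := fun q c M s K hq hc hR hM hs hK => by
  refine (h q c M s K hq hc hR hM hs hK).trans ?_
  have : 0 ≤ nr (rad c) := Nat.cast_nonneg _
  gcongr

theorem fam4_one (l : ℤ) (R : ℝ) (J : ℕ) : Fam4 l 1 1 7 R J := by
  intro q c M s K hq hc hR hM hs hK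
  have hr1 : 1 ≤ nr (rad c) := one_le_nr (primary_rad c).ne_zero
  by_cases h1 : q = 1
  · have e : ∀ k : O, ∑' n : O, (1 : AF) (q * n) * xi l (k * c) n *
        ((nr (q * n) / 1 : ℝ) : ℂ) ^ s = 1 := fun k => by
      rw [tsum_eq_single 1 fun n hn => by simp [AF.one_apply, h1, hn]]
      simp [AF.one_apply, h1, xi_one, nr]
    have h2 := card_le_of_nr_le (K := K) (show 0 ≤ M by linarith) fun k hk =>
      ⟨(hK k hk).1, (hK k hk).2.1⟩
    have h3 : M ≤ M ^ (27 / 20 : ℝ) := Real.self_le_rpow_of_one_le hM (by norm_num)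
    have h4 : 1 ≤ (1 + |s.im|) ^ J := one_le_pow₀ (by linarith [abs_nonneg s.im])
    have h5 : nr q = 1 := by simp [h1, nr]
    simp only [e]
    simp only [norm_one, one_pow, Finset.sum_const, nsmul_eq_mul, mul_one, h5, div_one]
    calc _ ≤ 7 * 1 * M * 1 := by linarith
      _ ≤ _ := by gcongr
  · have e : ∀ n : O, (1 : AF) (q * n) = 0 := fun n =>
      if_neg fun h => h1 (hq.eq_one_of_isUnit (IsUnit.of_mul_eq_one n h))
    simp only [e, zero_mul, tsum_zero, norm_zero, zero_pow four_ne_zero, Finset.sum_const_zero]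
    positivity

/-- `M4` with `max R M` and `Y / N q` (`Wc_add`). -/
theorem fam4_gW (l : ℤ) {ε : ℝ} (hε : 0 < ε) : ∃ (C : ℝ) (J : ℕ), 0 < C ∧ ∀ R Y : ℝ, 1 ≤ R →
    0 < Y → Y ≤ R → Fam4 l (gW Y) Y (C * R ^ ε) R J := by
  have h0 : 0 < min ε (1 / 60) := lt_min hε (by norm_num)
  obtain ⟨C, hC, J, H⟩ := M4 l h0
  refine ⟨C, J, hC, fun R Y hR hY hYR q c M s K hq hc hcR hM hs hK => ?_⟩
  have hq1 := one_le_nr hq.ne_zero
  have hM0 : 0 < M := by linarith
  have e : ∀ k : O, ∑' n : O, gW Y (q * n) * xi l (k * c) n * ((nr (q * n) / Y : ℝ) : ℂ) ^ s =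
      Sm (xi l (k * c)) (Y / nr q) s := fun k => by
    refine tsum_congr fun n => ?_
    by_cases hn : Primary n
    · have h1 := one_le_nr (hq.mul hn).ne_zero
      rw [gW, AF.of_apply _ (hq.mul hn), mul_right_comm, ← Wc_add (by positivity), zero_add,
        mul_comm, nr_mul, div_div_eq_mul_div, mul_comm (nr n)]
    · simp [xi_of_not hn]
  have h2 : (max R M) ^ min ε (1 / 60) ≤ R ^ ε * M ^ (1 / 60 : ℝ) := by
    rcases le_total R M with h | h
    · rw [max_eq_right h]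
      exact (Real.rpow_le_rpow_of_exponent_le hM (min_le_right _ _)).trans
        (le_mul_of_one_le_left (by positivity) (Real.one_le_rpow hR hε.le))
    · rw [max_eq_left h]
      exact (Real.rpow_le_rpow_of_exponent_le hR (min_le_left _ _)).trans
        (le_mul_of_one_le_right (by positivity) (Real.one_le_rpow hM (by norm_num)))
  simp only [e]
  refine (H (max R M) M (Y / nr q) s c K hM (le_max_right _ _) (by positivity)
    ((div_le_self hY.le hq1).trans (hYR.trans (le_max_left _ _))) hc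
    (hcR.trans (le_max_left _ _)) (by linarith) hK).trans ?_
  have : 0 ≤ nr (rad c) := Nat.cast_nonneg _
  calc _ ≤ C * (R ^ ε * M ^ (1 / 60 : ℝ)) * (1 + |s.im|) ^ J * (Y / nr q) ^ 2 * M ^ (4 / 3 : ℝ) *
        nr (rad c) := by gcongr
    _ = _ := by
      rw [show (27 / 20 : ℝ) = 1 / 60 + 4 / 3 by norm_num, Real.rpow_add hM0]
      ring

end Crest.Agent.R12
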