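import Crest.Agent.R12.QB0

/-!
# Row 12, analytic half: row sums for smooth coefficients
-/

set_option autoImplicit false

noncomputable section

namespace Crest.Agent.R12

open Crest.Agent.R17
open scoped ComplexConjugate Topology
open Filter MeasureTheory

/-- Decay of a weight away from the scale `Y`. -/
def QB_P (C A : ℝ) (m : O → ℝ) (Y : ℝ) : Prop :=
  ∀ (L : ℝ) (n : O), 1 ≤ L → (n ≠ 0 → L ≤ nr n / Y ∨ nr n / Y ≤ L⁻¹) →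
    m n ≤ C * L ^ (-A) * WeightB.g Y n

theorem QB_P.le {C A Y : ℝ} {m : O → ℝ} (h : QB_P C A m Y) (n : O) : m n ≤ C * WeightB.g Y n := by
  simpa only [Real.one_rpow, mul_one] using h 1 n le_rfl fun _ => WeightB.one_or _

theorem QB_pt {A : ℝ} (hA : 0 ≤ A) : ∃ C : ℝ, 0 < C ∧ QB_P C A (mw 1 1) 1 ∧
    ∀ Y : ℝ, 0 < Y → QB_P C A (mw (gW Y) Y) Y := by
  classical
  obtain ⟨C₁, h₁, H₁⟩ := WeightB.pt A 1 0 hA
  obtain ⟨C₂, h₂, H₂⟩ := WeightB.pt A (-1) 0 hA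
  refine ⟨1 + C₁ + C₂, by positivity, fun L n hL h => ?_, fun Y hY L n hL h => ?_⟩
  · have := WeightB.g_nonneg one_pos n
    by_cases hn : n = 1
    · subst hn
      have e : nr (1 : O) = 1 := by simp [nr]
      obtain rfl : L = 1 := by
        rw [e, div_one] at h
        exact le_antisymm ((h one_ne_zero).elim id fun h => (one_le_inv₀ (by linarith)).1 h) hL
      simp only [mw, AF.one_apply, WeightB.g, e, if_true, if_neg (one_ne_zero (α := O)), norm_one,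
        div_one, max_self, Real.one_rpow, min_self, mul_one]
      linarith
    · rw [mw, AF.one_apply, if_neg hn, norm_zero, zero_mul]
      positivity
  · have := WeightB.g_nonneg hY n
    by_cases hn : Primary n
    · have hy : 0 < nr n / Y := div_pos (nr_pos hn.ne_zero) hY
      have a1 := H₁ _ L 0 hy hL (by simp) (h hn.ne_zero)
      have a2 := H₂ _ L 0 hy hL (by simp) (h hn.ne_zero)
      rw [Real.rpow_one] at a1
      rw [Real.rpow_neg_one, inv_div] at a2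
      rw [WeightB.g, if_neg hn.ne_zero] at this ⊢
      have a3 : 0 ≤ L ^ (-A) * min 1 ((nr n / Y) ^ (-2 : ℝ)) := by positivity
      have a4 : 0 ≤ C₁ * L ^ (-A) * min 1 ((nr n / Y) ^ (-2 : ℝ)) := by positivity
      have a5 : 0 ≤ C₂ * L ^ (-A) * min 1 ((nr n / Y) ^ (-2 : ℝ)) := by positivity
      rw [mw, gW, AF.of_apply _ hn, mul_max_of_nonneg _ _ (norm_nonneg _)]
      exact max_le (by linarith) (by linarith)
    · rw [mw, (gW Y).off n hn, norm_zero, zero_mul]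
      positivity

theorem summable_mw_gW {Y : ℝ} (hY : 0 < Y) : Summable (mw (gW Y) Y) := by
  obtain ⟨C, -, -, h⟩ := QB_pt le_rfl
  exact Summable.of_nonneg_of_le (QB0_mw_nonneg _ hY) (h Y hY).le
    ((WeightB.summable_g hY).mul_left C)

theorem summable_mw_one : Summable (mw 1 1) := by
  obtain ⟨C, -, h, -⟩ := QB_pt le_rfl
  exact Summable.of_nonneg_of_le (QB0_mw_nonneg _ one_pos) h.le
    ((WeightB.summable_g one_pos).mul_left C)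

open Classical in
theorem QB_tail : ∃ C' : ℝ, 0 < C' ∧ ∀ (C A L Y₁ Y₂ : ℝ) (m₁ m₂ : O → ℝ), 0 ≤ C → 1 ≤ L → 0 < Y₁ →
    0 < Y₂ → (∀ n, 0 ≤ m₁ n) → (∀ n, 0 ≤ m₂ n) → QB_P C A m₁ Y₁ → QB_P C A m₂ Y₂ →
    (∑' p : O × O, if nr (p.1 * p.2) < Y₁ * Y₂ / L ^ 2 ∨ L ^ 2 * (Y₁ * Y₂) < nr (p.1 * p.2) then
      m₁ p.1 * m₂ p.2 else 0) ≤ C ^ 2 * L ^ (-A) * (C' * Y₁ * (C' * Y₂)) := by
  obtain ⟨C', hC', H⟩ := WeightB.tsum_g_le
  refine ⟨C', hC', fun C A L Y₁ Y₂ m₁ m₂ hC hL h₁ h₂ p₁ p₂ P₁ P₂ => ?_⟩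
  have hL0 : 0 < L := by linarith
  have g₁ := WeightB.g_nonneg h₁
  have g₂ := WeightB.g_nonneg h₂
  have s₁ := WeightB.summable_g h₁
  have s₂ := WeightB.summable_g h₂
  have s := s₁.mul_of_nonneg s₂ g₁ g₂
  have key : ∀ p : O × O, (if nr (p.1 * p.2) < Y₁ * Y₂ / L ^ 2 ∨
      L ^ 2 * (Y₁ * Y₂) < nr (p.1 * p.2) then m₁ p.1 * m₂ p.2 else 0) ≤
      C ^ 2 * L ^ (-A) * (WeightB.g Y₁ p.1 * WeightB.g Y₂ p.2) := by
    intro p
    have := g₁ p.1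
    have := g₂ p.2
    split_ifs with h
    swap
    · positivity
    by_cases h1 : p.1 ≠ 0 → L ≤ nr p.1 / Y₁ ∨ nr p.1 / Y₁ ≤ L⁻¹
    · exact (mul_le_mul (P₁ L _ hL h1) (P₂.le _) (p₂ _) (by positivity)).trans_eq (by ring)
    refine (mul_le_mul (P₁.le _) (P₂ L _ hL fun _ => ?_) (p₂ _) (by positivity)).trans_eq (by ring)
    by_contra h2
    push Not at h1 h2
    have e : nr (p.1 * p.2) = nr p.1 / Y₁ * (nr p.2 / Y₂) * (Y₁ * Y₂) := by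
      rw [nr_mul]; field_simp
    have a1 := mul_le_mul h1.2.1.le h2.1.le (by positivity) hL0.le
    have a2 := mul_le_mul h1.2.2.le h2.2.le (by positivity) (by positivity)
    rw [e, div_eq_inv_mul (Y₁ * Y₂), ← inv_pow, sq, sq] at h
    rcases h with h | h
    · exact absurd (mul_le_mul_of_nonneg_right a2 (mul_pos h₁ h₂).le) h.not_ge
    · exact absurd (mul_le_mul_of_nonneg_right a1 (mul_pos h₁ h₂).le) h.not_ge
  refine ((Summable.of_nonneg_of_le (fun p => by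
    split_ifs <;> simp only [le_refl, mul_nonneg, p₁, p₂]) key (s.mul_left _)).tsum_le_tsum key
      (s.mul_left _)).trans ?_
  rw [tsum_mul_left, ← s₁.tsum_mul_tsum s₂ s]
  exact mul_le_mul_of_nonneg_left (mul_le_mul (H _ h₁) (H _ h₂) (tsum_nonneg g₂) (by positivity))
    (by positivity)

open Classical in
/-- Log-Gaussian tails (`tsum_norm_Sm_tail_le`, `tsum_norm_Sm_le` with `s = ± 1`): if the product is
off by the factor `Λ`, one of the variables is off by `√Λ`. -/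
theorem tail_QW {κ : ℝ} (hκ : 0 < κ) : ∃ X₀ : ℝ, ∀ X ≥ X₀, ∀ Y₁ Y₂ : ℝ, X⁻¹ ≤ Y₁ → Y₁ ≤ X →
    X⁻¹ ≤ Y₂ → Y₂ ≤ X →
    (∑' p : O × O, if nr (p.1 * p.2) < Y₁ * Y₂ / X ^ κ ∨ X ^ κ * (Y₁ * Y₂) < nr (p.1 * p.2) then
      mw (gW Y₁) Y₁ p.1 * mw (gW Y₂) Y₂ p.2 else 0) ≤ X ^ (-20 : ℝ) ∧
    (∑' p : O × O, if nr (p.1 * p.2) < Y₁ * 1 / X ^ κ ∨ X ^ κ * (Y₁ * 1) < nr (p.1 * p.2) then
      mw (gW Y₁) Y₁ p.1 * mw 1 1 p.2 else 0) ≤ X ^ (-20 : ℝ) := by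
  obtain ⟨C, hC, P₀, P⟩ := QB_pt (show 0 ≤ 46 / κ by positivity)
  obtain ⟨C', hC', H⟩ := QB_tail
  refine ⟨max 1 ((C * C') ^ 2), fun X hX Y₁ Y₂ a₁ b₁ a₂ b₂ => ?_⟩
  have hX1 : 1 ≤ X := le_of_max_le_left hX
  have hX0 : 0 < X := by linarith
  have h₁ : 0 < Y₁ := lt_of_lt_of_le (by positivity) a₁
  have h₂ : 0 < Y₂ := lt_of_lt_of_le (by positivity) a₂
  have e : X ^ κ = (X ^ (κ / 2)) ^ 2 := by
    rw [← Real.rpow_natCast, ← Real.rpow_mul hX0.le]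
    congr 1
    push_cast
    ring
  have hL : 1 ≤ X ^ (κ / 2) := Real.one_le_rpow hX1 (by positivity)
  have fin : ∀ Y : ℝ, 0 < Y → Y ≤ X →
      C ^ 2 * (X ^ (κ / 2)) ^ (-(46 / κ)) * (C' * Y₁ * (C' * Y)) ≤ X ^ (-20 : ℝ) := fun Y _ _ => by
    rw [← Real.rpow_mul hX0.le, show κ / 2 * -(46 / κ) = -20 - (3 : ℕ) by field_simp; norm_num,
      Real.rpow_sub_natCast hX0.ne']
    calc _ = X ^ (-20 : ℝ) * ((C * C') ^ 2 * Y₁ * Y / X ^ 3) := by ring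
      _ ≤ X ^ (-20 : ℝ) * (X * X * X / X ^ 3) := by
          gcongr
          exact le_of_max_le_right hX
      _ = _ := by field_simp
  rw [e]
  exact ⟨(H C _ _ Y₁ Y₂ _ _ hC.le hL h₁ h₂ (QB0_mw_nonneg _ h₁) (QB0_mw_nonneg _ h₂) (P _ h₁)
      (P _ h₂)).trans (fin _ h₂ b₂),
    (H C _ _ Y₁ 1 _ _ hC.le hL h₁ one_pos (QB0_mw_nonneg _ h₁) (QB0_mw_nonneg _ one_pos) (P _ h₁)
      P₀).trans (fin _ one_pos hX1)⟩

theorem QB_norm_le (φ : AF) {Y : ℝ} (hY : 0 < Y) {n : O} (hn : n ≠ 0) : ‖φ n‖ ≤ mw φ Y n := by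
  refine le_mul_of_one_le_right (norm_nonneg _) ?_
  rcases le_total (nr n) Y with h | h
  · exact le_max_of_le_right ((one_le_div (nr_pos hn)).2 h)
  · exact le_max_of_le_left ((one_le_div hY).2 h)

open Classical in
theorem QB_out {φ₁ φ₂ : AF} {Y₁ Y₂ : ℝ} (h₁ : 0 < Y₁) (h₂ : 0 < Y₂) (s₁ : Summable (mw φ₁ Y₁))
    (s₂ : Summable (mw φ₂ Y₂)) (x y z : ℝ) :
    ∑ b ∈ rng 1 z \ rng x y, ‖(φ₁ * φ₂ : AF) b‖ ≤ ∑' p : O × O,
      if nr (p.1 * p.2) < x ∨ y < nr (p.1 * p.2) then mw φ₁ Y₁ p.1 * mw φ₂ Y₂ p.2 else 0 := by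
  have p₁ := QB0_mw_nonneg φ₁ h₁
  have p₂ := QB0_mw_nonneg φ₂ h₂
  set F : O × O → ℝ := fun p =>
    if nr (p.1 * p.2) < x ∨ y < nr (p.1 * p.2) then mw φ₁ Y₁ p.1 * mw φ₂ Y₂ p.2 else 0 with hF
  have F0 : ∀ p, 0 ≤ F p := fun p => by
    simp only [hF]
    split_ifs <;> simp only [le_refl, mul_nonneg, p₁, p₂]
  have u : Summable F := Summable.of_nonneg_of_le F0 (fun p => by
    simp only [hF]
    split_ifs <;> simp only [le_refl, mul_nonneg, p₁, p₂]) (s₁.mul_of_nonneg s₂ p₁ p₂)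
  have hP : ∀ b ∈ rng 1 z \ rng x y, Primary b := fun b hb =>
    (mem_rng.1 (Finset.mem_sdiff.1 hb).1).1.1
  calc _ ≤ ∑ b ∈ rng 1 z \ rng x y, ∑ d ∈ pdiv b, F (d, b / d) := by
        refine Finset.sum_le_sum fun b hb => (norm_sum_le _ _).trans
          (Finset.sum_le_sum fun d hd => ?_)
        obtain ⟨c1, c2, c3⟩ := AF.primary_div (hP b hb) hd
        obtain ⟨a1, a2⟩ := Finset.mem_sdiff.1 hb
        have a3 : nr b < x ∨ y < nr b := by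
          by_contra h
          push Not at h
          exact a2 (mem_rng.2 ⟨(mem_rng.1 a1).1, h⟩)
        simp only [hF, c3, if_pos a3, norm_mul]
        exact mul_le_mul (QB_norm_le _ h₁ c1.ne_zero) (QB_norm_le _ h₂ c2.ne_zero) (norm_nonneg _)
          (p₁ _)
    _ = ∑ p ∈ ((rng 1 z \ rng x y).sigma pdiv).image (fun w => (w.2, w.1 / w.2)), F p := by
        rw [Finset.sum_sigma', Finset.sum_image]
        rintro ⟨b, d⟩ hb ⟨b', d'⟩ hb' e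
        obtain ⟨a1, a2⟩ := Finset.mem_sigma.1 (Finset.mem_coe.1 hb)
        obtain ⟨a3, a4⟩ := Finset.mem_sigma.1 (Finset.mem_coe.1 hb')
        obtain ⟨rfl, e2⟩ := Prod.mk.inj e
        obtain rfl : b = b' := (AF.primary_div (hP _ a1) a2).2.2.symm.trans
          ((congrArg (d * ·) e2).trans (AF.primary_div (hP _ a3) a4).2.2)
        rfl
    _ ≤ _ := u.sum_le_tsum _ fun p _ => F0 p

open Classical in
theorem rowHyp_QW (l : ℤ) : ∃ (J : ℕ) (X₀ : ℝ), ∀ X ≥ X₀, ∀ (β : AF) (Y : ℝ), QW X β Y →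
    X ^ (49 / 100 : ℝ) ≤ Y → Y ≤ X ^ (51 / 100 : ℝ) →
    RowHyp l (rng (Y / X ^ (1 / 100000 : ℝ)) (X ^ (1 / 100000 : ℝ) * Y)) β Y
      (X ^ (1 / 10000 : ℝ)) J ∧ Bd 2 β ∧
    ∑ b ∈ rng 1 (2 * X) \ rng (Y / X ^ (1 / 100000 : ℝ)) (X ^ (1 / 100000 : ℝ) * Y), ‖β b‖ ≤
      X ^ (-10 : ℝ) := by
  obtain ⟨C₁, J, hC₁, H₁⟩ := fam4_gW l (show (0 : ℝ) < 1 / 100000 by norm_num)
  obtain ⟨C₂, hC₂, H₂⟩ := rowHyp_of_fam4 l (show (0 : ℝ) < 1 / 100000 by norm_num)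
  obtain ⟨X₁, H₃⟩ := tail_QW (show (0 : ℝ) < 1 / 100000 by norm_num)
  obtain ⟨X₂, H₄⟩ := eventually_atTop.1 ((tendsto_rpow_atTop
    (show (0 : ℝ) < 7 / 100000 by norm_num)).eventually_ge_atTop (C₂ * (7 + C₁)))
  refine ⟨J, max 1 (max X₁ X₂), fun X hX β Y hβ hY₁ hY₂ => ?_⟩
  have hX1 : 1 ≤ X := le_of_max_le_left hX
  have hX0 : 0 < X := by linarith
  have hY1 : 1 ≤ Y := (Real.one_le_rpow hX1 (by norm_num)).trans hY₁
  have hXX : X ≤ X ^ 2 := le_self_pow₀ hX1 two_ne_zero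
  have hΛ : 1 ≤ X ^ (1 / 100000 : ℝ) := Real.one_le_rpow hX1 (by norm_num)
  have hZ : X ^ (1 / 100000 : ℝ) * Y ≤ X :=
    (mul_le_mul_of_nonneg_left hY₂ (by positivity)).trans (by
      rw [← Real.rpow_add hX0]
      exact Real.rpow_le_self_of_one_le hX1 (by norm_num))
  have hYX : Y ≤ X := (le_mul_of_one_le_left (by linarith) hΛ).trans hZ
  have hR : 1 ≤ (X ^ 2) ^ (1 / 100000 : ℝ) := Real.one_le_rpow (hX1.trans hXX) (by norm_num)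
  have T := H₃ X (le_of_max_le_left (le_of_max_le_right hX))
  set Γ := (7 + C₁) * (X ^ 2) ^ (1 / 100000 : ℝ) with hΓ
  have hΓ7 : 7 ≤ Γ := by nlinarith
  have hF : ∀ Y' : ℝ, 0 < Y' → Y' ≤ X → Fam4 l (gW Y') Y' Γ (X ^ 2) J := fun Y' a b =>
    (H₁ _ Y' (hX1.trans hXX) a (b.trans hXX)).mono (by rw [hΓ]; gcongr; linarith)
  obtain ⟨φ₁, φ₂, Y₁, Y₂, h₁, h₂, rfl, rfl, F₁, F₂, s₁, s₂, B₁, B₂, hT⟩ :
      ∃ (φ₁ φ₂ : AF) (Y₁ Y₂ : ℝ), 0 < Y₁ ∧ 0 < Y₂ ∧ Y = Y₁ * Y₂ ∧ β = φ₁ * φ₂ ∧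
      Fam4 l φ₁ Y₁ Γ (X ^ 2) J ∧ Fam4 l φ₂ Y₂ Γ (X ^ 2) J ∧ Summable (mw φ₁ Y₁) ∧
      Summable (mw φ₂ Y₂) ∧ Bd 1 φ₁ ∧ Bd 1 φ₂ ∧
      (∑' p : O × O, if nr (p.1 * p.2) < Y₁ * Y₂ / X ^ (1 / 100000 : ℝ) ∨
        X ^ (1 / 100000 : ℝ) * (Y₁ * Y₂) < nr (p.1 * p.2) then
        mw φ₁ Y₁ p.1 * mw φ₂ Y₂ p.2 else 0) ≤ X ^ (-20 : ℝ) := by
    rcases hβ with rfl | ⟨Y₁, Y₂, a₁, b₁, a₂, b₂, rfl, rfl⟩
    · have h : 0 < Y := by linarith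
      have hi : X⁻¹ ≤ Y := (inv_le_one_of_one_le₀ hX1).trans hY1
      exact ⟨_, 1, Y, 1, h, one_pos, (mul_one _).symm, (mul_one _).symm, hF _ h hYX,
        (fam4_one l _ J).mono hΓ7, summable_mw_gW h, summable_mw_one, bd_gW _,
        bd_one.mono le_rfl zero_le_one, (T Y Y hi hYX hi hYX).2⟩
    · have h₁ : 0 < Y₁ := lt_of_lt_of_le (by positivity) a₁
      have h₂ : 0 < Y₂ := lt_of_lt_of_le (by positivity) a₂
      exact ⟨_, _, Y₁, Y₂, h₁, h₂, rfl, rfl, hF _ h₁ b₁, hF _ h₂ b₂, summable_mw_gW h₁,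
        summable_mw_gW h₂, bd_gW _, bd_gW _, (T Y₁ Y₂ a₁ b₁ a₂ b₂).1⟩
  have hT' := hT.trans (Real.rpow_le_rpow_of_exponent_le hX1 (show (-20 : ℝ) ≤ -10 by norm_num))
  refine ⟨fun d c M s K hd hc hcd hM hs hK => ?_,
    one_add_one_eq_two (R := ℝ) ▸ B₁.mul B₂ zero_le_one zero_le_one,
    (QB_out h₁ h₂ s₁ s₂ _ _ _).trans hT'⟩
  refine (H₂ φ₁ φ₂ Y₁ Y₂ Γ _ _ J h₁ h₂ hΛ hY1 (by linarith) (pow_le_pow_left₀ (by positivity) hZ 2)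
    F₁ F₂ s₁ s₂ (hT'.trans (Real.rpow_le_rpow_of_nonpos (by positivity) hZ (by norm_num)))
    d c M s K hd hc hcd hM hs hK).trans ?_
  have e : C₂ * Γ * (X ^ (1 / 100000 : ℝ) * (Y₁ * Y₂)) ^ (1 / 100000 : ℝ) ≤
      X ^ (1 / 10000 : ℝ) := by
    calc _ = C₂ * (7 + C₁) * (X ^ 2) ^ (1 / 100000 : ℝ) *
          (X ^ (1 / 100000 : ℝ) * (Y₁ * Y₂)) ^ (1 / 100000 : ℝ) := by rw [hΓ]; ring
      _ ≤ X ^ (7 / 100000 : ℝ) * (X ^ 2) ^ (1 / 100000 : ℝ) * X ^ (1 / 100000 : ℝ) := by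
          gcongr
          exact H₄ X (le_of_max_le_right (le_of_max_le_right hX))
      _ = _ := by
          rw [← Real.rpow_natCast, ← Real.rpow_mul hX0.le, ← Real.rpow_add hX0,
            ← Real.rpow_add hX0]
          norm_num
  have hM0 : 0 < M := by linarith
  gcongr

end Crest.Agent.R12
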