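import Crest.Agent.R12.QA
import Crest.Agent.R12.ExpB

/-!
# Row 12, analytic half: row sums for smooth coefficients
-/

set_option autoImplicit false

noncomputable section

namespace Crest.Agent.R12

open Crest.Agent.R17
open scoped ComplexConjugate Topology
open Filter MeasureTheory

theorem QB0_split {n k h : O} (hn : Primary n) (hd : n ∣ h * k) :
    ∃ f s : O, Primary f ∧ Primary s ∧ f ∣ h ∧ s ∣ k ∧ n = f * s := by
  obtain ⟨f, s, hf, hs, e⟩ := exists_dvd_and_dvd_of_dvd_mul hd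
  have h1 : ¬ lam ∣ f := fun h2 => hn.not_lam_dvd (e ▸ h2.mul_right s)
  obtain ⟨u, hu, hp⟩ := exists_unit_primary h1
  obtain ⟨u, rfl⟩ := hu
  have e2 : n = (u * f) * (↑u⁻¹ * s) := by
    rw [e, mul_mul_mul_comm, Units.mul_inv, one_mul]
  exact ⟨u * f, ↑u⁻¹ * s, hp, hp.of_mul (e2 ▸ hn), Units.mul_left_dvd.2 hf,
    Units.mul_left_dvd.2 hs, e2⟩

open Classical in
/-- The pairs of primary elements with `x ≤ N (d n₁ n₂) ≤ y`. -/
def QB0_T (d : O) (x y : ℝ) : Finset (O × O) :=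
  (ball ⌊y⌋₊ ×ˢ ball ⌊y⌋₊).filter fun p =>
    Primary p.1 ∧ Primary p.2 ∧ x ≤ nr (d * (p.1 * p.2)) ∧ nr (d * (p.1 * p.2)) ≤ y

theorem QB0_mem_T {d : O} (hd : d ≠ 0) {x y : ℝ} {p : O × O} : p ∈ QB0_T d x y ↔
    Primary p.1 ∧ Primary p.2 ∧ x ≤ nr (d * (p.1 * p.2)) ∧ nr (d * (p.1 * p.2)) ≤ y := by
  classical
  rw [QB0_T, Finset.mem_filter, and_iff_right_iff_imp, Finset.mem_product, mem_ball, mem_ball]
  rintro ⟨h1, h2, -, h3⟩
  have h0 := mul_ne_zero hd (mul_ne_zero h1.ne_zero h2.ne_zero)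
  exact ⟨Nat.le_floor ((Nat.cast_le.2 (nm_le_of_dvd ((dvd_mul_right _ _).mul_left d) h0)).trans h3),
    Nat.le_floor ((Nat.cast_le.2 (nm_le_of_dvd ((dvd_mul_left _ _).mul_left d) h0)).trans h3)⟩

open Classical in
theorem QB0_reindex {d : O} (hd : PS d) (x y : ℝ) (Φ : O → O → ℂ) :
    ∑ b ∈ Sd (rng x y) d, ∑ e ∈ pdiv b, Φ b e = ∑ d₁ ∈ pdiv d, ∑ p ∈ QB0_T d x y,
      (if Squarefree (d * (p.1 * p.2)) then (1 : ℂ) else 0) * Φ (d * (p.1 * p.2)) (d₁ * p.1) := by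
  simp only [ite_mul, one_mul, zero_mul, ← Finset.sum_filter]
  rw [Finset.sum_sigma', ← Finset.sum_product']
  symm
  refine Finset.sum_bij (fun z _ => ⟨d * (z.2.1 * z.2.2), z.1 * z.2.1⟩) ?_ ?_ ?_ fun _ _ => rfl
  · rintro ⟨d₁, n₁, n₂⟩ hz
    simp only [Finset.mem_product, Finset.mem_filter, QB0_mem_T hd.ne_zero] at hz
    obtain ⟨h1, ⟨h2, h3, h4, h5⟩, h6⟩ := hz
    obtain ⟨h7, h8⟩ := (mem_pdiv hd.ne_zero).1 h1
    have h9 := hd.1.mul (h2.mul h3)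
    exact Finset.mem_sigma.2 ⟨mem_Sd.2 ⟨mem_rng.2 ⟨⟨h9, h6⟩, h4, h5⟩, dvd_mul_right _ _⟩,
      (mem_pdiv h9.ne_zero).2 ⟨h7.mul h2, mul_dvd_mul h8 (dvd_mul_right _ _)⟩⟩
  · rintro ⟨d₁, n₁, n₂⟩ hz ⟨d₁', n₁', n₂'⟩ hz' h
    simp only [Finset.mem_product, Finset.mem_filter, QB0_mem_T hd.ne_zero] at hz hz'
    obtain ⟨h1, ⟨h2, h3, -⟩, h6⟩ := hz
    obtain ⟨h1', ⟨h2', h3', -⟩, h6'⟩ := hz'
    obtain ⟨h7, h8⟩ := (mem_pdiv hd.ne_zero).1 h1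
    obtain ⟨h7', h8'⟩ := (mem_pdiv hd.ne_zero).1 h1'
    simp only [Sigma.mk.injEq, heq_eq_eq] at h
    obtain ⟨e1, e2⟩ := h
    have c1 : IsCoprime d n₁ :=
      (PS.of_mul hd.1 (h2.mul h3) ⟨hd.1.mul (h2.mul h3), h6⟩).2.2.of_mul_right_left
    have c2 : IsCoprime d n₁' :=
      (PS.of_mul hd.1 (h2'.mul h3') ⟨hd.1.mul (h2'.mul h3'), h6'⟩).2.2.of_mul_right_left
    have e3 : d₁ = d₁' := h7.eq_of_associated h7' (associated_of_dvd_dvd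
      ((c2.of_isCoprime_of_dvd_left h8).dvd_of_dvd_mul_right (e2 ▸ dvd_mul_right _ _))
      ((c1.of_isCoprime_of_dvd_left h8').dvd_of_dvd_mul_right (e2 ▸ dvd_mul_right _ _)))
    subst e3
    have e4 := mul_left_cancel₀ h7.ne_zero e2
    subst e4
    rw [mul_left_cancel₀ h2.ne_zero (mul_left_cancel₀ hd.ne_zero e1)]
  · rintro ⟨b, e⟩ hb
    obtain ⟨h1, h2⟩ := Finset.mem_sigma.1 hb
    obtain ⟨h3, n, rfl⟩ := mem_Sd.1 h1
    obtain ⟨h4, h5, h6⟩ := mem_rng.1 h3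
    obtain ⟨h7, h8⟩ := (mem_pdiv h4.ne_zero).1 h2
    obtain ⟨d₁, n₁, a1, a2, a3, ⟨n₂, rfl⟩, a5⟩ := QB0_split h7 h8
    refine ⟨(d₁, n₁, n₂), ?_, by rw [show e = d₁ * n₁ from a5]⟩
    simp only [Finset.mem_product, Finset.mem_filter, QB0_mem_T hd.ne_zero]
    exact ⟨(mem_pdiv hd.ne_zero).2 ⟨a1, a3⟩, ⟨a2, a2.of_mul (hd.1.of_mul h4.1), h5, h6⟩, h4.2⟩

/-- The summand of the dilated sums. -/
def QB0_F (l : ℤ) (φ : AF) (Y : ℝ) (κ : O) (s : ℂ) (a n : O) : ℂ :=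
  φ (a * n) * xi l κ n * ((nr (a * n) / Y : ℝ) : ℂ) ^ s

theorem QB0_norm_F (l : ℤ) (φ : AF) {Y : ℝ} (hY : 0 < Y) (κ : O) {s : ℂ} (hs : |s.re| ≤ 1)
    (a n : O) : ‖QB0_F l φ Y κ s a n‖ ≤ mw φ Y (a * n) := by
  rw [QB0_F, mw]
  by_cases h : a * n = 0
  · rw [φ.off _ fun h1 => h1.ne_zero h]
    simp
  · have h1 : 0 < nr (a * n) / Y := div_pos (nr_pos h) hY
    rw [norm_mul, norm_mul, Complex.norm_cpow_eq_rpow_re_of_pos h1]
    refine mul_le_mul (mul_le_of_le_one_right (norm_nonneg _) (norm_xi_le _ _ _)) ?_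
      (by positivity) (norm_nonneg _)
    rcases le_total 1 (nr (a * n) / Y) with h2 | h2
    · refine le_trans ?_ (le_max_left _ _)
      simpa using Real.rpow_le_rpow_of_exponent_le h2 (abs_le.1 hs).2
    · refine le_trans ?_ (le_max_right _ _)
      have h3 := Real.rpow_le_rpow_of_exponent_ge h1 h2 (abs_le.1 hs).1
      rwa [Real.rpow_neg_one, inv_div] at h3

theorem QB0_mw_nonneg (φ : AF) {Y : ℝ} (hY : 0 < Y) (n : O) : 0 ≤ mw φ Y n :=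
  mul_nonneg (norm_nonneg _) (le_max_of_le_left (by positivity))

open Classical in
theorem QB0_tsum (l : ℤ) (φ : AF) (Y : ℝ) (κ : O) (s : ℂ) (a : O) {q : O} (hq : Primary q) :
    ∑' n : O, (if q ∣ n then QB0_F l φ Y κ s a n else 0) =
      xi l κ q * ∑' m : O, QB0_F l φ Y κ s (a * q) m := by
  rw [← (mul_right_injective₀ hq.ne_zero).tsum_eq, ← tsum_mul_left]
  · refine tsum_congr fun m => ?_
    rw [if_pos (dvd_mul_right _ _), QB0_F, QB0_F, xi_mul l κ hq, mul_assoc a]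
    ring
  · intro n hn
    by_cases h : q ∣ n
    · obtain ⟨m, rfl⟩ := h
      exact ⟨m, rfl⟩
    · exact absurd (if_neg h) hn

open Classical in
/-- Completion of the sum over the pairs. -/
theorem QB0_complete (l : ℤ) {φ₁ φ₂ : AF} {Y₁ Y₂ x y τ : ℝ} (h1 : 0 < Y₁) (h2 : 0 < Y₂)
    (s1 : Summable (mw φ₁ Y₁)) (s2 : Summable (mw φ₂ Y₂))
    (hτ : (∑' p : O × O, if nr (p.1 * p.2) < x ∨ y < nr (p.1 * p.2) then
      mw φ₁ Y₁ p.1 * mw φ₂ Y₂ p.2 else 0) ≤ τ) (κ : O) {s : ℂ} (hs : |s.re| ≤ 1)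
    {d₁ d₂ q₁ q₂ : O} (hd₁ : d₁ ≠ 0) (hd₂ : d₂ ≠ 0) (hq₁ : Primary q₁) (hq₂ : Primary q₂) :
    ‖∑ p ∈ QB0_T (d₁ * d₂) x y, if q₁ ∣ p.1 ∧ q₂ ∣ p.2 then
      QB0_F l φ₁ Y₁ κ s d₁ p.1 * QB0_F l φ₂ Y₂ κ s d₂ p.2 else 0‖ ≤
      ‖∑' m : O, QB0_F l φ₁ Y₁ κ s (d₁ * q₁) m‖ * ‖∑' m : O, QB0_F l φ₂ Y₂ κ s (d₂ * q₂) m‖ + τ := by
  have b1 : ∀ n, ‖if q₁ ∣ n then QB0_F l φ₁ Y₁ κ s d₁ n else 0‖ ≤ mw φ₁ Y₁ (d₁ * n) := fun n => by
    split_ifs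
    · exact QB0_norm_F l φ₁ h1 κ hs _ _
    · rw [norm_zero]
      exact QB0_mw_nonneg _ h1 _
  have b2 : ∀ n, ‖if q₂ ∣ n then QB0_F l φ₂ Y₂ κ s d₂ n else 0‖ ≤ mw φ₂ Y₂ (d₂ * n) := fun n => by
    split_ifs
    · exact QB0_norm_F l φ₂ h2 κ hs _ _
    · rw [norm_zero]
      exact QB0_mw_nonneg _ h2 _
  have t1 := Summable.of_nonneg_of_le (fun _ => norm_nonneg _) b1
    (s1.comp_injective (mul_right_injective₀ hd₁))
  have t2 := Summable.of_nonneg_of_le (fun _ => norm_nonneg _) b2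
    (s2.comp_injective (mul_right_injective₀ hd₂))
  have e1 := tsum_mul_tsum_of_summable_norm t1 t2
  rw [QB0_tsum l φ₁ Y₁ κ s d₁ hq₁, QB0_tsum l φ₂ Y₂ κ s d₂ hq₂,
    ← (summable_mul_of_summable_norm t1 t2).sum_add_tsum_compl (s := QB0_T (d₁ * d₂) x y)] at e1
  have e2 : (∑ p ∈ QB0_T (d₁ * d₂) x y, if q₁ ∣ p.1 ∧ q₂ ∣ p.2 then
      QB0_F l φ₁ Y₁ κ s d₁ p.1 * QB0_F l φ₂ Y₂ κ s d₂ p.2 else 0) =
      ∑ p ∈ QB0_T (d₁ * d₂) x y, (if q₁ ∣ p.1 then QB0_F l φ₁ Y₁ κ s d₁ p.1 else 0) *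
        if q₂ ∣ p.2 then QB0_F l φ₂ Y₂ κ s d₂ p.2 else 0 :=
    Finset.sum_congr rfl fun p _ => by rw [ite_zero_mul_ite_zero]
  rw [e2, eq_sub_of_add_eq e1.symm]
  refine (norm_sub_le _ _).trans (add_le_add ?_ (le_trans ?_ hτ))
  · rw [norm_mul, norm_mul, norm_mul]
    exact mul_le_mul (mul_le_of_le_one_left (norm_nonneg _) (norm_xi_le _ _ _))
      (mul_le_of_le_one_left (norm_nonneg _) (norm_xi_le _ _ _)) (by positivity) (norm_nonneg _)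
  · have n0 : ∀ p : O × O, 0 ≤ mw φ₁ Y₁ p.1 * mw φ₂ Y₂ p.2 := fun p =>
      mul_nonneg (QB0_mw_nonneg _ h1 _) (QB0_mw_nonneg _ h2 _)
    have n1 : ∀ p : O × O, 0 ≤ if nr (p.1 * p.2) < x ∨ y < nr (p.1 * p.2) then
        mw φ₁ Y₁ p.1 * mw φ₂ Y₂ p.2 else 0 := fun p => by
      split_ifs
      exacts [n0 p, le_rfl]
    have s3 : Summable fun p : O × O => if nr (p.1 * p.2) < x ∨ y < nr (p.1 * p.2) then
        mw φ₁ Y₁ p.1 * mw φ₂ Y₂ p.2 else 0 :=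
      Summable.of_nonneg_of_le n1 (fun p => by
        split_ifs
        exacts [le_rfl, n0 p])
        (s1.mul_of_nonneg s2 (QB0_mw_nonneg _ h1) (QB0_mw_nonneg _ h2))
    have hi : Function.Injective fun p : ↥((QB0_T (d₁ * d₂) x y : Set (O × O))ᶜ) =>
        (d₁ * p.1.1, d₂ * p.1.2) := fun p p' h => Subtype.ext (Prod.ext
      (mul_left_cancel₀ hd₁ (congrArg Prod.fst h)) (mul_left_cancel₀ hd₂ (congrArg Prod.snd h)))
    refine (tsum_of_norm_bounded (s3.comp_injective hi).hasSum fun p => ?_).trans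
      (tsum_comp_le_tsum_of_inj s3 n1 hi)
    obtain ⟨⟨n₁, n₂⟩, hp⟩ := p
    simp only [Function.comp]
    split_ifs with c1 c2 c3
    any_goals simp only [mul_zero, zero_mul, norm_zero, le_refl]
    · rw [norm_mul]
      exact mul_le_mul (QB0_norm_F l φ₁ h1 κ hs _ _) (QB0_norm_F l φ₂ h2 κ hs _ _) (norm_nonneg _)
        (QB0_mw_nonneg _ h1 _)
    · rw [Set.mem_compl_iff, Finset.mem_coe, QB0_mem_T (mul_ne_zero hd₁ hd₂),
        mul_mul_mul_comm] at hp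
      rw [not_or, not_lt, not_lt] at c3
      by_cases p1 : Primary n₁
      · rw [QB0_F, QB0_F, xi_of_not (n := n₂) fun p2 => hp ⟨p1, p2, c3⟩]
        simp
      · rw [QB0_F, xi_of_not p1]
        simp
    all_goals exact n0 (_, _)

/-- Minkowski's inequality with weights. -/
theorem QB0_mink {α ι : Type*} (K : Finset α) (T : Finset ι) (c w : ι → ℝ) (a : ι → α → ℝ)
    (x : α → ℝ) (D : ℝ) (hc : ∀ j ∈ T, 0 ≤ c j) (hw : ∀ j ∈ T, 0 < w j) (hx0 : ∀ k ∈ K, 0 ≤ x k)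
    (hx : ∀ k ∈ K, x k ≤ ∑ j ∈ T, c j * a j k) (ha : ∀ j ∈ T, ∑ k ∈ K, a j k ^ 2 ≤ D / w j ^ 2) :
    ∑ k ∈ K, x k ^ 2 ≤ (∑ j ∈ T, c j / w j) ^ 2 * D := by
  have h0 : 0 ≤ ∑ j ∈ T, c j / w j := Finset.sum_nonneg fun j hj => div_nonneg (hc j hj) (hw j hj).le
  calc ∑ k ∈ K, x k ^ 2 ≤ ∑ k ∈ K, (∑ j ∈ T, c j / w j) * ∑ j ∈ T, c j * w j * a j k ^ 2 := by
        refine Finset.sum_le_sum fun k hk => (pow_le_pow_left₀ (hx0 k hk) (hx k hk) 2).trans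
          (Finset.sum_sq_le_sum_mul_sum_of_sq_le_mul T
            (fun j hj => div_nonneg (hc j hj) (hw j hj).le)
            (fun j hj => mul_nonneg (mul_nonneg (hc j hj) (hw j hj).le) (sq_nonneg _))
            fun j hj => le_of_eq ?_)
        have := hw j hj
        field_simp
    _ = (∑ j ∈ T, c j / w j) * ∑ j ∈ T, c j * w j * ∑ k ∈ K, a j k ^ 2 := by
        rw [← Finset.mul_sum, Finset.sum_comm]
        simp only [← Finset.mul_sum]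
    _ ≤ (∑ j ∈ T, c j / w j) * ∑ j ∈ T, c j / w j * D := by
        refine mul_le_mul_of_nonneg_left (Finset.sum_le_sum fun j hj => ?_) h0
        refine (mul_le_mul_of_nonneg_left (ha j hj) (mul_nonneg (hc j hj) (hw j hj).le)).trans_eq ?_
        have := hw j hj
        field_simp
    _ = _ := by rw [← Finset.sum_mul]; ring

open Classical in
theorem QB0_cl (l : ℤ) (φ₁ φ₂ : AF) {Y₁ Y₂ : ℝ} (h1 : 0 < Y₁) (h2 : 0 < Y₂) (x y : ℝ) {d : O}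
    (hd : PS d) (κ : O) (s : ℂ) :
    cl (rng x y) (fun b => (φ₁ * φ₂ : AF) b * arg b ^ l) d κ (Y₁ * Y₂) s =
      arg d ^ l * ∑ d₁ ∈ pdiv d, ∑ p ∈ QB0_T d x y,
        (if Squarefree (d * (p.1 * p.2)) then (1 : ℂ) else 0) *
          (QB0_F l φ₁ Y₁ κ s d₁ p.1 * QB0_F l φ₂ Y₂ κ s (d / d₁) p.2) := by
  simp only [cl, AF.mul_apply, Finset.sum_mul]
  rw [QB0_reindex hd, Finset.mul_sum]
  refine Finset.sum_congr rfl fun d₁ hd₁ => ?_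
  rw [Finset.mul_sum]
  refine Finset.sum_congr rfl fun p hp => ?_
  obtain ⟨a1, a2, -⟩ := (QB0_mem_T hd.ne_zero).1 hp
  obtain ⟨b1, -, b3⟩ := AF.primary_div hd.1 hd₁
  generalize d / d₁ = d₂ at b3 ⊢
  have e1 : d * (p.1 * p.2) = d₁ * p.1 * (d₂ * p.2) := by rw [← b3]; ring
  have e2 : ((nr (d * (p.1 * p.2)) / (Y₁ * Y₂) : ℝ) : ℂ) ^ s =
      ((nr (d₁ * p.1) / Y₁ : ℝ) : ℂ) ^ s * ((nr (d₂ * p.2) / Y₂ : ℝ) : ℂ) ^ s := by
    rw [← Complex.mul_cpow_ofReal_nonneg (by positivity) (by positivity), ← Complex.ofReal_mul,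
      e1, nr_mul (d₁ * p.1), mul_div_mul_comm]
  have e3 : d * (p.1 * p.2) / (d₁ * p.1) = d₂ * p.2 := by
    rw [e1, mul_div_cancel_left₀ _ (b1.mul a1).ne_zero]
  rw [e2, e3, mul_div_cancel_left₀ _ hd.ne_zero, QB0_F, QB0_F, xi_of_primary a1, xi_of_primary a2,
    cub_mul_left a1.ne_zero a2.ne_zero, arg_mul, arg_mul, mul_zpow, mul_zpow]
  ring

open Classical in
/-- For `d n` squarefree, `(φ₁ φ₂)(d n) = ∑_{d₁ ∣ d} ∑_{n₁ n₂ = n} φ₁(d₁ n₁) φ₂((d/d₁) n₂)`;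
`exists_sqf_expand`; complete the sums over `n₁, n₂`; Minkowski in `ℓ²(K)` and Cauchy–Schwarz. -/
theorem rowHyp_of_fam4 (l : ℤ) {ε : ℝ} (hε : 0 < ε) : ∃ C : ℝ, 0 < C ∧
    ∀ (φ₁ φ₂ : AF) (Y₁ Y₂ Γ Λ R : ℝ) (J : ℕ), 0 < Y₁ → 0 < Y₂ → 1 ≤ Λ → 1 ≤ Y₁ * Y₂ → 1 ≤ Γ →
    (Λ * (Y₁ * Y₂)) ^ 2 ≤ R → Fam4 l φ₁ Y₁ Γ R J → Fam4 l φ₂ Y₂ Γ R J →
    Summable (mw φ₁ Y₁) → Summable (mw φ₂ Y₂) →
    (∑' p : O × O, if nr (p.1 * p.2) < Y₁ * Y₂ / Λ ∨ Λ * (Y₁ * Y₂) < nr (p.1 * p.2) then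
      mw φ₁ Y₁ p.1 * mw φ₂ Y₂ p.2 else 0) ≤ (Λ * (Y₁ * Y₂)) ^ (-10 : ℝ) →
    RowHyp l (rng (Y₁ * Y₂ / Λ) (Λ * (Y₁ * Y₂))) (φ₁ * φ₂ : AF) (Y₁ * Y₂)
      (C * Γ * (Λ * (Y₁ * Y₂)) ^ ε) J := by
  obtain ⟨C₁, hC₁, hdiv⟩ := card_pdiv_le (ε := ε / 6) (by positivity)
  obtain ⟨C₂, hC₂, hexp⟩ := exists_sqf_expand (ε := ε / 6) (by positivity)
  refine ⟨16 * (C₁ * C₂) ^ 2, by positivity,
    fun φ₁ φ₂ Y₁ Y₂ Γ Λ R J h1 h2 hΛ hB hΓ hR f1 f2 s1 s2 hτ d c M s K hd hc hcd hM hs hK => ?_⟩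
  have hB' : Y₁ * Y₂ ≤ Λ * (Y₁ * Y₂) := le_mul_of_one_le_left (by positivity) hΛ
  generalize Λ * (Y₁ * Y₂) = y at hR hτ hB' ⊢
  generalize Y₁ * Y₂ / Λ = x at hτ ⊢
  have hy : 1 ≤ y := hB.trans hB'
  have hd1 := hd.one_le
  have hr1 := one_le_nr (primary_rad c).ne_zero
  by_cases hdy : y < nr d
  · have : Sd (rng x y) d = ∅ := Finset.eq_empty_of_forall_notMem fun b hb => by
      obtain ⟨a1, a2⟩ := mem_Sd.1 hb
      obtain ⟨a3, -, a4⟩ := mem_rng.1 a1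
      have a5 : nr d ≤ nr b := Nat.cast_le.2 (nm_le_of_dvd a2 a3.ne_zero)
      linarith
    simp only [cl, this, Finset.sum_empty, norm_zero]
    rw [Finset.sum_eq_zero fun _ _ => by norm_num]
    positivity
  rw [not_lt] at hdy
  have hcR : nr c ≤ R := hcd.trans ((pow_le_pow_left₀ (by positivity) hdy 2).trans hR)
  obtain ⟨Q, q₁, q₂, cq, hQ, hsum, hsq⟩ := hexp d y hd hy
  obtain ⟨G, hG⟩ : ∃ G, G = Γ * (1 + |s.im|) ^ J * M ^ (27 / 20 : ℝ) * nr (rad c) := ⟨_, rfl⟩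
  have hMG : M ≤ G := by
    have a1 : M ≤ M ^ (27 / 20 : ℝ) := by
      simpa using Real.rpow_le_rpow_of_exponent_le hM (show (1 : ℝ) ≤ 27 / 20 by norm_num)
    have a2 : 1 ≤ Γ * (1 + |s.im|) ^ J :=
      one_le_mul_of_one_le_of_one_le hΓ (one_le_pow₀ (by linarith [abs_nonneg s.im]))
    rw [hG]
    exact (a1.trans (le_mul_of_one_le_left (by positivity) a2)).trans
      (le_mul_of_one_le_right (by positivity) hr1)
  have hG0 : 0 < G := by linarith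
  refine (QB0_mink K (pdiv d ×ˢ Q) (fun j => ‖cq j.2‖)
    (fun j => Real.sqrt (nr (q₁ j.2) * nr (q₂ j.2)))
    (fun j k => ‖∑' m : O, QB0_F l φ₁ Y₁ (k * c) s (j.1 * q₁ j.2) m‖ *
      ‖∑' m : O, QB0_F l φ₂ Y₂ (k * c) s (d / j.1 * q₂ j.2) m‖ + y ^ (-10 : ℝ)) _
    (16 * G * (Y₁ * Y₂ / nr d)) (fun _ _ => norm_nonneg _) (fun j hj => ?_)
    (fun _ _ => norm_nonneg _) (fun k _ => ?_) fun j hj => ?_).trans ?_
  · obtain ⟨a1, a2, -⟩ := hQ _ (Finset.mem_product.1 hj).2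
    exact Real.sqrt_pos.2 (mul_pos (nr_pos a1.ne_zero) (nr_pos a2.ne_zero))
  · rw [QB0_cl l φ₁ φ₂ h1 h2 x y hd, norm_mul, AFa_norm_arg_zpow l hd.ne_zero, one_mul,
      Finset.sum_product]
    refine (norm_sum_le _ _).trans (Finset.sum_le_sum fun d₁ hd₁ => ?_)
    obtain ⟨b1, b2, b3⟩ := AF.primary_div hd.1 hd₁
    rw [Finset.sum_congr rfl (g := fun p => ∑ q ∈ Q, cq q * if q₁ q ∣ p.1 ∧ q₂ q ∣ p.2 then
      QB0_F l φ₁ Y₁ (k * c) s d₁ p.1 * QB0_F l φ₂ Y₂ (k * c) s (d / d₁) p.2 else 0) fun p hp => ?_,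
      Finset.sum_comm]
    · refine (norm_sum_le _ _).trans (Finset.sum_le_sum fun q hq => ?_)
      rw [← Finset.mul_sum, norm_mul]
      refine mul_le_mul_of_nonneg_left ?_ (norm_nonneg _)
      have key := QB0_complete l h1 h2 s1 s2 hτ (k * c) hs b1.ne_zero b2.ne_zero (hQ q hq).1
        (hQ q hq).2.1
      rwa [b3] at key
    · obtain ⟨a1, a2, -, a3⟩ := (QB0_mem_T hd.ne_zero).1 hp
      rw [nr_mul] at a3
      rw [hsq _ _ a1 a2 ((le_mul_of_one_le_left (by positivity) hd1).trans a3), Finset.sum_mul]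
      refine Finset.sum_congr rfl fun q _ => ?_
      split_ifs <;> simp
  · obtain ⟨d₁, q⟩ := j
    obtain ⟨hd₁, hq⟩ := Finset.mem_product.1 hj
    obtain ⟨a1, a2, a3⟩ := hQ q hq
    obtain ⟨b1, b2, b3⟩ := AF.primary_div hd.1 hd₁
    have n1 := one_le_nr a1.ne_zero
    have n2 := one_le_nr a2.ne_zero
    have n3 := one_le_nr b1.ne_zero
    have n4 := one_le_nr b2.ne_zero
    have g1 := f1 (d₁ * q₁ q) c M s K (b1.mul a1) hc hcR hM hs hK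
    have g2 := f2 (d / d₁ * q₂ q) c M s K (b2.mul a2) hc hcR hM hs hK
    obtain ⟨W, hW⟩ : ∃ W, W = Y₁ * Y₂ / nr d / (nr (q₁ q) * nr (q₂ q)) := ⟨_, rfl⟩
    have hW0 : 0 < W := by rw [hW]; positivity
    have hW1 : (y ^ (-10 : ℝ)) ^ 2 ≤ W := by
      have c1 : nr d * (nr (q₁ q) * nr (q₂ q)) ≤ y ^ 20 := by
        calc _ ≤ y * (y * y) ^ 2 := mul_le_mul hdy (a3.trans (by gcongr)) (by positivity)
              (by positivity)
          _ = y ^ 5 := by ring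
          _ ≤ _ := pow_le_pow_right₀ hy (by norm_num)
      rw [hW, div_div, Real.rpow_neg (by positivity), inv_pow, ← Real.rpow_natCast,
        ← Real.rpow_mul (by positivity), show (10 : ℝ) * (2 : ℕ) = (20 : ℕ) by norm_num,
        Real.rpow_natCast, inv_eq_one_div]
      exact div_le_div₀ (by positivity) hB (by positivity) c1
    have g3 : ∑ k ∈ K, ‖∑' m : O, QB0_F l φ₁ Y₁ (k * c) s (d₁ * q₁ q) m‖ ^ 2 *
        ‖∑' m : O, QB0_F l φ₂ Y₂ (k * c) s (d / d₁ * q₂ q) m‖ ^ 2 ≤ G * W := by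
      refine (pow_le_pow_iff_left₀ (Finset.sum_nonneg fun _ _ => by positivity) (by positivity)
        two_ne_zero).1 ((Finset.sum_mul_sq_le_sq_mul_sq _ _ _).trans ?_)
      simp only [← pow_mul]
      refine (mul_le_mul g1 g2 (Finset.sum_nonneg fun _ _ => by positivity)
        (by positivity)).trans_eq ?_
      have c1 : nr d = nr d₁ * nr (d / d₁) := by rw [← nr_mul, b3]
      rw [hG, hW, nr_mul, nr_mul, c1]
      field_simp
    have g4 := AFa0_card (zero_le_one.trans hM) fun k hk => ⟨(hK k hk).1, (hK k hk).2.1⟩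
    have g5 : (K.card : ℝ) * (y ^ (-10 : ℝ)) ^ 2 ≤ 7 * G * W :=
      mul_le_mul (g4.trans (by linarith)) hW1 (by positivity) (by positivity)
    rw [Real.sq_sqrt (by positivity), mul_div_assoc, ← hW]
    refine (Finset.sum_le_sum fun k _ => add_sq_le).trans ?_
    rw [← Finset.mul_sum, Finset.sum_add_distrib, Finset.sum_const, nsmul_eq_mul]
    simp only [mul_pow]
    linarith
  · have a1 : ∑ j ∈ pdiv d ×ˢ Q, ‖cq j.2‖ / Real.sqrt (nr (q₁ j.2) * nr (q₂ j.2)) ≤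
        C₁ * C₂ * y ^ (ε / 2) := by
      rw [Finset.sum_product]
      simp only [Finset.sum_const, nsmul_eq_mul]
      calc _ ≤ C₁ * nr d ^ (ε / 6) * (C₂ * (y * nr d) ^ (ε / 6)) :=
            mul_le_mul (hdiv d hd.ne_zero) hsum (Finset.sum_nonneg fun _ _ => by positivity)
              (by positivity)
        _ ≤ C₁ * y ^ (ε / 6) * (C₂ * (y * y) ^ (ε / 6)) := by gcongr
        _ = _ := by
          rw [Real.mul_rpow (by positivity) (by positivity),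
            show ε / 2 = ε / 6 + ε / 6 + ε / 6 by ring, Real.rpow_add (by positivity),
            Real.rpow_add (by positivity)]
          ring
    refine (mul_le_mul_of_nonneg_right (pow_le_pow_left₀ (Finset.sum_nonneg fun _ _ => by positivity)
      a1 2) (by positivity)).trans_eq ?_
    rw [hG, mul_pow _ (y ^ (ε / 2)), ← Real.rpow_natCast (y ^ (ε / 2)),
      ← Real.rpow_mul (by positivity), show ε / 2 * (2 : ℕ) = ε by push_cast; ring]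
    ring

end Crest.Agent.R12
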