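import Crest.Agent.R12.DspE
import Crest.Agent.R12.DspF
import Crest.Agent.R12.LS
import Crest.Agent.R12.Mom

/-!
# Row 12, analytic half: dispersion with an enlarged modulus
-/

set_option autoImplicit false

noncomputable section

namespace Crest.Agent.R12

open Crest.Agent.R17
open scoped ComplexConjugate Topology
open Filter MeasureTheory

theorem QC0_norm_cl (l : ℤ) (t : ℝ) {S : Finset O} (hS : ∀ b ∈ S, b ≠ 0) (β : O → ℂ) (d κ : O)
    {B : ℝ} (hB : 0 < B) (s : ℂ) : ‖cl S (tw l t β) d κ B s‖ =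
      ‖cl S (fun b => β b * arg b ^ l) d κ B (s + -(t * Complex.I))‖ := by
  classical
  have h1 : cl S (tw l t β) d κ B s = (B : ℂ) ^ (-(t * Complex.I)) *
      cl S (fun b => β b * arg b ^ l) d κ B (s + -(t * Complex.I)) := by
    rw [cl, cl, Finset.mul_sum]
    refine Finset.sum_congr rfl fun b hb => ?_
    have h2 : 0 < nr b / B := div_pos (nr_pos (hS b (Finset.mem_filter.1 hb).1)) hB
    have h3 := Complex.mul_cpow_ofReal_nonneg h2.le hB.le (-(t * Complex.I))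
    rw [← Complex.ofReal_mul, div_mul_cancel₀ _ hB.ne'] at h3
    rw [tw, h3, Complex.cpow_add _ _ (Complex.ofReal_ne_zero.2 h2.ne')]
    ring
  rw [h1, norm_mul, Complex.norm_cpow_eq_rpow_re_of_pos hB]
  simp

theorem QC0_gr {K M : ℝ} (hK : 0 < K) (hM : 0 < M) :
    M ^ (27 / 20 : ℝ) ≤ K ^ (27 / 20 : ℝ) * gr K M := by
  rw [← div_le_iff₀' (by positivity), ← Real.div_rpow hM.le hK.le, gr, le_max_iff]
  rcases le_total (M / K) 1 with h | h
  · exact .inl (Real.rpow_le_rpow_of_exponent_ge (by positivity) h (by norm_num))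
  · exact .inr (Real.rpow_le_rpow_of_exponent_le h (by norm_num))

theorem QC0_c {g e : O} (hg : PS g) (he : e ∈ pdiv g) : e * (g / e) ^ 2 ≠ 0 ∧
    nr (e * (g / e) ^ 2) ≤ nr g ^ 2 ∧ nr (rad (e * (g / e) ^ 2)) ≤ nr g ∧ nr e ≤ nr g := by
  obtain ⟨h1, h2, -, h3⟩ := hg.div he
  have h4 : nr e * nr (g / e) = nr g := by rw [← nr_mul, h3]
  refine ⟨mul_ne_zero h1.ne_zero (pow_ne_zero 2 h2.ne_zero), ?_, ?_, by
    nlinarith [h1.one_le, h2.one_le]⟩
  · rw [nr_mul, nr_pow, ← h4, mul_pow]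
    gcongr
    nlinarith [h1.one_le]
  · rw [rad, pf_mul h1.ne_zero (pow_ne_zero 2 h2.ne_zero), pf_pow two_ne_zero,
      ← pf_mul h1.ne_zero h2.ne_zero, h3]
    exact_mod_cast nm_le_of_dvd (rad_dvd g) hg.ne_zero

theorem QC0_term {A B G E N P : ℝ} (hA : 0 < A) (hB : 0 < B) (hE : 0 < E) (hG : E ≤ G)
    (hN : 0 ≤ N) (hP : 0 ≤ P) :
    A * G / (E * B) * (P * (B / N) * (E * B ^ 2 / (G ^ 2 * A)) ^ (27 / 20 : ℝ)) ≤
      P * A * (B ^ 2 / A) ^ (27 / 20 : ℝ) * G ^ (-(27 / 20) : ℝ) * N⁻¹ := by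
  have hG0 : 0 < G := hE.trans_le hG
  have h1 : G / E ≤ (G / E) ^ (27 / 20 : ℝ) :=
    Real.self_le_rpow_of_one_le ((one_le_div hE).2 hG) (by norm_num)
  have h2 : (G / E) ^ (27 / 20 : ℝ) * (E * B ^ 2 / (G ^ 2 * A)) ^ (27 / 20 : ℝ) =
      (B ^ 2 / A) ^ (27 / 20 : ℝ) * G ^ (-(27 / 20) : ℝ) := by
    rw [Real.rpow_neg hG0.le, ← Real.inv_rpow hG0.le, ← Real.mul_rpow (by positivity)
      (by positivity), ← Real.mul_rpow (by positivity) (by positivity)]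
    congr 1
    field_simp
  calc _ = P * A * (G / E * (E * B ^ 2 / (G ^ 2 * A)) ^ (27 / 20 : ℝ)) * N⁻¹ := by
        field_simp
    _ ≤ P * A * ((G / E) ^ (27 / 20 : ℝ) * (E * B ^ 2 / (G ^ 2 * A)) ^ (27 / 20 : ℝ)) * N⁻¹ := by
        gcongr
    _ = _ := by rw [h2, ← mul_assoc]

/-- `nc_le` with `R' = 0`; `rad (e (g/e)²) = g`; `∑ N(e)^{0.35} N(g)^{-1.7} N(h)⁻¹`. -/
theorem nc_row (l : ℤ) (J : ℕ) : ∃ C : ℝ, 0 < C ∧ ∀ (A B y Γ t : ℝ) (S : Finset O) (β : O → ℂ),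
    0 < A → 0 < B → 1 ≤ y → 0 ≤ Γ → (∀ b ∈ S, PS b ∧ nr b ≤ y) → RowHyp l S β B Γ J →
    ‖NCs A S (tw l t β)‖ ≤
      C * Γ * (1 + |t|) ^ J * (1 + Real.log y) * A * (B ^ 2 / A) ^ (27 / 20 : ℝ) := by
  obtain ⟨C₁, hC₁, c1⟩ := nc_le J
  obtain ⟨C₂, hC₂, c2⟩ := card_pdiv_le (ε := 1 / 10) (by norm_num)
  obtain ⟨C₃, hC₃, c3⟩ := sum_nr_rpow_tail (σ := 5 / 4) (by norm_num)
  obtain ⟨C₄, hC₄, c4⟩ := sum_inv_nr_le
  refine ⟨C₁ * (C₂ * C₃ * (C₄ * 2)), by positivity, fun A B y Γ t S β hA hB hy hΓ hS hR => ?_⟩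
  have hS' : ∀ b ∈ S, PS b := fun b hb => (hS b hb).1
  have hD : ∀ d ∈ DS S, PS d ∧ nr d ≤ y := fun d hd => by
    obtain ⟨b, hb, hd⟩ := Finset.mem_biUnion.1 hd
    obtain ⟨h1, h2⟩ := (mem_pdiv (hS' b hb).ne_zero).1 hd
    exact ⟨(hS' b hb).of_dvd h1 h2, le_trans (by exact_mod_cast nm_le_of_dvd h2 (hS' b hb).ne_zero)
      (hS b hb).2⟩
  refine (c1 A B 0 S (tw l t β) (fun g e h => Γ * (1 + |t|) ^ J * (B / nr h) *
    (nr e * B ^ 2 / (nr g ^ 2 * A)) ^ (27 / 20 : ℝ)) (fun _ _ _ => 0) hA hB le_rfl hS'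
    (fun g e h => ⟨by positivity, le_rfl⟩) fun g hg e he h hh hgh M s K hM hs hK => ?_).trans ?_
  · obtain ⟨h1, h2, h3, -⟩ := QC0_c (hD g hg).1 he
    have h4 := (hD h hh).1.one_le
    have h5 := (hD g hg).1.one_le
    have h6 := nr_pos ((hD g hg).1.div he).1.ne_zero
    simp only [QC0_norm_cl l t (fun b hb => (hS' b hb).ne_zero) β _ _ hB, ite_self, add_zero]
    refine (hR (g * h) _ M (s + -(t * Complex.I)) K hgh h1 (h2.trans ?_) hM (by simpa using hs)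
      hK).trans ?_
    · rw [nr_mul]
      gcongr
      exact le_mul_of_one_le_right (by positivity) h4
    have h7 : 1 + |(s + -(t * Complex.I)).im| ≤ (1 + |t|) * (1 + |s.im|) := by
      have h8 : |(s + -(t * Complex.I)).im| ≤ |s.im| + |t| := by
        simpa [← sub_eq_add_neg] using abs_sub s.im t
      nlinarith [mul_nonneg (abs_nonneg t) (abs_nonneg s.im)]
    have h8 := QC0_gr (K := nr e * B ^ 2 / (nr g ^ 2 * A)) (M := M) (by positivity) (by linarith)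
    have h9 := (Real.rpow_nonneg (zero_le_one.trans hM) _).trans h8
    calc _ ≤ Γ * ((1 + |t|) * (1 + |s.im|)) ^ J * (B / nr (g * h)) *
          ((nr e * B ^ 2 / (nr g ^ 2 * A)) ^ (27 / 20 : ℝ) *
            gr (nr e * B ^ 2 / (nr g ^ 2 * A)) M) * nr g := by gcongr
      _ = _ := by
        rw [nr_mul, mul_pow]
        field_simp
  have h1 : ∑ h ∈ DS S, (nr h)⁻¹ ≤ C₄ * 2 * (1 + Real.log y) := by
    refine le_trans (Finset.sum_le_sum_of_subset_of_nonneg (fun h hh => Finset.mem_erase.2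
      ⟨(hD h hh).1.ne_zero, mem_ball.2 (Nat.le_floor (hD h hh).2)⟩) fun _ _ _ => by positivity)
      ((c4 ⌊y⌋₊).trans ?_)
    have h2 : Real.log (⌊y⌋₊ + 1) ≤ Real.log (2 * y) := Real.log_le_log (by positivity)
      (by linarith [Nat.floor_le (show 0 ≤ y by linarith)])
    rw [Real.log_mul two_ne_zero (by positivity)] at h2
    rw [mul_assoc]
    gcongr
    linarith [Real.log_two_lt_d9, Real.log_nonneg hy]
  have h2 : ∑ g ∈ DS S, ∑ e ∈ pdiv g, nr g ^ (-(27 / 20) : ℝ) ≤ C₂ * C₃ := by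
    have h3 := c3 1 (DS S) le_rfl fun g hg => (hD g hg).1.one_le
    rw [Real.one_rpow, mul_one] at h3
    refine le_trans ?_ (mul_le_mul_of_nonneg_left h3 hC₂.le)
    rw [Finset.mul_sum]
    refine Finset.sum_le_sum fun g hg => ?_
    rw [Finset.sum_const, nsmul_eq_mul]
    refine (mul_le_mul_of_nonneg_right (c2 g (hD g hg).1.ne_zero) (by positivity)).trans_eq ?_
    rw [mul_assoc, ← Real.rpow_add (nr_pos (hD g hg).1.ne_zero)]
    norm_num
  have h3 : 0 ≤ 1 + Real.log y := by linarith [Real.log_nonneg hy]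
  calc _ ≤ C₁ * ∑ g ∈ DS S, ∑ e ∈ pdiv g, ∑ h ∈ DS S, Γ * (1 + |t|) ^ J * A *
          (B ^ 2 / A) ^ (27 / 20 : ℝ) * nr g ^ (-(27 / 20) : ℝ) * (nr h)⁻¹ := by
        simp only [mul_zero, add_zero]
        refine mul_le_mul_of_nonneg_left (Finset.sum_le_sum fun g hg => Finset.sum_le_sum
          fun e he => Finset.sum_le_sum fun h _ => ?_) hC₁.le
        exact QC0_term hA hB (nr_pos ((hD g hg).1.div he).1.ne_zero) (QC0_c (hD g hg).1 he).2.2.2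
          (by positivity) (by positivity)
    _ = C₁ * (Γ * (1 + |t|) ^ J * A * (B ^ 2 / A) ^ (27 / 20 : ℝ) *
          (∑ g ∈ DS S, ∑ e ∈ pdiv g, nr g ^ (-(27 / 20) : ℝ)) * ∑ h ∈ DS S, (nr h)⁻¹) := by
        rw [Finset.mul_sum (DS S) _ (_ * _ ^ (27 / 20 : ℝ)), Finset.sum_mul]
        simp only [Finset.mul_sum, Finset.sum_mul]
        exact Finset.sum_congr rfl fun _ _ => Finset.sum_comm
    _ ≤ C₁ * (Γ * (1 + |t|) ^ J * A * (B ^ 2 / A) ^ (27 / 20 : ℝ) * (C₂ * C₃) *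
          (C₄ * 2 * (1 + Real.log y))) := by gcongr
    _ = _ := by ring

end Crest.Agent.R12
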