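import Crest.Agent.R12.QC0

/-!
# Row 12, analytic half: dispersion with an enlarged modulus
-/

set_option autoImplicit false

noncomputable section

namespace Crest.Agent.R12

open Crest.Agent.R17
open scoped ComplexConjugate Topology
open Filter MeasureTheory

theorem QC1_rpow_cube {a c : O} (ha : a ≠ 0) (hc : c ≠ 0) :
    Real.sqrt (nr c) * nr (a * c ^ 3) ^ (-(1 / 6 : ℝ)) = nr a ^ (-(1 / 6 : ℝ)) := by
  have h1 := nr_pos ha
  have h2 := nr_pos hc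
  rw [nr_mul, nr_pow, Real.mul_rpow h1.le (by positivity), Real.sqrt_eq_rpow,
    ← Real.rpow_natCast, ← Real.rpow_mul h2.le, mul_left_comm, ← Real.rpow_add h2]
  norm_num

theorem QC1_term {a b c : O} (ha : Primary a) (hb : PS b) (hc : Prime c) (hc' : Primary c) :
    gk (a * c ^ 3) b - mdl (a * c ^ 3) b =
      by classical exact if c ∣ b then 0 else gk a b - mdl a b := by
  by_cases h : c ∣ b
  · rw [if_pos h]
    have h1 : ¬ IsCoprime (a * c ^ 3) b := fun h' =>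
      hc.not_isUnit (h'.isUnit_of_dvd' (Dvd.dvd.mul_left (dvd_pow_self c (by norm_num)) a) h)
    rw [gk, mdl, if_neg h1, (cub_eq_zero_iff hb.1).2 fun h' => h1 h'.symm]
    simp
  · rw [if_neg h]
    have h1 : IsCoprime c b := hc.coprime_iff_not_dvd.2 h
    have h2 : gk (a * c ^ 3) b = gk a b := by
      rw [gk, gk, cub_mul_right, cub_pow_right, cub_pow_three hb.1 h1.symm, mul_one]
    have h3 : mdl (a * c ^ 3) b = mdl a b := by
      unfold mdl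
      by_cases h4 : IsCoprime a b
      · rw [if_pos h4, if_pos (h4.mul_left h1.pow_left), tc_mul_cube hc', map_mul,
          Complex.conj_ofReal, ← QC1_rpow_cube ha.ne_zero hc.ne_zero]
        push_cast
        ring
      · rw [if_neg h4, if_neg fun h' => h4 h'.of_mul_left_left]
    rw [h2, h3]

theorem EE_mul_cube (S : Finset O) (hS : ∀ b ∈ S, PS b) (γ : O → ℂ) {a c : O} (ha : Primary a)
    (hc : Prime c) (hc' : Primary c) :
    EE S γ (a * c ^ 3) = EE S γ a - EE (Sd S c) γ a := by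
  classical
  unfold EE Sd
  rw [Finset.sum_filter, ← Finset.sum_sub_distrib]
  refine Finset.sum_congr rfl fun b hb => ?_
  rw [QC1_term ha (hS b hb) hc hc']
  split_ifs <;> simp

theorem QC1_sq_add (x y : ℂ) : ‖x + y‖ ^ 2 ≤ 2 * ‖x‖ ^ 2 + 2 * ‖y‖ ^ 2 := by
  have h1 := norm_add_le x y
  have h2 : ‖x + y‖ ^ 2 ≤ (‖x‖ + ‖y‖) ^ 2 := pow_le_pow_left₀ (norm_nonneg _) h1 2
  nlinarith [sq_nonneg (‖x‖ - ‖y‖)]

theorem QC1_inj {a a' c c' : O} (ha' : Squarefree a') (hc : Prime c) (hc₁ : Primary c)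
    (hc' : Prime c') (hc₂ : Primary c') (h : a * c ^ 3 = a' * c' ^ 3) : c = c' ∧ a = a' := by
  have h1 : c = c' := by
    by_contra hne
    have h2 : IsCoprime c c' := hc.coprime_iff_not_dvd.2 fun hd =>
      hne (BasicB.eq_of_dvd hc hc' hc₁ hc₂ hd)
    have h3 : c ^ 3 ∣ a' * c' ^ 3 := h ▸ dvd_mul_left _ _
    have h4 : c ^ 3 ∣ a' := (IsCoprime.pow h2).dvd_of_dvd_mul_right h3
    exact hc.not_isUnit (ha' c (dvd_trans ⟨c, by ring⟩ h4))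
  subst h1
  exact ⟨rfl, mul_right_cancel₀ (pow_ne_zero 3 hc.ne_zero) h⟩

/-- `(a, c) ↦ a c³` is injective on squarefree `a` and primes `c`; `sum_EE_le_Disp`. -/
theorem EE_enlarge : ∃ C : ℝ, 0 < C ∧ ∀ (A C₀ : ℝ) (S P : Finset O) (γ : O → ℂ), 0 < A → 0 < C₀ →
    (∀ b ∈ S, PS b) → (∀ c ∈ P, Prime c ∧ Primary c ∧ C₀ < nr c ∧ nr c ≤ 2 * C₀) →
    (P.card : ℝ) * ∑ a ∈ dy A, ‖EE S γ a‖ ^ 2 ≤
      C * Disp (A * C₀ ^ 3) S γ + 2 * ∑ c ∈ P, ∑ a ∈ dy A, ‖EE (Sd S c) γ a‖ ^ 2 := by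
  classical
  obtain ⟨C, hC, h⟩ := sum_EE_le_Disp
  refine ⟨2 * C, by positivity, fun A C₀ S P γ hA hC₀ hS hP => ?_⟩
  have h1 : ∑ c ∈ P, ∑ a ∈ dy A, ‖EE S γ (a * c ^ 3)‖ ^ 2 ≤ C * Disp (A * C₀ ^ 3) S γ := by
    rw [← Finset.sum_product' (f := fun c a => ‖EE S γ (a * c ^ 3)‖ ^ 2),
      ← Finset.sum_image (s := P ×ˢ dy A) (g := fun x : O × O => x.2 * x.1 ^ 3)
        (f := fun n => ‖EE S γ n‖ ^ 2)]
    · refine h _ _ S γ (by positivity) hS fun n hn => ?_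
      obtain ⟨⟨c, a⟩, hx, rfl⟩ := Finset.mem_image.1 hn
      obtain ⟨hc, ha⟩ := Finset.mem_product.1 hx
      obtain ⟨-, c2, c3, c4⟩ := hP c hc
      obtain ⟨a1, a2, a3⟩ := mem_dy.1 ha
      refine ⟨a1.1.mul (c2.pow 3), ?_, ?_⟩
      · simp only [nr_mul, nr_pow]
        gcongr
      · simp only [nr_mul, nr_pow]
        calc nr a * nr c ^ 3 ≤ (2 * A) * (2 * C₀) ^ 3 := by gcongr
          _ = 16 * (A * C₀ ^ 3) := by ring
    · rintro ⟨c, a⟩ hx ⟨c', a'⟩ hx' he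
      obtain ⟨hc, -⟩ := Finset.mem_product.1 (Finset.mem_coe.1 hx)
      obtain ⟨hc', ha'⟩ := Finset.mem_product.1 (Finset.mem_coe.1 hx')
      obtain ⟨e1, e2⟩ := QC1_inj (mem_dy.1 ha').1.2 (hP c hc).1 (hP c hc).2.1 (hP c' hc').1
        (hP c' hc').2.1 he
      exact Prod.ext e1 e2
  have h2 : (P.card : ℝ) * ∑ a ∈ dy A, ‖EE S γ a‖ ^ 2 ≤
      ∑ c ∈ P, ∑ a ∈ dy A, (2 * ‖EE S γ (a * c ^ 3)‖ ^ 2 + 2 * ‖EE (Sd S c) γ a‖ ^ 2) := by
    rw [← nsmul_eq_mul, ← Finset.sum_const]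
    refine Finset.sum_le_sum fun c hc => Finset.sum_le_sum fun a ha => ?_
    have e : EE S γ a = EE S γ (a * c ^ 3) + EE (Sd S c) γ a := by
      rw [EE_mul_cube S hS γ (mem_dy.1 ha).1.1 (hP c hc).1 (hP c hc).2.1, sub_add_cancel]
    rw [e]
    exact QC1_sq_add _ _
  refine h2.trans ?_
  simp only [Finset.sum_add_distrib, ← Finset.mul_sum]
  linarith

theorem QC1_conj_TT (S : Finset O) (γ : O → ℂ) (a : O) :
    ‖TT S γ a‖ = ‖col S (fun b => conj (γ b * Gn b)) a‖ := by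
  rw [← Complex.norm_conj, TT, col, map_sum]
  congr 1
  refine Finset.sum_congr rfl fun b _ => ?_
  simp only [gk, map_mul, Complex.conj_conj]
  ring

theorem QC1_norm_mdl {a : O} (ha : PS a) (b : O) :
    ‖mdl a b‖ ≤ cP * nr a ^ (-(1 / 6 : ℝ)) * nr b ^ (-(1 / 6 : ℝ)) := by
  have hc := AFa_cP_pos
  unfold mdl
  split_ifs
  · rw [norm_mul, Complex.norm_conj, tc_sqfree ha.1 ha.2, norm_Gn ha.1 ha.2, one_mul,
      Complex.norm_real, Real.norm_of_nonneg (by positivity)]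
  · rw [norm_zero]; positivity

theorem QC1_model : ∃ C : ℝ, 0 < C ∧ ∀ (A y : ℝ) (S : Finset O) (γ : O → ℂ),
    1 ≤ A → 1 ≤ y → (∀ b ∈ S, PS b ∧ nr b ≤ y) →
    ∑ a ∈ dy A, ‖∑ b ∈ S, γ b * mdl a b‖ ^ 2 ≤ C * (A * y) ^ (2 / 3 : ℝ) * N2 S γ := by
  obtain ⟨C, hC, h⟩ := sum_nr_rpow_le (σ := -(1 / 3)) (by norm_num)
  have hc := AFa_cP_pos
  refine ⟨14 * cP ^ 2 * C, by positivity, fun A y S γ hA hy hS => ?_⟩
  have hA0 : 0 < A := by linarith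
  have hN : 0 ≤ N2 S γ := Finset.sum_nonneg fun _ _ => by positivity
  have h1 : ∑ b ∈ S, (nr b ^ (-(1 / 6 : ℝ))) ^ 2 ≤ C * y ^ (2 / 3 : ℝ) := by
    have h2 : S ⊆ (ball ⌊y⌋₊).erase 0 := fun b hb =>
      Finset.mem_erase.2 ⟨(hS b hb).1.ne_zero, mem_ball.2 (Nat.le_floor (hS b hb).2)⟩
    calc ∑ b ∈ S, (nr b ^ (-(1 / 6 : ℝ))) ^ 2 = ∑ b ∈ S, nr b ^ (-(1 / 3 : ℝ)) := by
          refine Finset.sum_congr rfl fun b _ => ?_
          rw [← Real.rpow_natCast, ← Real.rpow_mul (Nat.cast_nonneg _)]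
          norm_num
      _ ≤ ∑ b ∈ (ball ⌊y⌋₊).erase 0, nr b ^ (-(1 / 3 : ℝ)) :=
          Finset.sum_le_sum_of_subset_of_nonneg h2 fun _ _ _ => by positivity
      _ ≤ C * (⌊y⌋₊ : ℝ) ^ (1 + -(1 / 3 : ℝ)) := h _ (Nat.le_floor (by simpa using hy))
      _ ≤ C * y ^ (2 / 3 : ℝ) := by
          rw [show (1 + -(1 / 3) : ℝ) = 2 / 3 by norm_num]
          gcongr
          exact Nat.floor_le (by linarith)
  have h3 : ∀ a ∈ dy A, ‖∑ b ∈ S, γ b * mdl a b‖ ^ 2 ≤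
      cP ^ 2 * A ^ (-(1 / 3 : ℝ)) * (N2 S γ * (C * y ^ (2 / 3 : ℝ))) := by
    intro a ha
    obtain ⟨a1, a2, -⟩ := mem_dy.1 ha
    have h4 : nr a ^ (-(1 / 6 : ℝ)) ≤ A ^ (-(1 / 6 : ℝ)) :=
      Real.rpow_le_rpow_of_nonpos hA0 a2.le (by norm_num)
    have h5 : ‖∑ b ∈ S, γ b * mdl a b‖ ≤
        cP * A ^ (-(1 / 6 : ℝ)) * ∑ b ∈ S, ‖γ b‖ * nr b ^ (-(1 / 6 : ℝ)) := by
      rw [Finset.mul_sum]
      refine (norm_sum_le _ _).trans (Finset.sum_le_sum fun b _ => ?_)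
      rw [norm_mul]
      calc ‖γ b‖ * ‖mdl a b‖ ≤ ‖γ b‖ * (cP * A ^ (-(1 / 6 : ℝ)) * nr b ^ (-(1 / 6 : ℝ))) := by
            refine mul_le_mul_of_nonneg_left ((QC1_norm_mdl a1 b).trans ?_) (norm_nonneg _)
            gcongr
        _ = _ := by ring
    have h6 : (∑ b ∈ S, ‖γ b‖ * nr b ^ (-(1 / 6 : ℝ))) ^ 2 ≤ N2 S γ * (C * y ^ (2 / 3 : ℝ)) :=
      (Finset.sum_mul_sq_le_sq_mul_sq S _ _).trans (mul_le_mul_of_nonneg_left h1 hN)
    have h7 : (A ^ (-(1 / 6 : ℝ))) ^ 2 = A ^ (-(1 / 3 : ℝ)) := by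
      rw [← Real.rpow_natCast, ← Real.rpow_mul hA0.le]
      norm_num
    refine (pow_le_pow_left₀ (norm_nonneg _) h5 2).trans ?_
    rw [mul_pow, mul_pow, h7]
    exact mul_le_mul_of_nonneg_left h6 (by positivity)
  refine (Finset.sum_le_sum h3).trans ?_
  rw [Finset.sum_const, nsmul_eq_mul]
  refine (mul_le_mul_of_nonneg_right (card_dy_le hA0.le) (by positivity)).trans_eq ?_
  have h8 : A ^ (2 / 3 : ℝ) = A * A ^ (-(1 / 3 : ℝ)) := by
    rw [← Real.rpow_one_add' hA0.le (by norm_num)]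
    norm_num
  rw [Real.mul_rpow hA0.le (by linarith), h8]
  ring

theorem QC1_log {ε A : ℝ} (hε : 0 < ε) (hA : 1 ≤ A) :
    (1 + Real.log (2 * A)) ^ 3 ≤ (2 + 3 / ε) ^ 3 * A ^ ε := by
  have hA0 : 0 < A := by linarith
  have h1 : Real.log A ≤ A ^ (ε / 3) / (ε / 3) := Real.log_le_rpow_div hA0.le (by positivity)
  have h2 : 1 ≤ A ^ (ε / 3) := Real.one_le_rpow hA (by positivity)
  have h3 : Real.log 2 ≤ 1 := by
    have := Real.log_le_sub_one_of_pos (show (0 : ℝ) < 2 by norm_num)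
    linarith
  have h4 : 1 + Real.log (2 * A) ≤ (2 + 3 / ε) * A ^ (ε / 3) := by
    rw [Real.log_mul (by norm_num) hA0.ne', add_mul]
    have : A ^ (ε / 3) / (ε / 3) = 3 / ε * A ^ (ε / 3) := by field_simp
    linarith
  have h5 : 0 ≤ 1 + Real.log (2 * A) := by
    have := Real.log_nonneg (show 1 ≤ 2 * A by linarith)
    linarith
  have h6 : (A ^ (ε / 3)) ^ 3 = A ^ ε := by
    rw [← Real.rpow_natCast, ← Real.rpow_mul hA0.le]
    congr 1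
    push_cast
    ring
  refine (pow_le_pow_left₀ h5 h4 3).trans_eq ?_
  rw [mul_pow, h6]

theorem QC1_main {ε : ℝ} (hε : 0 < ε) : ∃ C : ℝ, 0 < C ∧ ∀ (A y : ℝ) (S : Finset O) (γ : O → ℂ),
    1 ≤ A → 1 ≤ y → (∀ b ∈ S, PS b ∧ nr b ≤ y) →
    ∑ a ∈ dy A, ‖TT S γ a‖ ^ 2 ≤
      C * (A * y) ^ ε * (A + (A * y) ^ (2 / 3 : ℝ) + A ^ (1 / 3 : ℝ) * y) * N2 S γ := by
  obtain ⟨C, hC, h⟩ := LS_all hε
  refine ⟨C * (2 * (2 + 3 / ε) ^ 3 + 2 ^ ε * 2), by positivity, fun A y S γ hA hy hS => ?_⟩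
  have hA0 : 0 < A := by linarith
  have hy0 : 0 < y := by linarith
  have h1 := h (2 * A) y 1 S (dy A) (fun b => conj (γ b * Gn b)) (by linarith) hy le_rfl hS
    fun k hk => ⟨(mem_dy.1 hk).1.ne_zero, (mem_dy.1 hk).2.2, one_le_cnd k⟩
  have h2 : N2 S (fun b => conj (γ b * Gn b)) = N2 S γ := by
    refine Finset.sum_congr rfl fun b hb => ?_
    simp only [Complex.norm_conj, norm_mul]
    rw [norm_Gn (hS b hb).1.1 (hS b hb).1.2, mul_one]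
  have hN : 0 ≤ N2 S γ := Finset.sum_nonneg fun _ _ => by positivity
  simp only [QC1_conj_TT]
  refine h1.trans ?_
  rw [h2]
  refine mul_le_mul_of_nonneg_right ?_ hN
  rw [mul_assoc C, mul_assoc C]
  refine mul_le_mul_of_nonneg_left ?_ hC.le
  have two_le : ∀ p : ℝ, p ≤ 1 → (2 : ℝ) ^ p ≤ 2 := fun p hp =>
    (Real.rpow_le_rpow_of_exponent_le (by norm_num) hp).trans_eq (Real.rpow_one 2)
  set E := (A * y) ^ ε with hE
  set K := (2 + 3 / ε) ^ 3 with hK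
  set u := (A * y) ^ (2 / 3 : ℝ) with hu
  set w := A ^ (1 / 3 : ℝ) * y with hw
  have hE0 : 0 ≤ E := by positivity
  have hK0 : 0 ≤ K := by positivity
  have hu0 : 0 ≤ u := by positivity
  have hw0 : 0 ≤ w := by positivity
  have e1 : (2 * A / 1) ^ (1 / 3 : ℝ) * y ≤ 2 * w := by
    rw [div_one, Real.mul_rpow (by norm_num) hA0.le, mul_assoc]
    exact mul_le_mul_of_nonneg_right (two_le _ (by norm_num)) hw0
  have e2 : (1 + Real.log (2 * A)) ^ 3 ≤ K * E := by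
    refine (QC1_log hε hA).trans (mul_le_mul_of_nonneg_left ?_ hK0)
    exact Real.rpow_le_rpow hA0.le (le_mul_of_one_le_right hA0.le hy) hε.le
  have e3 : (2 * A * y) ^ ε = 2 ^ ε * E := by
    rw [mul_assoc, Real.mul_rpow (by norm_num) (by positivity)]
  have e4 : (2 * A * y) ^ (2 / 3 : ℝ) ≤ 2 * u := by
    rw [mul_assoc, Real.mul_rpow (by norm_num) (by positivity)]
    exact mul_le_mul_of_nonneg_right (two_le _ (by norm_num)) hu0
  have h5 : 0 ≤ 1 + Real.log (2 * A) := by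
    have := Real.log_nonneg (show 1 ≤ 2 * A by linarith)
    linarith
  calc (2 * A / 1) ^ (1 / 3 : ℝ) * y * (1 + Real.log (2 * A)) ^ 3 +
        (2 * A * y) ^ ε * (2 * A + (2 * A * y) ^ (2 / 3 : ℝ))
      ≤ 2 * w * (K * E) + 2 ^ ε * E * (2 * A + 2 * u) := by
        rw [e3]
        gcongr
    _ = 2 * K * E * w + 2 ^ ε * 2 * E * (A + u) := by ring
    _ ≤ 2 * K * E * (A + u + w) + 2 ^ ε * 2 * E * (A + u + w) := by
        refine add_le_add (mul_le_mul_of_nonneg_left (by linarith) (by positivity))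
          (mul_le_mul_of_nonneg_left (by linarith) (by positivity))
    _ = _ := by ring

/-- `conj (TT S γ a) = col S (conj (γ Gn)) a`, `LS_all` with `Z = 1`; the model trivially. -/
theorem EE_crude {ε : ℝ} (hε : 0 < ε) : ∃ C : ℝ, 0 < C ∧ ∀ (A y : ℝ) (S : Finset O) (γ : O → ℂ),
    1 ≤ A → 1 ≤ y → (∀ b ∈ S, PS b ∧ nr b ≤ y) →
    ∑ a ∈ dy A, ‖EE S γ a‖ ^ 2 ≤
      C * (A * y) ^ ε * (A + (A * y) ^ (2 / 3 : ℝ) + A ^ (1 / 3 : ℝ) * y) * N2 S γ := by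
  obtain ⟨C₁, hC₁, h₁⟩ := QC1_main hε
  obtain ⟨C₂, hC₂, h₂⟩ := QC1_model
  refine ⟨2 * C₁ + 2 * C₂, by positivity, fun A y S γ hA hy hS => ?_⟩
  have k₁ := h₁ A y S γ hA hy hS
  have k₂ := h₂ A y S γ hA hy hS
  have hN : 0 ≤ N2 S γ := Finset.sum_nonneg fun _ _ => by positivity
  have hA0 : 0 < A := by linarith
  have hy0 : 0 < y := by linarith
  have h1 : ∑ a ∈ dy A, ‖EE S γ a‖ ^ 2 ≤
      ∑ a ∈ dy A, (2 * ‖TT S γ a‖ ^ 2 + 2 * ‖∑ b ∈ S, γ b * mdl a b‖ ^ 2) := by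
    refine Finset.sum_le_sum fun a _ => ?_
    have e : EE S γ a = TT S γ a + -∑ b ∈ S, γ b * mdl a b := by
      rw [← sub_eq_add_neg]
      simp only [EE, TT, mul_sub, Finset.sum_sub_distrib]
    have := QC1_sq_add (TT S γ a) (-∑ b ∈ S, γ b * mdl a b)
    rwa [← e, norm_neg] at this
  have h3 : (A * y) ^ (2 / 3 : ℝ) ≤
      (A * y) ^ ε * (A + (A * y) ^ (2 / 3 : ℝ) + A ^ (1 / 3 : ℝ) * y) := by
    have h4 : 1 ≤ (A * y) ^ ε := Real.one_le_rpow (one_le_mul_of_one_le_of_one_le hA hy) hε.le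
    have h5 : 0 ≤ A ^ (1 / 3 : ℝ) * y := by positivity
    refine le_trans ?_ (le_mul_of_one_le_left (by positivity) h4)
    linarith
  have k₃ : C₂ * (A * y) ^ (2 / 3 : ℝ) * N2 S γ ≤
      C₂ * ((A * y) ^ ε * (A + (A * y) ^ (2 / 3 : ℝ) + A ^ (1 / 3 : ℝ) * y)) * N2 S γ := by
    gcongr
  refine h1.trans ?_
  rw [Finset.sum_add_distrib, ← Finset.mul_sum, ← Finset.mul_sum]
  refine (add_le_add (mul_le_mul_of_nonneg_left k₁ (by norm_num))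
    (mul_le_mul_of_nonneg_left (k₂.trans k₃) (by norm_num))).trans_eq ?_
  ring

end Crest.Agent.R12
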