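import Crest.Agent.R12.Chr

/-!
# Row 12, Siegel–Walfisz block: the zeta function of `O` near `1` and the 3-4-1 inequality
-/

set_option autoImplicit false

noncomputable section

namespace Crest.Agent.R12

open Crest.Agent.R17
open scoped ComplexConjugate Topology
open Filter MeasureTheory

/-- `∑_{n ≠ 0} N(n)^{-σ}`. -/
def zO (σ : ℝ) : ℝ := ∑' n : O, nr n ^ (-σ)

theorem SW341_range {σ : ℝ} (h1 : 1 < σ) (Y : ℕ) :
    ∑ k ∈ Finset.range Y, ((k + 1 : ℕ) : ℝ) ^ (-σ) ≤ 1 + (σ - 1)⁻¹ := by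
  have hp : 0 < σ - 1 := by linarith
  have key : ∀ Y : ℕ, ∑ k ∈ Finset.range (Y + 1), ((k + 1 : ℕ) : ℝ) ^ (-σ) ≤
      1 + (σ - 1)⁻¹ * (1 - ((Y + 1 : ℕ) : ℝ) ^ (1 - σ)) := by
    intro Y
    induction Y with
    | zero => simp
    | succ Y ih =>
      rw [Finset.sum_range_succ]
      have h4 := CountAux.rpow_step_ge hp.le (x := ((Y + 1 : ℕ) : ℝ)) (by positivity)
      rw [show -(σ - 1 + 1) = -σ by ring, show -(σ - 1) = 1 - σ by ring,
        ← le_inv_mul_iff₀ hp] at h4
      push_cast at *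
      linarith
  rcases Y with _ | Y
  · simp only [Finset.range_zero, Finset.sum_empty]
    positivity
  · have h2 : 0 ≤ (σ - 1)⁻¹ * ((Y + 1 : ℕ) : ℝ) ^ (1 - σ) := by positivity
    have h3 := key Y
    linarith

/-- `CountAux.abel`. -/
theorem zO_le {σ : ℝ} (h1 : 1 < σ) (h2 : σ ≤ 2) : zO σ ≤ 14 / (σ - 1) := by
  classical
  have hp : 0 < σ - 1 := by linarith
  refine (summable_nr_rpow h1).tsum_le_of_sum_le fun S => ?_
  rw [← Finset.sum_erase S (a := 0) (by
    rw [nr, nm_zero, Nat.cast_zero, Real.zero_rpow (by linarith)])]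
  have h3 : S.erase 0 ⊆ (ball (S.sup nm)).erase 0 := fun z hz =>
    CountAux.mem_erase_ball.2 ⟨Finset.ne_of_mem_erase hz,
      Finset.le_sup (f := nm) (Finset.mem_of_mem_erase hz)⟩
  have h4 : 1 ≤ (σ - 1)⁻¹ := one_le_inv_iff₀.2 ⟨hp, by linarith⟩
  calc ∑ n ∈ S.erase 0, nr n ^ (-σ) ≤ ∑ n ∈ (ball (S.sup nm)).erase 0, nr n ^ (-σ) :=
        Finset.sum_le_sum_of_subset_of_nonneg h3 fun n _ _ => by positivity
    _ ≤ 7 * ∑ k ∈ Finset.range (S.sup nm), ((k + 1 : ℕ) : ℝ) ^ (-σ) :=
        CountAux.abel (fun k => (k : ℝ) ^ (-σ)) (fun k => by positivity)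
          (fun k hk => Real.rpow_le_rpow_of_nonpos (by exact_mod_cast hk) (by simp)
            (by linarith)) _
    _ ≤ _ := by
        have h5 := SW341_range h1 (S.sup nm)
        rw [div_eq_mul_inv]
        linarith

theorem sum_le_zO {σ : ℝ} (h1 : 1 < σ) (S : Finset O) : ∑ n ∈ S, nr n ^ (-σ) ≤ zO σ :=
  (summable_nr_rpow h1).sum_le_tsum S fun n _ => by positivity

theorem norm_Dser_le_zO {b : O → ℂ} (hb : PolyB b 1 0) {s : ℂ} (hs : 1 < s.re) :
    ‖Dser b s‖ ≤ zO s.re := by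
  refine tsum_of_norm_bounded (summable_nr_rpow hs).hasSum fun n => ?_
  rcases eq_or_ne n 0 with rfl | hn
  · rw [hb.1, zero_mul, norm_zero]
    positivity
  · rw [norm_mul, Complex.norm_cpow_eq_rpow_re_of_pos (nr_pos hn), Complex.neg_re]
    have h := hb.2 n
    rw [Real.rpow_zero, mul_one] at h
    exact mul_le_of_le_one_left (by positivity) h

/-- Copy of Mathlib's private lemma `DirichletCharacter.re_log_comb_nonneg'`. -/
theorem re_log_comb {a : ℝ} (h0 : 0 ≤ a) (h1 : a < 1) {z : ℂ} (hz : z = 0 ∨ ‖z‖ = 1) :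
    0 ≤ 3 * (-Complex.log (1 - a)).re + 4 * (-Complex.log (1 - a * z)).re +
      (-Complex.log (1 - a * z ^ 2)).re := by
  rcases hz with rfl | hz
  · have h2 : (-Complex.log (1 - a)).re = -Real.log (1 - a) := by
      rw [Complex.neg_re, Complex.log_re, ← Complex.ofReal_one, ← Complex.ofReal_sub,
        Complex.norm_of_nonneg (by linarith)]
    have h3 := Real.log_nonpos (x := 1 - a) (by linarith) (by linarith)
    rw [h2]
    simp only [mul_zero, sub_zero, Complex.log_one, neg_zero, Complex.zero_re, ne_eq,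
      OfNat.ofNat_ne_zero, not_false_eq_true, zero_pow, add_zero]
    linarith
  have hac₀ : ‖(a : ℂ)‖ < 1 := by
    simp only [Complex.norm_of_nonneg h0, h1]
  have hac₁ : ‖a * z‖ < 1 := by rwa [norm_mul, hz, mul_one]
  have hac₂ : ‖a * z ^ 2‖ < 1 := by rwa [norm_mul, norm_pow, hz, one_pow, mul_one]
  rw [← ((Complex.hasSum_re <| Complex.hasSum_taylorSeries_neg_log hac₀).mul_left 3).add
    ((Complex.hasSum_re <| Complex.hasSum_taylorSeries_neg_log hac₁).mul_left 4) |>.add
    (Complex.hasSum_re <| Complex.hasSum_taylorSeries_neg_log hac₂) |>.tsum_eq]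
  refine tsum_nonneg fun n => ?_
  simp only [← Complex.ofReal_pow, Complex.div_natCast_re, Complex.ofReal_re, mul_pow,
    Complex.mul_re, Complex.ofReal_im, zero_mul, sub_zero]
  rcases n.eq_zero_or_pos with rfl | hn
  · simp
  · simp only [← mul_div_assoc, ← add_div]
    refine div_nonneg ?_ n.cast_nonneg
    rw [← pow_mul, pow_mul', sq, Complex.mul_re, ← sq, ← sq, ← Complex.sq_norm_sub_sq_re,
      norm_pow, hz, one_pow]
    have : 0 ≤ 2 * a ^ n * ((z ^ n).re + 1) ^ 2 := by positivity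
    nlinarith [this]

open Classical in
theorem SW341_summable {f : O → ℂ} (hf : LBA.CM f) :
    Summable fun p : O => (if Prime p then -Complex.log (1 - f p) else 0).re := by
  have hg : Summable fun p => if Prime p then -f p else 0 :=
    Summable.of_norm_bounded hf.summable fun p => by split_ifs <;> simp
  have e : ∀ p, (if Prime p then -Complex.log (1 - f p) else 0) =
      -Complex.log (1 + if Prime p then -f p else 0) := by
    intro p
    split_ifs
    · rw [sub_eq_add_neg]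
    · simp
  simp only [e]
  exact (Complex.hasSum_re (Complex.summable_log_one_add_of_summable hg).neg.hasSum).summable

open Classical in
theorem SW341_norm (l : ℤ) (ka : O) {s : ℂ} (hs : 1 < s.re) :
    ‖Dser (xi l ka) s‖ = Real.exp (∑' p : O,
      (if Prime p then -Complex.log (1 - xi l ka p * (nr p : ℂ) ^ (-s)) else 0).re) := by
  have hf := cm_xi l ka hs
  have hg : Summable fun p => if Prime p then -(xi l ka p * (nr p : ℂ) ^ (-s)) else 0 :=
    Summable.of_norm_bounded hf.summable fun p => by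
      split_ifs
      · rw [norm_neg]
      · rw [norm_zero]
        exact norm_nonneg _
  have e : ∀ p, (if Prime p then -Complex.log (1 - xi l ka p * (nr p : ℂ) ^ (-s)) else 0) =
      -Complex.log (1 + if Prime p then -(xi l ka p * (nr p : ℂ) ^ (-s)) else 0) := by
    intro p
    split_ifs
    · rw [sub_eq_add_neg]
    · simp
  have hs' : Summable fun p : O =>
      if Prime p then -Complex.log (1 - xi l ka p * (nr p : ℂ) ^ (-s)) else 0 := by
    simp only [e]
    exact (Complex.summable_log_one_add_of_summable hg).neg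
  rw [Dser, hf.eq_exp, Complex.norm_exp, Complex.re_tsum hs']
  intro p hp
  have h2 : (2 : ℝ) ≤ nr p := by exact_mod_cast CountAux.two_le_nm hp
  rw [norm_mul, Complex.norm_cpow_eq_rpow_re_of_pos (nr_pos hp.ne_zero), Complex.neg_re]
  exact (mul_le_of_le_one_left (by positivity) (norm_xi_le l ka p)).trans_lt
    (Real.rpow_lt_one_of_one_lt_of_neg (by linarith) (by linarith))

/-- **The 3-4-1 inequality** (`LBA.CM.eq_exp` for `xi 0 1`, `xi l ka`, `xi (2 l) (ka²)`). -/
theorem three_four_one (l : ℤ) (ka : O) {σ : ℝ} (hσ : 1 < σ) (t : ℝ) :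
    1 ≤ zO σ ^ 3 * ‖Dser (xi l ka) (σ + t * Complex.I)‖ ^ 4 *
      ‖Dser (xi (2 * l) (ka ^ 2)) (σ + (2 * t : ℝ) * Complex.I)‖ := by
  classical
  have h0 : 1 < (σ : ℂ).re := by simpa using hσ
  have h1 : 1 < ((σ : ℂ) + t * Complex.I).re := by simpa using hσ
  have h2 : 1 < ((σ : ℂ) + (2 * t : ℝ) * Complex.I).re := by simpa using hσ
  have h3 : ‖Dser (xi 0 1) σ‖ ≤ zO σ := by simpa using norm_Dser_le_zO (polyB_xi 0 1) h0
  refine le_trans ?_ (mul_le_mul_of_nonneg_right (mul_le_mul_of_nonneg_right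
    (pow_le_pow_left₀ (norm_nonneg _) h3 3) (by positivity)) (norm_nonneg _))
  have s0 := SW341_summable (cm_xi 0 1 h0)
  have s1 := SW341_summable (cm_xi l ka h1)
  have s2 := SW341_summable (cm_xi (2 * l) (ka ^ 2) h2)
  rw [SW341_norm _ _ h0, SW341_norm _ _ h1, SW341_norm _ _ h2, ← Real.exp_nat_mul,
    ← Real.exp_nat_mul, ← Real.exp_add, ← Real.exp_add, ← tsum_mul_left, ← tsum_mul_left,
    ← (s0.mul_left _).tsum_add (s1.mul_left _), ← ((s0.mul_left _).add (s1.mul_left _)).tsum_add s2]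
  refine Real.one_le_exp (tsum_nonneg fun p => ?_)
  by_cases hp : Prime p
  · simp only [if_pos hp]
    by_cases hq : Primary p
    · have hN : (2 : ℝ) ≤ nr p := by exact_mod_cast CountAux.two_le_nm hp
      have hN0 : (nr p : ℂ) ≠ 0 := by
        rw [Ne, Complex.ofReal_eq_zero]
        linarith
      have ha : (nr p : ℂ) ^ (-(σ : ℂ)) = ((nr p ^ (-σ) : ℝ) : ℂ) := by
        rw [Complex.ofReal_cpow (by linarith), Complex.ofReal_neg]
      have hz : xi l ka p * (nr p : ℂ) ^ (-(t * Complex.I)) = 0 ∨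
          ‖xi l ka p * (nr p : ℂ) ^ (-(t * Complex.I))‖ = 1 := by
        rcases norm_xi l ka p with h | h
        · exact Or.inl (by rw [h, zero_mul])
        · refine Or.inr ?_
          rw [norm_mul, h, Complex.norm_cpow_eq_rpow_re_of_pos (by linarith)]
          simp
      have key := re_log_comb (a := nr p ^ (-σ)) (by positivity)
        (Real.rpow_lt_one_of_one_lt_of_neg (by linarith) (by linarith)) hz
      have e0 : xi 0 1 p * (nr p : ℂ) ^ (-(σ : ℂ)) = ((nr p ^ (-σ) : ℝ) : ℂ) := by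
        rw [xi_of_primary hq, cub_one_right, zpow_zero, one_mul, one_mul, ha]
      have e1 : xi l ka p * (nr p : ℂ) ^ (-((σ : ℂ) + t * Complex.I)) =
          ((nr p ^ (-σ) : ℝ) : ℂ) * (xi l ka p * (nr p : ℂ) ^ (-(t * Complex.I))) := by
        rw [neg_add, Complex.cpow_add _ _ hN0, ha]
        ring
      have e2 : xi (2 * l) (ka ^ 2) p * (nr p : ℂ) ^ (-((σ : ℂ) + (2 * t : ℝ) * Complex.I)) =
          ((nr p ^ (-σ) : ℝ) : ℂ) * (xi l ka p * (nr p : ℂ) ^ (-(t * Complex.I))) ^ 2 := by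
        rw [neg_add, Complex.cpow_add _ _ hN0, ha, ← xi_sq,
          show -(((2 * t : ℝ) : ℂ) * Complex.I) = -(t * Complex.I) + -(t * Complex.I) by
            push_cast; ring, Complex.cpow_add _ _ hN0]
        ring
      rw [e0, e1, e2]
      exact_mod_cast key
    · simp [xi_of_not hq]
  · simp [if_neg hp]

/-- Mertens-type upper bound: `exp x ≤ (1 + x)²` on `[0, 1]` and `∏ (1 + N p^{-σ}) ≤ zO σ`. -/
theorem exp_sum_primes_le {σ : ℝ} (h1 : 1 < σ) (P : Finset O)
    (hP : ∀ p ∈ P, Prime p ∧ Primary p) : Real.exp (∑ p ∈ P, nr p ^ (-σ)) ≤ zO σ ^ 2 := by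
  classical
  have h2 : ∏ p ∈ P, (1 + nr p ^ (-σ)) ≤ zO σ := by
    rw [Finset.prod_one_add]
    have hinj : Set.InjOn (fun S : Finset O => ∏ q ∈ S, q) (P.powerset : Set (Finset O)) := by
      intro S hS T hT h
      have hS' := (squarefree_prod_primes fun q hq =>
        hP q (Finset.mem_powerset.1 (Finset.mem_coe.1 hS) hq)).2.2
      have hT' := (squarefree_prod_primes fun q hq =>
        hP q (Finset.mem_powerset.1 (Finset.mem_coe.1 hT) hq)).2.2
      have h' : ∏ q ∈ S, q = ∏ q ∈ T, q := h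
      rw [← hS', h', hT']
    refine le_trans (le_of_eq ?_) (sum_le_zO h1 (P.powerset.image fun S => ∏ q ∈ S, q))
    rw [Finset.sum_image hinj]
    refine Finset.sum_congr rfl fun S _ => ?_
    rw [Real.finsetProd_rpow _ _ (fun _ _ => Nat.cast_nonneg _), nr, nm_prod, Nat.cast_prod]
  refine le_trans ?_ (pow_le_pow_left₀ (Finset.prod_nonneg fun p _ => by positivity) h2 2)
  rw [Real.exp_sum, ← Finset.prod_pow]
  refine Finset.prod_le_prod (fun p _ => by positivity) fun p hp => ?_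
  have h3 : 0 ≤ nr p ^ (-σ) := by positivity
  have h4 : nr p ^ (-σ) ≤ 1 :=
    Real.rpow_le_one_of_one_le_of_nonpos (one_le_nr (hP p hp).1.ne_zero) (by linarith)
  have h5 := Real.exp_bound' h3 h4 (n := 2) (by norm_num)
  simp only [Finset.sum_range_succ, Finset.range_zero, Finset.sum_empty, pow_zero, pow_one,
    Nat.factorial, Nat.succ_eq_add_one] at h5
  norm_num at h5
  nlinarith

/-- `∑_{N p ≤ w} 1 / N p ≤ C + C log log w` (take `σ = 1 + 1 / log w`). -/
theorem sum_inv_primes_le : ∃ C : ℝ, 0 < C ∧ ∀ (w : ℝ) (P : Finset O), 3 ≤ w →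
    (∀ p ∈ P, Prime p ∧ Primary p ∧ nr p ≤ w) →
    ∑ p ∈ P, (nr p)⁻¹ ≤ C + C * Real.log (Real.log w) := by
  refine ⟨Real.exp 1 * 28, by positivity, fun w P hw hP => ?_⟩
  have hw0 : 0 < w := by linarith
  have hL : 1 < Real.log w := by
    rw [Real.lt_log_iff_exp_lt hw0]
    linarith [Real.exp_one_lt_d9]
  have hL0 : 0 < Real.log w := by linarith
  have hi : (Real.log w)⁻¹ < 1 := inv_lt_one_of_one_lt₀ hL
  have hi0 : 0 < (Real.log w)⁻¹ := inv_pos.2 hL0
  have h1 : 1 < 1 + (Real.log w)⁻¹ := by linarith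
  have h2 := exp_sum_primes_le h1 P fun p hp => ⟨(hP p hp).1, (hP p hp).2.1⟩
  have h3 := zO_le h1 (by linarith)
  rw [add_sub_cancel_left, div_inv_eq_mul] at h3
  have h4 : 0 ≤ zO (1 + (Real.log w)⁻¹) := by simpa using sum_le_zO h1 ∅
  have h5 := (Real.le_log_iff_exp_le (by positivity)).2 (h2.trans (pow_le_pow_left₀ h4 h3 2))
  rw [Real.log_pow, Real.log_mul (by norm_num) hL0.ne'] at h5
  have h6 : Real.log 14 ≤ 14 := (Real.log_le_sub_one_of_pos (by norm_num)).trans (by norm_num)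
  have h7 : 0 ≤ Real.log (Real.log w) := Real.log_nonneg hL.le
  have h8 : ∑ p ∈ P, (nr p)⁻¹ ≤ Real.exp 1 * ∑ p ∈ P, nr p ^ (-(1 + (Real.log w)⁻¹)) := by
    rw [Finset.mul_sum]
    refine Finset.sum_le_sum fun p hp => ?_
    have hp0 := nr_pos (hP p hp).1.ne_zero
    have h9 : nr p ^ (Real.log w)⁻¹ ≤ Real.exp 1 := by
      refine (Real.rpow_le_rpow hp0.le (hP p hp).2.2 hi0.le).trans_eq ?_
      rw [Real.rpow_def_of_pos hw0, mul_inv_cancel₀ hL0.ne']
    calc (nr p)⁻¹ = nr p ^ (Real.log w)⁻¹ * nr p ^ (-(1 + (Real.log w)⁻¹)) := by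
          rw [← Real.rpow_add hp0, ← Real.rpow_neg_one]
          congr 1
          ring
      _ ≤ _ := mul_le_mul_of_nonneg_right h9 (by positivity)
  refine h8.trans ?_
  rw [mul_assoc, ← mul_add]
  refine mul_le_mul_of_nonneg_left ?_ (by positivity)
  push_cast at h5
  linarith

end Crest.Agent.R12
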