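import Crest.Agent.R12.SWL
import Crest.Agent.R12.SW341
import Crest.Agent.R17.LZeroAuxB

/-!
# Row 12, Siegel–Walfisz block: zero-free region and smooth Möbius sums
-/

set_option autoImplicit false

noncomputable section

namespace Crest.Agent.R12

open Crest.Agent.R17
open scoped ComplexConjugate Topology
open Filter MeasureTheory

theorem SWInv_one_le_log {Q : ℝ} (hQ : 3 ≤ Q) : 1 ≤ Real.log Q := by
  rw [Real.le_log_iff_exp_le (by linarith)]
  linarith [Real.exp_one_lt_d9]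

theorem SWInv_polyB (l : ℤ) (ka : O) : PolyB (fun n => mu n * xi l ka n) 1 0 := by
  simpa only [pow_one] using polyB_mu_xi 1 l ka

theorem SWInv_ev {ε : ℝ} (hε : 0 < ε) :
    ∀ᶠ X : ℝ in atTop, Real.log (Real.log X) ^ 10 ≤ ε * Real.log X := by
  have h1 := (Real.isLittleO_pow_log_id_atTop (n := 10)).bound hε
  filter_upwards [Real.tendsto_log_atTop.eventually h1,
    Real.tendsto_log_atTop.eventually_ge_atTop 0] with X h h0
  simp only [id, Real.norm_eq_abs] at h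
  rw [abs_of_nonneg h0] at h
  exact (le_abs_self _).trans h

/-- **Zero-free region with a bound for `1 / L`.**  With `η = c / log⁹ Q`:
`three_four_one` at `1 + η`, `norm_Lx_le` for `(2 l, ka², Q²)`, `norm_Lx_sub_le`; for
`Re s ≥ 1 + η` use `Dser_mul_mu` and `zO_le`. -/
theorem inv_Lx_le (l : ℤ) : ∃ c C : ℝ, 0 < c ∧ c ≤ 1 / 4 ∧ 0 < C ∧
    ∀ (ka : O) (Q : ℝ) (s : ℂ), ka ≠ 0 → ¬ Cube ka → 3 ≤ Q → nr ka ≤ Q → |s.im| ≤ Q →
      1 - c / Real.log Q ^ 9 ≤ s.re → s.re ≤ 2 →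
      Lx (xi l ka) s ≠ 0 ∧ ‖(Lx (xi l ka) s)⁻¹‖ ≤ C * Real.log Q ^ 9 := by
  obtain ⟨C₁, hC₁, h₁⟩ := norm_Lx_le (2 * l)
  obtain ⟨C₂, hC₂, h₂⟩ := norm_Lx_sub_le l
  obtain ⟨c, hc0, hc1, hc2⟩ : ∃ c : ℝ, 0 < c ∧ c ≤ 1 / 4 ∧ 256 * C₂ ^ 4 * (5488 * C₁) * c ≤ 1 := by
    refine ⟨min (1 / 4) (1 / (256 * C₂ ^ 4 * (5488 * C₁))), by positivity, min_le_left _ _, ?_⟩
    rw [← le_div_iff₀' (by positivity)]
    exact min_le_right _ _
  refine ⟨c, 14 / c + 1 / (2 * C₂ * c), hc0, hc1, by positivity, ?_⟩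
  intro ka Q s hka hcu hQ hn ht hs1 hs2
  have hL := SWInv_one_le_log hQ
  have hL2 : Real.log (Q ^ 2) = 2 * Real.log Q := by rw [Real.log_pow]; norm_num
  have h₁' := h₁ (ka ^ 2) (Q ^ 2)
  have h₂' := h₂ ka Q
  rw [hL2] at h₁'
  generalize Real.log Q = L at *
  have hL0 : 0 < L := by linarith
  have hL9 : L ≤ L ^ 9 := le_self_pow₀ hL (by norm_num)
  obtain ⟨η, hη⟩ : ∃ η : ℝ, η = c / L ^ 9 := ⟨_, rfl⟩
  rw [← hη] at hs1
  have hη0 : 0 < η := by rw [hη]; positivity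
  have hη1 : η ≤ 1 / (4 * L) := by
    rw [hη, div_le_div_iff₀ (by positivity) (by positivity)]
    nlinarith
  have hη2 : η ≤ 1 / 4 := hη1.trans (one_div_le_one_div_of_le (by norm_num) (by linarith))
  rcases le_or_gt (1 + η) s.re with hs | hs
  · have hs' : 1 < s.re := by linarith
    have e := Dser_mul_mu l ka hs'
    rw [Lx_eq (polyB_xi l ka) hs']
    refine ⟨left_ne_zero_of_mul_eq_one e, ?_⟩
    rw [inv_eq_of_mul_eq_one_right e]
    calc _ ≤ zO s.re := norm_Dser_le_zO (SWInv_polyB l ka) hs'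
      _ ≤ 14 / (s.re - 1) := zO_le hs' hs2
      _ ≤ 14 / η := by gcongr; linarith
      _ = 14 / c * L ^ 9 := by rw [hη]; field_simp
      _ ≤ _ := by gcongr; exact le_add_of_nonneg_right (by positivity)
  · have hσ : 1 < 1 + η := by linarith
    have h341 := three_four_one l ka hσ s.im
    have hz : zO (1 + η) ≤ 14 / η := by
      have := zO_le hσ (by linarith)
      rwa [add_sub_cancel_left] at this
    have hz0 : 0 ≤ zO (1 + η) := by simpa using sum_le_zO hσ ∅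
    have r1 : (((1 + η : ℝ) : ℂ) + (s.im : ℂ) * Complex.I).re = 1 + η := by simp
    have r2 : (((1 + η : ℝ) : ℂ) + ((2 * s.im : ℝ) : ℂ) * Complex.I).re = 1 + η := by simp
    have r3 : (((1 + η : ℝ) : ℂ) + ((2 * s.im : ℝ) : ℂ) * Complex.I).im = 2 * s.im := by simp
    rw [← Lx_eq (polyB_xi l ka) (by rw [r1]; exact hσ),
      ← Lx_eq (polyB_xi (2 * l) (ka ^ 2)) (by rw [r2]; exact hσ)] at h341
    have b1 := h₁' (((1 + η : ℝ) : ℂ) + ((2 * s.im : ℝ) : ℂ) * Complex.I) (pow_ne_zero 2 hka)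
      (fun h => hcu h.of_sq) (by nlinarith)
      (by rw [nr_pow]; exact pow_le_pow_left₀ (nr_pos hka).le hn 2)
      (by rw [r3, abs_mul, abs_two]; nlinarith [abs_nonneg s.im])
      (by rw [r2]; have : 0 < 1 / (2 * L) := by positivity
          linarith) (by rw [r2]; linarith)
    have b2 := h₂' s.re (1 + η) s.im hka hcu hQ hn ht (by linarith) hs.le (by linarith)
    rw [Complex.re_add_im] at b2
    generalize Lx (xi l ka) (((1 + η : ℝ) : ℂ) + (s.im : ℂ) * Complex.I) = D at h341 b2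
    have b3 : 1 ≤ (14 / η) ^ 3 * ‖D‖ ^ 4 * (C₁ * (2 * L)) := h341.trans (by gcongr)
    have b4 : 4 * C₂ * c / L ^ 7 ≤ ‖D‖ := by
      refine le_of_pow_le_pow_left₀ (n := 4) (by norm_num) (norm_nonneg _) ?_
      have e1 : (14 / η) ^ 3 * ‖D‖ ^ 4 * (C₁ * (2 * L)) =
          ‖D‖ ^ 4 * (5488 * C₁ * L ^ 28 / c ^ 3) := by
        rw [hη]; field_simp; ring
      rw [e1, ← div_le_iff₀ (by positivity)] at b3
      refine le_trans ?_ b3
      have e2 : (4 * C₂ * c / L ^ 7) ^ 4 =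
          256 * C₂ ^ 4 * (5488 * C₁) * c / (5488 * C₁ * L ^ 28 / c ^ 3) := by
        field_simp; ring
      rw [e2]
      gcongr
    have b5 : C₂ * L ^ 2 * (1 + η - s.re) ≤ 2 * C₂ * c / L ^ 7 := by
      calc C₂ * L ^ 2 * (1 + η - s.re) ≤ C₂ * L ^ 2 * (2 * η) := by gcongr; linarith
        _ = _ := by rw [hη]; field_simp
    have b6 : 2 * C₂ * c / L ^ 7 ≤ ‖Lx (xi l ka) s‖ := by
      have := norm_sub_norm_le D (Lx (xi l ka) s)
      have e : 4 * C₂ * c / L ^ 7 = 2 * (2 * C₂ * c / L ^ 7) := by ring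
      linarith
    have b7 : 0 < 2 * C₂ * c / L ^ 7 := by positivity
    refine ⟨norm_pos_iff.1 (b7.trans_le b6), ?_⟩
    rw [norm_inv]
    calc _ ≤ (2 * C₂ * c / L ^ 7)⁻¹ := inv_anti₀ b7 b6
      _ = 1 / (2 * C₂ * c) * L ^ 7 := by field_simp
      _ ≤ _ := by
        gcongr
        · exact le_add_of_nonneg_left (by positivity)
        · norm_num

/-- `Sm_window` with `U = log Y`. -/
theorem Sm_mu_xi_le (l : ℤ) : ∃ c C : ℝ, 0 < c ∧ 0 < C ∧
    ∀ (ka : O) (Q Y τ : ℝ), ka ≠ 0 → ¬ Cube ka → 3 ≤ Q → nr ka ≤ Q → 1 ≤ Y →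
      |τ| + Real.log Y ≤ Q →
      ‖Sm (fun n => mu n * xi l ka n) Y (τ * Complex.I)‖ ≤
        C * Real.log Q ^ 9 * Y ^ (1 - c / Real.log Q ^ 9) := by
  obtain ⟨c, C, hc0, hc1, hC, h⟩ := inv_Lx_le l
  obtain ⟨C₀, hC₀, h₀⟩ := Sm_window
  refine ⟨c, C₀ * (1 + C), hc0, by positivity, ?_⟩
  intro ka Q Y τ hka hcu hQ hn hY hτ
  have hL := SWInv_one_le_log hQ
  have hL9 : 1 ≤ Real.log Q ^ 9 := one_le_pow₀ hL
  have hη0 : 0 < c / Real.log Q ^ 9 := by positivity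
  have hη1 : c / Real.log Q ^ 9 ≤ c := div_le_self hc0.le hL9
  have him : ∀ w : ℂ, |w.im + τ| ≤ Real.log Y → |w.im| ≤ Q := fun w hw => by
    have := abs_sub (w.im + τ) τ
    rw [add_sub_cancel_right] at this
    linarith
  have key := h₀ (fun n => mu n * xi l ka n) (fun w => (Lx (xi l ka) w)⁻¹) Y τ
    (1 - c / Real.log Q ^ 9) (Real.log Y) ((1 + C) * Real.log Q ^ 9) (SWInv_polyB l ka) hY
    (by linarith) (by linarith) le_rfl (by nlinarith)
    ((decay_xi l hka hcu).differentiable_Lx.differentiableOn.inv fun w hw =>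
      (h ka Q w hka hcu hQ hn (him w hw.2.2) hw.1 hw.2.1).1)
    (fun w hw _ => by
      have hs' : 1 < w.re := by rw [hw]; norm_num
      rw [Lx_eq (polyB_xi l ka) hs']
      exact inv_eq_of_mul_eq_one_right (Dser_mul_mu l ka hs'))
    (fun w hw1 hw2 hw3 => (h ka Q w hka hcu hQ hn (him w hw3) hw1 hw2).2.trans (by
      gcongr; linarith))
  rwa [← mul_assoc] at key

/-- **Siegel–Walfisz, smooth form** (`Q = (log X)^{A + 2}`; for `i = 0` use `Sm_xi_le`). -/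
theorem SW_smooth (l : ℤ) (A B : ℕ) {de : ℝ} (hde : 0 < de) : ∃ C X0 : ℝ, 0 < C ∧ ∀ X ≥ X0,
    ∀ (i : ℕ) (ka : O) (Y τ : ℝ), i ≤ 1 → ka ≠ 0 → ¬ Cube ka → nr ka ≤ Real.log X ^ A →
      X ^ de ≤ Y → Y ≤ 2 * X → |τ| ≤ Real.log X ^ A →
      ‖Sm (fun n => mu n ^ i * xi l ka n) Y (τ * Complex.I)‖ ≤ C * Y / Real.log X ^ B := by
  obtain ⟨c, C₁, hc, hC₁, h₁⟩ := Sm_mu_xi_le l
  obtain ⟨C₀, hC₀, h₀⟩ := Sm_xi_le l (j := 1) le_rfl 0
  have ha : (0 : ℝ) < (A + 2 : ℕ) := by positivity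
  have ev := (SWInv_ev (ε := de / (4 * A + B + 1)) (by positivity)).and
    ((SWInv_ev (ε := c * de / ((B + 9) * ((A + 2 : ℕ) : ℝ) ^ 9)) (by positivity)).and
      ((Real.tendsto_log_atTop.eventually_ge_atTop 3).and (eventually_ge_atTop 1)))
  obtain ⟨X0, hX0⟩ := eventually_atTop.1 ev
  refine ⟨4 * C₀ + C₁ * ((A + 2 : ℕ) : ℝ) ^ 9, X0, by positivity, ?_⟩
  intro X hX i ka Y τ hi hka hcu hn hY1 hY2 hτ
  obtain ⟨e1, e2, e3, e4⟩ := hX0 X hX
  have hX0' : 0 < X := by linarith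
  have hY : 1 ≤ Y := (Real.one_le_rpow e4 hde.le).trans hY1
  have hY0 : 0 < Y := by linarith
  have lY1 : de * Real.log X ≤ Real.log Y := by
    rw [← Real.log_rpow hX0']
    exact Real.log_le_log (by positivity) hY1
  have lY2 : Real.log Y ≤ 1 + Real.log X := by
    have := Real.log_le_log hY0 hY2
    rw [Real.log_mul two_ne_zero hX0'.ne'] at this
    linarith [Real.log_two_lt_d9]
  generalize Real.log X = L at *
  have hL0 : 0 < L := by linarith
  have hm := SWInv_one_le_log e3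
  have hmL : Real.log L ≤ L := (Real.log_le_sub_one_of_pos hL0).trans (by linarith)
  have hLA : 1 ≤ L ^ A := one_le_pow₀ (by linarith)
  have hexp : ∀ k : ℕ, L ^ k = Real.exp (k * Real.log L) := fun k => by
    rw [Real.exp_nat_mul, Real.exp_log hL0]
  rw [le_div_iff₀ (by positivity)]
  obtain rfl | rfl : i = 0 ∨ i = 1 := by omega
  · simp only [pow_zero, one_mul]
    have b1 := h₀ ka Y (τ * Complex.I) hka hcu hY0 (by simp)
    have r : ((τ : ℂ) * Complex.I).im = τ := by simp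
    rw [r] at b1
    have b2 : Y ^ (1 / 2 - (1 : ℕ) : ℝ) ≤ 1 :=
      Real.rpow_le_one_of_one_le_of_nonpos hY (by norm_num)
    have b3 : L ^ (4 * A + B) ≤ Y := by
      rw [hexp, ← Real.le_log_iff_exp_le hY0]
      have m1 : Real.log L ≤ Real.log L ^ 10 := le_self_pow₀ hm (by norm_num)
      rw [div_mul_eq_mul_div, le_div_iff₀ (by positivity)] at e1
      push_cast
      have : (0 : ℝ) ≤ 4 * A + B := by positivity
      nlinarith
    have hn0 := (nr_pos hka).le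
    calc _ ≤ C₀ * nr ka ^ (1 + 1) * (1 + |τ|) ^ (2 * 1) * Y ^ (1 / 2 - (1 : ℕ) : ℝ) * L ^ B := by
          gcongr
      _ ≤ C₀ * (L ^ A) ^ (1 + 1) * (L ^ A + L ^ A) ^ (2 * 1) * 1 * L ^ B := by gcongr
      _ = 4 * C₀ * L ^ (4 * A + B) := by ring
      _ ≤ _ := by gcongr; exact le_add_of_nonneg_right (by positivity)
  · simp only [pow_one]
    have q1 : L ^ (A + 2) = L ^ A * L ^ 2 := pow_add _ _ _
    have q2 : 9 ≤ L ^ 2 := by nlinarith
    have q3 : L ^ 2 ≤ L ^ A * L ^ 2 := le_mul_of_one_le_left (by positivity) hLA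
    have q4 : L ^ A * 9 ≤ L ^ A * L ^ 2 := by gcongr
    have b1 := h₁ ka (L ^ (A + 2)) Y τ hka hcu (by rw [q1]; linarith) (by rw [q1]; linarith) hY
      (by rw [q1]; nlinarith)
    rw [Real.log_pow] at b1
    generalize ((A + 2 : ℕ) : ℝ) = a at *
    generalize Real.log L = m at *
    have hm0 : 0 < m := by linarith
    have b2 : Y ^ (1 - c / (a * m) ^ 9) * L ^ (B + 9) ≤ Y := by
      rw [Real.rpow_sub hY0, Real.rpow_one, div_mul_eq_mul_div, div_le_iff₀ (by positivity)]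
      refine mul_le_mul_of_nonneg_left ?_ hY0.le
      rw [hexp, Real.rpow_def_of_pos hY0, Real.exp_le_exp]
      rw [div_mul_eq_mul_div, le_div_iff₀ (by positivity)] at e2
      rw [← mul_div_assoc, le_div_iff₀ (by positivity)]
      push_cast
      calc ((B : ℝ) + 9) * m * (a * m) ^ 9 = m ^ 10 * ((B + 9) * a ^ 9) := by ring
        _ ≤ c * de * L := e2
        _ = de * L * c := by ring
        _ ≤ _ := by gcongr
    calc _ ≤ C₁ * (a * m) ^ 9 * Y ^ (1 - c / (a * m) ^ 9) * L ^ B := by gcongr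
      _ ≤ C₁ * (a * L) ^ 9 * Y ^ (1 - c / (a * m) ^ 9) * L ^ B := by gcongr
      _ = C₁ * a ^ 9 * (Y ^ (1 - c / (a * m) ^ 9) * L ^ (B + 9)) := by ring
      _ ≤ _ := by gcongr; exact le_add_of_nonneg_left (by positivity)

end Crest.Agent.R12
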