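import Crest.Agent.R12.SWThin
import Crest.Agent.R12.SWInv

/-!
# Row 12, Siegel–Walfisz block: sharp cut-off
-/

set_option autoImplicit false

noncomputable section

namespace Crest.Agent.R12

open Crest.Agent.R17
open scoped ComplexConjugate Topology
open Filter MeasureTheory

/-- The smoothed step function `(δ √π)⁻¹ ∫_{-∞}^{0} exp (-((u - v) / δ)²) dv`. -/
def stp (δ u : ℝ) : ℝ :=
  (δ * Real.sqrt Real.pi)⁻¹ * ∫ v in Set.Iic (0 : ℝ), Real.exp (-((u - v) / δ) ^ 2)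

theorem SWUns_gauss_eq (δ v : ℝ) : Real.exp (-(v / δ) ^ 2) = Real.exp (-(δ⁻¹ ^ 2) * v ^ 2) := by
  congr 1
  ring

theorem SWUns_int0 {δ : ℝ} (h0 : 0 < δ) : Integrable fun v : ℝ => Real.exp (-(v / δ) ^ 2) := by
  simp only [SWUns_gauss_eq]
  exact integrable_exp_neg_mul_sq (by positivity)

theorem SWUns_val0 {δ : ℝ} (h0 : 0 < δ) :
    ∫ v : ℝ, Real.exp (-(v / δ) ^ 2) = δ * Real.sqrt Real.pi := by
  simp only [SWUns_gauss_eq]
  rw [integral_gaussian, Real.sqrt_div Real.pi_pos.le, Real.sqrt_sq (by positivity)]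
  field_simp

theorem SWUns_int {δ : ℝ} (h0 : 0 < δ) (u : ℝ) :
    Integrable fun v : ℝ => Real.exp (-((u - v) / δ) ^ 2) :=
  (SWUns_int0 h0).comp_sub_left u

theorem SWUns_val {δ : ℝ} (h0 : 0 < δ) (u : ℝ) :
    ∫ v : ℝ, Real.exp (-((u - v) / δ) ^ 2) = δ * Real.sqrt Real.pi := by
  rw [integral_sub_left_eq_self (fun v : ℝ => Real.exp (-(v / δ) ^ 2)) volume u, SWUns_val0 h0]

theorem SWUns_tail {δ : ℝ} (h0 : 0 < δ) (u : ℝ) {S : Set ℝ} (hS : MeasurableSet S)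
    (h : ∀ v ∈ S, u * v ≤ 0) : ∫ v in S, Real.exp (-((u - v) / δ) ^ 2) ≤
      Real.exp (-(u / δ) ^ 2) * (δ * Real.sqrt Real.pi) := by
  rw [← SWUns_val0 h0, ← integral_const_mul]
  have hi := (SWUns_int0 h0).const_mul (Real.exp (-(u / δ) ^ 2))
  refine le_trans (setIntegral_mono_on (SWUns_int h0 u).integrableOn hi.integrableOn hS
    fun v hv => ?_) (setIntegral_le_integral hi (Eventually.of_forall fun v => by positivity))
  rw [← Real.exp_add, Real.exp_le_exp]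
  have h1 : -((u - v) / δ) ^ 2 = -(u / δ) ^ 2 + -(v / δ) ^ 2 + 2 * (u * v) * δ⁻¹ ^ 2 := by ring
  have h2 : 2 * (u * v) * δ⁻¹ ^ 2 ≤ 0 :=
    mul_nonpos_of_nonpos_of_nonneg (by linarith [h v hv]) (by positivity)
  linarith

theorem SWUns_stp_nonneg {δ : ℝ} (h0 : 0 < δ) (u : ℝ) : 0 ≤ stp δ u :=
  mul_nonneg (by positivity) (integral_nonneg fun _ => by positivity)

/-- Gaussian tail: `∫_r^∞ exp (-v²) dv ≤ (√π / 2) exp (-r²)` for `r ≥ 0`. -/
theorem abs_stp_sub_le {δ : ℝ} (h0 : 0 < δ) (u : ℝ) :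
    |(if u ≤ 0 then 1 else 0) - stp δ u| ≤ Real.exp (-(u / δ) ^ 2) := by
  have hc : 0 < δ * Real.sqrt Real.pi := by have := Real.pi_pos; positivity
  split_ifs with hu
  · have h1 := intervalIntegral.integral_Iic_add_Ioi (b := (0 : ℝ))
      (SWUns_int h0 u).integrableOn (SWUns_int h0 u).integrableOn
    rw [SWUns_val h0] at h1
    have h2 : 1 - stp δ u = (δ * Real.sqrt Real.pi)⁻¹ *
        ∫ v in Set.Ioi (0 : ℝ), Real.exp (-((u - v) / δ) ^ 2) := by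
      unfold stp
      rw [eq_sub_of_add_eq h1]
      field_simp
      ring
    rw [h2, abs_of_nonneg (mul_nonneg (by positivity) (integral_nonneg fun _ => by positivity)),
      inv_mul_le_iff₀ hc, mul_comm]
    exact SWUns_tail h0 u measurableSet_Ioi fun v hv =>
      mul_nonpos_of_nonpos_of_nonneg hu (le_of_lt hv)
  · rw [zero_sub, abs_neg, abs_of_nonneg (SWUns_stp_nonneg h0 u), stp, inv_mul_le_iff₀ hc, mul_comm]
    exact SWUns_tail h0 u measurableSet_Iic fun v hv =>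
      mul_nonpos_of_nonneg_of_nonpos (not_le.1 hu).le hv

theorem SWUns_summable_thin {b : O → ℂ} (hb : PolyB b 1 0) {δ x : ℝ} (h0 : 0 < δ) (h1 : δ ≤ 1 / 2)
    (hx : 0 < x) : Summable fun n : O => ‖b n‖ * Real.exp (-(Real.log (nr n / x) / δ) ^ 2) := by
  refine Summable.of_nonneg_of_le (fun n => by positivity) (fun n => ?_) (summable_Sm hb hx 0)
  rw [norm_mul, norm_Wc]
  refine mul_le_mul_of_nonneg_left (Real.exp_le_exp.2 ?_) (norm_nonneg _)
  rw [Complex.zero_re, zero_mul, add_zero, neg_le_neg_iff, div_pow, le_div_iff₀ (by positivity)]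
  have h2 : δ ^ 2 ≤ 1 := pow_le_one₀ h0.le (by linarith)
  nlinarith [sq_nonneg (Real.log (nr n / x))]

theorem SWUns_mem_ball {x : ℝ} (hx : 0 < x) {n : O} (_hn : n ≠ 0) :
    Real.log (nr n / x) ≤ 0 ↔ n ∈ ball ⌊x⌋₊ := by
  rw [mem_ball, Nat.le_floor_iff hx.le, Real.log_nonpos_iff (by positivity), div_le_one hx]

theorem SWUns_sharp_zero {b : O → ℂ} (hb : b 0 = 0) {x : ℝ} (hx : 0 < x) (n : O)
    (hn : n ∉ ball ⌊x⌋₊) :
    b n * (((if Real.log (nr n / x) ≤ 0 then 1 else 0 : ℝ)) : ℂ) = 0 := by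
  by_cases h : n = 0
  · rw [h, hb, zero_mul]
  · rw [if_neg fun h' => hn ((SWUns_mem_ball hx h).1 h')]
    simp

theorem SWUns_hasSum_sharp {b : O → ℂ} (hb : b 0 = 0) {x : ℝ} (hx : 0 < x) :
    HasSum (fun n : O => b n * (((if Real.log (nr n / x) ≤ 0 then 1 else 0 : ℝ)) : ℂ))
      (∑ n ∈ ball ⌊x⌋₊, b n) := by
  have h := hasSum_sum_of_ne_finset_zero (L := .unconditional _) (SWUns_sharp_zero hb hx)
  convert h using 1
  refine Finset.sum_congr rfl fun n hn => ?_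
  by_cases h : n = 0
  · rw [h, hb, zero_mul]
  · rw [if_pos ((SWUns_mem_ball hx h).2 hn)]
    simp

theorem SWUns_norm_diff {b : O → ℂ} {δ : ℝ} (h0 : 0 < δ) (x : ℝ) (n : O) :
    ‖b n * (((if Real.log (nr n / x) ≤ 0 then 1 else 0 : ℝ)) : ℂ) -
      b n * (stp δ (Real.log (nr n / x)) : ℂ)‖ ≤
      ‖b n‖ * Real.exp (-(Real.log (nr n / x) / δ) ^ 2) := by
  rw [← mul_sub, norm_mul, ← Complex.ofReal_sub, Complex.norm_real, Real.norm_eq_abs]
  exact mul_le_mul_of_nonneg_left (abs_stp_sub_le h0 _) (norm_nonneg _)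

theorem SWUns_summable_stp {b : O → ℂ} (hb : PolyB b 1 0) {δ x : ℝ} (h0 : 0 < δ) (h1 : δ ≤ 1 / 2)
    (hx : 0 < x) : Summable fun n : O => b n * (stp δ (Real.log (nr n / x)) : ℂ) := by
  have h2 := Summable.of_norm_bounded (SWUns_summable_thin hb h0 h1 hx) (SWUns_norm_diff h0 x)
  simpa using (SWUns_hasSum_sharp hb.1 hx).summable.sub h2

theorem tsum_stp {b : O → ℂ} (hb : PolyB b 1 0) {δ x : ℝ} (h0 : 0 < δ) (h1 : δ ≤ 1 / 2)
    (hx : 0 < x) :
    ∑' n : O, b n * (stp δ (Real.log (nr n / x)) : ℂ) =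
      (((δ * Real.sqrt Real.pi)⁻¹ : ℝ) : ℂ) *
        ∫ v in Set.Iic (0 : ℝ), thin b δ (x * Real.exp v) := by
  have hc : 0 < δ * Real.sqrt Real.pi := by have := Real.pi_pos; positivity
  have hF : ∀ v : ℝ, thin b δ (x * Real.exp v) =
      ∑' n : O, b n * (Real.exp (-((Real.log (nr n / x) - v) / δ) ^ 2) : ℂ) := by
    intro v
    unfold thin
    refine tsum_congr fun n => ?_
    by_cases h : n = 0
    · rw [h, hb.1, zero_mul, zero_mul]
    · have := nr_pos h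
      rw [← div_div, Real.log_div (by positivity) (Real.exp_pos v).ne', Real.log_exp]
  have hi : ∀ n : O, Integrable
      (fun v : ℝ => b n * (Real.exp (-((Real.log (nr n / x) - v) / δ) ^ 2) : ℂ))
      (volume.restrict (Set.Iic 0)) := fun n =>
    ((SWUns_int h0 _).integrableOn.ofReal).const_mul _
  have hs : Summable fun n : O => ∫ v in Set.Iic (0 : ℝ),
      ‖b n * (Real.exp (-((Real.log (nr n / x) - v) / δ) ^ 2) : ℂ)‖ := by
    refine ((SWUns_summable_stp hb h0 h1 hx).norm.mul_left (δ * Real.sqrt Real.pi)).congr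
      fun n => ?_
    simp only [norm_mul, Complex.norm_real, Real.norm_eq_abs, Real.abs_exp]
    rw [integral_const_mul, abs_of_nonneg (SWUns_stp_nonneg h0 _), stp]
    field_simp
  simp only [hF]
  rw [← integral_tsum_of_summable_integral_norm hi hs, ← tsum_mul_left]
  refine tsum_congr fun n => ?_
  rw [integral_const_mul, integral_complex_ofReal, stp, Complex.ofReal_mul]
  ring

theorem SWUns_polyB_pri : PolyB E2.pri 1 0 := by
  refine ⟨?_, fun n => ?_⟩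
  · unfold E2.pri
    rw [if_neg fun h => h.ne_zero rfl]
  · unfold E2.pri
    split_ifs <;> simp

theorem SWUns_sharp_sub {b : O → ℂ} (hb : PolyB b 1 0) (hp : ∀ n, ¬ Primary n → b n = 0) {δ x : ℝ}
    (h0 : 0 < δ) (h1 : δ ≤ 1 / 2) (hx : 0 < x) :
    ‖∑ n ∈ ball ⌊x⌋₊, b n - ∑' n : O, b n * (stp δ (Real.log (nr n / x)) : ℂ)‖ ≤
      ‖thin E2.pri δ x‖ := by
  have h2 := (SWUns_hasSum_sharp hb.1 hx).sub (SWUns_summable_stp hb h0 h1 hx).hasSum
  have h3 := SWUns_summable_thin SWUns_polyB_pri h0 h1 hx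
  have h4 : thin E2.pri δ x =
      ((∑' n : O, ‖E2.pri n‖ * Real.exp (-(Real.log (nr n / x) / δ) ^ 2) : ℝ) : ℂ) := by
    rw [Complex.ofReal_tsum]
    unfold thin
    refine tsum_congr fun n => ?_
    rw [Complex.ofReal_mul]
    congr 1
    unfold E2.pri
    split_ifs <;> simp
  rw [h4, Complex.norm_real, Real.norm_eq_abs]
  refine le_trans ?_ (le_abs_self _)
  refine h2.norm_le_of_bounded h3.hasSum fun n => (SWUns_norm_diff h0 x n).trans ?_
  refine mul_le_mul_of_nonneg_right ?_ (Real.exp_pos _).le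
  unfold E2.pri
  split_ifs with h
  · simpa using hb.2 n
  · rw [hp n h]

/-- **Unsmoothing.** -/
theorem unsmooth : ∃ C : ℝ, 0 < C ∧ ∀ (b : O → ℂ) (x Y₀ δ T ε : ℝ), PolyB b 1 0 →
    (∀ n, ¬ Primary n → b n = 0) → 0 < x → 0 < Y₀ → 0 < δ → δ ≤ 1 / 2 → 0 ≤ T → 0 ≤ ε →
    (∀ Y τ : ℝ, Y₀ ≤ Y → Y ≤ x → |τ| ≤ T → ‖Sm b Y (τ * Complex.I)‖ ≤ ε * Y) →
    ‖∑ n ∈ ball ⌊x⌋₊, b n‖ ≤
      C * (δ * x + δ⁻¹ * (1 + Y₀ + ε * x + x * Real.exp (-(δ * T) ^ 2 / 8))) := by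
  obtain ⟨C₁, hC₁, h₁⟩ := norm_thin_pri_le
  obtain ⟨C₂, hC₂, h₂⟩ := norm_thin_le
  obtain ⟨C₃, hC₃, h₃⟩ := LZC.small_le 0 le_rfl
  have hI := LZC.integrable_exp_abs one_pos
  set I : ℝ := ∫ v : ℝ, Real.exp (-1 * |v|) with hId
  have hI0 : 0 ≤ I := integral_nonneg fun _ => by positivity
  refine ⟨C₁ + 1 + C₂ + (C₃ + C₂) * I, by positivity,
    fun b x Y₀ δ T ε hb hp hx hY h0 h1 hT hε h => ?_⟩
  set E : ℝ := Real.exp (-(δ * T) ^ 2 / 8) with hE
  have hE0 : 0 < E := Real.exp_pos _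
  have hE1 : E ≤ 1 := Real.exp_le_one_iff.2 (by have := sq_nonneg (δ * T); linarith)
  set L : ℝ := Real.log (Y₀ / x) with hL
  have hi1 : IntegrableOn (fun v : ℝ => (ε + C₂ * E) * x * Real.exp v) (Set.Iic 0) :=
    (integrableOn_exp_Iic 0).const_mul _
  have hi2 : Integrable fun v : ℝ => (C₃ + C₂) * Y₀ * Real.exp (-1 * |v - L|) :=
    (hI.comp_sub_right L).const_mul _
  have hb1 : ‖∫ v in Set.Iic (0 : ℝ), thin b δ (x * Real.exp v)‖ ≤
      ∫ v in Set.Iic (0 : ℝ), ((ε + C₂ * E) * x * Real.exp v +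
        (C₃ + C₂) * Y₀ * Real.exp (-1 * |v - L|)) := by
    refine norm_integral_le_of_norm_le (hi1.add hi2.integrableOn) ?_
    filter_upwards [ae_restrict_mem measurableSet_Iic] with v hv
    have hxv : 0 < x * Real.exp v := by positivity
    have hxv' : x * Real.exp v ≤ x :=
      mul_le_of_le_one_right hx.le (Real.exp_le_one_iff.2 hv)
    rcases le_or_gt Y₀ (x * Real.exp v) with hle | hlt
    · refine (h₂ b δ _ T ε hb h0 h1 hxv hT hε fun τ hτ => h _ τ hle hxv' hτ).trans ?_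
      have : 0 ≤ (C₃ + C₂) * Y₀ * Real.exp (-1 * |v - L|) := by positivity
      rw [← hE]
      linarith
    · refine (h₂ b δ _ T C₃ hb h0 h1 hxv hT hC₃.le fun τ _ => (h₃ b _ τ hb hxv).1).trans ?_
      have h4 : 0 ≤ (ε + C₂ * E) * x * Real.exp v := by positivity
      have h5 : v ≤ L := by
        rw [hL, Real.le_log_iff_exp_le (by positivity), le_div_iff₀ hx, mul_comm]
        exact hlt.le
      have h6 : Y₀ * Real.exp (-1 * |v - L|) = x * Real.exp v := by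
        rw [abs_of_nonpos (by linarith), neg_one_mul, neg_neg, Real.exp_sub, hL,
          Real.exp_log (by positivity)]
        field_simp
      have h7 : C₂ * (x * Real.exp v) * E ≤ C₂ * (x * Real.exp v) :=
        mul_le_of_le_one_right (by positivity) hE1
      rw [← hE, mul_assoc (C₃ + C₂), h6]
      linarith
  rw [integral_add hi1 hi2.integrableOn, integral_const_mul, integral_exp_Iic_zero, mul_one] at hb1
  have hb2 : ∫ v in Set.Iic (0 : ℝ), (C₃ + C₂) * Y₀ * Real.exp (-1 * |v - L|) ≤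
      (C₃ + C₂) * Y₀ * I := by
    refine (setIntegral_le_integral hi2 (Eventually.of_forall fun v => by positivity)).trans_eq ?_
    rw [integral_const_mul, integral_sub_right_eq_self (fun v : ℝ => Real.exp (-1 * |v|)) L]
  have hc : (δ * Real.sqrt Real.pi)⁻¹ ≤ δ⁻¹ := by
    refine inv_anti₀ h0 (le_mul_of_one_le_right h0.le ?_)
    rw [Real.one_le_sqrt]
    linarith [Real.pi_gt_three]
  have hb3 : ‖∑' n : O, b n * (stp δ (Real.log (nr n / x)) : ℂ)‖ ≤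
      δ⁻¹ * ((ε + C₂ * E) * x + (C₃ + C₂) * Y₀ * I) := by
    rw [tsum_stp hb h0 h1 hx, norm_mul, Complex.norm_real, Real.norm_of_nonneg (by positivity)]
    exact mul_le_mul hc (by linarith) (norm_nonneg _) (by positivity)
  have hb4 := (SWUns_sharp_sub hb hp h0 h1 hx).trans (h₁ δ x h0 h1 hx)
  have hb5 := norm_le_norm_add_norm_sub' (∑ n ∈ ball ⌊x⌋₊, b n)
    (∑' n : O, b n * (stp δ (Real.log (nr n / x)) : ℂ))
  refine hb5.trans ((add_le_add hb3 hb4).trans ?_)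
  have hd : 0 < δ⁻¹ := inv_pos.2 h0
  set K : ℝ := (C₃ + C₂) * I with hK
  have hK0 : 0 ≤ K := by positivity
  have e1 : δ⁻¹ * ((ε + C₂ * E) * x + (C₃ + C₂) * Y₀ * I) =
      δ⁻¹ * (ε * x) + C₂ * (δ⁻¹ * (x * E)) + K * (δ⁻¹ * Y₀) := by rw [hK]; ring
  rw [e1]
  have p1 : 0 ≤ δ⁻¹ * (ε * x) := by positivity
  have p2 : 0 ≤ δ⁻¹ * (x * E) := by positivity
  have p3 : 0 ≤ δ⁻¹ * Y₀ := by positivity
  have p4 : 0 ≤ δ * x := by positivity
  have e2 : δ * x + δ⁻¹ * (1 + Y₀ + ε * x + x * E) =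
      δ * x + δ⁻¹ + δ⁻¹ * Y₀ + δ⁻¹ * (ε * x) + δ⁻¹ * (x * E) := by ring
  rw [e2]
  generalize δ⁻¹ * (ε * x) = a₁ at *
  generalize δ⁻¹ * (x * E) = a₂ at *
  generalize δ⁻¹ * Y₀ = a₃ at *
  generalize δ * x = a₄ at *
  have q1 : C₁ * (a₄ + δ⁻¹) ≤ C₁ * (a₄ + δ⁻¹ + a₃ + a₁ + a₂) :=
    mul_le_mul_of_nonneg_left (by linarith) hC₁.le
  have q2 : C₂ * a₂ ≤ C₂ * (a₄ + δ⁻¹ + a₃ + a₁ + a₂) :=
    mul_le_mul_of_nonneg_left (by linarith) hC₂.le
  have q3 : K * a₃ ≤ K * (a₄ + δ⁻¹ + a₃ + a₁ + a₂) :=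
    mul_le_mul_of_nonneg_left (by linarith) hK0
  linarith

theorem SWUns_eventually (k : ℕ) {s : ℝ} (hs : 0 < s) :
    ∀ᶠ X : ℝ in atTop, Real.log X ^ k ≤ X ^ s := by
  filter_upwards [(isLittleO_log_rpow_rpow_atTop (k : ℝ) hs).bound one_pos,
    eventually_ge_atTop (0 : ℝ)] with X h hX
  rw [one_mul, Real.rpow_natCast, Real.norm_of_nonneg (Real.rpow_nonneg hX _)] at h
  exact (le_abs_self _).trans h

/-- **Siegel–Walfisz, sharp form** (`δ = log^{-B}`, `T = log^{B+1}`, `Y₀ = X^{de/2}`,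
`ε = C log^{-2B}`). -/
theorem SW_sharp (l : ℤ) (A B : ℕ) {de : ℝ} (hde : 0 < de) : ∃ C X0 : ℝ, 0 < C ∧ ∀ X ≥ X0,
    ∀ (i : ℕ) (ka : O) (x : ℝ), i ≤ 1 → ka ≠ 0 → ¬ Cube ka → nr ka ≤ Real.log X ^ A →
      0 ≤ x → x ≤ 2 * X →
      ‖∑ n ∈ ball ⌊x⌋₊, mu n ^ i * xi l ka n‖ ≤ C * (x + X ^ de) / Real.log X ^ B := by
  obtain ⟨C₁, hC₁, h₁⟩ := unsmooth
  obtain ⟨C₀, X₀, hC₀, h₀⟩ := SW_smooth l (max A (B + 2)) (2 * B + 2) (half_pos hde)
  have hev : ∀ᶠ X : ℝ in atTop, X₀ ≤ X ∧ 1 ≤ X ∧ 8 ≤ Real.log X ∧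
      Real.log X ^ (2 * B + 1) ≤ X ^ (de / 2) ∧ Real.log X ^ (2 * B + 1) ≤ X ^ (1 : ℝ) := by
    filter_upwards [eventually_ge_atTop X₀, eventually_ge_atTop 1,
      Real.tendsto_log_atTop.eventually_ge_atTop 8, SWUns_eventually (2 * B + 1) (half_pos hde),
      SWUns_eventually (2 * B + 1) one_pos] with X a b c d e using ⟨a, b, c, d, e⟩
  obtain ⟨X₁, hX₁⟩ := eventually_atTop.1 hev
  refine ⟨C₁ * (2 + C₀), X₁, by positivity, fun X hX i ka x hi hka hc hn hx0 hx => ?_⟩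
  obtain ⟨a1, a2, a3, a4, a5⟩ := hX₁ X hX
  have hX0 : 0 < X := by linarith
  set L : ℝ := Real.log X with hL
  have hL1 : 1 ≤ L := by linarith
  have hL0 : 0 < L := by linarith
  rcases hx0.eq_or_lt with rfl | hx0
  · rw [Finset.sum_eq_zero, norm_zero]
    · positivity
    · intro n hn'
      rw [Nat.floor_zero, mem_ball, Nat.le_zero, nm_eq_zero] at hn'
      rw [hn', xi_zero, mul_zero]
  have hP : 0 < L ^ (B + 1) := by positivity
  have hPL : L ≤ L ^ (B + 1) := le_self_pow₀ hL1 (Nat.succ_ne_zero B)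
  have h2 := h₁ (fun n => mu n ^ i * xi l ka n) x (X ^ (de / 2)) (L ^ (B + 1))⁻¹ (L ^ (B + 2))
    (C₀ / L ^ (2 * B + 2)) (polyB_mu_xi i l ka) (fun n hn => by rw [xi_of_not hn, mul_zero]) hx0
    (by positivity) (by positivity)
    (by rw [inv_le_comm₀ hP (by norm_num)]; linarith) (by positivity) (by positivity)
    fun Y τ hY hYx hτ => by
      refine (h₀ X a1 i ka Y τ hi hka hc
        (hn.trans (pow_le_pow_right₀ hL1 (le_max_left _ _))) hY (hYx.trans hx)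
        (hτ.trans (pow_le_pow_right₀ hL1 (le_max_right _ _)))).trans_eq ?_
      ring
  refine h2.trans ?_
  rw [mul_assoc, mul_div_assoc]
  refine mul_le_mul_of_nonneg_left ?_ hC₁.le
  have e1 : (L ^ (B + 1))⁻¹ * L ^ (B + 2) = L := by field_simp; ring
  rw [e1, inv_inv, le_div_iff₀ (by positivity)]
  have hQ : 0 < L ^ B := by positivity
  have hZ1 : 1 ≤ X ^ (de / 2) := Real.one_le_rpow a2 (by positivity)
  have hZ : X ^ de = X ^ (de / 2) * X ^ (de / 2) := by rw [← Real.rpow_add hX0, add_halves]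
  have hE : L ^ (2 * B + 1) * Real.exp (-L ^ 2 / 8) ≤ 1 := by
    rw [Real.rpow_one] at a5
    have h3 : X ≤ Real.exp (L ^ 2 / 8) := by
      calc X = Real.exp L := (Real.exp_log hX0).symm
        _ ≤ _ := Real.exp_le_exp.2 (by nlinarith)
    rw [neg_div, Real.exp_neg, ← div_eq_mul_inv, div_le_one (Real.exp_pos _)]
    exact a5.trans h3
  have e2 : ((L ^ (B + 1))⁻¹ * x + L ^ (B + 1) * (1 + X ^ (de / 2) + C₀ / L ^ (2 * B + 2) * x +
      x * Real.exp (-L ^ 2 / 8))) * L ^ B =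
      (1 + C₀) * x / L + L ^ (2 * B + 1) * (1 + X ^ (de / 2)) +
        x * (L ^ (2 * B + 1) * Real.exp (-L ^ 2 / 8)) := by
    field_simp
    ring
  rw [e2]
  have b1 : (1 + C₀) * x / L ≤ (1 + C₀) * x := div_le_self (by positivity) hL1
  have b2 : L ^ (2 * B + 1) * (1 + X ^ (de / 2)) ≤ X ^ (de / 2) * (2 * X ^ (de / 2)) :=
    mul_le_mul a4 (by linarith) (by positivity) (by positivity)
  have b3 : x * (L ^ (2 * B + 1) * Real.exp (-L ^ 2 / 8)) ≤ x := mul_le_of_le_one_right hx0.le hE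
  have b4 : 0 ≤ C₀ * X ^ de := by positivity
  nlinarith

end Crest.Agent.R12
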