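import Crest.Agent.R12.Cnt
import Crest.Agent.R12.WtA
import Crest.Agent.R12.ThetaI
import Crest.Agent.R12.ThPois

/-!
# Row 12, analytic half: type I sums
-/

set_option autoImplicit false

noncomputable section

namespace Crest.Agent.R12

open Crest.Agent.R17
open scoped ComplexConjugate Topology
open Filter MeasureTheory

theorem TI0_log {ε R T : ℝ} (hε : 0 < ε) (hR : 3 ≤ R) (hT : 1 ≤ T) (hTR : T ≤ R) :
    Real.log (2 + T) ≤ 2 / ε * R ^ ε := by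
  have h1 : Real.log (2 + T) ≤ Real.log (R ^ 2) := Real.log_le_log (by linarith) (by nlinarith)
  rw [Real.log_pow] at h1
  have h2 := Real.log_le_rpow_div (show 0 ≤ R by linarith) hε
  push_cast at h1
  rw [div_mul_eq_mul_div, mul_div_assoc]
  linarith

theorem TI0_mom (k : ℕ) {ε : ℝ} (hε : 0 < ε) : ∃ C : ℝ, 0 < C ∧ ∀ (R T T₁ Y σ σ' : ℝ) (v : ℝ → ℂ)
    (Φ : ℂ → ℂ), 3 ≤ R → Adm v Φ T T₁ → T ≤ R → 0 < Y → |σ| ≤ 2 → |σ'| ≤ 2 →
    Real.sqrt (Mom (fun s => Φ s * (Y : ℂ) ^ s) σ 0 * Mom (fun s => Φ s * (Y : ℂ) ^ s) σ' (2 * k)) ≤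
      C * R ^ ε * (Y ^ ((σ + σ') / 2) * T ^ k) := by
  obtain ⟨C₀, hC₀, h₀⟩ := Adm.mom_le 0
  obtain ⟨C₁, hC₁, h₁⟩ := Adm.mom_le (2 * k)
  refine ⟨(C₀ + C₁) * (2 / ε), by positivity, fun R T T₁ Y σ σ' v Φ hR h hTR hY hσ hσ' => ?_⟩
  have hT := h.one_le_T
  have hT0 : 0 ≤ T := zero_le_one.trans hT
  have hR0 : 0 ≤ R := by linarith
  have hl := TI0_log hε hR hT hTR
  have hl0 : 0 ≤ Real.log (2 + T) := Real.log_nonneg (by linarith)
  have hm : 0 ≤ Mom Φ σ' (2 * k) := integral_nonneg fun _ => by positivity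
  have k0 : Mom Φ σ 0 ≤ (C₀ + C₁) * (2 / ε * R ^ ε) := by
    refine (h₀ v Φ T T₁ σ h hσ).trans ?_
    rw [pow_zero, mul_one]
    gcongr
    linarith
  have k1 : Mom Φ σ' (2 * k) ≤ (C₀ + C₁) * (2 / ε * R ^ ε) * T ^ (2 * k) := by
    refine (h₁ v Φ T T₁ σ' h hσ').trans ?_
    gcongr
    linarith
  rw [Mom_mul_cpow Φ hY, Mom_mul_cpow Φ hY, Real.sqrt_le_left (by positivity)]
  have e : (Y ^ ((σ + σ') / 2)) ^ 2 = Y ^ σ * Y ^ σ' := by
    rw [← Real.rpow_natCast, ← Real.rpow_mul hY.le, ← Real.rpow_add hY]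
    congr 1
    push_cast
    ring
  calc _ = Y ^ σ * Y ^ σ' * (Mom Φ σ 0 * Mom Φ σ' (2 * k)) := by ring
    _ ≤ Y ^ σ * Y ^ σ' * ((C₀ + C₁) * (2 / ε * R ^ ε) *
        ((C₀ + C₁) * (2 / ε * R ^ ε) * T ^ (2 * k))) := by gcongr
    _ = _ := by rw [← e]; ring

theorem TI0_main (l : ℤ) {v : ℝ → ℂ} {Φ : ℂ → ℂ} {T T₁ c : ℝ} (h : Adm v Φ T T₁) (hc : 0 ≤ c) :
    ‖(if l = 0 then (c : ℂ) * Φ (5 / 6) else 0)‖ ≤ c / T₁ := by
  have := h.one_le
  split_ifs
  · rw [norm_mul, Complex.norm_real, Real.norm_of_nonneg hc, div_eq_mul_inv c]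
    refine mul_le_mul_of_nonneg_left (h.mel₁ _ ?_) hc
    rw [show (5 / 6 : ℂ) = ((5 / 6 : ℝ) : ℂ) by push_cast; rfl, Complex.ofReal_re, abs_le]
    constructor <;> norm_num
  · rw [norm_zero]; positivity

theorem TI0_eq (c : ℝ) {Y : ℝ} (hY : 0 < Y) (w : ℂ) :
    ((c * Y ^ (5 / 6 : ℝ) : ℝ) : ℂ) * w = (c : ℂ) * (w * (Y : ℂ) ^ (5 / 6 : ℂ)) := by
  rw [Complex.ofReal_mul, Complex.ofReal_cpow hY.le]
  push_cast
  ring

theorem TI0_num {Q K₁ K₂ N T T₁ Y : ℝ} (hK₁ : 0 ≤ K₁) (hK₂ : 0 ≤ K₂) (hN : 1 ≤ N) (hT₁ : 1 ≤ T₁)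
    (hT : T₁ ≤ T) (hY : 0 < Y) (h₁ : Q ≤ K₁ * (Real.sqrt N * T ^ 2))
    (h₂ : Q ≤ K₂ * (Y / (N * T₁) + Real.sqrt (Y / N) + Y ^ (5 / 6 : ℝ) / (N * T₁))) :
    Q ≤ (K₁ + 4 * K₂) * (Y ^ (1 / 2 : ℝ) * N ^ (-(1 / 4 : ℝ)) * (T / Real.sqrt T₁)) := by
  have hN0 : 0 < N := one_pos.trans_le hN
  obtain ⟨n, hn1, rfl⟩ : ∃ n : ℝ, 1 ≤ n ∧ N = n ^ 4 :=
    ⟨N ^ ((4 : ℕ)⁻¹ : ℝ), Real.one_le_rpow hN (by positivity),
      (Real.rpow_inv_natCast_pow hN0.le (by norm_num)).symm⟩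
  obtain ⟨t, ht1, rfl⟩ : ∃ t : ℝ, 1 ≤ t ∧ T₁ = t ^ 2 :=
    ⟨Real.sqrt T₁, Real.one_le_sqrt.2 hT₁, (Real.sq_sqrt (by linarith)).symm⟩
  have hn0 : 0 < n := one_pos.trans_le hn1
  have ht0 : 0 < t := one_pos.trans_le ht1
  have hT0 : 0 < T := by linarith
  have e1 : Real.sqrt (n ^ 4) = n ^ 2 := by
    rw [show n ^ 4 = (n ^ 2) ^ 2 by ring, Real.sqrt_sq (by positivity)]
  have e2 : (n ^ 4) ^ (-(1 / 4 : ℝ)) = n⁻¹ := by
    rw [← Real.rpow_natCast, ← Real.rpow_mul hn0.le, ← Real.rpow_neg_one]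
    norm_num
  have h5 : Y ^ (5 / 6 : ℝ) ≤ Y + Real.sqrt Y := by
    rcases le_total 1 Y with h | h
    · exact le_add_of_le_of_nonneg (Real.rpow_le_self_of_one_le h (by norm_num)) (by positivity)
    · rw [Real.sqrt_eq_rpow]
      exact le_add_of_nonneg_of_le hY.le (Real.rpow_le_rpow_of_exponent_ge hY h (by norm_num))
  rw [Real.sqrt_div hY.le, e1] at h₂
  rw [e1] at h₁
  rw [e2, Real.sqrt_sq ht0.le, ← Real.sqrt_eq_rpow]
  have hy := Real.sq_sqrt hY.le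
  have hy0 := Real.sqrt_pos.2 hY
  generalize Real.sqrt Y = y at *
  set W := y * n⁻¹ * (T / t) with hW
  have hW0 : 0 < W := by positivity
  have k0 : 1 ≤ T / t := (one_le_div ht0).2 (by nlinarith)
  have k1 : y / n ^ 2 ≤ W := by
    refine le_trans ?_ (le_mul_of_one_le_right (by positivity) k0)
    rw [← div_eq_mul_inv]
    exact div_le_div_of_nonneg_left hy0.le hn0 (le_self_pow₀ hn1 two_ne_zero)
  have k2 : y / (n ^ 4 * t ^ 2) ≤ y / n ^ 2 := div_le_div_of_nonneg_left hy0.le (by positivity)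
    ((pow_le_pow_right₀ hn1 (by norm_num)).trans (le_mul_of_one_le_right (by positivity) hT₁))
  have k3 : Y ^ (5 / 6 : ℝ) / (n ^ 4 * t ^ 2) ≤ Y / (n ^ 4 * t ^ 2) + y / (n ^ 4 * t ^ 2) := by
    rw [← add_div]
    exact div_le_div_of_nonneg_right h5 (by positivity)
  rcases le_total (Y / (n ^ 4 * t ^ 2)) W with h | h
  · refine h₂.trans ((mul_le_mul_of_nonneg_left (show _ ≤ 4 * W by linarith) hK₂).trans ?_)
    nlinarith [mul_nonneg hK₁ hW0.le]
  · have k4 : n ^ 2 * T ^ 2 ≤ W := by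
      refine le_of_mul_le_mul_right ?_ hW0
      refine (mul_le_mul_of_nonneg_left h (by positivity)).trans_eq ?_
      rw [hW, ← hy]
      field_simp
    refine h₁.trans ((mul_le_mul_of_nonneg_left k4 hK₁).trans ?_)
    nlinarith [mul_nonneg hK₂ hW0.le]

theorem TI0_md (l : ℤ) : ∃ C : ℝ, 0 < C ∧ ∀ (T T₁ Y : ℝ) (v : ℝ → ℂ) (Φ : ℂ → ℂ) (z : O),
    Adm v Φ T T₁ → Primary z → 0 < Y →
    ‖∑' n : O, md l z n * v (nr n / Y)‖ ≤ C * (Y ^ (-(1 / 6 : ℝ)) * (Y / nr z)) := by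
  classical
  obtain ⟨C, hC, hc⟩ := thin_count
  refine ⟨C + 7, by positivity, fun T T₁ Y v Φ z h hz hY => ?_⟩
  have hz0 := nr_pos hz.ne_zero
  have hY' : 0 < Y / nr z := by positivity
  obtain ⟨h1, h2⟩ := hc 1 _ le_rfl hY'
  set K := (ball ⌊Y / nr z⌋₊).erase 0 with hK
  have hmem : ∀ m, m ∈ K ↔ m ≠ 0 ∧ nr m ≤ Y / nr z := fun m => by
    rw [hK, Finset.mem_erase, mem_ball, Nat.le_floor_iff hY'.le]
  have h3 : HasSum (fun m => if m ∈ K then (1 : ℝ) else 0) K.card := by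
    simpa using hasSum_sum_of_ne_finset_zero (f := fun m => if m ∈ K then (1 : ℝ) else 0) (s := K)
      (L := SummationFilter.unconditional O) fun m hm => if_neg hm
  rw [← (mul_right_injective₀ hz.ne_zero).tsum_eq (f := fun n => md l z n * v (nr n / Y))
    fun n hn => ?_]
  · refine (tsum_of_norm_bounded ((h1.hasSum.add h3).mul_left (Y ^ (-(1 / 6 : ℝ))))
      fun m => ?_).trans ?_
    · unfold md
      by_cases hm : Primary (z * m) ∧ z ∣ z * m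
      swap
      · rw [if_neg hm, zero_mul, norm_zero]
        exact mul_nonneg (by positivity) (add_nonneg (by split_ifs <;> positivity)
          (by split_ifs <;> norm_num))
      have hm' := hz.of_mul hm.1
      have hm0 := nr_pos hm'.ne_zero
      have e : nr (z * m) / Y = nr m / (Y / nr z) := by rw [nr_mul]; field_simp
      have e' : nr (z * m) = Y * (nr m / (Y / nr z)) := by rw [nr_mul]; field_simp
      rw [if_pos hm, if_pos hm', norm_mul, norm_mul, AFa_norm_arg_zpow l hm.1.ne_zero, one_mul, e,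
        Complex.norm_real, Real.norm_of_nonneg (by positivity), e',
        Real.mul_rpow hY.le (by positivity), mul_assoc]
      refine mul_le_mul_of_nonneg_left ?_ (by positivity)
      have hx : 0 < nr m / (Y / nr z) := by positivity
      have hx' : nr m / (Y / nr z) ≤ 1 → m ∈ K := fun h4 =>
        (hmem m).2 ⟨hm'.ne_zero, (div_le_one hY').1 h4⟩
      generalize nr m / (Y / nr z) = x at hx hx'
      have h4 : ‖v x‖ ≤ Real.exp (-(1 + 1) * |Real.log x|) := (h.sp x hx).trans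
        (Real.exp_le_exp.2 (mul_le_mul_of_nonneg_right (by linarith [h.one_le]) (abs_nonneg _)))
      rcases le_total x 1 with h5 | h5
      · rw [if_pos (hx' h5)]
        refine le_add_of_nonneg_of_le (Real.exp_pos _).le
          ((mul_le_mul_of_nonneg_left h4 (by positivity)).trans ?_)
        have h6 := Real.log_nonpos hx.le h5
        rw [Real.rpow_def_of_pos hx, ← Real.exp_add, Real.exp_le_one_iff, abs_of_nonpos h6]
        linarith
      · refine le_add_of_le_of_nonneg ((mul_le_of_le_one_left (norm_nonneg _)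
          (Real.rpow_le_one_of_one_le_of_nonpos h5 (by norm_num))).trans h4)
          (by split_ifs <;> norm_num)
    · rw [mul_left_comm]
      refine mul_le_mul_of_nonneg_left ?_ (by positivity)
      rw [add_mul]
      exact add_le_add (h2.trans (mul_le_mul_of_nonneg_left (min_le_right _ _) hC.le))
        (AFa0_card hY'.le fun k hk => (hmem k).1 hk)
  · by_contra h4
    refine hn ?_
    simp only [md]
    rw [if_neg fun h5 => h4 (by obtain ⟨m, rfl⟩ := h5.2; exact ⟨m, rfl⟩), zero_mul]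

open Classical in
/-- One mark `z` at scale `Y`: `Adm.tsum_eq`, `typeI` (`j = 1`, first bound, `Adm.mom_le`) against
the trivial bounds (`tm_thin`, `Adm.sp`, `Adm.mel₁`); `min (a, b) ≤ √(ab)`. -/
theorem typeI_mark (l : ℤ) {ε : ℝ} (hε : 0 < ε) : ∃ C : ℝ, 0 < C ∧ ∀ (R T T₁ Y : ℝ) (v : ℝ → ℂ)
    (Φ : ℂ → ℂ) (z : O), 3 ≤ R → Adm v Φ T T₁ → T ≤ R → PS z → nr z ≤ R → 0 < Y → Y ≤ R →
    ‖(∑' n : O, tm l z n * v (nr n / Y)) - (if l = 0 then
        ((cP * rho0 / nr z * Y ^ (5 / 6 : ℝ) : ℝ) : ℂ) * Φ (5 / 6) else 0)‖ ≤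
      C * R ^ ε * min (Y ^ (1 / 2 : ℝ) * nr z ^ (-(1 / 4 : ℝ)) * (T / Real.sqrt T₁))
        (Y ^ (5 / 6 : ℝ) / nr z + Y / nr z) := by
  obtain ⟨C₁, hC₁, h₁⟩ := typeI l (le_refl 1)
  obtain ⟨C₂, hC₂, h₂⟩ := TI0_mom 2 hε
  obtain ⟨C₃, hC₃, h₃⟩ := tm_thin hε
  have hc := mul_pos cP_pos rho0_pos
  refine ⟨C₁ * C₂ + 4 * (C₃ + cP * rho0), by positivity,
    fun R T T₁ Y v Φ z hR h hTR hz hzR hY hYR => ?_⟩
  have hR1 : 1 ≤ R := by linarith
  have hRε : 1 ≤ R ^ ε := Real.one_le_rpow hR1 hε.le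
  have hT₁ := h.one_le
  have hz0 := nr_pos hz.ne_zero
  have hb : PolyB (tm l z) 1 (1 / 6) := by
    refine ⟨by simp [tm, tc, show ¬ Primary 0 from fun h => h.ne_zero rfl], fun n => ?_⟩
    unfold tm
    split_ifs
    · rw [norm_mul, one_mul]
      exact (mul_le_of_le_one_right (norm_nonneg _) (norm_arg_zpow_le n l)).trans (norm_tc_le n)
    · rw [norm_zero]; positivity
  obtain ⟨s1, s2⟩ := h.tsum_eq hb hY
  obtain ⟨s3, s4⟩ := h₃ l z R T₁ Y hz hR1 hzR hT₁ hY hYR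
  have k1 : ‖∑' n : O, tm l z n * v (nr n / Y)‖ ≤
      C₃ * R ^ ε * min (Y / (nr z * T₁) + Real.sqrt (Y / nr z)) (Y / nr z) := by
    refine (tsum_of_norm_bounded s3.hasSum fun n => ?_).trans s4
    rcases eq_or_ne n 0 with rfl | hn
    · rw [hb.1, zero_mul, norm_zero, zero_mul]
    · rw [norm_mul]
      exact mul_le_mul_of_nonneg_left (h.sp _ (div_pos (nr_pos hn) hY)) (norm_nonneg _)
  have k2 := TI0_main l h (c := cP * rho0 / nr z * Y ^ (5 / 6 : ℝ)) (by positivity)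
  have k3 := (norm_sub_le _ _).trans (add_le_add k1 k2)
  have e : cP * rho0 / nr z * Y ^ (5 / 6 : ℝ) / T₁ = cP * rho0 * (Y ^ (5 / 6 : ℝ) / (nr z * T₁)) := by
    field_simp
  rw [e] at k3
  have k4 := (h₁ z hz.1 hz.2 _ (h.strip.mul_cpow hY) 2 (by norm_num)).trans
    (mul_le_mul_of_nonneg_left ((min_le_left _ _).trans (mul_le_mul_of_nonneg_left
      (h₂ R T T₁ Y (1 / 2) (-(1 / 2)) v Φ hR h hTR hY (by rw [abs_le]; constructor <;> norm_num)
        (by rw [abs_le]; constructor <;> norm_num)) (Real.sqrt_nonneg _))) hC₁.le)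
  rw [← s2, ← TI0_eq _ hY, add_neg_cancel, zero_div, Real.rpow_zero, one_mul] at k4
  generalize ‖(∑' n : O, tm l z n * v (nr n / Y)) - (if l = 0 then
    ((cP * rho0 / nr z * Y ^ (5 / 6 : ℝ) : ℝ) : ℂ) * Φ (5 / 6) else 0)‖ = Q at k3 k4
  have p1 : 0 ≤ Y ^ (5 / 6 : ℝ) / (nr z * T₁) := by positivity
  rw [mul_min_of_nonneg _ _ (by positivity)]
  refine le_min ((TI0_num (K₁ := C₁ * C₂ * R ^ ε) (K₂ := (C₃ + cP * rho0) * R ^ ε) (by positivity)
    (by positivity) hz.one_le hT₁ h.le hY (k4.trans_eq (by ring)) (k3.trans ?_)).trans_eq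
    (by ring)) (k3.trans ?_)
  · rw [mul_add]
    refine add_le_add (mul_le_mul ?_ (min_le_left _ _) (by positivity) (by positivity))
      (mul_le_mul_of_nonneg_right ?_ p1)
    · gcongr; linarith
    · exact (le_mul_of_one_le_right hc.le hRε).trans (by gcongr; linarith)
  · rw [mul_add, add_comm]
    refine add_le_add (mul_le_mul ?_ (div_le_div_of_nonneg_left (by positivity) hz0
      (le_mul_of_one_le_right hz0.le hT₁)) p1 (by positivity))
      (mul_le_mul ?_ (min_le_right _ _) (by positivity) (by positivity))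
    · exact (le_mul_of_one_le_right hc.le hRε).trans (by gcongr; nlinarith [mul_pos hC₁ hC₂])
    · gcongr; nlinarith [mul_pos hC₁ hC₂]

open Classical in
/-- The same for the model (`typeI_md`). -/
theorem typeI_mark_md (l : ℤ) {ε : ℝ} (hε : 0 < ε) : ∃ C : ℝ, 0 < C ∧ ∀ (R T T₁ Y : ℝ)
    (v : ℝ → ℂ) (Φ : ℂ → ℂ) (z : O), 3 ≤ R → Adm v Φ T T₁ → T ≤ R → Primary z → 0 < Y →
    ‖(∑' n : O, md l z n * v (nr n / Y)) - (if l = 0 then
        ((rho0 / nr z * Y ^ (5 / 6 : ℝ) : ℝ) : ℂ) * Φ (5 / 6) else 0)‖ ≤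
      C * R ^ ε * Y ^ (-(1 / 6 : ℝ)) * min T (Y / nr z) := by
  obtain ⟨C₁, hC₁, h₁⟩ := typeI_md l (le_refl 1)
  obtain ⟨C₂, hC₂, h₂⟩ := TI0_mom 1 hε
  obtain ⟨C₃, hC₃, h₃⟩ := TI0_md l
  have hc := rho0_pos
  refine ⟨C₁ * C₂ + (C₃ + rho0), by positivity, fun R T T₁ Y v Φ z hR h hTR hz hY => ?_⟩
  have hRε : 1 ≤ R ^ ε := Real.one_le_rpow (by linarith) hε.le
  have hT₁ := h.one_le
  have hT := h.one_le_T
  have hz0 := nr_pos hz.ne_zero
  have hb : PolyB (md l z) 1 (1 / 6) := by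
    refine ⟨by simp [md, show ¬ Primary 0 from fun h => h.ne_zero rfl], fun n => ?_⟩
    unfold md
    split_ifs with hn
    · rw [norm_mul, AFa_norm_arg_zpow l hn.1.ne_zero, Complex.norm_real,
        Real.norm_of_nonneg (by positivity)]
      exact mul_le_mul_of_nonneg_left
        (Real.rpow_le_rpow_of_exponent_le (one_le_nr hn.1.ne_zero) (by norm_num)) zero_le_one
    · rw [norm_zero]; positivity
  obtain ⟨-, s2⟩ := h.tsum_eq hb hY
  have k3 := (norm_sub_le _ _).trans (add_le_add (h₃ T T₁ Y v Φ z h hz hY)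
    ((TI0_main l h (c := rho0 / nr z * Y ^ (5 / 6 : ℝ)) (by positivity)).trans
      (div_le_self (by positivity) hT₁)))
  have e : rho0 / nr z * Y ^ (5 / 6 : ℝ) = rho0 * (Y ^ (-(1 / 6 : ℝ)) * (Y / nr z)) := by
    rw [show (5 / 6 : ℝ) = -(1 / 6) + 1 by norm_num, Real.rpow_add_one hY.ne']
    ring
  have k4 := (h₁ z hz _ (h.strip.mul_cpow hY) 2 (by norm_num)).trans
    (mul_le_mul_of_nonneg_left ((min_le_left _ _).trans
      (h₂ R T T₁ Y (1 / 3) (-(2 / 3)) v Φ hR h hTR hY (by rw [abs_le]; constructor <;> norm_num)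
        (by rw [abs_le]; constructor <;> norm_num))) hC₁.le)
  rw [← s2, ← TI0_eq _ hY, show ((1 / 3 + -(2 / 3)) / 2 : ℝ) = -(1 / 6) by norm_num, pow_one] at k4
  generalize ‖(∑' n : O, md l z n * v (nr n / Y)) - (if l = 0 then
    ((rho0 / nr z * Y ^ (5 / 6 : ℝ) : ℝ) : ℂ) * Φ (5 / 6) else 0)‖ = Q at k3 k4
  rw [e, ← add_mul] at k3
  rw [mul_assoc, mul_min_of_nonneg _ _ (show 0 ≤ Y ^ (-(1 / 6 : ℝ)) by positivity),
    mul_min_of_nonneg _ _ (by positivity)]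
  refine le_min (k4.trans ?_) (k3.trans (mul_le_mul_of_nonneg_right ?_ (by positivity)))
  · rw [← mul_assoc, ← mul_assoc C₁]
    gcongr
    linarith
  · exact (le_mul_of_one_le_right (by positivity) hRε).trans
      (mul_le_mul_of_nonneg_right (by linarith [mul_pos hC₁ hC₂]) (by positivity))

end Crest.Agent.R12
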