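import Crest.Agent.R12.TI0

/-!
# Row 12, analytic half: type I sums
-/

set_option autoImplicit false

noncomputable section

namespace Crest.Agent.R12

open Crest.Agent.R17
open scoped ComplexConjugate Topology
open Filter MeasureTheory

open Classical in
/-- `∑_{j² ∣ m} μ(j) = μ²(m)`. -/
theorem TI1_sum_mu_sq {m : O} (hm : Primary m) :
    ∑' j : O, (if Primary j ∧ j ^ 2 ∣ m then mu j else 0) = if Squarefree m then 1 else 0 := by
  set d := ∏ p ∈ (pf m).filter (fun p => 2 ≤ vp p m), p with hd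
  have hp : ∀ q ∈ (pf m).filter (fun p => 2 ≤ vp p m), Prime q ∧ Primary q :=
    fun q hq => BasicB.pf_sub (Finset.mem_filter.1 hq).1
  obtain ⟨d1, d2, d3⟩ := squarefree_prod_primes hp
  rw [← hd] at d1 d2 d3
  have h1 : ∀ j, (if Primary j ∧ j ^ 2 ∣ m then mu j else 0) = if j ∈ pdiv d then mu j else 0 := by
    intro j
    by_cases hj : Squarefree j
    swap
    · simp [BasicB.mu_of_not hj]
    refine if_congr ?_ rfl rfl
    rw [mem_pdiv d2.ne_zero]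
    refine and_congr_right fun hj' => ?_
    rw [(hj'.pow 2).dvd_iff_vp hm.ne_zero, hj'.dvd_iff_vp d2.ne_zero, pf_pow two_ne_zero]
    refine forall₂_congr fun p hp' => ?_
    obtain ⟨p1, p2⟩ := BasicB.pf_sub hp'
    rw [vp_pow p1 hj'.ne_zero, (hj'.squarefree_iff.1 hj) p hp', Nat.one_le_iff_ne_zero,
      ← BasicB.mem_pf_iff d2.ne_zero p1 p2, d3, Finset.mem_filter,
      BasicB.mem_pf_iff hm.ne_zero p1 p2]
    omega
  rw [tsum_congr h1, tsum_eq_sum (s := pdiv d) fun j hj => if_neg hj,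
    Finset.sum_congr rfl fun j hj => if_pos hj, sum_mu_pdiv d2.ne_zero, d3]
  refine if_congr ?_ rfl rfl
  rw [hm.squarefree_iff, Finset.filter_eq_empty_iff]
  refine forall₂_congr fun p hp' => ?_
  have := BasicB.vp_ne_zero hp'
  omega

/-- The decomposition `r = g z`, `g = (r, e)`. -/
theorem TI1_split {r e : O} (hr : PS r) (he : Primary e) :
    ∃ z : O, PS z ∧ r = pgcd r e * z ∧ pgcd r e ∣ e ∧ IsCoprime z e := by
  obtain ⟨⟨z, hz⟩, ⟨e₁, he₁⟩⟩ :=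
    (dvd_pgcd_iff hr.1.ne_zero he.ne_zero (primary_pgcd r e)).1 dvd_rfl
  have hg := primary_pgcd r e
  have hpg : pgcd r e = pgcd (pgcd r e * z) (pgcd r e * e₁) := by
    rw [← hz, ← he₁]
  refine ⟨z, ?_, hz, ⟨e₁, he₁⟩, ?_⟩
  · exact hr.of_dvd (hg.of_mul (hz ▸ hr.1)) (Dvd.intro_left _ hz.symm)
  · generalize pgcd r e = g at hz he₁ hg hpg
    have h1 : Primary z := hg.of_mul (hz ▸ hr.1)
    have h2 : Primary e₁ := hg.of_mul (he₁ ▸ he)
    rw [pgcd_mul_left hg h1.ne_zero h2.ne_zero] at hpg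
    have h3 : IsCoprime z e₁ := (pgcd_eq_one_iff h1 h2.ne_zero).1
      (mul_left_cancel₀ hg.ne_zero (hpg.symm.trans (mul_one g).symm))
    have h4 : IsCoprime g z := (IsRelPrime.of_squarefree_mul (hz ▸ hr.2)).isCoprime
    exact he₁ ▸ h4.symm.mul_right h3

theorem TI1_summable {k : ℕ} {F : O → O → ℂ} {K σ τ : ℝ} (hσ : 1 < σ) (hτ : 1 < τ)
    (h0 : ∀ e n, F e n ≠ 0 → e ≠ 0 ∧ e ^ k ∣ n)
    (hb : ∀ e m, e ≠ 0 → ‖F e (e ^ k * m)‖ ≤ K * nr e ^ (-σ) * nr m ^ (-τ)) :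
    Summable (Function.uncurry F) := by
  have hs := summable_nr_rpow hτ
  have key : ∀ e, e ≠ 0 → (Summable fun n => ‖F e n‖) ∧
      ∑' n, ‖F e n‖ ≤ K * nr e ^ (-σ) * ∑' m : O, nr m ^ (-τ) := by
    intro e he
    have hinj : Function.Injective fun m : O => e ^ k * m :=
      mul_right_injective₀ (pow_ne_zero k he)
    have hsupp : ∀ n, n ∉ Set.range (fun m : O => e ^ k * m) → ‖F e n‖ = 0 := by
      intro n hn
      by_contra h
      obtain ⟨c, hc⟩ := (h0 e n (norm_ne_zero_iff.1 h)).2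
      exact hn ⟨c, hc.symm⟩
    have h1 : Summable fun m => ‖F e (e ^ k * m)‖ :=
      Summable.of_nonneg_of_le (fun _ => norm_nonneg _) (fun m => hb e m he) (hs.mul_left _)
    refine ⟨(hinj.summable_iff hsupp).1 h1, ?_⟩
    rw [← hinj.tsum_eq (f := fun n => ‖F e n‖) (fun n hn => by
      by_contra h
      exact hn (hsupp n h)), ← tsum_mul_left]
    exact h1.tsum_le_tsum (fun m => hb e m he) (hs.mul_left _)
  have hz : ∀ n, F 0 n = 0 := fun n => by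
    by_contra h
    exact (h0 0 n h).1 rfl
  refine Summable.of_norm ?_
  rw [summable_prod_of_nonneg fun _ => norm_nonneg _]
  refine ⟨fun e => ?_, ?_⟩
  · by_cases he : e = 0
    · subst he
      simp [Function.uncurry, hz, summable_zero]
    · exact (key e he).1
  · refine Summable.of_nonneg_of_le (fun e => tsum_nonneg fun _ => norm_nonneg _) (fun e => ?_)
      (((summable_nr_rpow hσ).mul_left |K|).mul_right (∑' m : O, nr m ^ (-τ)))
    have hZ : 0 ≤ ∑' m : O, nr m ^ (-τ) := tsum_nonneg fun _ => by positivity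
    by_cases he : e = 0
    · subst he
      simp only [Function.uncurry, hz, norm_zero, tsum_zero]
      positivity
    · refine (key e he).2.trans ?_
      gcongr
      exact le_abs_self K

theorem TI1_v_le {v : ℝ → ℂ} {Φ : ℂ → ℂ} {T T₁ X : ℝ} (h : Adm v Φ T T₁) (hX : 0 < X) {n : O}
    (hn : n ≠ 0) : ‖v (nr n / X)‖ ≤ X ^ 2 * nr n ^ (-2 : ℝ) := by
  have h0 := nr_pos hn
  have hy : 0 < nr n / X := div_pos h0 hX
  have h1 : ‖v (nr n / X)‖ ≤ (nr n / X) ^ (-2 : ℝ) := by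
    refine (h.sp _ hy).trans ?_
    rw [Real.rpow_def_of_pos hy]
    refine Real.exp_le_exp.2 ?_
    have := h.one_le
    have := abs_nonneg (Real.log (nr n / X))
    have := le_abs_self (Real.log (nr n / X))
    nlinarith
  refine h1.trans (le_of_eq ?_)
  rw [Real.div_rpow h0.le hX.le, Real.rpow_neg hX.le, div_inv_eq_mul, mul_comm, Real.rpow_two]

open Classical in
/-- The terms of the theta part. -/
def TI1_A (l : ℤ) (v : ℝ → ℂ) (X : ℝ) (r e n : O) : ℂ :=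
  if Primary e ∧ e ^ 3 ∣ n ∧ r ∣ n then
    mu e * (Real.sqrt (nr e) : ℂ) * tc (n / e ^ 3) * (arg n ^ l * v (nr n / X)) else 0

open Classical in
/-- The terms of the model part. -/
def TI1_B (l : ℤ) (v : ℝ → ℂ) (X : ℝ) (r e n : O) : ℂ :=
  if Primary e ∧ e ^ 2 ∣ n ∧ r ∣ n ∧ Primary n then
    mu e * (arg n ^ l * ((nr n ^ (-(1 / 6 : ℝ)) : ℝ) : ℂ) * v (nr n / X)) else 0

theorem TI1_A_summable (l : ℤ) {v : ℝ → ℂ} {Φ : ℂ → ℂ} {T T₁ X : ℝ} (h : Adm v Φ T T₁)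
    (hX : 0 < X) (r : O) : Summable (Function.uncurry (TI1_A l v X r)) := by
  refine TI1_summable (k := 3) (K := X ^ 2) (σ := 11 / 2) (τ := 11 / 6) (by norm_num)
    (by norm_num) (fun e n hne => ?_) fun e m he => ?_
  · unfold TI1_A at hne
    split_ifs at hne with hc
    · exact ⟨hc.1.ne_zero, hc.2.1⟩
    · exact (hne rfl).elim
  · unfold TI1_A
    split_ifs with hc
    swap
    · rw [norm_zero]; positivity
    rw [mul_div_cancel_left₀ _ (pow_ne_zero 3 he)]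
    by_cases hm : m = 0
    · subst hm
      rw [tc_zero, mul_zero, zero_mul, norm_zero]; positivity
    have hn : e ^ 3 * m ≠ 0 := mul_ne_zero (pow_ne_zero 3 he) hm
    have he0 := nr_pos he
    have hm0 := nr_pos hm
    rw [norm_mul, norm_mul, norm_mul, norm_mul, AFa_norm_arg_zpow l hn, one_mul,
      Complex.norm_real, Real.norm_of_nonneg (Real.sqrt_nonneg _), Real.sqrt_eq_rpow]
    calc ‖mu e‖ * nr e ^ (1 / 2 : ℝ) * ‖tc m‖ * ‖v (nr (e ^ 3 * m) / X)‖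
        ≤ 1 * nr e ^ (1 / 2 : ℝ) * nr m ^ (1 / 6 : ℝ) * (X ^ 2 * nr (e ^ 3 * m) ^ (-2 : ℝ)) := by
          gcongr
          · exact norm_mu_le e
          · exact norm_tc_le m
          · exact TI1_v_le h hX hn
      _ = X ^ 2 * (nr e ^ (1 / 2 : ℝ) * nr e ^ ((3 : ℕ) * (-2 : ℝ))) *
            (nr m ^ (1 / 6 : ℝ) * nr m ^ (-2 : ℝ)) := by
          rw [CountAux.nr_mul_rpow, CountAux.nr_pow_rpow]; ring
      _ = _ := by
          rw [← Real.rpow_add he0, ← Real.rpow_add hm0]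
          norm_num

theorem TI1_B_summable (l : ℤ) {v : ℝ → ℂ} {Φ : ℂ → ℂ} {T T₁ X : ℝ} (h : Adm v Φ T T₁)
    (hX : 0 < X) (r : O) : Summable (Function.uncurry (TI1_B l v X r)) := by
  refine TI1_summable (k := 2) (K := X ^ 2) (σ := 4) (τ := 2) (by norm_num)
    (by norm_num) (fun e n hne => ?_) fun e m he => ?_
  · unfold TI1_B at hne
    split_ifs at hne with hc
    · exact ⟨hc.1.ne_zero, hc.2.1⟩
    · exact (hne rfl).elim
  · unfold TI1_B
    split_ifs with hc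
    swap
    · rw [norm_zero]; positivity
    have hn : e ^ 2 * m ≠ 0 := hc.2.2.2.ne_zero
    rw [norm_mul, norm_mul, norm_mul, AFa_norm_arg_zpow l hn, one_mul,
      Complex.norm_real, Real.norm_of_nonneg (by positivity)]
    calc ‖mu e‖ * (nr (e ^ 2 * m) ^ (-(1 / 6 : ℝ)) * ‖v (nr (e ^ 2 * m) / X)‖)
        ≤ 1 * (1 * (X ^ 2 * nr (e ^ 2 * m) ^ (-2 : ℝ))) := by
          gcongr
          · exact norm_mu_le e
          · exact Real.rpow_le_one_of_one_le_of_nonpos (one_le_nr hn) (by norm_num)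
          · exact TI1_v_le h hX hn
      _ = _ := by
          rw [CountAux.nr_mul_rpow, CountAux.nr_pow_rpow]
          norm_num
          ring

open Classical in
theorem TI1_point (l : ℤ) (v : ℝ → ℂ) (X : ℝ) (r n : O) :
    (∑' e, TI1_A l v X r e n) - cP * ∑' e, TI1_B l v X r e n =
      if r ∣ n then ff l n * v (nr n / X) else 0 := by
  by_cases hr : r ∣ n
  swap
  · simp [TI1_A, TI1_B, hr]
  rw [if_pos hr]
  by_cases hn : Primary n
  swap
  · have h1 : ∀ e, TI1_A l v X r e n = 0 := by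
      intro e
      unfold TI1_A
      split_ifs with hc
      · obtain ⟨m, rfl⟩ := hc.2.1
        rw [mul_div_cancel_left₀ _ (hc.1.pow 3).ne_zero,
          tc_of_not fun hm => hn ((hc.1.pow 3).mul hm)]
        simp
      · rfl
    simp [h1, TI1_B, hn, ff_of_not l fun h : PS n => hn h.1]
  have h1 : ∑' e, TI1_A l v X r e n =
      (if Squarefree n then Gn n else 0) * (arg n ^ l * v (nr n / X)) := by
    rw [sqfree_eq_sum hn, Finset.sum_mul,
      tsum_eq_sum (s := (pdiv n).filter fun d => d ^ 3 ∣ n)]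
    · refine Finset.sum_congr rfl fun e he => ?_
      obtain ⟨h2, h3⟩ := Finset.mem_filter.1 he
      rw [TI1_A, if_pos ⟨((mem_pdiv hn.ne_zero).1 h2).1, h3, hr⟩]
    · intro e he
      refine if_neg fun hc => he (Finset.mem_filter.2 ⟨(mem_pdiv hn.ne_zero).2
        ⟨hc.1, (dvd_pow_self e three_ne_zero).trans hc.2.1⟩, hc.2.1⟩)
  have h2 : ∑' e, TI1_B l v X r e n = (if Squarefree n then 1 else 0) *
      (arg n ^ l * ((nr n ^ (-(1 / 6 : ℝ)) : ℝ) : ℂ) * v (nr n / X)) := by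
    rw [← TI1_sum_mu_sq hn, ← tsum_mul_right]
    refine tsum_congr fun e => ?_
    unfold TI1_B
    by_cases hc : Primary e ∧ e ^ 2 ∣ n
    · rw [if_pos hc, if_pos ⟨hc.1, hc.2, hr, hn⟩]
    · rw [if_neg hc, if_neg fun h => hc ⟨h.1, h.2.1⟩, zero_mul]
  rw [h1, h2]
  by_cases hs : Squarefree n
  · rw [if_pos hs, if_pos hs, AFa_ff_of l ⟨hn, hs⟩]
    push_cast
    ring
  · rw [if_neg hs, if_neg hs, ff_of_not l fun h : PS n => hs h.2]
    simp

theorem TI1_swap (l : ℤ) {v : ℝ → ℂ} {Φ : ℂ → ℂ} {T T₁ X : ℝ} (h : Adm v Φ T T₁)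
    (hX : 0 < X) {r : O} (hr : r ≠ 0) :
    ∑' c : O, ff l (r * c) * v (nr (r * c) / X) =
      ∑' e, ((∑' n, TI1_A l v X r e n) - cP * ∑' n, TI1_B l v X r e n) := by
  classical
  have hA := TI1_A_summable l h hX r
  have hB := TI1_B_summable l h hX r
  have a1 : Summable fun e => ∑' n, TI1_A l v X r e n := hA.prod
  have a2 : Summable fun e => ∑' n, TI1_B l v X r e n := hB.prod
  have a3 : Summable fun n => ∑' e, TI1_A l v X r e n := hA.prod_symm.prod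
  have a4 : Summable fun n => ∑' e, TI1_B l v X r e n := hB.prod_symm.prod
  rw [Summable.tsum_sub a1 (a2.mul_left _), tsum_mul_left, ← hA.tsum_comm,
    ← hB.tsum_comm, ← tsum_mul_left, ← Summable.tsum_sub a3 (a4.mul_left _)]
  simp only [TI1_point]
  rw [← (mul_right_injective₀ hr).tsum_eq
    (f := fun n => if r ∣ n then ff l n * v (nr n / X) else 0)]
  · exact tsum_congr fun c => by rw [if_pos (dvd_mul_right r c)]
  · intro n hn
    by_contra h'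
    exact hn (if_neg fun ⟨c, hc⟩ => h' ⟨c, hc.symm⟩)

theorem TI1_A_eq (l : ℤ) (v : ℝ → ℂ) (X : ℝ) {r e z g : O} (he : Primary e) (hr : r = g * z)
    (hg : g ∣ e) (hz : IsCoprime z e) :
    ∑' n, TI1_A l v X r e n = mu e * (Real.sqrt (nr e) : ℂ) * arg (e ^ 3) ^ l *
      ∑' n, tm l z n * v (nr n / (X / nr e ^ 3)) := by
  classical
  have he3 := (he.pow 3).ne_zero
  rw [← tsum_mul_left, ← (mul_right_injective₀ he3).tsum_eq]
  · refine tsum_congr fun m => ?_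
    unfold TI1_A tm
    by_cases hm : z ∣ m
    · have h1 : r ∣ e ^ 3 * m :=
        hr ▸ mul_dvd_mul (hg.trans (dvd_pow_self e three_ne_zero)) hm
      rw [if_pos ⟨he, dvd_mul_right _ _, h1⟩, if_pos hm, mul_div_cancel_left₀ _ he3, arg_mul,
        mul_zpow, nr_mul, nr_pow, div_div_eq_mul_div, mul_comm (nr m)]
      ring
    · rw [if_neg hm, if_neg fun hc => hm ((hz.pow_right (n := 3)).dvd_of_dvd_mul_left
        ((Dvd.intro_left g hr.symm).trans hc.2.2))]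
      simp
  · intro n hn
    by_contra h'
    exact hn (if_neg fun ⟨_, ⟨c, hc⟩, _⟩ => h' ⟨c, hc.symm⟩)

theorem TI1_B_eq (l : ℤ) (v : ℝ → ℂ) (X : ℝ) {r e z g : O} (he : Primary e) (hr : r = g * z)
    (hg : g ∣ e) (hz : IsCoprime z e) :
    ∑' n, TI1_B l v X r e n = mu e * ∑' n, md l (e ^ 2 * z) n * v (nr n / X) := by
  classical
  rw [← tsum_mul_left]
  refine tsum_congr fun n => ?_
  unfold TI1_B md
  by_cases hc : Primary n ∧ e ^ 2 * z ∣ n
  · have h1 : r ∣ n :=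
      (hr ▸ mul_dvd_mul (hg.trans (dvd_pow_self e two_ne_zero)) dvd_rfl : r ∣ e ^ 2 * z).trans hc.2
    rw [if_pos hc, if_pos ⟨he, (dvd_mul_right _ _).trans hc.2, h1, hc.1⟩]
  · rw [if_neg hc, if_neg fun h => hc ⟨h.2.2.2, (hz.symm.pow_left (m := 2)).mul_dvd h.2.1
      ((Dvd.intro_left g hr.symm).trans h.2.2.1)⟩]
    simp

theorem TI1_min {X E Z τ θ : ℝ} (hE : 1 ≤ E) (hZ : 1 ≤ Z) (hZX : Z ≤ X) (hτ : 1 ≤ τ)
    (hθ : 0 ≤ θ) (hθ1 : θ ≤ 1 / 2) :
    min (X ^ (1 / 2 : ℝ) * E⁻¹ * Z ^ (-(1 / 4 : ℝ)) * τ) (2 * X / E ^ 2) ≤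
      2 * X ^ (2 * θ) * (X ^ (1 / 2 : ℝ) * Z ^ (-(1 / 4 : ℝ)) * τ) * E ^ (-(1 + θ)) := by
  have hX : 1 ≤ X := hZ.trans hZX
  have hX0 : 0 < X := one_pos.trans_le hX
  have hE0 : 0 < E := one_pos.trans_le hE
  have hZ0 : 0 < Z := one_pos.trans_le hZ
  have hτ0 : 0 < τ := one_pos.trans_le hτ
  rcases le_total E (X ^ 2) with h | h
  · refine (min_le_left _ _).trans ?_
    have h1 : E⁻¹ ≤ X ^ (2 * θ) * E ^ (-(1 + θ)) := by
      rw [← Real.rpow_neg_one, show (-1 : ℝ) = θ + -(1 + θ) by ring, Real.rpow_add hE0,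
        Real.rpow_mul hX0.le, Real.rpow_two]
      gcongr
    calc X ^ (1 / 2 : ℝ) * E⁻¹ * Z ^ (-(1 / 4 : ℝ)) * τ
        ≤ X ^ (1 / 2 : ℝ) * (X ^ (2 * θ) * E ^ (-(1 + θ))) * Z ^ (-(1 / 4 : ℝ)) * τ := by gcongr
      _ = 1 * X ^ (2 * θ) * (X ^ (1 / 2 : ℝ) * Z ^ (-(1 / 4 : ℝ)) * τ) * E ^ (-(1 + θ)) := by ring
      _ ≤ _ := by gcongr; norm_num
  · refine (min_le_right _ _).trans ?_
    have h1 : X ≤ E ^ (1 - θ) := by
      calc X = (X ^ 2) ^ (1 / 2 : ℝ) := by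
            rw [← Real.rpow_two, ← Real.rpow_mul hX0.le]; norm_num
        _ ≤ E ^ (1 / 2 : ℝ) := by gcongr
        _ ≤ _ := Real.rpow_le_rpow_of_exponent_le hE (by linarith)
    have h2 : X / E ^ 2 ≤ E ^ (-(1 + θ)) := by
      rw [div_le_iff₀ (by positivity), ← Real.rpow_two, ← Real.rpow_add hE0]
      refine h1.trans (le_of_eq ?_)
      congr 1; ring
    have h3 : 1 ≤ X ^ (1 / 2 : ℝ) * Z ^ (-(1 / 4 : ℝ)) := by
      rw [Real.rpow_neg hZ0.le, ← div_eq_mul_inv, one_le_div (by positivity)]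
      calc Z ^ (1 / 4 : ℝ) ≤ X ^ (1 / 4 : ℝ) := by gcongr
        _ ≤ _ := Real.rpow_le_rpow_of_exponent_le hX (by norm_num)
    have h4 : 1 ≤ X ^ (2 * θ) := Real.one_le_rpow hX (by positivity)
    calc 2 * X / E ^ 2 = 2 * 1 * (1 * 1) * (X / E ^ 2) := by ring
      _ ≤ _ := by gcongr

theorem TI1_G {X E Z τ : ℝ} (hE : 1 ≤ E) (hZ : 1 ≤ Z) (hX : 1 ≤ X) :
    Real.sqrt E * min ((X / E ^ 3) ^ (1 / 2 : ℝ) * Z ^ (-(1 / 4 : ℝ)) * τ)
      ((X / E ^ 3) ^ (5 / 6 : ℝ) / Z + X / E ^ 3 / Z) ≤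
    min (X ^ (1 / 2 : ℝ) * E⁻¹ * Z ^ (-(1 / 4 : ℝ)) * τ) (2 * X / E ^ 2) := by
  have hX0 : 0 < X := one_pos.trans_le hX
  have hE0 : 0 < E := one_pos.trans_le hE
  have hZ0 : 0 < Z := one_pos.trans_le hZ
  have key : ∀ s : ℝ, Real.sqrt E * (X / E ^ 3) ^ s = X ^ s * E ^ (1 / 2 - 3 * s) := by
    intro s
    rw [Real.div_rpow hX0.le (by positivity), Real.sqrt_eq_rpow, ← Real.rpow_natCast,
      ← Real.rpow_mul hE0.le, Real.rpow_sub hE0]
    push_cast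
    ring
  rw [mul_min_of_nonneg _ _ (Real.sqrt_nonneg _)]
  refine min_le_min (le_of_eq ?_) ?_
  · rw [← mul_assoc, ← mul_assoc, key, show (1 / 2 - 3 * (1 / 2) : ℝ) = -1 by norm_num,
      Real.rpow_neg_one]
  · have k1 := key (5 / 6)
    have k2 := key 1
    rw [Real.rpow_one, Real.rpow_one] at k2
    have e2 : E ^ (-2 : ℝ) = (E ^ 2)⁻¹ := by rw [Real.rpow_neg hE0.le, Real.rpow_two]
    have k3 : X ^ (5 / 6 : ℝ) * E ^ (1 / 2 - 3 * (5 / 6) : ℝ) ≤ X * (E ^ 2)⁻¹ := by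
      rw [show (1 / 2 - 3 * (5 / 6) : ℝ) = -2 by norm_num, e2]
      gcongr
      exact Real.rpow_le_self_of_one_le hX (by norm_num)
    have k4 : X * E ^ (1 / 2 - 3 * 1 : ℝ) ≤ X * (E ^ 2)⁻¹ := by
      rw [← e2]
      gcongr
      norm_num
    rw [← add_div, ← mul_div_assoc, mul_add, k1, k2]
    refine (div_le_self (by positivity) hZ).trans ?_
    rw [div_eq_mul_inv (2 * X)]
    linarith

theorem TI1_M {X E Z τ T : ℝ} (hE : 1 ≤ E) (hZ : 1 ≤ Z) (hX : 1 ≤ X) (hτ : 1 ≤ τ) (hT0 : 0 ≤ T)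
    (hT : T ≤ X ^ (1 / 3 : ℝ)) :
    X ^ (-(1 / 6 : ℝ)) * min T (X / (E ^ 2 * Z)) ≤
      min (X ^ (1 / 2 : ℝ) * E⁻¹ * Z ^ (-(1 / 4 : ℝ)) * τ) (2 * X / E ^ 2) := by
  have hX0 : 0 < X := one_pos.trans_le hX
  have hE0 : 0 < E := one_pos.trans_le hE
  have hZ0 : 0 < Z := one_pos.trans_le hZ
  have hm0 : 0 ≤ min T (X / (E ^ 2 * Z)) := le_min hT0 (by positivity)
  refine le_min ?_ ?_
  · have h1 : min T (X / (E ^ 2 * Z)) ≤
        X ^ (1 / 6 : ℝ) * (X ^ (1 / 2 : ℝ) * E⁻¹ * Z ^ (-(1 / 2 : ℝ))) := by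
      refine (pow_le_pow_iff_left₀ hm0 (by positivity) two_ne_zero).1 ?_
      have e1 : (X ^ (1 / 6 : ℝ)) ^ 2 = X ^ (1 / 3 : ℝ) := by
        rw [← Real.rpow_two, ← Real.rpow_mul hX0.le]; norm_num
      have e2 : (X ^ (1 / 2 : ℝ)) ^ 2 = X := by
        rw [← Real.rpow_two, ← Real.rpow_mul hX0.le]; norm_num
      have e3 : (Z ^ (-(1 / 2 : ℝ))) ^ 2 = Z⁻¹ := by
        rw [← Real.rpow_two, ← Real.rpow_mul hZ0.le, ← Real.rpow_neg_one]; norm_num
      rw [mul_pow, mul_pow, mul_pow, e1, e2, e3, sq]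
      refine (mul_le_mul ((min_le_left _ _).trans hT) (min_le_right _ _) hm0
        (by positivity)).trans (le_of_eq ?_)
      field_simp
    have h2 : Z ^ (-(1 / 2 : ℝ)) ≤ Z ^ (-(1 / 4 : ℝ)) :=
      Real.rpow_le_rpow_of_exponent_le hZ (by norm_num)
    calc X ^ (-(1 / 6 : ℝ)) * min T (X / (E ^ 2 * Z))
        ≤ X ^ (-(1 / 6 : ℝ)) * (X ^ (1 / 6 : ℝ) * (X ^ (1 / 2 : ℝ) * E⁻¹ * Z ^ (-(1 / 4 : ℝ)))) :=
          mul_le_mul_of_nonneg_left (h1.trans (by gcongr)) (by positivity)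
      _ = X ^ (1 / 2 : ℝ) * E⁻¹ * Z ^ (-(1 / 4 : ℝ)) * 1 := by
          rw [← mul_assoc, ← Real.rpow_add hX0]; norm_num
      _ ≤ _ := by gcongr
  · have h1 : X ^ (-(1 / 6 : ℝ)) ≤ 1 := Real.rpow_le_one_of_one_le_of_nonpos hX (by norm_num)
    calc X ^ (-(1 / 6 : ℝ)) * min T (X / (E ^ 2 * Z)) ≤ 1 * (X / (E ^ 2 * 1)) := by
          refine mul_le_mul h1 ((min_le_right _ _).trans ?_) hm0 zero_le_one
          gcongr
      _ ≤ 2 * (X / (E ^ 2 * 1)) := by gcongr; norm_num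
      _ = _ := by ring

/-- The bound for one value of `e`. -/
theorem TI1_term (l : ℤ) {θ : ℝ} (hθ : 0 < θ) (hθ1 : θ ≤ 1 / 2) : ∃ C : ℝ, 0 < C ∧
    ∀ (X T T₁ : ℝ) (v : ℝ → ℂ) (Φ : ℂ → ℂ) (r e : O), 3 ≤ X → Adm v Φ T T₁ →
    T ≤ X ^ (1 / 3 : ℝ) → PS r → nr r ≤ X → Primary e →
    ‖(∑' n, TI1_A l v X r e n) - cP * ∑' n, TI1_B l v X r e n‖ ≤
      C * X ^ (1 / 2 + 3 * θ) * nr r ^ (-(1 / 4 : ℝ)) * (T / Real.sqrt T₁) *
        (nr (pgcd r e) * nr e ^ (-(1 + θ))) := by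
  classical
  obtain ⟨C₁, hC₁, h₁⟩ := typeI_mark l hθ
  obtain ⟨C₂, hC₂, h₂⟩ := typeI_mark_md l hθ
  have hc := AFa_cP_pos
  refine ⟨2 * (C₁ + cP * C₂), by positivity, fun X T T₁ v Φ r e hX h hT hr hrX he => ?_⟩
  obtain ⟨z, hz, hrz, hg, hze⟩ := TI1_split hr he
  have hg0 := (primary_pgcd r e).ne_zero
  generalize pgcd r e = g at hrz hg hg0
  have hX1 : 1 ≤ X := by linarith
  have hX0 : 0 < X := by linarith
  have hE := one_le_nr he.ne_zero
  have hE0 := nr_pos he.ne_zero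
  have hZ := hz.one_le
  have hZ0 := nr_pos hz.ne_zero
  have hG := one_le_nr hg0
  have hT1 := h.one_le_T
  have hTX : T ≤ X := hT.trans (Real.rpow_le_self_of_one_le hX1 (by norm_num))
  have hzX : nr z ≤ X := by
    refine le_trans ?_ hrX
    rw [hrz, nr_mul]
    exact le_mul_of_one_le_left hZ0.le hG
  have hτ : 1 ≤ T / Real.sqrt T₁ := by
    have h1 := h.one_le
    rw [one_le_div (Real.sqrt_pos.2 (by linarith))]
    refine le_trans ?_ h.le
    rw [Real.sqrt_le_left (by linarith)]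
    nlinarith
  have hY : 0 < X / nr e ^ 3 := by positivity
  have b1 := h₁ X T T₁ (X / nr e ^ 3) v Φ z hX h hTX hz hzX hY
    (div_le_self hX0.le (one_le_pow₀ hE))
  have b2 := h₂ X T T₁ X v Φ (e ^ 2 * z) hX h hTX ((he.pow 2).mul hz.1) hX0
  rw [TI1_A_eq l v X he hrz hg hze, TI1_B_eq l v X he hrz hg hze]
  set τ := T / Real.sqrt T₁ with hτdef
  set S₁ := ∑' n, tm l z n * v (nr n / (X / nr e ^ 3))
  set S₂ := ∑' n, md l (e ^ 2 * z) n * v (nr n / X)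
  set M₁ : ℂ := if l = 0 then
    ((cP * rho0 / nr z * (X / nr e ^ 3) ^ (5 / 6 : ℝ) : ℝ) : ℂ) * Φ (5 / 6) else 0 with hM₁
  set M₂ : ℂ := if l = 0 then
    ((rho0 / nr (e ^ 2 * z) * X ^ (5 / 6 : ℝ) : ℝ) : ℂ) * Φ (5 / 6) else 0 with hM₂
  have hM : (Real.sqrt (nr e) : ℂ) * arg (e ^ 3) ^ l * M₁ = cP * M₂ := by
    rw [hM₁, hM₂]
    split_ifs with hl
    · have e1 : Real.sqrt (nr e) * (cP * rho0 / nr z * (X / nr e ^ 3) ^ (5 / 6 : ℝ)) =
          cP * (rho0 / nr (e ^ 2 * z) * X ^ (5 / 6 : ℝ)) := by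
        have e2 : (nr e ^ 3) ^ (5 / 6 : ℝ) = Real.sqrt (nr e) * nr e ^ 2 := by
          rw [Real.sqrt_eq_rpow, ← Real.rpow_natCast, ← Real.rpow_mul hE0.le, ← Real.rpow_two,
            ← Real.rpow_add hE0]
          norm_num
        have e3 : 0 < Real.sqrt (nr e) := Real.sqrt_pos.2 hE0
        rw [Real.div_rpow hX0.le (by positivity), e2, nr_mul, nr_pow]
        field_simp
      rw [hl, zpow_zero, mul_one, ← mul_assoc, ← mul_assoc, ← Complex.ofReal_mul,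
        ← Complex.ofReal_mul, e1]
    · simp
  have e0 : mu e * (Real.sqrt (nr e) : ℂ) * arg (e ^ 3) ^ l * S₁ - cP * (mu e * S₂) =
      mu e * ((Real.sqrt (nr e) : ℂ) * arg (e ^ 3) ^ l * (S₁ - M₁) - cP * (S₂ - M₂)) := by
    linear_combination mu e * hM
  rw [e0, norm_mul]
  refine (mul_le_of_le_one_left (norm_nonneg _) (norm_mu_le e)).trans ((norm_sub_le _ _).trans ?_)
  rw [norm_mul, norm_mul, norm_mul, AFa_norm_arg_zpow l (he.pow 3).ne_zero, mul_one,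
    Complex.norm_real, Complex.norm_real, Real.norm_of_nonneg (Real.sqrt_nonneg _),
    Real.norm_of_nonneg hc.le]
  rw [nr_mul, nr_pow] at b2
  have g1 := TI1_G (τ := τ) hE hZ hX1
  have g2 := TI1_M hE hZ hX1 hτ (by linarith) hT
  have g3 := TI1_min hE hZ hzX hτ hθ.le hθ1
  set μ := min (X ^ (1 / 2 : ℝ) * (nr e)⁻¹ * nr z ^ (-(1 / 4 : ℝ)) * τ) (2 * X / nr e ^ 2)
  have g4 : nr z ^ (-(1 / 4 : ℝ)) ≤ nr r ^ (-(1 / 4 : ℝ)) * nr g := by
    have hG0 : 0 < nr g := one_pos.trans_le hG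
    rw [hrz, CountAux.nr_mul_rpow, mul_right_comm]
    refine le_mul_of_one_le_left (by positivity) ?_
    rw [← Real.rpow_add_one hG0.ne']
    exact Real.one_le_rpow hG (by norm_num)
  have hτ0 : 0 ≤ τ := zero_le_one.trans hτ
  calc Real.sqrt (nr e) * ‖S₁ - M₁‖ + cP * ‖S₂ - M₂‖
      ≤ C₁ * X ^ θ * μ + cP * (C₂ * X ^ θ * μ) := by
        refine add_le_add ((mul_le_mul_of_nonneg_left b1 (Real.sqrt_nonneg _)).trans ?_)
          (mul_le_mul_of_nonneg_left (b2.trans ?_) hc.le)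
        · rw [mul_left_comm]
          exact mul_le_mul_of_nonneg_left g1 (by positivity)
        · rw [mul_assoc]
          exact mul_le_mul_of_nonneg_left g2 (by positivity)
    _ = (C₁ + cP * C₂) * X ^ θ * μ := by ring
    _ ≤ (C₁ + cP * C₂) * X ^ θ * (2 * X ^ (2 * θ) *
          (X ^ (1 / 2 : ℝ) * (nr r ^ (-(1 / 4 : ℝ)) * nr g) * τ) * nr e ^ (-(1 + θ))) := by
        refine mul_le_mul_of_nonneg_left (g3.trans ?_) (by positivity)
        gcongr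
    _ = _ := by
        rw [show 1 / 2 + 3 * θ = 1 / 2 + θ + 2 * θ by ring, Real.rpow_add hX0, Real.rpow_add hX0]
        ring

open Classical in
theorem TI1_hasSum {σ : ℝ} (hσ : 1 < σ) {d : O} (hd : d ≠ 0) :
    HasSum (fun e : O => if d ∣ e then nr d * nr e ^ (-σ) else 0)
      (nr d ^ (1 - σ) * ∑' m : O, nr m ^ (-σ)) := by
  have h1 := (summable_nr_rpow hσ).hasSum.mul_left (nr d ^ (1 - σ))
  refine ((mul_right_injective₀ hd).hasSum_iff fun n hn =>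
    if_neg fun ⟨c, hc⟩ => hn ⟨c, hc.symm⟩).1 ?_
  refine (HasSum.congr_fun h1 fun m => ?_ :)
  simp only [Function.comp, if_pos (dvd_mul_right d m)]
  rw [CountAux.nr_mul_rpow, sub_eq_add_neg, Real.rpow_add (nr_pos hd), Real.rpow_one, mul_assoc]

/-- **Type I.**  `∑_{r ∣ n} G(n) μ²(n) = ∑_e μ(e) √(N e) ∑_{r/(r,e) ∣ n'} tc(n')`, `n = e³ n'`
(`sqfree_eq_sum`), `μ²(n) = ∑_{e² ∣ n} μ(e)` with the mark `e² r/(r,e)` in the model; the main terms
cancel for each `e`; sum `N(e)⁻¹ N((r,e))^{1/2}` over `N e ≤ X`, second bounds for `N e > X`. -/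
theorem typeI_ff (l : ℤ) {ε : ℝ} (hε : 0 < ε) : ∃ C : ℝ, 0 < C ∧ ∀ (X T T₁ : ℝ) (v : ℝ → ℂ)
    (Φ : ℂ → ℂ) (r : O), 3 ≤ X → Adm v Φ T T₁ → T ≤ X ^ (1 / 3 : ℝ) → PS r → nr r ≤ X →
    ‖∑' c : O, ff l (r * c) * v (nr (r * c) / X)‖ ≤
      C * X ^ (1 / 2 + ε) * nr r ^ (-(1 / 4 : ℝ)) * (T / Real.sqrt T₁) := by
  classical
  obtain ⟨θ, hθ, hθ1, hθε⟩ : ∃ θ : ℝ, 0 < θ ∧ θ ≤ 1 / 2 ∧ 4 * θ ≤ ε :=
    ⟨min (1 / 2) (ε / 4), lt_min (by norm_num) (by positivity), min_le_left _ _,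
      by linarith [min_le_right (1 / 2) (ε / 4)]⟩
  obtain ⟨C₁, hC₁, h₁⟩ := TI1_term l hθ hθ1
  obtain ⟨C₂, hC₂, h₂⟩ := card_pdiv_le hθ
  have hσ : 1 < 1 + θ := by linarith
  set Z : ℝ := ∑' n : O, nr n ^ (-(1 + θ)) with hZ
  have hZ0 : 0 ≤ Z := tsum_nonneg fun _ => by positivity
  refine ⟨C₁ * C₂ * (Z + 1), by positivity, fun X T T₁ v Φ r hX h hT hr hrX => ?_⟩
  have hX1 : 1 ≤ X := by linarith
  have hX0 : 0 < X := by linarith
  have hT1 := h.one_le_T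
  rw [TI1_swap l h hX0 hr.ne_zero]
  set K : ℝ := C₁ * X ^ (1 / 2 + 3 * θ) * nr r ^ (-(1 / 4 : ℝ)) * (T / Real.sqrt T₁) with hK
  have hK0 : 0 ≤ K := by positivity
  have hs := (hasSum_sum (s := pdiv r) fun d hd =>
    TI1_hasSum hσ ((mem_pdiv hr.ne_zero).1 hd).1.ne_zero).mul_left K
  refine (tsum_of_norm_bounded hs fun e => ?_).trans ?_
  · have hnn : ∀ d ∈ pdiv r, 0 ≤ if d ∣ e then nr d * nr e ^ (-(1 + θ)) else 0 :=
      fun d _ => by split_ifs <;> positivity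
    by_cases he : Primary e
    · refine (h₁ X T T₁ v Φ r e hX h hT hr hrX he).trans (mul_le_mul_of_nonneg_left ?_ hK0)
      obtain ⟨a1, a2⟩ := (dvd_pgcd_iff hr.ne_zero he.ne_zero (primary_pgcd r e)).1 dvd_rfl
      refine le_trans (le_of_eq ?_)
        (Finset.single_le_sum hnn ((mem_pdiv hr.ne_zero).2 ⟨primary_pgcd r e, a1⟩))
      rw [if_pos a2]
    · simp only [TI1_A, TI1_B, he, false_and, if_false, tsum_zero, mul_zero, sub_zero, norm_zero]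
      exact mul_nonneg hK0 (Finset.sum_nonneg hnn)
  · have h3 : ∑ d ∈ pdiv r, nr d ^ (1 - (1 + θ)) * Z ≤ C₂ * X ^ θ * (Z + 1) := by
      calc ∑ d ∈ pdiv r, nr d ^ (1 - (1 + θ)) * Z ≤ (pdiv r).card • Z :=
            Finset.sum_le_card_nsmul _ _ _ fun d hd => mul_le_of_le_one_left hZ0
              (Real.rpow_le_one_of_one_le_of_nonpos
                (one_le_nr ((mem_pdiv hr.ne_zero).1 hd).1.ne_zero) (by linarith))
        _ ≤ _ := by
            rw [nsmul_eq_mul]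
            gcongr
            · exact (h₂ r hr.ne_zero).trans (by gcongr)
            · linarith
    calc K * ∑ d ∈ pdiv r, nr d ^ (1 - (1 + θ)) * Z ≤ K * (C₂ * X ^ θ * (Z + 1)) :=
          mul_le_mul_of_nonneg_left h3 hK0
      _ = C₁ * C₂ * (Z + 1) * X ^ (1 / 2 + 3 * θ + θ) * nr r ^ (-(1 / 4 : ℝ)) *
            (T / Real.sqrt T₁) := by
          rw [hK, Real.rpow_add hX0 _ θ]; ring
      _ ≤ _ := by
          have h4 : X ^ (1 / 2 + 3 * θ + θ) ≤ X ^ (1 / 2 + ε) :=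
            Real.rpow_le_rpow_of_exponent_le hX1 (by linarith)
          gcongr

end Crest.Agent.R12
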