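import Crest.Agent.R12.ThAbsA

/-!
# Row 12, theta half: the modulus of the leading coefficients
-/

set_option autoImplicit false

noncomputable section

namespace Crest.Agent.R12

open Crest.Agent.R17
open scoped ComplexConjugate Topology
open Filter MeasureTheory

theorem ThAbs_G1 : 0 < Real.Gamma (1 / 3) := Real.Gamma_pos_of_pos (by norm_num)
theorem ThAbs_G2 : 0 < Real.Gamma (2 / 3) := Real.Gamma_pos_of_pos (by norm_num)

theorem ThAbs_GG : Real.Gamma (1 / 3) * Real.Gamma (2 / 3) = 2 * Real.pi / Real.sqrt 3 := by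
  have h := Real.Gamma_mul_Gamma_one_sub (1 / 3)
  rw [show (1 : ℝ) - 1 / 3 = 2 / 3 by norm_num, mul_one_div, Real.sin_pi_div_three] at h
  rw [h]
  field_simp

theorem ThAbs_root : ∃ x : ℝ, 0 < x ∧ x ^ 3 = 2 * Real.pi ∧
    (2 * Real.pi) ^ ((2 : ℝ) / 3) = x ^ 2 ∧ (9 * b1) ^ (2 / 3 : ℝ) = (x ^ 2 / 3) ^ 2 := by
  have hp : 0 < 2 * Real.pi := by positivity
  have key : ∀ y : ℝ, 0 ≤ y → (y ^ 3) ^ ((2 : ℝ) / 3) = y ^ 2 := fun y hy => by
    rw [← Real.rpow_natCast, ← Real.rpow_mul hy, ← Real.rpow_two]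
    norm_num
  obtain ⟨x, hx, h3⟩ : ∃ x : ℝ, 0 < x ∧ x ^ 3 = 2 * Real.pi :=
    ⟨(2 * Real.pi) ^ ((3 : ℕ) : ℝ)⁻¹, by positivity, Real.rpow_inv_natCast_pow hp.le (by norm_num)⟩
  refine ⟨x, hx, h3, by rw [← h3, key x hx.le], ?_⟩
  rw [← key _ (by positivity)]
  congr 1
  rw [b1, show (x ^ 2 / 3) ^ 3 = (x ^ 3) ^ 2 / 27 by ring, h3]
  ring

theorem cP_pos : 0 < cP := by
  have := ThAbs_G2
  unfold cP
  positivity
theorem rho0_pos : 0 < rho0 := by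
  unfold rho0
  positivity
/-- `Γ(1/3) Γ(2/3) = 2π/√3`. -/
theorem cP_rho : (9 * b1) ^ (2 / 3 : ℝ) * Real.Gamma (1 / 3) / Real.Gamma (2 / 3) =
    9 * cP ^ 2 * rho0 := by
  obtain ⟨x, hx, -, h1, h2⟩ := ThAbs_root
  have h3 := ThAbs_G2
  have h4 : rho0 = Real.Gamma (1 / 3) * Real.Gamma (2 / 3) / 9 := by
    rw [ThAbs_GG, rho0]
    field_simp
  rw [cP, h1, h2, h4]
  field_simp
/-- `3 c = √3 (2π)^{-1/3} Γ(1/3)`. -/
theorem three_cP_le : 3 * cP ≤ 0.94 * Real.Gamma (1 / 3) := by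
  obtain ⟨x, hx, h0, h1, -⟩ := ThAbs_root
  have h3 := ThAbs_G2
  have hs : 0 < Real.sqrt 3 := by positivity
  have hs2 : Real.sqrt 3 ≤ 1.7321 := Real.sqrt_le_iff.2 ⟨by norm_num, by norm_num⟩
  have h4 : (1.7321 : ℝ) ≤ 0.94 * x := by
    refine le_of_pow_le_pow_left₀ (n := 3) (by norm_num) (by positivity) ?_
    rw [mul_pow, h0]
    linarith [Real.pi_gt_d4]
  have h5 : x ^ 2 ≤ 0.94 * (Real.Gamma (1 / 3) * Real.Gamma (2 / 3)) := by
    rw [ThAbs_GG, ← h0, ← mul_div_assoc, le_div_iff₀ hs]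
    calc x ^ 2 * Real.sqrt 3 ≤ x ^ 2 * (0.94 * x) := by gcongr; exact hs2.trans h4
      _ = _ := by ring
  rw [cP, h1, show 3 * (x ^ 2 / (3 * Real.Gamma (2 / 3))) = x ^ 2 / Real.Gamma (2 / 3) by field_simp,
    div_le_iff₀ h3]
  linarith

theorem ThAbs_nr3 : nr 3 = 9 := by
  have := nm_natCast 3
  simp only [Nat.cast_ofNat] at this
  rw [nr, this]
  norm_num

theorem ThAbs_sq : ‖tt SS 3‖ ^ 2 * zeta2 / k1 =
    (9 * b1) ^ (2 / 3 : ℝ) * Real.Gamma (1 / 3) / Real.Gamma (2 / 3) * (C0 / 3) := by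
  have h := normSq_tt (r := 3) (q' := 1) (mul_one 3)
  rw [sum_P_three, nr_mul, ThAbs_nr3, mul_comm b1] at h
  have h1 : ‖tt SS 3‖ ^ 2 * zeta2 / k1 =
      (9 * b1) ^ (2 / 3 : ℝ) * Real.Gamma (1 / 3) / Real.Gamma (2 / 3) * (9 * 9)⁻¹ * (27 * C0) := by
    exact_mod_cast h
  rw [h1]
  ring

theorem norm_a1 : ‖tt SS 3‖ = 3 * cP * C0 := by
  have h := ThAbs_sq
  have h1 := k1_pos
  have h2 := zeta2_pos
  have h3 := cP_pos
  have h4 := C0_pos
  rw [cP_rho, div_eq_iff h1.ne', ← eq_div_iff h2.ne'] at h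
  refine (pow_left_inj₀ (norm_nonneg _) (by positivity) two_ne_zero).1 (h.trans ?_)
  calc _ = 9 * cP ^ 2 * C0 * (k1 * rho0 / (3 * zeta2)) := by ring
    _ = _ := by rw [← C0_eq]; ring
theorem norm_tt_lam {u : O} (hu : IsUnit u) : ‖tt SS (u * lam)‖ ≤ ‖tt SS 3‖ := by
  obtain ⟨v, hv⟩ := hu.exists_right_inv
  have e : u * lam * (-v * lam) = 3 := by linear_combination (-lam ^ 2) * hv - lam_sq
  have hn : nr (u * lam) = 3 := by
    rw [nr_mul, nr, nr, isUnit_iff_nm.1 hu, nm_lam]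
    norm_num
  have h := congrArg norm (normSq_tt e)
  have h1 := k1_pos
  have h2 := zeta2_pos
  have h3 := b1_pos
  have h4 := C0_pos
  have h5 := ThAbs_G1
  have h6 := ThAbs_G2
  rw [nr_mul 3, hn, ThAbs_nr3, norm_mul, Complex.norm_of_nonneg (by positivity),
    Complex.norm_of_nonneg (by positivity)] at h
  have h7 : ‖tt SS (u * lam)‖ ^ 2 * zeta2 / k1 ≤ ‖tt SS 3‖ ^ 2 * zeta2 / k1 := by
    rw [h, ThAbs_sq]
    calc _ ≤ (9 * b1) ^ (2 / 3 : ℝ) * Real.Gamma (1 / 3) / Real.Gamma (2 / 3) * (9 * 3)⁻¹ *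
          (9 * C0) := by
          have h8 : (b1 * 3) ^ (2 / 3 : ℝ) ≤ (9 * b1) ^ (2 / 3 : ℝ) :=
            Real.rpow_le_rpow (by positivity) (by linarith) (by norm_num)
          have h9 := norm_sum_P_lam hu e
          gcongr
      _ = _ := by ring
  rw [div_le_div_iff_of_pos_right h1, mul_le_mul_iff_left₀ h2] at h7
  exact le_of_pow_le_pow_left₀ two_ne_zero (norm_nonneg _) h7

end Crest.Agent.R12
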