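import Crest.Agent.R12.ThPcA

/-!
# Row 12, theta half: the constant terms of Patterson's theta function
-/

set_option autoImplicit false

noncomputable section

namespace Crest.Agent.R12

open Crest.Agent.R17
open scoped ComplexConjugate Topology
open Filter MeasureTheory

theorem ThPc_three_dvd_iff {n : O} : (3 : O) ∣ n ↔ n.re % 3 = 0 ∧ n.im % 3 = 0 := by
  constructor
  · rintro ⟨c, hc⟩
    have h1 := congrArg QuadraticAlgebra.re hc
    have h2 := congrArg QuadraticAlgebra.im hc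
    simp [QuadraticAlgebra.re_ofNat, QuadraticAlgebra.im_ofNat] at h1 h2
    omega
  · rintro ⟨h1, h2⟩
    refine ⟨⟨n.re / 3, n.im / 3⟩, ?_⟩
    ext <;> simp [QuadraticAlgebra.re_ofNat, QuadraticAlgebra.im_ofNat] <;> omega

theorem ThPc_neg_neg (α γ : O) : Pc (-α) (-γ) = Pc α γ := by
  rw [← neg_one_mul α, ← neg_one_mul γ, Pc_unit isUnit_one.neg]

theorem ThPc_lam_dvd_three : lam ∣ (3 : O) := ⟨-lam, by linear_combination lam_sq⟩

/-- The value of `Pc` when the second entry is primary. -/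
theorem ThPc_primary {α γ : O} (h : IsCoprime α γ) (hγ : Primary γ) :
    Pc α γ = if α.im % 3 = 0 then 9 * C0 * conj (cub γ α) else 0 := by
  split_ifs with h0
  · have hc : α.re % 3 = 0 ∨ α.re % 3 = 1 ∨ α.re % 3 = 2 := by omega
    rcases hc with hc | hc | hc
    · exact Pc_P2 h hγ (ThPc_three_dvd_iff.2 ⟨hc, h0⟩)
    · exact Pc_P1 h hγ (Or.inl (BasicA.primary_iff.2 ⟨hc, h0⟩))
    · refine Pc_P1 h hγ (Or.inr (BasicA.primary_iff.2 ?_))
      simp only [QuadraticAlgebra.re_neg, QuadraticAlgebra.im_neg]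
      omega
  · refine Pc_P3 h hγ (fun h1 => h0 (BasicA.primary_iff.1 h1).2) (fun h1 => h0 ?_)
      fun h1 => h0 (ThPc_three_dvd_iff.1 h1).2
    have := (BasicA.primary_iff.1 h1).2
    simp only [QuadraticAlgebra.im_neg] at this
    omega

theorem ThPc_not_lam {α γ : O} (h : IsCoprime α γ) (h1 : lam ∣ γ) : ¬ lam ∣ α := fun h2 =>
  prime_lam.not_isUnit (h.isUnit_of_dvd' h2 h1)

theorem ThPc_van {α γ : O} (h : IsCoprime α γ) (h1 : lam ∣ γ) (h3 : ¬ (3 : O) ∣ γ) :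
    Pc α γ = 0 := by
  obtain ⟨u, hu, hp⟩ := exists_unit_primary (ThPc_not_lam h h1)
  rw [← Pc_unit hu]
  exact Pc_P5 ((isCoprime_mul_unit_left hu _ _).2 h) hp (h1.mul_left u)
    fun h' => h3 ((hu.dvd_mul_left).1 h')

theorem ThPc_S_primary {α γ : O} (h : IsCoprime α γ) (hγ : Primary γ) :
    Pc (-γ) α = Pc α γ := by
  by_cases h1 : Primary α
  · rw [Pc_P1 h hγ (Or.inl h1), Pc_P1 h.symm.neg_left h1 (Or.inr (by rwa [neg_neg])),
      ThPcA_cub_neg, cub_recip h1 hγ]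
  by_cases h2 : Primary (-α)
  · rw [Pc_P1 h hγ (Or.inr h2), ← ThPc_neg_neg, neg_neg, Pc_P1 h.symm.neg_right h2 (Or.inl hγ),
      cub_recip h2 hγ, ThPcA_cub_neg]
  by_cases h3 : (3 : O) ∣ α
  · rw [Pc_P2 h hγ h3, ← ThPc_neg_neg, neg_neg, Pc_P4 h.symm.neg_right hγ (dvd_neg.2 h3),
      ThPcA_cub_neg]
  rw [Pc_P3 h hγ h1 h2 h3]
  by_cases hl : lam ∣ α
  · exact ThPc_van h.symm.neg_left hl h3
  obtain ⟨u, hu, hp⟩ := exists_unit_primary hl
  rw [← Pc_unit hu]
  refine Pc_P3 ((isCoprime_mul_unit_left hu _ _).2 h.symm.neg_left) hp (fun h' => h2 ?_)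
    (fun h' => h1 ?_) fun h' => hγ.not_lam_dvd ?_
  · have e : Primary (γ * -u) := by rwa [show γ * -u = u * -γ by ring]
    have e1 := (hγ.of_mul e).eq_one_of_isUnit hu.neg
    rwa [show -α = u * α by linear_combination α * e1]
  · have e : Primary (γ * u) := by rwa [show γ * u = -(u * -γ) by ring]
    have e1 := (hγ.of_mul e).eq_one_of_isUnit hu
    rwa [e1, one_mul] at hp
  · exact dvd_neg.1 (hu.dvd_mul_left.1 (ThPc_lam_dvd_three.trans h'))

theorem ThPc_S_lam {α γ : O} (h : IsCoprime α γ) (hγ : ¬ lam ∣ γ) : Pc (-γ) α = Pc α γ := by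
  obtain ⟨u, hu, hp⟩ := exists_unit_primary hγ
  have := ThPc_S_primary ((isCoprime_mul_unit_left hu _ _).2 h) hp
  rwa [← mul_neg, Pc_unit hu, Pc_unit hu] at this

theorem ThPc_S_cop {α γ : O} (h : IsCoprime α γ) : Pc (-γ) α = Pc α γ := by
  by_cases hγ : lam ∣ γ
  · rw [← ThPc_S_lam h.symm.neg_left (ThPc_not_lam h hγ), ThPc_neg_neg]
  · exact ThPc_S_lam h hγ

theorem ThPc_T_cop {α γ : O} (h : IsCoprime α γ) : Pc (α + γ) γ = Pc α γ := by
  have hc : ∀ {α γ : O}, IsCoprime α γ → IsCoprime (α + γ) γ := fun {α γ} h => by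
    simpa only [mul_one] using h.add_mul_left_left 1
  by_cases hγ : lam ∣ γ
  · by_cases h3 : (3 : O) ∣ γ
    · obtain ⟨u, hu, hp⟩ := exists_unit_primary (ThPc_not_lam h hγ)
      have h' := (isCoprime_mul_unit_left hu _ _).2 h
      have h3' : (3 : O) ∣ u * γ := h3.mul_left u
      have hp' := ThPcA_primary_add hp h3'
      rw [← Pc_unit hu, ← Pc_unit hu α, mul_add, Pc_P4 h' hp h3', Pc_P4 (hc h') hp' h3',
        Gauss_cub_per (u * α + u * γ) (u * γ) (-(u * α)) ⟨1, by ring⟩, ThPcA_cub_neg,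
        cub_recip hp' hp, Gauss_cub_per (u * α) (u * α + u * γ) (u * γ) ⟨1, by ring⟩]
    · rw [ThPc_van h hγ h3, ThPc_van (hc h) hγ h3]
  · obtain ⟨u, hu, hp⟩ := exists_unit_primary hγ
    have h' := (isCoprime_mul_unit_left hu _ _).2 h
    have e := (BasicA.primary_iff.1 hp).2
    rw [← Pc_unit hu, ← Pc_unit hu α, mul_add, ThPc_primary h' hp, ThPc_primary (hc h') hp,
      Gauss_cub_per (u * γ) (u * α + u * γ) (u * α) ⟨1, by ring⟩, QuadraticAlgebra.im_add]
    exact if_congr (by omega) rfl rfl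

theorem ThPc_cop (σ : SL2) : IsCoprime (σ 0 0) (σ 1 0) :=
  ⟨σ 1 1, -σ 0 1, by linear_combination SL2.det_eq σ⟩

theorem Pc_S (α γ : O) : Pc (-γ) α = Pc α γ := by
  by_cases h : α ≠ 0 ∨ γ ≠ 0
  · obtain ⟨ρ, σ, h0, rfl, rfl⟩ := exists_col h
    rw [← mul_neg, Pc_mul h0, Pc_mul h0, ThPc_S_cop (ThPc_cop σ)]
  · rw [not_or, not_not, not_not] at h
    rw [h.1, h.2, neg_zero]
theorem Pc_T (α γ : O) : Pc (α + γ) γ = Pc α γ := by
  by_cases h : α ≠ 0 ∨ γ ≠ 0
  · obtain ⟨ρ, σ, h0, rfl, rfl⟩ := exists_col h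
    rw [← mul_add, Pc_mul h0, Pc_mul h0, ThPc_T_cop (ThPc_cop σ)]
  · rw [not_or, not_not, not_not] at h
    rw [h.2, add_zero]

theorem ThPc_Cv_one_per {x y : O} (h : (9 : O) ∣ x - y) : Cv 1 x = Cv 1 y := by
  have hγ : mkSL 1 0 (x - y) 1 (by ring) ∈ Gam := mem_Gam.2 ⟨h, primary_one⟩
  rw [Cusp.Cv_col (α := 1) (β := y) (mkSL 1 0 y 1 (by ring)) rfl rfl,
    Cusp.Cv_col (α := 1) (β := x) (mkSL 1 0 (x - y) 1 (by ring) * mkSL 1 0 y 1 (by ring))
      (by rw [Cusp.mul_00]; simp) (by rw [Cusp.mul_10]; simp), tt_mul_Gam hγ, kap, mkSL_11,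
    cub_one_left, one_mul]

theorem ThPc_Cv_neg_one (x : O) : Cv (-1) x = Cv 1 (-x) := by
  rw [← Cv_neg_neg, neg_neg]

theorem ThPc_Cv_per {x y : O} (h : (9 : O) ∣ x - y) : Cv (-1) x = Cv (-1) y := by
  rw [ThPc_Cv_neg_one, ThPc_Cv_neg_one]
  exact ThPc_Cv_one_per (by rw [← neg_sub', dvd_neg]; exact h)

theorem ThPc_eq_three {x : O} (h : x.im % 3 = 0) : eq (-x) 3 = 1 := by
  rw [eq_congr (x := -x) (y := ((-x.re : ℤ) : O)) (ThPc_three_dvd_iff.2 (by simp; omega))]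
  unfold eq
  have := eC_ι_div ((-x.re : ℤ) : O) 3
  simpa [map_ofNat] using this

theorem sum_P_three : ∑ t ∈ res (3 * 3), eq (-t) 3 * Cv (-1) (1 * t) = 27 * (C0 : ℂ) := by
  rw [sum_res_mul ThPcA_three_ne ThPcA_three_ne (fun t => eq (-t) 3 * Cv (-1) (1 * t)) (by
    rintro x y ⟨k, hk⟩
    rw [eq_congr (x := -x) (y := -y) ⟨-(3 * k), by linear_combination -hk⟩,
      ThPc_Cv_per (x := 1 * x) (y := 1 * y) ⟨k, by linear_combination hk⟩])]
  have e : ∀ x : O, ∑ y ∈ res 3, eq (-(x + 3 * y)) 3 * Cv (-1) (1 * (x + 3 * y)) =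
      if x.im % 3 = 0 then 9 * (C0 : ℂ) else 0 := fun x => by
    have e1 : ∑ y ∈ res 3, eq (-(x + 3 * y)) 3 * Cv (-1) (1 * (x + 3 * y)) =
        eq (-x) 3 * Pc x 1 := by
      rw [Pc, Finset.mul_sum]
      refine Finset.sum_congr rfl fun y _ => ?_
      rw [eq_congr (x := -(x + 3 * y)) (y := -x) ⟨-y, by ring⟩, one_mul, mul_one]
    rw [e1, ThPc_primary isCoprime_one_right primary_one]
    split_ifs with h
    · rw [ThPc_eq_three h, cub_one_left, map_one, one_mul, mul_one]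
    · rw [mul_zero]
  rw [Finset.sum_congr rfl fun x _ => e x,
    sum_res_param ThPcA_three_ne (fun x : O => if x.im % 3 = 0 then 9 * (C0 : ℂ) else 0) (by
      intro x y h
      have := (ThPc_three_dvd_iff.1 h).2
      rw [QuadraticAlgebra.im_sub] at this
      exact if_congr (by omega) rfl rfl)
      (Finset.range 3 ×ˢ Finset.range 3) (fun p => (⟨p.1, p.2⟩ : O)) (by
      intro x
      refine ⟨((x.re % 3).toNat, (x.im % 3).toNat), ⟨?_, ?_⟩, ?_⟩
      · simp only [Finset.mem_product, Finset.mem_range]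
        omega
      · rw [ThPc_three_dvd_iff]
        simp only [QuadraticAlgebra.re_sub, QuadraticAlgebra.im_sub]
        omega
      · rintro ⟨a, b⟩ ⟨h1, h2⟩
        rw [ThPc_three_dvd_iff] at h2
        simp only [Finset.mem_product, Finset.mem_range, QuadraticAlgebra.re_sub,
          QuadraticAlgebra.im_sub] at h1 h2
        ext <;> simp only <;> omega)]
  simp [Finset.sum_product, Finset.sum_range_succ]
  ring

theorem norm_sum_P_lam {u q' : O} (hu : IsUnit u) (h : u * lam * q' = 3) :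
    ‖∑ t ∈ res (3 * (u * lam)), eq (-t) 3 * Cv (-1) (q' * t)‖ ≤ 9 * C0 := by
  have hm : u * lam ≠ 0 := mul_ne_zero hu.ne_zero prime_lam.ne_zero
  have hq : u * q' = -lam :=
    mul_left_cancel₀ prime_lam.ne_zero (by linear_combination h + lam_sq)
  rw [mul_comm 3 (u * lam), sum_res_mul hm ThPcA_three_ne
    (fun t => eq (-t) 3 * Cv (-1) (q' * t)) (by
    rintro x y ⟨k, hk⟩
    rw [eq_congr (x := -x) (y := -y) ⟨-(u * lam * k), by linear_combination -hk⟩,
      ThPc_Cv_per (x := q' * x) (y := q' * y) ⟨k, by linear_combination q' * hk + 3 * k * h⟩])]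
  obtain ⟨r, ⟨hr, k, hk⟩, huniq⟩ := exists_unique_res hm 0
  rw [Finset.sum_eq_single_of_mem r hr]
  · have e := sum_res_affine ThPcA_three_ne (fun b => eq (u * lam * b) 3 * Cv 1 (3 * b)) (by
      rintro x y ⟨l, hl⟩
      rw [eq_congr (x := u * lam * x) (y := u * lam * y)
        ⟨u * lam * l, by linear_combination u * lam * hl⟩, Cv_one_congr ⟨l, hl⟩])
      (a := -1) isCoprime_one_left.neg_left k
    have e2 : ∑ y ∈ res 3, eq (-(r + u * lam * y)) 3 * Cv (-1) (q' * (r + u * lam * y)) =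
        ∑ b ∈ res 3, eq (u * lam * b) 3 * Cv 1 (3 * b) := by
      rw [← e]
      refine Finset.sum_congr rfl fun y _ => ?_
      rw [ThPc_Cv_neg_one, show -(r + u * lam * y) = u * lam * (-1 * y + k) by
        linear_combination hk, show -(q' * (r + u * lam * y)) = 3 * (-1 * y + k) by
        linear_combination q' * hk + (k - y) * h]
    rw [e2]
    exact norm_sum_Cv_one_le fun b => (norm_eq _ _).le
  · intro x hx hxr
    refine Finset.sum_eq_zero fun y _ => ?_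
    rw [Cv_eq_zero isCoprime_one_left.neg_left
      ((hu.dvd_mul_left.1 (show lam ∣ u * q' from hq ▸ dvd_neg.2 dvd_rfl)).mul_right _), mul_zero]
    rintro ⟨c, hc⟩
    refine hxr (huniq x ⟨hx, y - c, mul_left_cancel₀ ThPcA_three_ne ?_⟩)
    linear_combination (-(u * lam)) * hc + (x + u * lam * y) * h

end Crest.Agent.R12
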