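import Crest.Agent.R12.ThVor
import Crest.Agent.R12.ThPc

/-!
# Row 12, theta half: the modulus of the leading coefficients
-/

set_option autoImplicit false

noncomputable section

namespace Crest.Agent.R12

open Crest.Agent.R17
open scoped ComplexConjugate Topology
open Filter MeasureTheory

theorem pf_of_mul_eq_three {r q' : O} (h : r * q' = 3) : r ≠ 0 ∧ pf r = ∅ := by
  refine ⟨?_, Finset.eq_empty_of_forall_notMem fun p hp => ?_⟩
  · rintro rfl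
    rw [zero_mul] at h
    exact absurd h (by decide)
  · obtain ⟨h1, h2, h3⟩ := BasicB.of_mem_pf hp
    exact h1.not_isUnit (h2.isCoprime_three.isUnit_of_dvd (h3.trans ⟨q', h.symm⟩))

theorem ThAbsA_phase {r q' : O} (h : r * q' = 3) (ν t : O) :
    eq (-t) 3 * eC (ι ν * ι (q' * t) / 9) = eq ((ν - r) * t) (3 * r) := by
  have hr : ι r ≠ 0 := fun h0 => (pf_of_mul_eq_three h).1 (ι_injective (by rw [h0, map_zero]))
  have h3 : ι r * ι q' = 3 := by rw [← map_mul, h, map_ofNat]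
  have h4 : ι q' = 3 / ι r := by rw [eq_div_iff hr, mul_comm, h3]
  rw [eq, eq, ← eC_add]
  congr 1
  simp only [map_mul, map_sub, map_neg, map_ofNat, h4]
  field_simp
  ring

open Classical in
/-- Projection to the class `ν ≡ r (mod 3 r)` (`sum_res_eq_char`; `e(ν t / 3r) = e(ν q' t / 9)`). -/
theorem proj_sum {r q' : O} (h : r * q' = 3) {y : ℝ} (hy0 : 0 < y) :
    (∑' n : O, if Primary n then tt SS (r * n) * (Mk y (b1 * nr (r * n)) : ℂ) else 0) =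
      (((nr (3 * r))⁻¹ : ℝ) : ℂ) * ∑ t ∈ res (3 * r), eq (-t) 3 * TM SS 0 (ι (q' * t)) y := by
  have hr := (pf_of_mul_eq_three h).1
  have h3r : (3 * r : O) ≠ 0 := mul_ne_zero (by decide) hr
  set F : O → ℂ := fun ν => tt SS ν * (Mk y (b1 * nr ν) : ℂ) with hF
  have hs : Summable fun ν => ‖F ν‖ := by
    have := summable_TM SS 0 hy0
    simpa only [Pl_zero_left, mul_one] using this
  have e1 : ∀ t, eq (-t) 3 * TM SS 0 (ι (q' * t)) y = ∑' ν, F ν * eq ((ν - r) * t) (3 * r) := by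
    intro t
    rw [TM, ← tsum_mul_left]
    refine tsum_congr fun ν => ?_
    rw [Pl_zero_left, mul_one, ← ThAbsA_phase h]
    ring
  have hs2 : ∀ t, Summable fun ν => F ν * eq ((ν - r) * t) (3 * r) := fun t =>
    Summable.of_norm (by simpa only [norm_mul, norm_eq, mul_one] using hs)
  simp only [e1]
  rw [← Summable.tsum_finsetSum fun t _ => hs2 t, ← tsum_mul_left]
  have hN : ((nm (3 * r) : ℕ) : ℂ) ≠ 0 := by
    exact_mod_cast fun h0 => h3r (nm_eq_zero.1 h0)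
  have e2 : ∀ ν, (((nr (3 * r))⁻¹ : ℝ) : ℂ) * ∑ t ∈ res (3 * r), F ν * eq ((ν - r) * t) (3 * r) =
      if 3 * r ∣ ν - r then F ν else 0 := by
    intro ν
    rw [← Finset.mul_sum, sum_res_eq_char h3r]
    split_ifs
    · push_cast
      field_simp
    · simp
  simp only [e2]
  rw [← (mul_right_injective₀ hr).tsum_eq (f := fun ν => if 3 * r ∣ ν - r then F ν else 0)]
  · refine tsum_congr fun n => ?_
    have e3 : 3 * r ∣ r * n - r ↔ Primary n := by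
      rw [show r * n - r = (n - 1) * r by ring, mul_dvd_mul_iff_right hr, Primary]
    simp only [e3, hF]
  · intro ν hν
    have h1 : 3 * r ∣ ν - r := by
      by_contra h2
      exact hν (if_neg h2)
    obtain ⟨c, hc⟩ := h1
    exact ⟨1 + 3 * c, by linear_combination -hc⟩

/-- The kernel `x^{-2/3} W0 x`. -/
def kW0 (x : ℝ) : ℝ := x ^ (-(2 / 3 : ℝ)) * W0 x

theorem Mo_kW0 : Mo kW0 = Real.Gamma (2 / 3) := by
  have h := (mellin_U1 (s := ((1 / 3 : ℝ) : ℂ)) (by rw [Complex.ofReal_re]; norm_num)).2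
  have e1 : ((1 / 3 : ℝ) : ℂ) + 1 / 3 = ((2 / 3 : ℝ) : ℂ) := by push_cast; ring
  have e2 : ((1 / 3 : ℝ) : ℂ) + 2 / 3 = 1 := by push_cast; ring
  have e3 : ((1 / 3 : ℝ) : ℂ) - 1 = ((-(2 / 3) : ℝ) : ℂ) := by push_cast; ring
  rw [e1, e2, e3, Complex.Gamma_one, mul_one, Complex.Gamma_ofReal] at h
  apply Complex.ofReal_injective
  rw [← h, Mo, ← integral_complex_ofReal]
  refine setIntegral_congr_fun measurableSet_Ioi fun x (hx : 0 < x) => ?_
  simp only [kW0, U1]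
  rw [← Complex.ofReal_cpow hx.le]
  push_cast
  ring

theorem ThAbsA_measurable_W0 : Measurable W0 := by
  have h : StronglyMeasurable fun p : ℝ × ℝ =>
      Real.exp (-p.2 - p.1 / p.2) * p.2 ^ (-(2 / 3 : ℝ)) :=
    Measurable.stronglyMeasurable (by fun_prop)
  exact (h.integral_prod_right' (ν := volume.restrict (Set.Ioi 0))).measurable

theorem KC_kW0 : KC kW0 := by
  have := ThAbsA_measurable_W0
  refine ⟨by unfold kW0; fun_prop, fun x hx => mul_nonneg (by positivity) (W0_pos hx.le).le,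
    Mo_kW0.symm ▸ Real.Gamma_pos_of_pos (by norm_num), fun A hA => ?_⟩
  obtain ⟨C, hC, h⟩ := W0_le_rpow (A := A - 2 / 3) (by linarith)
  refine ⟨C, fun x hx => ?_⟩
  calc kW0 x ≤ x ^ (-(2 / 3 : ℝ)) * (C * x ^ (-(A - 2 / 3))) := by
        unfold kW0; gcongr; exact h x hx
    _ = _ := by rw [mul_left_comm, ← Real.rpow_add hx]; congr 2; ring

theorem ThAbsA_term {β y N : ℝ} (hβ : 0 < β) (hy0 : 0 < y) (hN : 0 < N) :
    (β * y ^ 2) ^ (4 / 3 : ℝ) * (N ^ (2 / 3 : ℝ) * kW0 (β * y ^ 2 * N)) =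
      β ^ (2 / 3 : ℝ) * y ^ (2 / 3 : ℝ) * Mk y (β * N) := by
  have hY : 0 < β * y ^ 2 := by positivity
  have e1 : (β * y ^ 2) ^ (4 / 3 : ℝ) * (β * y ^ 2) ^ (-(2 / 3 : ℝ)) =
      β ^ (2 / 3 : ℝ) * y ^ (2 / 3 : ℝ) * y ^ (2 / 3 : ℝ) := by
    rw [← Real.rpow_add hY, show (4 / 3 : ℝ) + -(2 / 3) = 2 / 3 by ring,
      Real.mul_rpow hβ.le (by positivity), sq, Real.mul_rpow hy0.le hy0.le, mul_assoc]
  have e2 : N ^ (2 / 3 : ℝ) * N ^ (-(2 / 3 : ℝ)) = 1 := by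
    rw [← Real.rpow_add hN, add_neg_cancel, Real.rpow_zero]
  rw [kW0, Mk, Real.mul_rpow hY.le hN.le, show y ^ 2 * (β * N) = β * y ^ 2 * N by ring]
  linear_combination (W0 (β * y ^ 2 * N) * (N ^ (2 / 3 : ℝ) * N ^ (-(2 / 3 : ℝ)))) * e1 +
    (β ^ (2 / 3 : ℝ) * y ^ (2 / 3 : ℝ) * y ^ (2 / 3 : ℝ) * W0 (β * y ^ 2 * N)) * e2

open Classical in
/-- `Sk h kW0 (b1 N(r) y²) = (b1 N r)^{2/3} y^{2/3} · (projection)`; `lim_SS`. -/
theorem wd_class {r q' : O} (h : r * q' = 3) :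
    WD (fun n => if Primary n then tt SS (r * n) * ((nr n ^ (2 / 3 : ℝ) : ℝ) : ℂ) else 0)
      ((((b1 * nr r) ^ (2 / 3 : ℝ) * Real.Gamma (1 / 3) / Real.Gamma (2 / 3) * (nr (3 * r))⁻¹ : ℝ) :
        ℂ) * ∑ t ∈ res (3 * r), eq (-t) 3 * Cv (-1) (q' * t)) := by
  have hr := (pf_of_mul_eq_three h).1
  set β := b1 * nr r with hβdef
  have hβ : 0 < β := mul_pos b1_pos (nr_pos hr)
  refine ⟨kW0, KC_kW0, ?_⟩
  have hT : Tendsto (fun Y : ℝ => Real.sqrt (Y / β)) (𝓝[>] 0) (𝓝[>] 0) := by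
    refine tendsto_nhdsWithin_iff.2 ⟨?_, ?_⟩
    · have h1 : Continuous fun Y : ℝ => Real.sqrt (Y / β) := by fun_prop
      have h2 := h1.tendsto 0
      rw [zero_div, Real.sqrt_zero] at h2
      exact h2.mono_left nhdsWithin_le_nhds
    · filter_upwards [self_mem_nhdsWithin] with Y hY
      exact Real.sqrt_pos.2 (div_pos hY hβ)
  have h1 := (tendsto_finsetSum (res (3 * r)) fun t _ =>
    (lim_SS (q' * t)).const_mul (eq (-t) 3)).const_mul
      (((β ^ (2 / 3 : ℝ) : ℝ) : ℂ) * (((nr (3 * r))⁻¹ : ℝ) : ℂ))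
  have hG : (Real.Gamma (2 / 3) : ℂ) ≠ 0 := by
    exact_mod_cast (Real.Gamma_pos_of_pos (by norm_num : (0 : ℝ) < 2 / 3)).ne'
  have e : ((β ^ (2 / 3 : ℝ) : ℝ) : ℂ) * (((nr (3 * r))⁻¹ : ℝ) : ℂ) *
      ∑ t ∈ res (3 * r), eq (-t) 3 * (Cv (-1) (q' * t) * (Real.Gamma (1 / 3) : ℂ)) =
      ((β ^ (2 / 3 : ℝ) * Real.Gamma (1 / 3) / Real.Gamma (2 / 3) * (nr (3 * r))⁻¹ : ℝ) : ℂ) *
        (∑ t ∈ res (3 * r), eq (-t) 3 * Cv (-1) (q' * t)) * (Mo kW0 : ℂ) := by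
    simp only [← mul_assoc, ← Finset.sum_mul]
    rw [Mo_kW0, Complex.ofReal_mul, Complex.ofReal_div, Complex.ofReal_mul]
    field_simp
  rw [e] at h1
  refine (h1.comp hT).congr' ?_
  filter_upwards [self_mem_nhdsWithin] with Y hY
  have hY0 : 0 < Y := hY
  have hy0 : 0 < Real.sqrt (Y / β) := Real.sqrt_pos.2 (div_pos hY0 hβ)
  have hYy : Y = β * Real.sqrt (Y / β) ^ 2 := by
    rw [Real.sq_sqrt (div_pos hY0 hβ).le]; field_simp
  simp only [Function.comp]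
  generalize Real.sqrt (Y / β) = y at hy0 hYy
  have e2 : ((β ^ (2 / 3 : ℝ) : ℝ) : ℂ) * (((nr (3 * r))⁻¹ : ℝ) : ℂ) *
      ∑ t ∈ res (3 * r), eq (-t) 3 * (((y ^ (2 / 3 : ℝ) : ℝ) : ℂ) * TM SS 0 (ι (q' * t)) y) =
      ((β ^ (2 / 3 : ℝ) * y ^ (2 / 3 : ℝ) : ℝ) : ℂ) * ((((nr (3 * r))⁻¹ : ℝ) : ℂ) *
        ∑ t ∈ res (3 * r), eq (-t) 3 * TM SS 0 (ι (q' * t)) y) := by
    simp only [mul_left_comm _ ((y ^ (2 / 3 : ℝ) : ℝ) : ℂ), ← Finset.mul_sum]
    rw [Complex.ofReal_mul]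
    ring
  rw [e2, ← proj_sum h hy0, Sk, ← tsum_mul_left, ← tsum_mul_left]
  refine tsum_congr fun n => ?_
  by_cases hn : Primary n
  · rw [if_pos hn, if_pos hn, hYy, nr_mul, ← mul_assoc b1, ← hβdef]
    have h2 := congrArg (fun x : ℝ => (x : ℂ)) (ThAbsA_term hβ hy0 (nr_pos hn.ne_zero))
    simp only [Complex.ofReal_mul] at h2 ⊢
    linear_combination (-tt SS (r * n)) * h2
  · rw [if_neg hn, if_neg hn]
    simp

/-- `tt_SS_conv`, `wd_conv3`, `tt_spec`, `WD.unique`. -/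
theorem normSq_tt {r q' : O} (h : r * q' = 3) :
    ((‖tt SS r‖ ^ 2 * zeta2 / k1 : ℝ) : ℂ) =
      (((b1 * nr r) ^ (2 / 3 : ℝ) * Real.Gamma (1 / 3) / Real.Gamma (2 / 3) * (nr (3 * r))⁻¹ : ℝ) :
        ℂ) * ∑ t ∈ res (3 * r), eq (-t) 3 * Cv (-1) (q' * t) := by
  classical
  obtain ⟨hr, hpf⟩ := pf_of_mul_eq_three h
  have hP : PolyG fun n =>
      if Primary n then tt SS (r * n) * ((nr n ^ (2 / 3 : ℝ) : ℝ) : ℂ) else 0 := by
    refine ⟨‖tt SS r‖, 2 / 3, by norm_num, if_neg fun h0 => h0.ne_zero rfl, fun n => ?_⟩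
    by_cases hn : Primary n
    · simp only [if_pos hn]
      rw [norm_mul, Complex.norm_real, Real.norm_of_nonneg (by positivity)]
      exact mul_le_mul_of_nonneg_right (norm_tt_SS_le hr hpf hn) (by positivity)
    · simp only [if_neg hn]
      rw [norm_zero]; positivity
  have h1 := (wd_conv3 (w := fun _ => 1) (fun _ => by simp)
    (polyG_conj (polyG_Gx (xiOK_xis SS) r)) (wd_conj (tt_spec SS r).1)).const_mul (tt SS r)
  rw [zeta2_eq] at h1
  have h2 : (fun n => tt SS r * conv3 (fun _ => 1) (fun c => conj (Gx (xis SS) r c)) n) =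
      fun n => if Primary n then tt SS (r * n) * ((nr n ^ (2 / 3 : ℝ) : ℝ) : ℂ) else 0 :=
    funext fun n => by rw [← tt_SS_conv hr hpf n]
  rw [h2] at h1
  rw [← WD.unique hP h1 (wd_class h), map_div₀, Complex.conj_ofReal]
  push_cast
  rw [← Complex.mul_conj']
  ring

end Crest.Agent.R12
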