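import Crest.Agent.R12.ThCtA

/-!
# Row 12, theta half: the constant terms
-/

set_option autoImplicit false

noncomputable section

namespace Crest.Agent.R12

open Crest.Agent.R17
open scoped ComplexConjugate Topology
open Filter MeasureTheory

theorem ThCt_k1_ne : (k1 : ℂ) ≠ 0 := by exact_mod_cast k1_pos.ne'

theorem ThCt_polyG (σ : SL2) : PolyG (Gx (xis σ) 0) := polyG_Gx (xiOK_xis σ) 0

theorem tt_SS_zero_eq : tt SS 0 = ((k1 * rho0 / (3 * zeta2) : ℝ) : ℂ) := by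
  have h1 := (tt_spec SS 0).1
  have h2 := wd_conv3 (w := mu) norm_mu_le polyG_cubeN wd_cubeN
  rw [← Gx_SS_zero_conv] at h2
  have h3 := WD.unique (ThCt_polyG SS) h1 h2
  have h4 := zeta2_mul_mu
  have hz : (zeta2 : ℂ) ≠ 0 := by exact_mod_cast zeta2_pos.ne'
  have hk := ThCt_k1_ne
  rw [div_eq_iff hk] at h3
  rw [h3, eq_inv_of_mul_eq_one_right h4]
  push_cast
  field_simp

theorem C0_eq : C0 = k1 * rho0 / (3 * zeta2) := by
  rw [C0, tt_SS_zero_eq, Complex.ofReal_re]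

theorem C0_pos : 0 < C0 := by
  rw [C0_eq]
  have h1 := k1_pos
  have h2 := zeta2_pos
  have h3 : 0 < rho0 := by unfold rho0; positivity
  positivity

theorem tt_SS_zero : tt SS 0 = (C0 : ℂ) := by rw [C0_eq, tt_SS_zero_eq]

theorem Cv_zero_one : Cv 0 1 = (C0 : ℂ) := by
  rw [← tt_SS_zero]
  exact Cusp.Cv_col SS rfl rfl

theorem Cv_one (β : O) : Cv 1 β = tt (LB β) 0 := Cusp.Cv_col (LB β) rfl rfl

theorem Cv_one_congr {b b' : O} (h : (3 : O) ∣ b - b') : Cv 1 (3 * b) = Cv 1 (3 * b') := by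
  rw [Cv_one, Cv_one]
  have e : Gx (xis (LB (3 * b))) 0 = Gx (xis (LB (3 * b'))) 0 := by
    funext c
    rw [Gx_LB (dvd_mul_right 3 b), Gx_LB (dvd_mul_right 3 b')]
    obtain ⟨t, ht⟩ := h
    have : (9 : O) ∣ c - 3 * b ↔ (9 : O) ∣ c - 3 * b' := by
      constructor
      · rintro ⟨s, hs⟩
        exact ⟨s + t, by linear_combination hs + 3 * ht⟩
      · rintro ⟨s, hs⟩
        exact ⟨s - t, by linear_combination hs - 3 * ht⟩
    by_cases h9 : (9 : O) ∣ c - 3 * b'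
    · rw [if_pos h9, if_pos (this.2 h9)]
    · rw [if_neg h9, if_neg fun h' => h9 (this.1 h')]
  unfold tt
  rw [e]

theorem ThCt_phiN_nonneg (c : O) : 0 ≤ phiN c := by
  refine Finset.prod_nonneg fun p hp => ?_
  have h1 := one_le_nr (BasicB.of_mem_pf hp).1.ne_zero
  have : (nr p)⁻¹ ≤ 1 := inv_le_one_of_one_le₀ h1
  linarith

theorem Cv_one_nonneg (b : O) : (Cv 1 (3 * b)).im = 0 ∧ 0 ≤ (Cv 1 (3 * b)).re := by
  classical
  rw [Cv_one]
  have h1 := (tt_spec (LB (3 * b)) 0).1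
  have e : Gx (xis (LB (3 * b))) 0 = fun c => (((if (9 : O) ∣ c - 3 * b then
      (if c ≠ 0 ∧ ∃ x, c = x ^ 3 then 9 * nr c * phiN c else 0) else 0 : ℝ)) : ℂ) := by
    funext c
    rw [Gx_LB (dvd_mul_right 3 b), gA_eq]
    split_ifs <;> simp
  rw [e] at h1
  have h2 := wd_nonneg (fun c => by
    have := ThCt_phiN_nonneg c
    split_ifs
    · positivity
    · exact le_rfl
    · exact le_rfl) h1
  have h3 : tt (LB (3 * b)) 0 = (k1 : ℂ) * (tt (LB (3 * b)) 0 / k1) := by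
    rw [mul_div_cancel₀ _ ThCt_k1_ne]
  rw [h3, Complex.im_ofReal_mul, Complex.re_ofReal_mul, h2.1, mul_zero]
  exact ⟨rfl, mul_nonneg k1_pos.le h2.2⟩

open Classical in
/-- The part of `gA` on the multiples of `3`. -/
def ThCt3 (c : O) : ℂ := if (3 : O) ∣ c then gA c else 0

theorem ThCt_three_ne : (3 : O) ≠ 0 := by
  intro h
  have h1 : lam ^ 2 = 0 := by rw [lam_sq, h, neg_zero]
  exact pow_ne_zero 2 prime_lam.ne_zero h1

theorem ThCt_sum_Gx (c : O) : ∑ b ∈ res 3, Gx (xis (LB (3 * b))) 0 c = ThCt3 c := by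
  classical
  have e : ∀ b ∈ res 3, Gx (xis (LB (3 * b))) 0 c = if (9 : O) ∣ c - 3 * b then gA c else 0 :=
    fun b _ => by rw [Gx_LB (dvd_mul_right 3 b)]
  rw [Finset.sum_congr rfl e, ThCt3]
  split_ifs with h
  · obtain ⟨x, rfl⟩ := h
    obtain ⟨r, ⟨hr, hr'⟩, hu⟩ := exists_unique_res ThCt_three_ne x
    have key : ∀ b, (9 : O) ∣ 3 * x - 3 * b ↔ (3 : O) ∣ x - b := fun b => by
      rw [← mul_sub, show (9 : O) = 3 * 3 by norm_num, mul_dvd_mul_iff_left ThCt_three_ne]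
    rw [Finset.sum_eq_single_of_mem r hr, if_pos ((key r).2 hr')]
    intro b hb hne
    exact if_neg fun h' => hne (hu b ⟨hb, (key b).1 h'⟩)
  · refine Finset.sum_eq_zero fun b _ => if_neg ?_
    rintro ⟨s, hs⟩
    exact h ⟨3 * s + b, by linear_combination hs⟩

theorem ThCt_lam_cube : lam ^ 3 = 3 * (-lam) := by linear_combination lam * lam_sq

theorem ThCt_lam_dvd_three : lam ∣ (3 : O) := ⟨-lam, by linear_combination lam_sq⟩

theorem ThCt3_mul (c : O) : ThCt3 (lam ^ 3 * c) = 27 * gA c := by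
  classical
  have hl : lam ^ 3 ≠ 0 := pow_ne_zero _ prime_lam.ne_zero
  rw [ThCt3, if_pos ⟨-lam * c, by rw [ThCt_lam_cube]; ring⟩, gA_eq, gA_eq]
  have e : (lam ^ 3 * c ≠ 0 ∧ ∃ x, lam ^ 3 * c = x ^ 3) ↔ (c ≠ 0 ∧ ∃ x, c = x ^ 3) := by
    constructor
    · rintro ⟨h0, x, hx⟩
      refine ⟨right_ne_zero_of_mul h0, ?_⟩
      have h1 : lam ∣ x ^ 3 := ⟨lam ^ 2 * c, by rw [← hx]; ring⟩
      obtain ⟨y, rfl⟩ := prime_lam.dvd_of_dvd_pow h1
      exact ⟨y, mul_left_cancel₀ hl (by rw [hx]; ring)⟩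
    · rintro ⟨h0, x, rfl⟩
      exact ⟨mul_ne_zero hl h0, lam * x, by ring⟩
  by_cases h : c ≠ 0 ∧ ∃ x, c = x ^ 3
  · rw [if_pos h, if_pos (e.2 h)]
    have h1 : nr (lam ^ 3 * c) = 27 * nr c := by
      rw [nr_mul, nr_pow]
      simp only [nr, nm_lam]
      norm_num
    have h2 : phiN (lam ^ 3 * c) = phiN c := by
      rw [phiN, phiN, pf_mul hl h.1, BasicB.pf_lam_pow, Finset.empty_union]
    rw [h1, h2]
    push_cast
    ring
  · rw [if_neg h, if_neg fun h' => h (e.1 h'), mul_zero]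

theorem ThCt3_eq_zero (c : O) (h : ¬ lam ^ 3 ∣ c) : ThCt3 c = 0 := by
  classical
  rw [ThCt3]
  split_ifs with h3
  · rw [gA_eq, if_neg]
    rintro ⟨-, x, rfl⟩
    exact h (pow_dvd_pow_of_dvd (prime_lam.dvd_of_dvd_pow (ThCt_lam_dvd_three.trans h3)) 3)
  · rfl

theorem ThCt_gA_neg (c : O) : gA (-c) = gA c := by
  classical
  rw [gA_eq, gA_eq]
  have e : (-c ≠ 0 ∧ ∃ x, -c = x ^ 3) ↔ (c ≠ 0 ∧ ∃ x, c = x ^ 3) := by
    constructor
    · rintro ⟨h0, x, hx⟩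
      exact ⟨neg_ne_zero.1 h0, -x, by linear_combination -hx⟩
    · rintro ⟨h0, x, hx⟩
      exact ⟨neg_ne_zero.2 h0, -x, by linear_combination -hx⟩
  have hu : IsUnit (-1 : O) := isUnit_one.neg
  have h1 : nr (-c) = nr c := by
    rw [← neg_one_mul, nr_mul]
    simp only [nr, isUnit_iff_nm.1 hu, Nat.cast_one, one_mul]
  have h2 : phiN (-c) = phiN c := by
    rw [← neg_one_mul, phiN, phiN, pf_unit_mul hu]
  rw [h1, h2]
  simp only [e]

theorem ThCt_unit_cube {u : O} (hu : IsUnit u) : u ^ 3 = 1 ∨ u ^ 3 = -1 := by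
  obtain ⟨k, -, rfl⟩ := isUnit_iff_pow.1 hu
  have e : ((-om) ^ k) ^ 3 = (-1) ^ k := by
    rw [← pow_mul, mul_comm, pow_mul, neg_pow, om_cube]
    norm_num
  rw [e]
  exact neg_one_pow_eq_or O k

theorem ThCt_not_both {c : O} (h : Primary c) : ¬ Primary (-c) := by
  intro h'
  rw [BasicA.primary_iff] at h h'
  simp only [QuadraticAlgebra.re_neg, QuadraticAlgebra.im_neg] at h'
  omega

theorem ThCt_split (c : O) :
    gA c = ThCt3 c + (9 * Gx (xis SS) 0 c + 9 * Gx (xis SS) 0 (-c)) := by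
  classical
  rw [Gx_SS_zero, Gx_SS_zero, ThCt_gA_neg, ThCt3]
  by_cases h0 : gA c = 0
  · simp [h0]
  have h1 : ∃ x, c = x ^ 3 := by
    by_contra h
    exact h0 (by rw [gA_eq, if_neg fun h' => h h'.2])
  obtain ⟨x, hx⟩ := h1
  by_cases hl : lam ∣ x
  · have h2 : lam ^ 3 ∣ c := hx ▸ pow_dvd_pow_of_dvd hl 3
    have h3 : lam ∣ c := (dvd_pow_self lam (by norm_num)).trans h2
    have h4 : (3 : O) ∣ c := (Dvd.intro _ ThCt_lam_cube.symm).trans h2
    rw [if_pos h4, if_neg fun h => h.not_lam_dvd h3,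
      if_neg fun h : Primary (-c) => h.not_lam_dvd (dvd_neg.2 h3)]
    ring
  · obtain ⟨u, hu, hp⟩ := exists_unit_primary hl
    have h2 := hp.pow 3
    rw [mul_pow, ← hx] at h2
    have h3 : ¬ (3 : O) ∣ c := fun h =>
      hl (prime_lam.dvd_of_dvd_pow (hx ▸ ThCt_lam_dvd_three.trans h))
    rcases ThCt_unit_cube hu with h | h
    · rw [h, one_mul] at h2
      rw [if_neg h3, if_pos h2, if_neg (ThCt_not_both h2)]
      ring
    · rw [h, neg_one_mul] at h2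
      have h4 : ¬ Primary c := fun h' => ThCt_not_both h' h2
      rw [if_neg h3, if_pos h2, if_neg h4]
      ring

/-- With `gA3 = 1_{3 ∣ c} gA`: `gA3 (λ³ c) = 27 gA c`, `gA3 = 0` off `λ³ O`, and
`gA = gA3 + 9 gB + 9 gB (- ·)`, `gB = Gx (xis SS) 0`; use `WD.dilate` and `WD.unique`. -/
theorem sum_Cv_one : ∑ b ∈ res 3, Cv 1 (3 * b) = 9 * (C0 : ℂ) := by
  have hk := ThCt_k1_ne
  have e3 : (fun c => ∑ b ∈ res 3, Gx (xis (LB (3 * b))) 0 c) = ThCt3 := funext ThCt_sum_Gx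
  have p3 : PolyG ThCt3 := e3 ▸ polyG_sum (res 3) fun b _ => ThCt_polyG (LB (3 * b))
  have w3 : WD ThCt3 (∑ b ∈ res 3, tt (LB (3 * b)) 0 / k1) :=
    e3 ▸ wd_sum (res 3) (fun b _ => ThCt_polyG (LB (3 * b))) fun b _ => (tt_spec (LB (3 * b)) 0).1
  have hn1 : (-1 : O) ≠ 0 := neg_ne_zero.2 one_ne_zero
  have d1 : ∀ c : O, (fun c => Gx (xis SS) 0 (-c)) (-1 * c) = Gx (xis SS) 0 c := fun c => by
    simp only [neg_mul, one_mul, neg_neg]
  have d2 : ∀ c : O, ¬ (-1 : O) ∣ c → (fun c => Gx (xis SS) 0 (-c)) c = 0 := fun c hc =>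
    absurd (isUnit_one.neg.dvd) hc
  have pB := ThCt_polyG SS
  have pB' : PolyG fun c => Gx (xis SS) 0 (-c) := pB.dilate hn1 d1 d2
  have wB : WD (Gx (xis SS) 0) ((C0 : ℂ) / k1) := tt_SS_zero ▸ (tt_spec SS 0).1
  have wB' : WD (fun c => Gx (xis SS) 0 (-c)) ((C0 : ℂ) / k1) := by
    have := wB.dilate hn1 d1 d2
    simpa only [nr, isUnit_iff_nm.1 isUnit_one.neg, Nat.cast_one, Real.one_rpow, Complex.ofReal_one,
      one_mul] using this
  have wA := wd_add p3 (polyG_add (pB.const_mul 9) (pB'.const_mul 9)) w3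
    (wd_add (pB.const_mul 9) (pB'.const_mul 9) (wB.const_mul 9) (wB'.const_mul 9))
  have eA : (ThCt3 + ((fun c => 9 * Gx (xis SS) 0 c) + fun c => 9 * Gx (xis SS) 0 (-c))) = gA := by
    funext c
    simp only [Pi.add_apply]
    exact (ThCt_split c).symm
  rw [eA] at wA
  have hl : lam ^ 3 ≠ 0 := pow_ne_zero _ prime_lam.ne_zero
  have w4 := (wA.const_mul 27).dilate hl ThCt3_mul ThCt3_eq_zero
  have hnr : nr (lam ^ 3) ^ (-(4 / 3 : ℝ)) = 1 / 81 := by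
    rw [nr_pow]
    simp only [nr, nm_lam]
    rw [← Real.rpow_natCast, ← Real.rpow_mul (by norm_num)]
    norm_num
  rw [hnr] at w4
  have u := WD.unique p3 w3 w4
  rw [← Finset.sum_div] at u
  simp only [Cv_one]
  generalize ∑ b ∈ res 3, tt (LB (3 * b)) 0 = T at u ⊢
  push_cast at u
  exact (div_left_inj' hk).1 (by linear_combination (3 / 2 : ℂ) * u)

theorem norm_sum_Cv_one_le {φ : O → ℂ} (hφ : ∀ b, ‖φ b‖ ≤ 1) :
    ‖∑ b ∈ res 3, φ b * Cv 1 (3 * b)‖ ≤ 9 * C0 := by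
  have h1 : ∑ b ∈ res 3, (Cv 1 (3 * b)).re = 9 * C0 := by
    rw [← Complex.re_sum, sum_Cv_one]
    simp
  rw [← h1]
  refine (norm_sum_le _ _).trans (Finset.sum_le_sum fun b _ => ?_)
  obtain ⟨h2, h3⟩ := Cv_one_nonneg b
  have h4 : ‖Cv 1 (3 * b)‖ = (Cv 1 (3 * b)).re := by
    rw [← Complex.abs_re_eq_norm.2 h2, abs_of_nonneg h3]
  rw [norm_mul, h4]
  exact mul_le_of_le_one_left h3 (hφ b)

end Crest.Agent.R12
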