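import Crest.Agent.R17.ReflAux
import Crest.Agent.R17.Contour
import Crest.Agent.R17.LBasicAuxB

/-!
# Row 12 (Patterson), theta half: definitions

Everything is built on the cubic theta function of row 17 (`Th`, `tt`, `Cv`, `Gx`, `WD`).
DO NOT change a definition of this file (add new files instead).
-/

set_option autoImplicit false

noncomputable section

namespace Crest.Agent.R12

open Crest.Agent.R17
open scoped ComplexConjugate

/-- The normalised cubic Gauss sum `N(n)^{-1/2} ∑_x (x/n)₃ e(Tr(x/n))` of the statement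
(`e(Tr z) = eC (λ z)`). -/
def Gn (n : O) : ℂ := gc n lam / (Real.sqrt (nr n) : ℂ)

open Classical in
/-- The completed coefficient: `tc (m d³) = G(m) √(N d)` for primary `m d³`, `m` squarefree,
and `0` on all other elements. -/
def tc (n : O) : ℂ :=
  if Primary n ∧ ∀ p ∈ pf n, vp p n % 3 ≠ 2 then Gn (sq1 n) * (Real.sqrt (nr (cu n)) : ℂ) else 0

/-- Patterson's constant. -/
def cP : ℝ := (2 * Real.pi) ^ ((2 : ℝ) / 3) / (3 * Real.Gamma (2 / 3))

/-- The density of the primary elements (with respect to the norm). -/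
def rho0 : ℝ := 2 * Real.pi / (9 * Real.sqrt 3)

/-- The harmonic polynomial `z^l` (`l ≥ 0`), `conj z ^ |l|` (`l ≤ 0`). -/
def Pl (l : ℤ) (z : ℂ) : ℂ := z ^ l.toNat * conj z ^ (-l).toNat

/-- Dirichlet series. -/
def Dser (a : O → ℂ) (s : ℂ) : ℂ := ∑' n : O, a n * (nr n : ℂ) ^ (-s)

open Classical in
/-- The marked theta coefficients with angular twist. -/
def tm (l : ℤ) (z n : O) : ℂ := if z ∣ n then tc n * arg n ^ l else 0

/-- Admissible test functions: entire, decaying like `exp (-10 |Im s|)` in vertical strips. -/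
def StripDecay (Φ : ℂ → ℂ) : Prop :=
  Differentiable ℂ Φ ∧ ∀ a b : ℝ, ∃ C : ℝ, ∀ s : ℂ, a ≤ s.re → s.re ≤ b →
    ‖Φ s‖ ≤ C * Real.exp (-10 * |s.im|)

/-- Weighted `L¹` norm on the line `Re s = σ`. -/
def Mom (Φ : ℂ → ℂ) (σ : ℝ) (k : ℕ) : ℝ := ∫ u : ℝ, ‖Φ (σ + u * Complex.I)‖ * (1 + |u|) ^ k

/-- `(1 / 2πi) ∫_{(σ)} F(s) ds`. -/
def lineI (σ : ℝ) (F : ℂ → ℂ) : ℂ := (1 / (2 * Real.pi) : ℂ) * ∫ u : ℝ, F (σ + u * Complex.I)

/-- Coefficients dominated by the square root of the norm of a cube divisor. -/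
def CubeB (b : O → ℂ) (C : ℝ) : Prop :=
  0 ≤ C ∧ b 0 = 0 ∧ ∀ ν : O, ν ≠ 0 → ∃ D : O, D ≠ 0 ∧ D ^ 3 ∣ ν ∧ ‖b ν‖ ≤ C * Real.sqrt (nr D)

/-- The ratio `Γ(t - 1/2 + c) / Γ(1/2 - t + c)`; it is unimodular on `Re t = 1/2`. -/
def gamR (c : ℝ) (t : ℂ) : ℂ := Complex.Gamma (t - 1 / 2 + c) * (Complex.Gamma (1 / 2 - t + c))⁻¹

/-- The gamma factor of the theta series with angular frequency `± m` (`t = 1 - s`). -/
def gamT (m : ℕ) (t : ℂ) : ℂ := gamR (1 / 3 + m / 2) t * gamR (2 / 3 + m / 2) t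

/-- The gamma factor of a Hecke L-function with angular frequency `± m` (`t = 1 - s`). -/
def gamH (m : ℕ) (t : ℂ) : ℂ := gamR (1 / 2 + m / 2) t

/-- The dual kernel `(1/2πi) ∫_{(3/2)} Φ(1 - t) K(t) x^{-t} dt`. -/
def kerV (Φ K : ℂ → ℂ) (x : ℝ) : ℂ := lineI (3 / 2) fun t => Φ (1 - t) * K t * (x : ℂ) ^ (-t)

/-- Admissible gamma factors: holomorphic on `Re t ≥ 1/2`, of exponential growth in strips, and
`O((1 + |u|)^{e j})` on the lines `Re t = 1/2 + j`. -/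
def GamOK (K : ℂ → ℂ) (e : ℕ) : Prop :=
  DifferentiableOn ℂ K {t | 1 / 2 ≤ t.re} ∧
    (∀ b : ℝ, ∃ C : ℝ, ∀ t : ℂ, 1 / 2 ≤ t.re → t.re ≤ b → ‖K t‖ ≤ C * Real.exp (8 * |t.im|)) ∧
    ∀ j : ℕ, ∃ C : ℝ, 0 < C ∧ ∀ u : ℝ,
      ‖K (((1 / 2 + j : ℝ) : ℂ) + u * Complex.I)‖ ≤ C * (1 + |u|) ^ (e * j)

/-- The matrix `S = (0 -1; 1 0)`. -/
def SS : SL2 := mkSL 0 (-1) 1 0 (by ring)

/-- The matrix `(1 0; β 1)`. -/
def LB (β : O) : SL2 := mkSL 1 0 β 1 (by ring)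

/-- The twisted moments of the expansion at the cusp `σ ∞`. -/
def TM (σ : SL2) (l : ℤ) (z : ℂ) (y : ℝ) : ℂ :=
  ∑' ν : O, tt σ ν * (Mk y (b1 * nr ν) : ℂ) * eC (ι ν * z / 9) * Pl l (ι ν)

/-- The constant term at the cusp `0` (a positive real number). -/
def C0 : ℝ := (tt SS 0).re

open Classical in
/-- `∑_{d primary} N(d)^{-2}`. -/
def zeta2 : ℝ := ∑' d : O, if Primary d then ((nr d)⁻¹) ^ 2 else 0

/-- Nine times the constant term of Patterson's theta function at the cusp `α / γ`. -/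
def Pc (α γ : O) : ℂ := ∑ b ∈ res 3, Cv (-γ) (α + 3 * b * γ)

/-- Nine times Patterson's theta function. -/
def Theta (w : H) : ℂ := ∑ b ∈ res 3, Th (SS * nT (3 * b)) w

/-- Its normalised coefficients: `Theta = 9 ∑ aP r · Mk y (9 b1 N r) · e(r z / 3)`. -/
def aP (r : O) : ℂ := tt SS (3 * r)

end Crest.Agent.R12
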