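import Crest.Agent.R12.ThMel

/-!
# Row 12, theta half: gamma factors, the dual kernel and dual sums
-/

set_option autoImplicit false

noncomputable section

namespace Crest.Agent.R12

open Crest.Agent.R17
open scoped ComplexConjugate Topology
open Filter MeasureTheory

theorem ThGamA_ratio {c : ℝ} (hc : 0 < c) (j : ℕ) (u : ℝ) :
    ‖Complex.Gamma (c + (j + u * Complex.I)) * (Complex.Gamma (c - (j + u * Complex.I)))⁻¹‖ ≤
      (c + j + |u|) ^ (2 * j) := by
  induction j with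
  | zero =>
    have hG : Complex.Gamma ((c : ℂ) - u * Complex.I) ≠ 0 :=
      Complex.Gamma_ne_zero_of_re_pos (by simpa using hc)
    have e1 : (c : ℂ) - (((0 : ℕ) : ℂ) + u * Complex.I) = c - u * Complex.I := by simp
    have e2 : (c : ℂ) + (((0 : ℕ) : ℂ) + u * Complex.I) = conj ((c : ℂ) - u * Complex.I) := by simp
    rw [e1, e2, Complex.Gamma_conj, norm_mul, Complex.norm_conj, norm_inv,
      mul_inv_cancel₀ (norm_ne_zero_iff.2 hG), mul_zero, pow_zero]
  | succ j ih =>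
    have hj := Nat.cast_nonneg (α := ℝ) j
    have hu := abs_nonneg u
    have hn1 : (c : ℂ) + (j + u * Complex.I) ≠ 0 := fun h => by
      have := congrArg Complex.re h
      simp at this
      linarith
    have e1 : (c : ℂ) + (((j + 1 : ℕ) : ℂ) + u * Complex.I) = (c + (j + u * Complex.I)) + 1 := by
      push_cast; ring
    have e3 : (c : ℂ) - (((j + 1 : ℕ) : ℂ) + u * Complex.I) + 1 = c - (j + u * Complex.I) := by
      push_cast; ring
    have b0 : ∀ k : ℕ, ‖(k : ℂ) + u * Complex.I‖ ≤ k + |u| := fun k =>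
      (norm_add_le _ _).trans (by simp)
    have bc : ‖(c : ℂ)‖ = c := by rw [Complex.norm_real, Real.norm_of_nonneg hc.le]
    have b1 : ‖(c : ℂ) + (j + u * Complex.I)‖ ≤ c + ((j + 1 : ℕ) : ℝ) + |u| := by
      refine (norm_add_le _ _).trans ?_
      have := b0 j
      push_cast
      linarith
    have b2 : ‖(c : ℂ) - (((j + 1 : ℕ) : ℂ) + u * Complex.I)‖ ≤ c + ((j + 1 : ℕ) : ℝ) + |u| := by
      refine (norm_sub_le _ _).trans ?_
      have := b0 (j + 1)
      linarith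
    have b3 : (c + j + |u|) ^ (2 * j) ≤ (c + ((j + 1 : ℕ) : ℝ) + |u|) ^ (2 * j) :=
      pow_le_pow_left₀ (by positivity) (by push_cast; linarith) _
    rw [e1, Complex.Gamma_add_one _ hn1,
      Complex.one_div_Gamma_eq_self_mul_one_div_Gamma_add_one (c - (((j + 1 : ℕ) : ℂ) + _)), e3,
      mul_mul_mul_comm, norm_mul, norm_mul]
    refine (mul_le_mul (mul_le_mul b1 b2 (norm_nonneg _) (by positivity)) (ih.trans b3)
      (norm_nonneg _) (by positivity)).trans (le_of_eq ?_)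
    ring

/-- `|Γ(c + j + iu) / Γ(c - j - iu)| ≤ (c + j + |u|)^{2j}` by the recurrence
(`Complex.one_div_Gamma_eq_self_mul_one_div_Gamma_add_one`, `Complex.Gamma_conj`). -/
theorem norm_gamR_le {c : ℝ} (hc : 0 < c) (j : ℕ) (u : ℝ) :
    ‖gamR c (((1 / 2 + j : ℝ) : ℂ) + u * Complex.I)‖ ≤ (c + j + |u|) ^ (2 * j) := by
  have e1 : ((1 / 2 + j : ℝ) : ℂ) + u * Complex.I - 1 / 2 + c = c + (j + u * Complex.I) := by
    push_cast; ring
  have e2 : 1 / 2 - (((1 / 2 + j : ℝ) : ℂ) + u * Complex.I) + c = c - (j + u * Complex.I) := by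
    push_cast; ring
  rw [gamR, e1, e2]
  exact ThGamA_ratio hc j u

theorem ThGamA_diff {c : ℝ} (hc : 0 < c) : DifferentiableOn ℂ (gamR c) {t | 1 / 2 ≤ t.re} := by
  intro t ht
  have ht : 1 / 2 ≤ t.re := ht
  have h : DifferentiableAt ℂ (fun t : ℂ => Complex.Gamma (t - 1 / 2 + c)) t :=
    (Complex.differentiableAt_Gamma (t - 1 / 2 + c) fun m hm => by
      have := congrArg Complex.re hm
      have hm := Nat.cast_nonneg (α := ℝ) m
      simp at this
      linarith).comp t (by fun_prop)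
  have h' : DifferentiableAt ℂ (fun t : ℂ => (Complex.Gamma (1 / 2 - t + c))⁻¹) t :=
    (Complex.differentiable_one_div_Gamma (1 / 2 - t + c)).comp (f := fun t : ℂ => 1 / 2 - t + c) t
      (by fun_prop)
  exact (h.mul h').differentiableWithinAt

theorem ThGamA_strip {c : ℝ} (hc : 0 < c) (b : ℝ) : ∃ C : ℝ, 0 < C ∧ ∀ t : ℂ, 1 / 2 ≤ t.re →
    t.re ≤ b → ‖gamR c t‖ ≤ C * Real.exp (4 * |t.im|) := by
  obtain ⟨M, hM, h₁⟩ := RMA.norm_Gamma_bd hc (b + c)
  obtain ⟨C, hC, h₂⟩ := norm_inv_Gamma_le (c - b) c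
  refine ⟨M * C, by positivity, fun t h0 h1 => ?_⟩
  have a1 := h₁ (t - 1 / 2 + c) (by simp; linarith) (by simp; linarith)
  have a2 := h₂ (1 / 2 - t + c) (by simp; linarith) (by simp; linarith)
  have i2 : |(1 / 2 - t + c).im| = |t.im| := by simp
  rw [i2] at a2
  rw [gamR, norm_mul, mul_assoc]
  exact mul_le_mul a1 a2 (norm_nonneg _) hM.le

theorem ThGamA_line {c : ℝ} (hc : 0 < c) (j : ℕ) (u : ℝ) :
    ‖gamR c (((1 / 2 + j : ℝ) : ℂ) + u * Complex.I)‖ ≤
      (c + j + 1) ^ (2 * j) * (1 + |u|) ^ (2 * j) := by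
  have hj := Nat.cast_nonneg (α := ℝ) j
  have hu := abs_nonneg u
  rw [← mul_pow]
  exact (norm_gamR_le hc j u).trans (pow_le_pow_left₀ (by positivity) (by nlinarith) _)

theorem gamOK_T (m : ℕ) : GamOK (gamT m) 4 := by
  have h1 : (0 : ℝ) < 1 / 3 + m / 2 := by positivity
  have h2 : (0 : ℝ) < 2 / 3 + m / 2 := by positivity
  refine ⟨(ThGamA_diff h1).mul (ThGamA_diff h2), fun b => ?_, fun j => ?_⟩
  · obtain ⟨C₁, hC₁, b₁⟩ := ThGamA_strip h1 b
    obtain ⟨C₂, hC₂, b₂⟩ := ThGamA_strip h2 b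
    refine ⟨C₁ * C₂, fun t h0 hb => ?_⟩
    rw [gamT, norm_mul]
    refine (mul_le_mul (b₁ t h0 hb) (b₂ t h0 hb) (norm_nonneg _) (by positivity)).trans
      (le_of_eq ?_)
    rw [show 8 * |t.im| = 4 * |t.im| + 4 * |t.im| by ring, Real.exp_add]
    ring
  · refine ⟨(1 / 3 + m / 2 + j + 1) ^ (2 * j) * (2 / 3 + m / 2 + j + 1) ^ (2 * j), by positivity,
      fun u => ?_⟩
    rw [gamT, norm_mul]
    refine (mul_le_mul (ThGamA_line h1 j u) (ThGamA_line h2 j u) (norm_nonneg _)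
      (by positivity)).trans (le_of_eq ?_)
    ring

theorem gamOK_H (m : ℕ) : GamOK (gamH m) 2 := by
  have h1 : (0 : ℝ) < 1 / 2 + m / 2 := by positivity
  refine ⟨ThGamA_diff h1, fun b => ?_, fun j => ⟨_, by positivity, ThGamA_line h1 j⟩⟩
  obtain ⟨C₁, hC₁, b₁⟩ := ThGamA_strip h1 b
  refine ⟨C₁, fun t h0 hb => (b₁ t h0 hb).trans ?_⟩
  exact mul_le_mul_of_nonneg_left (Real.exp_le_exp.2 (by linarith [abs_nonneg t.im])) hC₁.le

theorem StripDecay.integrable {Φ : ℂ → ℂ} (hΦ : StripDecay Φ) (σ : ℝ) (k : ℕ) :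
    Integrable fun u : ℝ => ‖Φ (σ + u * Complex.I)‖ * (1 + |u|) ^ k := by
  obtain ⟨C, hC⟩ := hΦ.2 σ σ
  have hc : Continuous fun u : ℝ => ‖Φ (σ + u * Complex.I)‖ * (1 + |u|) ^ k :=
    (hΦ.1.continuous.comp (by fun_prop)).norm.mul (by fun_prop)
  refine ((RMA.integrable_exp_abs (c := 9) (by norm_num)).const_mul
    (|C| * (k.factorial * Real.exp 1))).mono' hc.aestronglyMeasurable
    (Eventually.of_forall fun u => ?_)
  have hu := abs_nonneg u
  have h1 : ‖Φ (σ + u * Complex.I)‖ ≤ |C| * Real.exp (-10 * |u|) := by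
    have := hC (σ + u * Complex.I) (by simp) (by simp)
    rw [show ((σ : ℂ) + u * Complex.I).im = u by simp] at this
    exact this.trans (mul_le_mul_of_nonneg_right (le_abs_self C) (Real.exp_pos _).le)
  have h2 : (1 + |u|) ^ k ≤ k.factorial * Real.exp (1 + |u|) := by
    have := Real.pow_div_factorial_le_exp (1 + |u|) (by positivity) k
    rwa [div_le_iff₀' (by positivity)] at this
  rw [Real.norm_of_nonneg (by positivity)]
  refine (mul_le_mul h1 h2 (by positivity) (by positivity)).trans (le_of_eq ?_)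
  rw [Real.exp_add, show -9 * |u| = -10 * |u| + |u| by ring, Real.exp_add]
  ring

theorem Mom_nonneg (Φ : ℂ → ℂ) (σ : ℝ) (k : ℕ) : 0 ≤ Mom Φ σ k :=
  integral_nonneg fun u => by positivity

theorem ThGamA_shift {K : ℂ → ℂ} {e : ℕ} (hK : GamOK K e) {Φ : ℂ → ℂ} (hΦ : StripDecay Φ) {x : ℝ}
    (hx : 0 < x) {σ : ℝ} (hσ : 1 / 2 ≤ σ) :
    lineI (1 / 2) (fun t => Φ (1 - t) * K t * (x : ℂ) ^ (-t)) =
      lineI σ fun t => Φ (1 - t) * K t * (x : ℂ) ^ (-t) := by
  obtain ⟨C, hC⟩ := hΦ.2 (1 - σ) (1 / 2)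
  obtain ⟨D, hD⟩ := hK.2.1 σ
  unfold lineI
  refine congrArg _ (integral_vertical_shift (F := fun t => Φ (1 - t) * K t * (x : ℂ) ^ (-t)) hσ
    (((hΦ.1.comp (by fun_prop)).differentiableOn.mul (hK.1.mono fun t ht => ht.1)).mul
      (differentiable_neg.const_cpow (Or.inl (Complex.ofReal_ne_zero.2 hx.ne'))).differentiableOn)
    (C := |C| * |D| * (x ^ (-σ) + x ^ (-(1 / 2 : ℝ)))) two_pos fun t h0 h1 => ?_)
  have h2 := (hC (1 - t) (by simp; linarith) (by simp; linarith)).trans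
    (mul_le_mul_of_nonneg_right (le_abs_self C) (Real.exp_pos _).le)
  rw [show |(1 - t).im| = |t.im| by simp] at h2
  have h3 := (hD t h0 h1).trans (mul_le_mul_of_nonneg_right (le_abs_self D) (Real.exp_pos _).le)
  have h4 : x ^ (-t).re ≤ x ^ (-σ) + x ^ (-(1 / 2 : ℝ)) :=
    thMel_rpow_le hx (by rw [Complex.neg_re]; linarith) (by rw [Complex.neg_re]; linarith)
  rw [norm_mul, norm_mul, Complex.norm_cpow_eq_rpow_re_of_pos hx]
  refine (mul_le_mul (mul_le_mul h2 h3 (norm_nonneg _) (by positivity)) h4 (by positivity)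
    (by positivity)).trans (le_of_eq ?_)
  rw [show -2 * |t.im| = -10 * |t.im| + 8 * |t.im| by ring, Real.exp_add]
  ring

/-- Shift the line from `3/2` to `1/2 + j` (`integral_vertical_shift`). -/
theorem kerV_le {K : ℂ → ℂ} {e : ℕ} (hK : GamOK K e) (j : ℕ) : ∃ C : ℝ, 0 < C ∧
    ∀ Φ : ℂ → ℂ, StripDecay Φ → ∀ x : ℝ, 0 < x →
      ‖kerV Φ K x‖ ≤ C * Mom Φ (1 / 2 - j) (e * j) * x ^ (-(1 / 2 + j : ℝ)) := by
  obtain ⟨C, hC, h⟩ := hK.2.2 j
  refine ⟨C, hC, fun Φ hΦ x hx => ?_⟩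
  have hj := Nat.cast_nonneg (α := ℝ) j
  have hM := Mom_nonneg Φ (1 / 2 - j) (e * j)
  rw [kerV, ← ThGamA_shift hK hΦ hx (by norm_num), ThGamA_shift hK hΦ hx
    (σ := 1 / 2 + j) (by linarith), lineI, norm_mul]
  refine (mul_le_of_le_one_left (norm_nonneg _) RMA.norm_c_le).trans ?_
  have hi := ((hΦ.integrable (1 / 2 - j) (e * j)).comp_neg.const_mul C).mul_const
    (x ^ (-(1 / 2 + j : ℝ)))
  refine (norm_integral_le_of_norm_le hi (Eventually.of_forall fun u => ?_)).trans (le_of_eq ?_)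
  · have e1 : 1 - (((1 / 2 + j : ℝ) : ℂ) + u * Complex.I) =
        ((1 / 2 - j : ℝ) : ℂ) + ((-u : ℝ) : ℂ) * Complex.I := by push_cast; ring
    have e2 : (-(((1 / 2 + j : ℝ) : ℂ) + u * Complex.I)).re = -(1 / 2 + j : ℝ) := by
      simp only [Complex.neg_re, Complex.add_re, Complex.ofReal_re, Complex.mul_re, Complex.I_re,
        Complex.ofReal_im, Complex.I_im]
      ring
    rw [norm_mul, norm_mul, Complex.norm_cpow_eq_rpow_re_of_pos hx, e1, e2, abs_neg]
    refine mul_le_mul_of_nonneg_right ?_ (by positivity)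
    rw [mul_left_comm]
    exact mul_le_mul_of_nonneg_left (h u) (norm_nonneg _)
  · rw [integral_mul_const, integral_const_mul, integral_neg_eq_self (fun u : ℝ =>
      ‖Φ (((1 / 2 - j : ℝ) : ℂ) + u * Complex.I)‖ * (1 + |u|) ^ (e * j)), Mom]

theorem ThGamA_term {g : ℝ → ℂ} (hg : Integrable g) {a : O → ℂ} {H : ℝ} (ha : PolyB a H (1 / 6))
    {σ : ℝ} (hσ : 7 / 6 < σ) :
    ∫ u : ℝ, g u * Dser a (σ + u * Complex.I) =
      ∑' n : O, a n * ∫ u : ℝ, g u * (nr n : ℂ) ^ (-((σ : ℂ) + u * Complex.I)) := by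
  have hn : ∀ (n : O) (u : ℝ), ‖a n * (nr n : ℂ) ^ (-((σ : ℂ) + u * Complex.I))‖ =
      ‖a n‖ * nr n ^ (-σ) := fun n u => by
    rw [ThMelA_norm_term ha]
    simp
  have hi : ∀ n : O, Integrable fun u : ℝ =>
      g u * (a n * (nr n : ℂ) ^ (-((σ : ℂ) + u * Complex.I))) := fun n => by
    by_cases h0 : n = 0
    · simp [h0, ha.1]
    · refine hg.mul_bdd (Continuous.aestronglyMeasurable (continuous_const.mul
        (Continuous.const_cpow (by fun_prop) (Or.inl (Complex.ofReal_ne_zero.2 (nr_pos h0).ne')))))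
        (Eventually.of_forall fun u => (hn n u).le)
  have hs : Summable fun n : O => ∫ u : ℝ,
      ‖g u * (a n * (nr n : ℂ) ^ (-((σ : ℂ) + u * Complex.I)))‖ := by
    simp only [norm_mul (g _), hn, integral_mul_const]
    exact (ThMelA_summable_coef ha hσ).mul_left _
  simp only [Dser, ← tsum_mul_left]
  rw [← integral_tsum_of_summable_integral_norm hi hs]
  refine tsum_congr fun n => ?_
  rw [← integral_const_mul]
  exact integral_congr_ae (Eventually.of_forall fun u => mul_left_comm _ _ _)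

theorem ThGamA_int {Φ : ℂ → ℂ} (hΦ : StripDecay Φ) (σ : ℝ) :
    Integrable fun u : ℝ => Φ (σ + u * Complex.I) :=
  (hΦ.integrable σ 0).mono' (hΦ.1.continuous.comp (by fun_prop)).aestronglyMeasurable
    (Eventually.of_forall fun u => by simp)

/-- Termwise integration (`integral_tsum_of_summable_integral_norm`). -/
theorem lineI_dual {K : ℂ → ℂ} {e : ℕ} (hK : GamOK K e) {Φ : ℂ → ℂ} (hΦ : StripDecay Φ)
    {b : O → ℂ} {H : ℝ} (hb : PolyB b H (1 / 6)) {B : ℝ} (hB : 0 < B) :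
    lineI (3 / 2) (fun t => Φ (1 - t) * (K t * (B : ℂ) ^ (-t) * Dser b t)) =
      ∑' ν : O, b ν * kerV Φ K (B * nr ν) := by
  obtain ⟨C, hC, h⟩ := hK.2.2 1
  have e0 : (1 / 2 + ((1 : ℕ) : ℝ) : ℝ) = 3 / 2 := by norm_num
  rw [e0] at h
  have hre : ∀ u : ℝ, (((3 / 2 : ℝ) : ℂ) + u * Complex.I).re = 3 / 2 := fun u => by
    simp only [Complex.add_re, Complex.ofReal_re, Complex.mul_re, Complex.I_re,
      Complex.ofReal_im, Complex.I_im]
    ring
  have c1 : Continuous fun u : ℝ => K (((3 / 2 : ℝ) : ℂ) + u * Complex.I) :=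
    hK.1.continuousOn.comp_continuous (by fun_prop) fun u => by
      rw [Set.mem_ofPred_eq, hre]
      norm_num
  have c2 : Continuous fun u : ℝ => (B : ℂ) ^ (-(((3 / 2 : ℝ) : ℂ) + u * Complex.I)) :=
    Continuous.const_cpow (by fun_prop) (Or.inl (Complex.ofReal_ne_zero.2 hB.ne'))
  have c3 : Continuous fun u : ℝ => Φ (1 - (((3 / 2 : ℝ) : ℂ) + u * Complex.I)) :=
    hΦ.1.continuous.comp (by fun_prop)
  have hg : Integrable fun u : ℝ => Φ (1 - (((3 / 2 : ℝ) : ℂ) + u * Complex.I)) *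
      (K (((3 / 2 : ℝ) : ℂ) + u * Complex.I) * (B : ℂ) ^ (-(((3 / 2 : ℝ) : ℂ) + u * Complex.I))) := by
    refine (((hΦ.integrable (-(1 / 2)) (e * 1)).comp_neg.const_mul C).mul_const
      (B ^ (-(3 / 2 : ℝ)))).mono' (c3.mul (c1.mul c2)).aestronglyMeasurable
      (Eventually.of_forall fun u => ?_)
    have e1 : 1 - (((3 / 2 : ℝ) : ℂ) + u * Complex.I) =
        ((-(1 / 2) : ℝ) : ℂ) + ((-u : ℝ) : ℂ) * Complex.I := by push_cast; ring
    rw [norm_mul, norm_mul, Complex.norm_cpow_eq_rpow_re_of_pos hB, e1, Complex.neg_re, hre, abs_neg,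
      ← mul_assoc]
    refine mul_le_mul_of_nonneg_right ?_ (by positivity)
    rw [mul_left_comm]
    exact mul_le_mul_of_nonneg_left (h u) (norm_nonneg _)
  have key := ThGamA_term hg hb (σ := 3 / 2) (by norm_num)
  unfold kerV lineI
  simp only [← mul_assoc (Φ _)] at key ⊢
  rw [key, ← tsum_mul_left]
  refine tsum_congr fun ν => ?_
  rw [mul_left_comm]
  refine congrArg _ (congrArg _ (integral_congr_ae (Eventually.of_forall fun u => ?_)))
  beta_reduce
  rw [Complex.ofReal_mul, Complex.mul_cpow_ofReal_nonneg hB.le (by positivity)]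
  ring

/-- Termwise integration on the original side. -/
theorem lineI_Dser {Φ : ℂ → ℂ} (hΦ : StripDecay Φ) {a : O → ℂ} {H : ℝ} (ha : PolyB a H (1 / 6))
    {σ : ℝ} (hσ : 7 / 6 < σ) :
    lineI σ (fun s => Φ s * Dser a s) =
      ∑' n : O, a n * lineI σ fun s => Φ s * (nr n : ℂ) ^ (-s) := by
  unfold lineI
  rw [ThGamA_term (ThGamA_int hΦ σ) ha hσ, ← tsum_mul_left]
  exact tsum_congr fun n => mul_left_comm _ _ _

end Crest.Agent.R12
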