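import Crest.Agent.R12.ThGamA

/-!
# Row 12, theta half: gamma factors, the dual kernel and dual sums
-/

set_option autoImplicit false

noncomputable section

namespace Crest.Agent.R12

open Crest.Agent.R17
open scoped ComplexConjugate Topology
open Filter MeasureTheory

theorem CubeB.polyB {b : O → ℂ} {C : ℝ} (h : CubeB b C) : PolyB b C (1 / 6) := by
  refine ⟨h.2.1, fun n => ?_⟩
  rcases eq_or_ne n 0 with rfl | hn
  · rw [h.2.1, norm_zero]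
    exact mul_nonneg h.1 (by positivity)
  · obtain ⟨D, -, hD, h1⟩ := h.2.2 n hn
    refine h1.trans (mul_le_mul_of_nonneg_left ?_ h.1)
    have h2 : nr D ^ 3 ≤ nr n := by
      rw [← nr_pow]; exact Nat.cast_le.2 (nm_le_of_dvd hD hn)
    refine le_trans (le_of_eq ?_) (Real.rpow_le_rpow (by positivity) h2 (by norm_num))
    rw [← Real.rpow_natCast, ← Real.rpow_mul (by positivity), Real.sqrt_eq_rpow]
    norm_num

theorem CubeB.mono {b b' : O → ℂ} {C C' K : ℝ} (h : CubeB b C) (hK : 0 ≤ K)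
    (h' : ∀ ν, ‖b' ν‖ ≤ K * ‖b ν‖) (hC : K * C ≤ C') : CubeB b' C' := by
  refine ⟨(mul_nonneg hK h.1).trans hC, ?_, fun ν hν => ?_⟩
  · simpa [h.2.1] using h' 0
  · obtain ⟨D, h0, hD, h1⟩ := h.2.2 ν hν
    refine ⟨D, h0, hD, (h' ν).trans ((mul_le_mul_of_nonneg_left h1 hK).trans ?_)⟩
    rw [← mul_assoc]
    exact mul_le_mul_of_nonneg_right hC (Real.sqrt_nonneg _)

theorem cubeB_of_bound {b : O → ℂ} {C : ℝ} (h0 : b 0 = 0) (h : ∀ ν, ‖b ν‖ ≤ C) : CubeB b C := by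
  refine ⟨(norm_nonneg _).trans (h 0), h0, fun ν _ => ⟨1, one_ne_zero, by simp, ?_⟩⟩
  exact (h ν).trans (le_mul_of_one_le_right ((norm_nonneg _).trans (h 0))
    (Real.one_le_sqrt.2 (one_le_nr one_ne_zero)))

theorem ThGamB_all {σ : ℝ} (hσ : 1 < σ) :
    ∃ C : ℝ, 0 < C ∧ ∀ S : Finset O, ∑ n ∈ S, nr n ^ (-σ) ≤ C :=
  ⟨∑' n, nr n ^ (-σ) + 1, by positivity, fun S =>
    ((summable_nr_rpow hσ).sum_le_tsum S fun _ _ => by positivity).trans (by linarith)⟩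

/-- Summation over the cube divisor. -/
theorem ThGamB_major : ∃ K : ℝ, 0 < K ∧ ∀ (a : O → ℝ) (R : O → O → Prop) (G : ℝ), 0 ≤ G →
    a 0 = 0 → (∀ ν, ν ≠ 0 → ∃ D, D ≠ 0 ∧ D ^ 3 ∣ ν ∧ R D ν) →
    (∀ D, D ≠ 0 → ∀ S : Finset O, (∀ m ∈ S, m ≠ 0 ∧ R D (D ^ 3 * m)) →
      ∑ m ∈ S, a (D ^ 3 * m) ≤ G * (nr D ^ 2)⁻¹) → ∀ S : Finset O, ∑ ν ∈ S, a ν ≤ K * G := by
  classical
  obtain ⟨K, hK, hs⟩ := ThGamB_all (σ := 2) (by norm_num)
  refine ⟨K, hK, fun a R G hG h0 h1 h2 S => ?_⟩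
  choose! D hD hd hR using h1
  choose! m hm using hd
  rw [← Finset.sum_erase S h0, ← Finset.sum_fiberwise_of_maps_to (t := (S.erase 0).image D)
    (g := D) (fun ν hν => Finset.mem_image_of_mem _ hν)]
  refine le_trans (Finset.sum_le_sum (g := fun d => G * nr d ^ (-2 : ℝ)) fun d hd => ?_) ?_
  · obtain ⟨ν₀, h3, rfl⟩ := Finset.mem_image.1 hd
    have h4 : ∀ ν ∈ (S.erase 0).filter (fun ν => D ν = D ν₀), ν = D ν₀ ^ 3 * m ν := fun ν hν => by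
      rw [Finset.mem_filter] at hν
      rw [← hν.2]
      exact hm ν (Finset.ne_of_mem_erase hν.1)
    have h5 := h2 _ (hD ν₀ (Finset.ne_of_mem_erase h3))
      (((S.erase 0).filter (fun ν => D ν = D ν₀)).image m) fun k hk => by
        obtain ⟨ν, hν, rfl⟩ := Finset.mem_image.1 hk
        have h6 := Finset.mem_filter.1 hν
        have h7 := Finset.ne_of_mem_erase h6.1
        refine ⟨fun h8 => h7 (by rw [h4 ν hν, h8, mul_zero]), ?_⟩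
        rw [← h4 ν hν, ← h6.2]
        exact hR ν h7
    rw [Finset.sum_image fun ν hν ν' hν' h => by rw [h4 ν hν, h4 ν' hν', h]] at h5
    rw [Real.rpow_neg (by positivity), Real.rpow_two]
    exact (Finset.sum_congr rfl fun ν hν => congrArg a (h4 ν hν)).trans_le h5
  · rw [← Finset.mul_sum, mul_comm]
    exact mul_le_mul_of_nonneg_right (hs _) hG

theorem ThGamB_inner : ∃ K : ℝ, 0 < K ∧ ∀ (f : O → ℝ) (P Q : ℝ) (S : Finset O), 0 ≤ P → 0 ≤ Q →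
    (∀ m ∈ S, m ≠ 0 ∧ f m ≤ P * nr m ^ (-(1 / 2 : ℝ)) ∧ f m ≤ Q * nr m ^ (-(3 / 2 : ℝ))) →
    ∑ m ∈ S, f m ≤ K * Real.sqrt (P * Q) := by
  classical
  obtain ⟨K₀, hK₀, h₀⟩ := ThGamB_all (σ := 3 / 2) (by norm_num)
  obtain ⟨K₁, hK₁, h₁⟩ := sum_nr_rpow_le (σ := -(1 / 2)) (by norm_num)
  obtain ⟨K₂, hK₂, h₂⟩ := sum_nr_rpow_tail (σ := 3 / 2) (by norm_num)
  refine ⟨K₀ + K₁ + K₂, by positivity, fun f P Q S hP hQ h => ?_⟩
  have hs := Real.sqrt_nonneg (P * Q)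
  rcases hP.eq_or_lt with rfl | hP
  · exact (Finset.sum_nonpos fun m hm => by simpa using (h m hm).2.1).trans (by positivity)
  rcases le_total Q P with hQP | hQP
  · have h1 : Q ≤ Real.sqrt (P * Q) := Real.le_sqrt_of_sq_le (by nlinarith)
    calc ∑ m ∈ S, f m ≤ Q * ∑ m ∈ S, nr m ^ (-(3 / 2 : ℝ)) := by
          rw [Finset.mul_sum]; exact Finset.sum_le_sum fun m hm => (h m hm).2.2
      _ ≤ Real.sqrt (P * Q) * K₀ := mul_le_mul h1 (h₀ S) (by positivity) hs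
      _ ≤ _ := by nlinarith
  have hY : 1 ≤ Q / P := (one_le_div hP).2 hQP
  have hQ0 : 0 < Q := hP.trans_le hQP
  have e1 : P * (Q / P) ^ (1 + -(1 / 2) : ℝ) = Real.sqrt (P * Q) := by
    rw [show (1 + -(1 / 2) : ℝ) = 1 / 2 by norm_num, ← Real.sqrt_eq_rpow, eq_comm,
      Real.sqrt_eq_iff_mul_self_eq (by positivity) (by positivity), mul_mul_mul_comm,
      Real.mul_self_sqrt (by positivity)]
    field_simp
  have e2 : Q * (Q / P) ^ (1 - 3 / 2 : ℝ) = Real.sqrt (P * Q) := by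
    rw [show (1 - 3 / 2 : ℝ) = -(1 / 2) by norm_num, Real.rpow_neg (by positivity),
      ← Real.sqrt_eq_rpow, eq_comm, Real.sqrt_eq_iff_mul_self_eq (by positivity) (by positivity),
      mul_mul_mul_comm, ← mul_inv, Real.mul_self_sqrt (by positivity)]
    field_simp
  have h1 : ∑ m ∈ S.filter (fun m => nr m ≤ Q / P), f m ≤ K₁ * Real.sqrt (P * Q) := by
    calc _ ≤ P * ∑ m ∈ S.filter (fun m => nr m ≤ Q / P), nr m ^ (-(1 / 2 : ℝ)) := by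
          rw [Finset.mul_sum]
          exact Finset.sum_le_sum fun m hm => (h m (Finset.mem_filter.1 hm).1).2.1
      _ ≤ P * ∑ m ∈ (ball ⌊Q / P⌋₊).erase 0, nr m ^ (-(1 / 2 : ℝ)) := by
          refine mul_le_mul_of_nonneg_left (Finset.sum_le_sum_of_subset_of_nonneg
            (fun m hm => ?_) fun _ _ _ => by positivity) hP.le
          rw [Finset.mem_filter] at hm
          exact Finset.mem_erase.2 ⟨(h m hm.1).1, mem_ball.2 (Nat.le_floor hm.2)⟩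
      _ ≤ P * (K₁ * (Q / P) ^ (1 + -(1 / 2) : ℝ)) := by
          refine mul_le_mul_of_nonneg_left ((h₁ _ (Nat.floor_pos.2 hY)).trans ?_) hP.le
          gcongr
          exact Nat.floor_le (by positivity)
      _ = _ := by rw [← e1]; ring
  have h2 : ∑ m ∈ S.filter (fun m => ¬ nr m ≤ Q / P), f m ≤ K₂ * Real.sqrt (P * Q) := by
    calc _ ≤ Q * ∑ m ∈ S.filter (fun m => ¬ nr m ≤ Q / P), nr m ^ (-(3 / 2 : ℝ)) := by
          rw [Finset.mul_sum]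
          exact Finset.sum_le_sum fun m hm => (h m (Finset.mem_filter.1 hm).1).2.2
      _ ≤ Q * (K₂ * (Q / P) ^ (1 - 3 / 2 : ℝ)) :=
          mul_le_mul_of_nonneg_left
            (h₂ _ _ hY fun m hm => (not_le.1 (Finset.mem_filter.1 hm).2).le) hQ
      _ = _ := by rw [← e2]; ring
  rw [← Finset.sum_filter_add_sum_filter_not S (fun m => nr m ≤ Q / P)]
  nlinarith

theorem ThGamB_term {b V : O → ℂ} {C P σ : ℝ} {k : ℕ} (hC : 0 ≤ C) (hP : 0 ≤ P)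
    (hk : (k : ℝ) ≤ 3 * σ - 1 / 2) (hV : ∀ ν, ν ≠ 0 → ‖V ν‖ ≤ P * nr ν ^ (-σ)) {D m : O}
    (hD : D ≠ 0) (hm : m ≠ 0) (hb : ‖b (D ^ 3 * m)‖ ≤ C * Real.sqrt (nr D)) :
    ‖b (D ^ 3 * m) * V (D ^ 3 * m)‖ ≤ C * P * (nr D ^ k)⁻¹ * nr m ^ (-σ) := by
  have h0 := nr_pos hD
  have h1 : Real.sqrt (nr D) * (nr D ^ 3) ^ (-σ) ≤ (nr D ^ k)⁻¹ := by
    rw [← Real.rpow_natCast, ← Real.rpow_natCast, ← Real.rpow_mul h0.le, Real.sqrt_eq_rpow,
      ← Real.rpow_add h0, ← Real.rpow_neg h0.le]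
    exact Real.rpow_le_rpow_of_exponent_le (one_le_nr hD) (by push_cast; linarith)
  rw [norm_mul]
  refine (mul_le_mul hb (hV _ (mul_ne_zero (pow_ne_zero _ hD) hm)) (norm_nonneg _)
    (by positivity)).trans ?_
  rw [nr_mul, nr_pow, Real.mul_rpow (by positivity) (by positivity)]
  calc _ = C * P * (Real.sqrt (nr D) * (nr D ^ 3) ^ (-σ)) * nr m ^ (-σ) := by ring
    _ ≤ _ := by gcongr

/-- `∑_ν ‖b ν‖ f(ν) ≤ C ∑_D √(N D) ∑_m f(D³ m)`; `sum_nr_rpow_le`, `sum_nr_rpow_tail` with the cut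
`N m = Q / (P N(D)³)`. -/
theorem tsum_min_le : ∃ K : ℝ, 0 < K ∧ ∀ (b V : O → ℂ) (C P Q : ℝ), CubeB b C → 0 ≤ P → 0 ≤ Q →
    (∀ ν, ν ≠ 0 → ‖V ν‖ ≤ P * nr ν ^ (-(1 / 2 : ℝ))) →
    (∀ ν, ν ≠ 0 → ‖V ν‖ ≤ Q * nr ν ^ (-(3 / 2 : ℝ))) →
    ∑' ν, ‖b ν * V ν‖ ≤ K * C * Real.sqrt (P * Q) := by
  obtain ⟨K, hK, h⟩ := ThGamB_major
  obtain ⟨K', hK', h'⟩ := ThGamB_inner
  refine ⟨K * K', by positivity, fun b V C P Q hb hP hQ h1 h2 => ?_⟩
  have hC := hb.1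
  have key := h (fun ν => ‖b ν * V ν‖) (fun D ν => ‖b ν‖ ≤ C * Real.sqrt (nr D))
    (K' * (C * Real.sqrt (P * Q))) (by positivity) (by simp [hb.2.1]) hb.2.2 fun D hD S hS => by
      refine (h' _ (C * P * (nr D ^ 1)⁻¹) (C * Q * (nr D ^ 3)⁻¹) S (by positivity) (by positivity)
        fun m hm => ⟨(hS m hm).1, ThGamB_term hC hP (by norm_num) h1 hD (hS m hm).1 (hS m hm).2,
          ThGamB_term hC hQ (by norm_num) h2 hD (hS m hm).1 (hS m hm).2⟩).trans (le_of_eq ?_)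
      rw [show C * P * (nr D ^ 1)⁻¹ * (C * Q * (nr D ^ 3)⁻¹) =
        (C * (nr D ^ 2)⁻¹) ^ 2 * (P * Q) by ring, Real.sqrt_mul (by positivity),
        Real.sqrt_sq (by positivity)]
      ring
  exact ((summable_of_sum_le (fun _ => norm_nonneg _) key).tsum_le_of_sum_le key).trans
    (le_of_eq (by ring))

theorem tsum_tail_le : ∃ K : ℝ, 0 < K ∧ ∀ (b V : O → ℂ) (C Q : ℝ), CubeB b C → 0 ≤ Q →
    (∀ ν, ν ≠ 0 → ‖V ν‖ ≤ Q * nr ν ^ (-(3 / 2 : ℝ))) →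
    (Summable fun ν => ‖b ν * V ν‖) ∧ ∑' ν, ‖b ν * V ν‖ ≤ K * C * Q := by
  obtain ⟨K, hK, h⟩ := ThGamB_major
  obtain ⟨K', hK', h'⟩ := ThGamB_all (σ := 3 / 2) (by norm_num)
  refine ⟨K * K', by positivity, fun b V C Q hb hQ h2 => ?_⟩
  have hC := hb.1
  have key := h (fun ν => ‖b ν * V ν‖) (fun D ν => ‖b ν‖ ≤ C * Real.sqrt (nr D))
    (K' * (C * Q)) (by positivity) (by simp [hb.2.1]) hb.2.2 fun D hD S hS => by
      refine (Finset.sum_le_sum fun m hm =>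
        ThGamB_term (k := 2) hC hQ (by norm_num) h2 hD (hS m hm).1 (hS m hm).2).trans ?_
      rw [← Finset.mul_sum]
      exact (mul_le_mul_of_nonneg_left (h' S) (by positivity)).trans (le_of_eq (by ring))
  have hs := summable_of_sum_le (fun _ => norm_nonneg _) key
  exact ⟨hs, (hs.tsum_le_of_sum_le key).trans (le_of_eq (by ring))⟩

theorem ThGamB_ball : ∃ K : ℝ, 0 < K ∧ ∀ (a : O → ℝ) (C : ℝ) (X : ℕ), 0 ≤ C → a 0 = 0 →
    (∀ ν, ν ≠ 0 → ∃ D, D ≠ 0 ∧ D ^ 3 ∣ ν ∧ a ν ≤ C * nr D) → ∑ ν ∈ ball X, a ν ≤ K * C * X := by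
  classical
  obtain ⟨K, hK, h⟩ := ThGamB_major
  refine ⟨K * 7, by positivity, fun a C X hC h0 h1 => ?_⟩
  have key := h (fun ν => if ν ∈ ball X then a ν else 0) (fun D ν => a ν ≤ C * nr D)
    (7 * C * X) (by positivity) (by simp [h0]) h1 (fun D hD S hS => by
      have h2 := nr_pos hD
      have h3 : S.filter (fun m => D ^ 3 * m ∈ ball X) ⊆ (ball ⌊X / nr D ^ 3⌋₊).erase 0 :=
        fun m hm => by
          rw [Finset.mem_filter, mem_ball] at hm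
          refine Finset.mem_erase.2 ⟨(hS m hm.1).1, mem_ball.2 (Nat.le_floor ?_)⟩
          rw [le_div_iff₀' (by positivity), ← nr_pow, ← nr_mul]
          exact Nat.cast_le.2 hm.2
      have h4 := Finset.card_le_card h3
      have h5 := card_ball_le ⌊X / nr D ^ 3⌋₊
      rw [Finset.card_erase_of_mem (mem_ball.2 (by simp [nm]))] at h4
      have h6 : ((S.filter (fun m => D ^ 3 * m ∈ ball X)).card : ℝ) ≤ 7 * (X / nr D ^ 3) := by
        have h8 : (S.filter (fun m => D ^ 3 * m ∈ ball X)).card ≤ 7 * ⌊X / nr D ^ 3⌋₊ := by omega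
        have h7 : ((S.filter (fun m => D ^ 3 * m ∈ ball X)).card : ℝ) ≤
            ((7 * ⌊X / nr D ^ 3⌋₊ : ℕ) : ℝ) := Nat.cast_le.2 h8
        rw [Nat.cast_mul, Nat.cast_ofNat] at h7
        linarith [Nat.floor_le (show (0 : ℝ) ≤ X / nr D ^ 3 by positivity)]
      rw [← Finset.sum_filter]
      refine (Finset.sum_le_card_nsmul _ _ (C * nr D)
        fun m hm => (hS m (Finset.mem_filter.1 hm).1).2).trans ?_
      rw [nsmul_eq_mul]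
      refine (mul_le_mul_of_nonneg_right h6 (by positivity)).trans (le_of_eq ?_)
      field_simp) (ball X)
  rw [Finset.sum_congr rfl fun ν hν => if_pos hν] at key
  exact key.trans (le_of_eq (by ring))

theorem sum_ball_le : ∃ K : ℝ, 0 < K ∧ ∀ (b : O → ℂ) (C : ℝ) (X : ℕ), CubeB b C →
    ∑ ν ∈ ball X, ‖b ν‖ ≤ K * C * X ∧ ∑ ν ∈ ball X, ‖b ν‖ ^ 2 ≤ K * C ^ 2 * X := by
  obtain ⟨K, hK, h⟩ := ThGamB_ball
  refine ⟨K, hK, fun b C X hb => ⟨h _ _ X hb.1 (by simp [hb.2.1]) fun ν hν => ?_,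
    h _ _ X (by positivity) (by simp [hb.2.1]) fun ν hν => ?_⟩⟩
  · obtain ⟨D, hD, h1, h2⟩ := hb.2.2 ν hν
    refine ⟨D, hD, h1, h2.trans (mul_le_mul_of_nonneg_left ?_ hb.1)⟩
    exact Real.sqrt_le_iff.2 ⟨by positivity, by nlinarith [one_le_nr hD]⟩
  · obtain ⟨D, hD, h1, h2⟩ := hb.2.2 ν hν
    refine ⟨D, hD, h1, (pow_le_pow_left₀ (norm_nonneg _) h2 2).trans (le_of_eq ?_)⟩
    rw [mul_pow, Real.sq_sqrt (by positivity)]

/-- **The dual sum.** -/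
theorem dual_le {K : ℂ → ℂ} {e : ℕ} (hK : GamOK K e) {j : ℕ} (hj : 1 ≤ j) : ∃ C : ℝ, 0 < C ∧
    ∀ (Φ : ℂ → ℂ) (b : O → ℂ) (Cb B : ℝ), StripDecay Φ → CubeB b Cb → 0 < B →
      ‖∑' ν : O, b ν * kerV Φ K (B * nr ν)‖ ≤ C * Cb *
        min (Real.sqrt (Mom Φ (1 / 2) 0 * Mom Φ (-(1 / 2)) e) / B)
          (Mom Φ (1 / 2 - j) (e * j) * B ^ (-(1 / 2 + j : ℝ))) := by
  obtain ⟨K₁, hK₁, h₁⟩ := tsum_min_le
  obtain ⟨K₂, hK₂, h₂⟩ := tsum_tail_le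
  obtain ⟨C₀, hC₀, k₀⟩ := kerV_le hK 0
  obtain ⟨C₁, hC₁, k₁⟩ := kerV_le hK 1
  obtain ⟨C₂, hC₂, k₂⟩ := kerV_le hK j
  refine ⟨K₁ * Real.sqrt (C₀ * C₁) + K₂ * C₂, by positivity, fun Φ b Cb B hΦ hb hB => ?_⟩
  have hCb := hb.1
  have m₀ := Mom_nonneg Φ (1 / 2) 0
  have m₁ := Mom_nonneg Φ (-(1 / 2)) e
  have m₂ := Mom_nonneg Φ (1 / 2 - j) (e * j)
  have v₀ : ∀ ν, ν ≠ 0 → ‖kerV Φ K (B * nr ν)‖ ≤
      C₀ * Mom Φ (1 / 2) 0 * B ^ (-(1 / 2 : ℝ)) * nr ν ^ (-(1 / 2 : ℝ)) := fun ν hν => by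
    have := k₀ Φ hΦ _ (mul_pos hB (nr_pos hν))
    rw [Real.mul_rpow hB.le (by positivity), ← mul_assoc] at this
    simpa only [Nat.cast_zero, sub_zero, add_zero, mul_zero] using this
  have v₁ : ∀ ν, ν ≠ 0 → ‖kerV Φ K (B * nr ν)‖ ≤
      C₁ * Mom Φ (-(1 / 2)) e * B ^ (-(3 / 2 : ℝ)) * nr ν ^ (-(3 / 2 : ℝ)) := fun ν hν => by
    have := k₁ Φ hΦ _ (mul_pos hB (nr_pos hν))
    rwa [Real.mul_rpow hB.le (by positivity), ← mul_assoc, Nat.cast_one, mul_one,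
      show (1 / 2 + 1 : ℝ) = 3 / 2 by norm_num, show (1 / 2 - 1 : ℝ) = -(1 / 2) by norm_num] at this
  have v₂ : ∀ ν, ν ≠ 0 → ‖kerV Φ K (B * nr ν)‖ ≤
      C₂ * Mom Φ (1 / 2 - j) (e * j) * B ^ (-(1 / 2 + j : ℝ)) * nr ν ^ (-(3 / 2 : ℝ)) :=
    fun ν hν => by
      have := k₂ Φ hΦ _ (mul_pos hB (nr_pos hν))
      rw [Real.mul_rpow hB.le (by positivity), ← mul_assoc] at this
      refine this.trans (mul_le_mul_of_nonneg_left
        (Real.rpow_le_rpow_of_exponent_le (one_le_nr hν) ?_) (by positivity))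
      have : (1 : ℝ) ≤ j := by exact_mod_cast hj
      linarith
  obtain ⟨hs, t₂⟩ := h₂ b _ Cb _ hb (by positivity) v₂
  have t₁ := h₁ b _ Cb _ _ hb (by positivity) (by positivity) v₀ v₁
  have e1 : C₀ * Mom Φ (1 / 2) 0 * B ^ (-(1 / 2 : ℝ)) *
      (C₁ * Mom Φ (-(1 / 2)) e * B ^ (-(3 / 2 : ℝ))) =
      C₀ * C₁ * (Mom Φ (1 / 2) 0 * Mom Φ (-(1 / 2)) e / B ^ 2) := by
    have : B ^ (-(1 / 2 : ℝ)) * B ^ (-(3 / 2 : ℝ)) = (B ^ 2)⁻¹ := by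
      rw [← Real.rpow_add hB, ← Real.rpow_two, ← Real.rpow_neg hB.le]; norm_num
    rw [div_eq_mul_inv _ (B ^ 2), ← this]
    ring
  rw [e1, Real.sqrt_mul (by positivity), Real.sqrt_div (by positivity), Real.sqrt_sq hB.le] at t₁
  refine (norm_tsum_le_tsum_norm hs).trans ?_
  rw [mul_min_of_nonneg _ _ (by positivity)]
  refine le_min (t₁.trans ?_) (t₂.trans ?_)
  · have : 0 ≤ K₂ * C₂ * Cb * (Real.sqrt (Mom Φ (1 / 2) 0 * Mom Φ (-(1 / 2)) e) / B) := by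
      positivity
    linarith
  · have : 0 ≤ K₁ * Real.sqrt (C₀ * C₁) * Cb *
        (Mom Φ (1 / 2 - j) (e * j) * B ^ (-(1 / 2 + j : ℝ))) := by positivity
    linarith

end Crest.Agent.R12
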