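import Crest.Agent.R12.ThMarkA

/-!
# Row 12, theta half: the twisted Voronoi formula at the cusp `0`
-/

set_option autoImplicit false

noncomputable section

namespace Crest.Agent.R12

open Crest.Agent.R17
open scoped ComplexConjugate Topology
open Filter MeasureTheory

theorem ThMark.summable_term (σ : SL2) (l : ℤ) {y : ℝ} (hy0 : 0 < y) {e : O → ℂ}
    (he : ∀ ν, ‖e ν‖ = 1) :
    Summable fun ν : O => tt σ ν * (Mk y (b1 * nr ν) : ℂ) * e ν * Pl l (ι ν) := by
  refine Summable.of_norm ((summable_TM σ l hy0).congr fun ν => ?_)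
  simp only [norm_mul, he, mul_one]

open Classical in
theorem ThMark.ind_eq (ν : O) : (if (9 : O) ∣ ν - 3 then 1 else 0 : ℂ) =
    (81 : ℂ)⁻¹ * ∑ t ∈ res 9, eq (-t) 3 * eq (ν * t) 9 := by
  have h9 : (9 : O) ≠ 0 := by norm_num
  have h1 : ∀ t : O, eq (-t) 3 * eq (ν * t) 9 = eq ((ν - 3) * t) 9 := fun t => by
    rw [← eq_mul_mul (g := 3) (by norm_num) (-t) 3, show (3 : O) * 3 = 9 by norm_num, ← eq_add]
    congr 1; ring
  rw [Finset.sum_congr rfl fun t _ => h1 t, sum_res_eq_char h9]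
  have h2 : nm (9 : O) = 81 := by simpa using nm_natCast 9
  split_ifs <;> simp [h2]

open Classical in
/-- **Twisted Voronoi formula** (`voronoi_TM`, `tt_cusp`, `O1_exists_inv`, `O1_sum_inv`). -/
theorem vor_twist {D : O} (hD : Primary D) {ψ : O → ℂ} (hψ : IsChr D ψ) : ∃ ρ : O → ℂ,
    (∀ t, ‖ρ t‖ = 1) ∧ (D = 1 → ∀ t, ρ t * tt (rep t (D % 9)) 0 = eq (-t) 3 * Cv (-1) t) ∧
    ∀ (l : ℤ) (y : ℝ), 0 < y →
      (∑' ν : O, if (9 : O) ∣ ν - 3 then
          tt SS ν * ft D ψ ν * (Mk y (b1 * nr ν) : ℂ) * Pl l (ι ν) else 0) =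
        (81 : ℂ)⁻¹ * (((y ^ (2 * l.natAbs))⁻¹ : ℝ) : ℂ) * (Pl (-l) (ι D) ^ 2)⁻¹ *
          ∑ t ∈ res 9, ρ t * ∑' ν : O, tt (rep t (D % 9)) ν * ft D (dualChr D ψ) (-ν) *
            (Mk (nr D * y)⁻¹ (b1 * nr ν) : ℂ) * Pl (-l) (ι ν) := by
  have hD0 := hD.ne_zero
  have hιD : ι D ≠ 0 := fun h0 => hD0 (ι_injective (by rw [h0, map_zero]))
  have h9 := ThMarkA.cop_nine hD
  have hc : IsCoprime (81 : O) D := by
    rw [show (81 : O) = 9 ^ 2 by norm_num]; exact h9.symm.pow_left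
  obtain ⟨inv, hinv⟩ := O1_exists_inv hD0 hc
  choose ρ₀ hρ₀ hρ using fun t => tt_cusp t hD
  refine ⟨fun t => eq (-t) 3 * ρ₀ t * (conj (cub D 9) * dualChr D ψ 81), fun t => ?_,
    fun h1 t => ?_, fun l y hy0 => ?_⟩
  · rw [norm_mul, norm_mul, norm_mul, norm_eq, hρ₀, RCLike.norm_conj, norm_cub hD h9,
      (hψ.dual hD).norm _ hc]
    norm_num
  · subst h1
    have h2 := hρ t 0 (mkSL t (-1) 1 0 (by ring)) (by simp) (by simp) (by simp) 0
    obtain ⟨s1, -, s3, -⟩ := ThMarkA.SS_mul (mkSL t (-1) 1 0 (by ring))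
    rw [← Cusp.Cv_col (α := -1) (β := t) _ (by simpa using s1) (by simpa using s3)] at h2
    rw [h2, dualChr, hψ.per 81 1 (one_dvd _), hψ.O1_one]
    simp only [cub_one_left, map_one, one_mul, mul_one, mul_assoc]
  have hy1 : 0 < (nr D * y)⁻¹ := inv_pos.2 (mul_pos (nr_pos hD0) hy0)
  set K : ℂ := (((y ^ (2 * l.natAbs))⁻¹ : ℝ) : ℂ) * (Pl (-l) (ι D) ^ 2)⁻¹ with hK
  -- expansion of the left hand side
  have e1 : ∀ ν : O, (if (9 : O) ∣ ν - 3 then
        tt SS ν * ft D ψ ν * (Mk y (b1 * nr ν) : ℂ) * Pl l (ι ν) else 0) =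
      ∑ p ∈ res 9 ×ˢ res D, (81 : ℂ)⁻¹ * eq (-p.1) 3 * ψ p.2 * (tt SS ν * (Mk y (b1 * nr ν) : ℂ) *
        eC (ι ν * (ι (p.1 * D + 9 * p.2) / ι D) / 9) * Pl l (ι ν)) := fun ν => by
    have h1 : ∀ t a : O, eC (ι ν * (ι (t * D + 9 * a) / ι D) / 9) =
        eq (ν * t) 9 * eq (ν * a) D := fun t a => by
      unfold eq
      rw [← eC_add]
      congr 1
      simp only [map_add, map_mul, map_ofNat]
      field_simp
    rw [← boole_mul, ThMark.ind_eq, Finset.sum_product, Finset.mul_sum, Finset.sum_mul]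
    refine Finset.sum_congr rfl fun t _ => ?_
    rw [ft, Finset.mul_sum, Finset.sum_mul, Finset.sum_mul, Finset.mul_sum]
    refine Finset.sum_congr rfl fun a _ => ?_
    rw [h1]
    ring
  have e2 : ∀ t a : O, ψ a * TM SS l (ι (t * D + 9 * a) / ι D) y =
      ∑' ν : O, K * ρ₀ t * conj (cub D 9) * (conj (dualChr D ψ a) * (tt (rep t (D % 9)) ν *
        (Mk (nr D * y)⁻¹ (b1 * nr ν) : ℂ) * eq (-ν * inv a) D * Pl (-l) (ι ν))) := fun t a => by
    by_cases ha : IsCoprime a D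
    · obtain ⟨x, hx⟩ := (hinv a ha).2
      set σ : SL2 := mkSL (t * D + 9 * a) (9 * t * inv a + x) D (9 * inv a)
        (by linear_combination hx) with hσ
      have hv := voronoi_TM SS σ (by simpa [hσ] using hD0) l hy0
      simp only [hσ, mkSL_00, mkSL_10, mkSL_11] at hv
      rw [hv, TM, ← tsum_mul_left, ← tsum_mul_left]
      refine tsum_congr fun ν => ?_
      have h1 : eC (ι ν * (-ι (9 * inv a) / ι D) / 9) = eq (-ν * inv a) D := by
        unfold eq
        congr 1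
        simp only [map_mul, map_ofNat, map_neg]
        field_simp
      rw [hρ t a _ (by simp) (by simp) (by simp) ν, h1, dualChr, cub_mul_right, map_mul, map_mul,
        Complex.conj_conj]
      ring
    · simp [dualChr, hψ.zero a ha]
  have hs1 : ∀ p : O × O, Summable fun ν : O => (81 : ℂ)⁻¹ * eq (-p.1) 3 * ψ p.2 *
      (tt SS ν * (Mk y (b1 * nr ν) : ℂ) * eC (ι ν * (ι (p.1 * D + 9 * p.2) / ι D) / 9) *
        Pl l (ι ν)) := fun p =>
    (ThMark.summable_term SS l hy0 fun _ => norm_eC _).mul_left _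
  have hs2 : ∀ t a : O, Summable fun ν : O =>
      K * ρ₀ t * conj (cub D 9) * (conj (dualChr D ψ a) * (tt (rep t (D % 9)) ν *
        (Mk (nr D * y)⁻¹ (b1 * nr ν) : ℂ) * eq (-ν * inv a) D * Pl (-l) (ι ν))) := fun t a =>
    ((ThMark.summable_term _ (-l) hy1 fun _ => norm_eq _ _).mul_left _).mul_left _
  rw [tsum_congr e1, Summable.tsum_finsetSum fun p _ => hs1 p, Finset.sum_product,
    mul_assoc (81 : ℂ)⁻¹, ← hK, Finset.mul_sum]
  refine Finset.sum_congr rfl fun t _ => ?_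
  have e3 : ∀ a : O, (∑' ν : O, (81 : ℂ)⁻¹ * eq (-t) 3 * ψ a *
      (tt SS ν * (Mk y (b1 * nr ν) : ℂ) * eC (ι ν * (ι (t * D + 9 * a) / ι D) / 9) *
        Pl l (ι ν))) = (81 : ℂ)⁻¹ * eq (-t) 3 * (ψ a * TM SS l (ι (t * D + 9 * a) / ι D) y) :=
    fun a => by rw [tsum_mul_left, TM, mul_assoc]
  simp only [e3, e2]
  rw [← Finset.mul_sum, ← Summable.tsum_finsetSum fun a _ => hs2 t a, ← tsum_mul_left,
    ← tsum_mul_left, ← tsum_mul_left]
  refine tsum_congr fun ν => ?_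
  have e4 := O1_sum_inv hD0 (hψ.dual hD) hinv fun x => eq (-ν * x) D
  unfold ft
  calc _ = (81 : ℂ)⁻¹ * eq (-t) 3 * (K * ρ₀ t * conj (cub D 9)) * (tt (rep t (D % 9)) ν *
        (Mk (nr D * y)⁻¹ (b1 * nr ν) : ℂ) * Pl (-l) (ι ν)) *
        ∑ a ∈ res D, conj (dualChr D ψ a) * eq (-ν * inv a) D := by
        rw [Finset.mul_sum, Finset.mul_sum]
        exact Finset.sum_congr rfl fun a _ => by ring
    _ = _ := by
        rw [e4]
        ring

theorem isChr_cub_cube {D : O} (hD : Primary D) : IsChr D fun a => cub D a ^ 3 :=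
  ⟨fun x y => by rw [cub_mul_right, mul_pow], fun x y h => by rw [KubC1.cub_congr' h],
    fun x hx => by rw [(cub_eq_zero_iff hD).2 fun h => hx h.symm, zero_pow three_ne_zero],
    fun x hx => by rw [norm_pow, norm_cub hD hx.symm, one_pow]⟩

theorem ThMark.cube_eq {D : O} (hD : Primary D) (a : O) : cub D a ^ 3 = E2.ind D a := by
  unfold E2.ind
  split_ifs with h
  · exact cub_pow_three hD h
  · rw [(cub_eq_zero_iff hD).2 h, zero_pow three_ne_zero]

open Classical in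
theorem ThMark.ft_prime {p : O} (hp : Prime p) (hp' : Primary p) (x : O) :
    1 + ft p (fun a => cub p a ^ 3) x = if p ∣ x then (nm p : ℂ) else 0 := by
  rw [← sum_res_eq_char hp.ne_zero, ft]
  have h1 := Cusp.sum_delta hp (f := fun a => eq (x * a) p)
    fun a b h => eq_congr (by rw [← mul_sub]; exact h.mul_left x)
  simp only [mul_zero, eq_zero_left] at h1
  rw [← h1, ← Finset.sum_add_distrib]
  refine Finset.sum_congr rfl fun a _ => ?_
  rw [ThMark.cube_eq hp', E2.ind]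
  by_cases h : p ∣ a
  · rw [if_pos h, if_neg fun h' => hp.coprime_iff_not_dvd.1 h' h, zero_mul, add_zero]
  · rw [if_neg h, if_pos (hp.coprime_iff_not_dvd.2 h), one_mul, zero_add]

theorem ThMark.ft_prod {S : Finset O} (hS : ∀ p ∈ S, Prime p ∧ Primary p) (x : O) :
    ft (∏ p ∈ S, p) (fun a => cub (∏ p ∈ S, p) a ^ 3) x =
      ∏ p ∈ S, ft p (fun a => cub p a ^ 3) x := by
  classical
  induction S using Finset.induction_on with
  | empty =>
    have := gc_one x
    simpa [gc, ft] using this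
  | insert q S hq ih =>
    have hS' : ∀ p ∈ S, Prime p ∧ Primary p := fun p hp => hS p (Finset.mem_insert_of_mem hp)
    obtain ⟨h1, h2⟩ := hS q (Finset.mem_insert_self _ _)
    have h3 := (squarefree_prod_primes hS').2.1
    have hc : IsCoprime q (∏ p ∈ S, p) := IsCoprime.prod_right fun p hp =>
      h1.coprime_iff_not_dvd.2 fun hd =>
        hq (BasicB.eq_of_dvd h1 (hS' p hp).1 h2 (hS' p hp).2 hd ▸ hp)
    rw [Finset.prod_insert hq, Finset.prod_insert hq, ← ih hS']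
    simp only [cub_mul_left h1.ne_zero h3.ne_zero, mul_pow]
    rw [(isChr_cub_cube h2).ft_mul h1.ne_zero h3.ne_zero hc (isChr_cub_cube h3),
      cub_pow_three h2 hc, cub_pow_three h3 hc.symm, one_mul, one_mul]

open Classical in
/-- Compare `mark_eq_sum` (here `z` may be even). -/
theorem mark_eq {z : O} (hz : Primary z) (hs : Squarefree z) (x : O) :
    (if z ∣ x then 1 else 0 : ℂ) =
      (((nr z)⁻¹ : ℝ) : ℂ) * ∑ za ∈ pdiv z, ft za (fun a => cub za a ^ 3) x := by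
  have hP : ∀ p ∈ pf z, Prime p ∧ Primary p := fun p hp => BasicB.pf_sub hp
  have hr : ∏ p ∈ pf z, p = z := hz.eq_rad hs
  have h1 : ∑ za ∈ pdiv z, ft za (fun a => cub za a ^ 3) x =
      ∏ p ∈ pf z, (1 + ft p (fun a => cub p a ^ 3) x) := by
    rw [O2_sum_pdiv hz hs, Finset.prod_one_add]
    exact Finset.sum_congr rfl fun S hS =>
      ThMark.ft_prod (fun p hp => hP p (Finset.mem_powerset.1 hS hp)) x
  rw [h1, Finset.prod_congr rfl fun p hp => ThMark.ft_prime (hP p hp).1 (hP p hp).2 x]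
  split_ifs with hx
  · rw [Finset.prod_congr rfl fun p hp => if_pos ((BasicB.of_mem_pf hp).2.2.trans hx),
      ← Nat.cast_prod, ← nm_prod, hr]
    have h3 : (nm z : ℂ) = ((nr z : ℝ) : ℂ) := by simp [nr]
    rw [h3, ← Complex.ofReal_mul, inv_mul_cancel₀ (nr_pos hz.ne_zero).ne', Complex.ofReal_one]
  · obtain ⟨p, hp, hpx⟩ : ∃ p ∈ pf z, ¬ p ∣ x := by
      by_contra! H
      refine hx (hr ▸ Finset.prod_dvd_of_coprime (fun p hp q hq hpq => ?_) H)
      exact (hP p hp).1.coprime_iff_not_dvd.2 fun hd =>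
        hpq (BasicB.eq_of_dvd (hP p hp).1 (hP q hq).1 (hP p hp).2 (hP q hq).2 hd)
    rw [Finset.prod_eq_zero hp (if_neg hpx), mul_zero]

theorem ft_dual_cube {D : O} (hD : Primary D) (hs : Squarefree D) (ν : O) :
    ft D (dualChr D fun a => cub D a ^ 3) (-ν) = gc D 1 * conj (cub D ν) := by
  have h1 : (dualChr D fun a => cub D a ^ 3) = cub D := by
    funext a
    rw [dualChr, ThMark.cube_eq hD, E2.ind]
    split_ifs with h
    · simp
    · rw [(cub_eq_zero_iff hD).2 h, mul_zero]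
  rw [h1]
  change gc D (-ν) = _
  rw [gc_sqfree hD hs, ← neg_one_mul ν, cub_mul_right, cub_neg_one, one_mul, mul_comm]

end Crest.Agent.R12
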