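import Crest.Agent.R12.ThSB

/-!
# Row 12, theta half: the coefficients at the cusp `0`
-/

set_option autoImplicit false

noncomputable section

namespace Crest.Agent.R12

open Crest.Agent.R17
open scoped ComplexConjugate Topology
open Filter MeasureTheory

theorem ThS_div {m d : O} (hd : Primary d) : m * d ^ 3 / d ^ 3 = m :=
  mul_div_cancel_right₀ m (hd.pow 3).ne_zero

open Classical in
theorem ThS_supp {r : O} (hr : r ≠ 0) (h : pf r = ∅) {n d : O}
    (hT : (if Primary d ∧ d ^ 3 ∣ n then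
      (1 : ℂ) * ((nr d ^ 2 : ℝ) : ℂ) * conj (Gx (xis SS) r (n / d ^ 3)) else 0) ≠ 0) :
    ∃ m, Primary m ∧ Squarefree m ∧ Primary d ∧ n = m * d ^ 3 := by
  by_cases h1 : Primary d ∧ d ^ 3 ∣ n
  · rw [if_pos h1] at hT
    obtain ⟨hd, m, rfl⟩ := h1
    rw [mul_comm (d ^ 3) m, ThS_div hd, Gx_SS] at hT
    have hm : Primary m := by
      by_contra hm
      simp [hm] at hT
    refine ⟨m, hm, ?_, hd, mul_comm _ _⟩
    by_contra hs
    simp [gc_eq_zero hm hs (K2_coprime hr h hm)] at hT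
  · exact absurd (if_neg h1) hT

open Classical in
/-- The coefficients of a class `r` are a cube convolution of the defining Gauss sums. -/
theorem tt_SS_conv {r : O} (hr : r ≠ 0) (h : pf r = ∅) (n : O) :
    (if Primary n then tt SS (r * n) * ((nr n ^ (2 / 3 : ℝ) : ℝ) : ℂ) else 0) =
      tt SS r * conv3 (fun _ => 1) (fun c => conj (Gx (xis SS) r c)) n := by
  unfold conv3
  beta_reduce
  by_cases hn : ∃ m d, Primary m ∧ Squarefree m ∧ Primary d ∧ n = m * d ^ 3
  · obtain ⟨m, d, hm, hs, hd, rfl⟩ := hn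
    rw [tsum_eq_single d fun d' hd' => ?_]
    · have hM := nr_pos hm.ne_zero
      have e : nr m ^ (-(2 / 3 : ℝ)) * nr (m * d ^ 3) ^ (2 / 3 : ℝ) = nr d ^ 2 := by
        rw [nr_mul, nr_pow, Real.mul_rpow hM.le (by positivity), ← mul_assoc, ← Real.rpow_add hM,
          ← Real.rpow_natCast (nr d) 3, ← Real.rpow_mul (Nat.cast_nonneg _),
          ← Real.rpow_natCast (nr d) 2]
        norm_num
      rw [if_pos (hm.mul (hd.pow 3)), if_pos ⟨hd, dvd_mul_left _ _⟩, ThS_div hd, Gx_SS, if_pos hm,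
        Complex.conj_conj, tt_SS_full hr h hm hs hd, ← e, Complex.ofReal_mul]
      ring
    · by_contra hT
      obtain ⟨m', hm', hs', hd'', e⟩ := ThS_supp hr h hT
      exact hd' (by rw [← (sq1_cu hm' hs' hd'').2.1, ← e, (sq1_cu hm hs hd).2.1])
  · rw [tsum_congr (g := fun _ => 0) fun d => ?_, tsum_zero, mul_zero]
    · split_ifs with hp
      · refine mul_eq_zero_of_left ?_ _
        by_contra h0
        obtain ⟨e, hm, hs, hd⟩ := eq_sq1_mul_cu hp (K2_mod hr h hp (by rwa [mul_comm]))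
        exact hn ⟨_, _, hm, hs, hd, e⟩
      · rfl
    · by_contra hT
      obtain ⟨m, hm⟩ := ThS_supp hr h hT
      exact hn ⟨m, d, hm⟩

end Crest.Agent.R12
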