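import Crest.Agent.R12.ThVor
import Crest.Agent.R12.ThS

/-!
# Row 12, theta half: the twisted Voronoi formula at the cusp `0`
-/

set_option autoImplicit false

noncomputable section

namespace Crest.Agent.R12

open Crest.Agent.R17
open scoped ComplexConjugate Topology
open Filter MeasureTheory

theorem ThMarkA.cop_nine {c : O} (hc : Primary c) : IsCoprime c 9 := by
  rw [show (9 : O) = 3 ^ 2 by norm_num]
  exact hc.isCoprime_three.pow_right

theorem ThMarkA.SS_mul (σ : SL2) : (SS * σ) 0 0 = -σ 1 0 ∧ (SS * σ) 0 1 = -σ 1 1 ∧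
    (SS * σ) 1 0 = σ 0 0 ∧ (SS * σ) 1 1 = σ 0 1 := by
  simp [KubC1.mul_apply, SS]

theorem ThMarkA.primary_mod {D : O} (hD : Primary D) : Primary (D % 9) :=
  KubC1.primary_congr hD (dvd_sub_mod' D 9)

/-- Representatives: `(t c, *; c, 0)` modulo `9`. -/
theorem exists_rep (t c : O) : ∃ σ : SL2, Primary c →
    (9 : O) ∣ σ 0 0 - t * c ∧ (9 : O) ∣ σ 1 0 - c ∧ (9 : O) ∣ σ 1 1 := by
  by_cases hc : Primary c
  · obtain ⟨x, y, hxy⟩ := ThMarkA.cop_nine hc
    obtain ⟨τ, h0, -, h2, h3⟩ := KubC2.lift (M := 9) (a := t * c) (b := -x) (c := c) (d := 0)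
      (k := -y) (by norm_num) (by linear_combination hxy)
    exact ⟨τ, fun _ => ⟨h0, h2, by simpa using h3⟩⟩
  · exact ⟨1, fun h => absurd h hc⟩

/-- A choice of representatives. -/
def rep (t c : O) : SL2 := SS * (exists_rep t c).choose

/-- The coefficients at the cusp `(t D + 9 a) / D` (`kap_mul_Jc`, `tt_mul_Gam`):
the dependence on `a` is through `conj (9a / D)₃` only. -/
theorem tt_cusp (t : O) {D : O} (hD : Primary D) : ∃ ρ : ℂ, ‖ρ‖ = 1 ∧
    ∀ (a : O) (σ : SL2), σ 0 0 = t * D + 9 * a → σ 1 0 = D → (9 : O) ∣ σ 1 1 →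
      ∀ ν, tt (SS * σ) ν = conj (cub D (9 * a)) * ρ * tt (rep t (D % 9)) ν := by
  obtain ⟨h0, h1, h2⟩ := (exists_rep t (D % 9)).choose_spec (ThMarkA.primary_mod hD)
  set τ := (exists_rep t (D % 9)).choose with hτ
  have hm := dvd_sub_mod' D 9
  have hJ : ‖Jc (rep t (D % 9) 0 0) (rep t (D % 9) 1 0)‖ = 1 := norm_Jc (KubC1.isCoprime_col _)
  -- the common part
  have key : ∀ (a : O) (σ : SL2), σ 0 0 = t * D + 9 * a → σ 1 0 = D → (9 : O) ∣ σ 1 1 →
      ∀ ν, tt (SS * σ) ν = Jc (-D) (t * D + 9 * a) *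
        conj (Jc (rep t (D % 9) 0 0) (rep t (D % 9) 1 0)) * tt (rep t (D % 9)) ν := by
    intro a σ e0 e1 e2 ν
    have c00 : (9 : O) ∣ σ 0 0 - τ 0 0 := by
      have := ((hm.mul_left t).sub h0).add (dvd_mul_right 9 a)
      rw [e0]; convert this using 1; ring
    have c10 : (9 : O) ∣ σ 1 0 - τ 1 0 := by
      have := hm.sub h1
      rw [e1]; convert this using 1; ring
    have c11 : (9 : O) ∣ σ 1 1 - τ 1 1 := e2.sub h2
    have c01 : (9 : O) ∣ σ 0 1 - τ 0 1 := by
      refine (ThMarkA.cop_nine hD).symm.dvd_of_dvd_mul_left ?_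
      have d1 := σ.det_eq
      have d2 := τ.det_eq
      have := ((e2.mul_left (σ 0 0)).sub (h2.mul_left (τ 0 0))).sub (c10.mul_left (τ 0 1))
      convert this using 1
      rw [e1] at d1 ⊢
      linear_combination d2 - d1
    obtain ⟨s1, s2, s3, s4⟩ := ThMarkA.SS_mul σ
    obtain ⟨r1, r2, r3, r4⟩ := ThMarkA.SS_mul τ
    have hc : Cong 9 (SS * σ) (rep t (D % 9)) := by
      intro i j
      change (9 : O) ∣ (SS * σ) i j - (SS * τ) i j
      fin_cases i <;> fin_cases j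
      · change (9 : O) ∣ (SS * σ) 0 0 - (SS * τ) 0 0
        rw [s1, r1]; convert c10.neg_right using 1; ring
      · change (9 : O) ∣ (SS * σ) 0 1 - (SS * τ) 0 1
        rw [s2, r2]; convert c11.neg_right using 1; ring
      · change (9 : O) ∣ (SS * σ) 1 0 - (SS * τ) 1 0
        rw [s3, r3]; exact c00
      · change (9 : O) ∣ (SS * σ) 1 1 - (SS * τ) 1 1
        rw [s4, r4]; exact c01
    have hk := kap_mul_Jc hc
    rw [s1, s3, e0, e1] at hk
    have h5 := tt_mul_Gam hc.mul_inv_mem (rep t (D % 9)) ν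
    rw [inv_mul_cancel_right] at h5
    rw [h5, ← hk, mul_assoc (kap _), mul_comm (Jc _ _), Gauss_conj_mul hJ, mul_one]
  by_cases hl : lam ∣ t
  · refine ⟨conj (Jc (rep t (D % 9) 0 0) (rep t (D % 9) 1 0)), by rw [RCLike.norm_conj, hJ],
      fun a σ e0 e1 e2 ν => ?_⟩
    rw [key a σ e0 e1 e2 ν, Jc, if_pos ((hl.mul_right D).add (KubC1.lam_dvd_nine.mul_right a)),
      ← neg_one_mul D, cub_unit_mul_left isUnit_one.neg,
      KubC1.cub_congr' (n := D) (a := t * D + 9 * a) (b := 9 * a) ⟨t, by ring⟩]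
  · obtain ⟨u, hu, hut⟩ := exists_unit_primary hl
    have hcu : ‖cub D u‖ = 1 := norm_cub hD (by
      obtain ⟨v, rfl⟩ := hu
      exact ⟨0, v⁻¹.1, by simp⟩)
    refine ⟨conj (cub D u) * conj (Jc (rep t (D % 9) 0 0) (rep t (D % 9) 1 0)),
      by rw [norm_mul, RCLike.norm_conj, RCLike.norm_conj, hJ, hcu, one_mul],
      fun a σ e0 e1 e2 ν => ?_⟩
    have hp : Primary (u * (t * D + 9 * a)) := by
      have := KubC1.primary_add (hut.mul hD) (dvd_mul_right 9 (u * a))
      convert this using 1; ring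
    have hn : ¬ lam ∣ t * D + 9 * a := fun h => hp.not_lam_dvd (h.mul_left u)
    rw [key a σ e0 e1 e2 ν, Jc, if_neg hn, ← neg_one_mul D, cub_mul_right, cub_neg_one, one_mul,
      ← cub_unit_mul_left hu, cub_recip hp hD, cub_mul_right,
      KubC1.cub_congr' (n := D) (a := t * D + 9 * a) (b := 9 * a) ⟨t, by ring⟩, map_mul]
    ring

end Crest.Agent.R12
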