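import Crest.Agent.R12.ThMelA

/-!
# Row 12, theta half: from a theta relation to the functional equation
-/

set_option autoImplicit false

noncomputable section

namespace Crest.Agent.R12

open Crest.Agent.R17
open scoped ComplexConjugate Topology
open Filter MeasureTheory

theorem thMel_rpow_le {A p q x : ℝ} (hA : 0 < A) (h1 : p ≤ x) (h2 : x ≤ q) :
    A ^ x ≤ A ^ p + A ^ q := by
  have p1 := Real.rpow_pos_of_pos hA p
  have p2 := Real.rpow_pos_of_pos hA q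
  rcases le_total 1 A with h | h
  · have := Real.rpow_le_rpow_of_exponent_le h h2
    linarith
  · have := Real.rpow_le_rpow_of_exponent_ge hA h h1
    linarith

theorem thMel_diff {φ : ℝ → ℝ} {G Gi : ℂ → ℂ} (hP : Prof φ G Gi) (δ : ℝ) {A : ℝ} (hA : 0 < A) :
    Differentiable ℂ fun s : ℂ => (A : ℂ) ^ (s + δ) * Gi (s + δ) := fun s =>
  ((differentiableAt_id.add_const _).const_cpow
    (Or.inl (Complex.ofReal_ne_zero.2 hA.ne'))).mul
    ((hP.diff.comp (differentiable_id.add_const (δ : ℂ))) s)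

theorem thMel_growth {φ : ℝ → ℝ} {G Gi : ℂ → ℂ} (hP : Prof φ G Gi) (δ : ℝ) {A : ℝ} (hA : 0 < A)
    (p q : ℝ) : ∃ C : ℝ, ∀ s : ℂ, p ≤ s.re → s.re ≤ q →
      ‖(A : ℂ) ^ (s + δ) * Gi (s + δ)‖ ≤ C * Real.exp (8 * |s.im|) := by
  obtain ⟨C, hC⟩ := hP.growth (p + δ) (q + δ)
  refine ⟨(A ^ (p + δ) + A ^ (q + δ)) * C, fun s h1 h2 => ?_⟩
  have e1 : (s + δ).re = s.re + δ := by simp
  have e2 : (s + δ).im = s.im := by simp
  have h3 := hC (s + δ) (by rw [e1]; linarith) (by rw [e1]; linarith)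
  rw [e2] at h3
  rw [norm_mul, Complex.norm_cpow_eq_rpow_re_of_pos hA, e1, mul_assoc]
  have h4 := thMel_rpow_le hA (show p + δ ≤ s.re + δ by linarith) (show s.re + δ ≤ q + δ by linarith)
  exact mul_le_mul h4 h3 (norm_nonneg _) ((Real.rpow_pos_of_pos hA _).le.trans h4)

theorem thMel_mellin_sum {J : Type} (S : Finset J) (ω : J → ℂ) (f : J → ℝ → ℂ) {w : ℂ}
    (hf : ∀ j ∈ S, MellinConvergent (f j) w) :
    mellin (fun x => ∑ j ∈ S, ω j * f j x) w = ∑ j ∈ S, ω j * mellin (f j) w := by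
  simp only [mellin, smul_eq_mul, Finset.mul_sum]
  rw [integral_finsetSum]
  · refine Finset.sum_congr rfl fun j _ => ?_
    rw [← integral_const_mul]
    exact integral_congr_ae (Eventually.of_forall fun x => by ring)
  · intro j hj
    have := (hf j hj).const_mul (ω j)
    refine this.congr (Eventually.of_forall fun x => ?_)
    simp only [smul_eq_mul]
    ring

theorem thMel_decay {Φ L : ℂ → ℂ} (hΦ : StripDecay Φ)
    (hL : ∀ p q : ℝ, ∃ C : ℝ, ∀ s : ℂ, p ≤ s.re → s.re ≤ q → ‖L s‖ ≤ C * Real.exp (8 * |s.im|))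
    (p q : ℝ) : ∃ C : ℝ, 0 ≤ C ∧ ∀ s ∈ strip p q, ‖Φ s * L s‖ ≤ C * Real.exp (-2 * |s.im|) := by
  obtain ⟨C, hC⟩ := hΦ.2 p q
  obtain ⟨D, hD⟩ := hL p q
  refine ⟨|C| * |D|, by positivity, fun s hs => ?_⟩
  have h1 := (hC s hs.1 hs.2).trans (mul_le_mul_of_nonneg_right (le_abs_self C) (Real.exp_pos _).le)
  have h2 := (hD s hs.1 hs.2).trans (mul_le_mul_of_nonneg_right (le_abs_self D) (Real.exp_pos _).le)
  rw [norm_mul]
  calc _ ≤ (|C| * Real.exp (-10 * |s.im|)) * (|D| * Real.exp (8 * |s.im|)) :=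
        mul_le_mul h1 h2 (norm_nonneg _) (by positivity)
    _ = |C| * |D| * (Real.exp (-10 * |s.im|) * Real.exp (8 * |s.im|)) := by ring
    _ = _ := by rw [← Real.exp_add]; congr 2; ring

theorem thMel_exp_le (y : ℝ) : (1 + |y|) * Real.exp (-2 * |y|) ≤ 2 / (1 + y ^ 2) := by
  have h0 := abs_nonneg y
  have h1 : 1 + |y| ≤ Real.exp |y| := by linarith [Real.add_one_le_exp |y|]
  have h2 : 1 + y ^ 2 ≤ 2 * Real.exp |y| := by
    have := Real.quadratic_le_exp_of_nonneg h0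
    rw [sq_abs] at this
    linarith
  have h3 : Real.exp |y| * Real.exp |y| * Real.exp (-2 * |y|) = 1 := by
    rw [← Real.exp_add, ← Real.exp_add, ← Real.exp_zero]
    congr 1
    ring
  rw [le_div_iff₀ (by positivity)]
  calc (1 + |y|) * Real.exp (-2 * |y|) * (1 + y ^ 2)
      ≤ Real.exp |y| * Real.exp (-2 * |y|) * (2 * Real.exp |y|) := by gcongr
    _ = 2 * (Real.exp |y| * Real.exp |y| * Real.exp (-2 * |y|)) := by ring
    _ = 2 := by rw [h3, mul_one]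

theorem thMel_lor {C x y : ℝ} (hC : 0 ≤ C) (h : x ≤ C * Real.exp (-2 * |y|)) :
    x ≤ 2 * C / (1 + y ^ 2) := by
  have h1 := thMel_exp_le y
  have h2 : Real.exp (-2 * |y|) ≤ (1 + |y|) * Real.exp (-2 * |y|) :=
    le_mul_of_one_le_left (Real.exp_pos _).le (by linarith [abs_nonneg y])
  calc x ≤ C * (2 / (1 + y ^ 2)) := h.trans (mul_le_mul_of_nonneg_left (h2.trans h1) hC)
    _ = _ := by ring

theorem thMel_shift {F₁ F₂ : ℂ → ℂ} {σ₀ σ₁ ρ C₁ C₂ : ℝ} (h01 : σ₀ ≤ σ₁) (d₁ : Differentiable ℂ F₁)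
    (d₂ : Differentiable ℂ F₂) (hC₁ : 0 ≤ C₁) (hC₂ : 0 ≤ C₂)
    (b₁ : ∀ s ∈ strip σ₀ σ₁, ‖F₁ s‖ ≤ C₁ * Real.exp (-2 * |s.im|))
    (b₂ : ∀ s ∈ strip σ₀ σ₁, ‖F₂ s‖ ≤ C₂ * Real.exp (-2 * |s.im|))
    (h : F₂ = 0 ∨ (σ₀ < ρ ∧ ρ < σ₁)) :
    ∫ u : ℝ, (F₁ (σ₁ + u * Complex.I) + F₂ (σ₁ + u * Complex.I) / (σ₁ + u * Complex.I - ρ)) =
      (∫ u : ℝ, (F₁ (σ₀ + u * Complex.I) + F₂ (σ₀ + u * Complex.I) / (σ₀ + u * Complex.I - ρ))) +
        2 * Real.pi * F₂ ρ := by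
  rcases h with rfl | ⟨h0, h1⟩
  · simp only [Pi.zero_apply, zero_div, add_zero, mul_zero]
    exact contour_shift (T := 0) h01 d₁.differentiableOn fun w hw _ => thMel_lor hC₁ (b₁ w hw)
  · have hd : Differentiable ℂ fun s : ℂ => (s - ρ) * F₁ s + F₂ s :=
      ((differentiable_id.sub_const _).mul d₁).add d₂
    have hb : ∀ w ∈ strip σ₀ σ₁, (0 : ℝ) ≤ |w.im| → ‖(w - ρ) * F₁ w + F₂ w‖ ≤
        (2 * ((σ₁ - σ₀ + 1) * C₁) + 2 * C₂) / (1 + w.im ^ 2) := by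
      intro w hw _
      have n1 : ‖w - ρ‖ ≤ (σ₁ - σ₀ + 1) * (1 + |w.im|) := by
        have := Complex.norm_le_abs_re_add_abs_im (w - ρ)
        have e : |(w - ρ).re| ≤ σ₁ - σ₀ := by
          simp only [Complex.sub_re, Complex.ofReal_re]
          rw [abs_le]
          constructor <;> linarith [hw.1, hw.2]
        have e' : (w - ρ).im = w.im := by simp
        rw [e'] at this
        nlinarith [abs_nonneg w.im]
      have n2 : ‖(w - ρ) * F₁ w‖ ≤ 2 * ((σ₁ - σ₀ + 1) * C₁) / (1 + w.im ^ 2) := by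
        have hp : 0 ≤ σ₁ - σ₀ + 1 := by linarith
        rw [norm_mul]
        calc _ ≤ ((σ₁ - σ₀ + 1) * (1 + |w.im|)) * (C₁ * Real.exp (-2 * |w.im|)) :=
              mul_le_mul n1 (b₁ w hw) (norm_nonneg _) (by positivity)
          _ = ((σ₁ - σ₀ + 1) * C₁) * ((1 + |w.im|) * Real.exp (-2 * |w.im|)) := by ring
          _ ≤ ((σ₁ - σ₀ + 1) * C₁) * (2 / (1 + w.im ^ 2)) :=
              mul_le_mul_of_nonneg_left (thMel_exp_le _) (by positivity)
          _ = _ := by ring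
      rw [add_div]
      exact (norm_add_le _ _).trans (add_le_add n2 (thMel_lor hC₂ (b₂ w hw)))
    have key := contour_shift_pole (ρ := (ρ : ℂ)) (by simpa using h0) (by simpa using h1)
      hd.differentiableOn hb
    have e : ∀ σ : ℝ, σ ≠ ρ → ∀ u : ℝ,
        (((σ : ℂ) + u * Complex.I - ρ) * F₁ (σ + u * Complex.I) + F₂ (σ + u * Complex.I)) /
          (σ + u * Complex.I - ρ) =
        F₁ (σ + u * Complex.I) + F₂ (σ + u * Complex.I) / (σ + u * Complex.I - ρ) := by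
      intro σ hσ u
      have : (σ : ℂ) + u * Complex.I - ρ ≠ 0 := fun h =>
        hσ (by simpa [sub_eq_zero] using congrArg Complex.re h)
      field_simp
    simp only [e σ₀ h0.ne, e σ₁ h1.ne', sub_self, zero_mul, zero_add] at key
    exact key

/-- **Functional equation** (Mathlib's `WeakFEPair` with `k = 1 + 2δ`, `ε = 1`, `f₀ = 0`;
`L₀ s = A^{s+δ} Gi(s+δ) Λ₀(s+δ)`, `LBB.Λ₀_bounded`; if `g₀ = 0` use `IsStrongFEPair.hasMellin`). -/
theorem fe_abs {φ : ℝ → ℝ} {G Gi : ℂ → ℂ} (hP : Prof φ G Gi) {δ : ℝ} (hδ : -(1 / 6) ≤ δ)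
    {J : Type} (S : Finset J) {a : O → ℂ} {b : J → O → ℂ} {H : ℝ} (ha : PolyB a H (1 / 6))
    {H' : J → ℝ} (hb : ∀ j ∈ S, PolyB (b j) (H' j) (1 / 6)) {A : ℝ} (hA : 0 < A) {B : J → ℝ}
    (hB : ∀ j ∈ S, 0 < B j) (ω : J → ℂ) {g₀ : ℂ} (hg : g₀ = 0 ∨ δ ≤ 0)
    (h : ∀ x : ℝ, 0 < x → thS φ a δ A x⁻¹ =
      ((x ^ (1 + 2 * δ) : ℝ) : ℂ) * (g₀ + ∑ j ∈ S, ω j * thS φ (b j) δ (B j) x)) :
    ∃ L₀ : ℂ → ℂ, Differentiable ℂ L₀ ∧
      (∀ p q : ℝ, ∃ C : ℝ, ∀ s : ℂ, p ≤ s.re → s.re ≤ q → ‖L₀ s‖ ≤ C * Real.exp (8 * |s.im|)) ∧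
      (∀ s : ℂ, 7 / 6 < s.re →
        Dser a s = L₀ s + g₀ * (A : ℂ) ^ (s + δ) * Gi (s + δ) / (s - (1 + δ))) ∧
      ∀ t : ℂ, 7 / 6 < t.re →
        L₀ (1 - t) + g₀ * (A : ℂ) ^ (1 - t + δ) * Gi (1 - t + δ) / (1 - t - (1 + δ)) =
          ∑ j ∈ S, ω j * ((A : ℂ) ^ (1 - t + δ) * Gi (1 - t + δ) * G (t + δ) *
            (B j : ℂ) ^ (-(t + δ)) * Dser (b j) t) := by
  have hk : 0 < 1 + 2 * δ := by linarith
  let P : WeakFEPair ℂ :=
    { f := thS φ a δ A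
      g := fun x => g₀ + ∑ j ∈ S, ω j * thS φ (b j) δ (B j) x
      k := 1 + 2 * δ
      ε := 1
      f₀ := 0
      g₀ := g₀
      hf_int := (continuousOn_thS hP ha hA).locallyIntegrableOn measurableSet_Ioi
      hg_int := (continuousOn_const.add (continuousOn_finsetSum _ fun j hj =>
        continuousOn_const.mul (continuousOn_thS hP (hb j hj) (hB j hj)))).locallyIntegrableOn
        measurableSet_Ioi
      hk := hk
      hε := one_ne_zero
      h_feq := fun x hx => by rw [one_div, h x hx, one_mul, smul_eq_mul]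
      hf_top := fun r => by simpa only [sub_zero] using isBigO_thS hP ha hA r
      hg_top := fun r => by
        simp only [add_sub_cancel_left]
        exact Asymptotics.IsBigO.fun_sum fun j hj =>
          (isBigO_thS hP (hb j hj) (hB j hj) r).const_mul_left _ }
  have hA0 : ∀ w : ℂ, (A : ℂ) ^ w ≠ 0 := fun w => by
    rw [Ne, Complex.cpow_eq_zero_iff, not_and_or]
    exact Or.inl (Complex.ofReal_ne_zero.2 hA.ne')
  have hΛ : ∀ w : ℂ, P.Λ w = P.Λ₀ w + g₀ / (w - (1 + 2 * δ)) := fun w => by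
    have e : ((P.k : ℝ) : ℂ) = 1 + 2 * δ := by simp [P]
    rw [WeakFEPair.Λ, e, ← neg_sub w, div_neg]
    simp only [P, smul_eq_mul]
    ring
  have m1 : ∀ s : ℂ, 7 / 6 < s.re → P.Λ (s + δ) = mellin (thS φ a δ A) (s + δ) := by
    intro s hs
    rcases hg with hg | hg
    · exact ((IsStrongFEPair.mk (P := P) rfl hg).hasMellin _).2.symm
    · have := (P.hasMellin (s := s + δ) (by simp [P]; linarith)).2
      simpa only [P, sub_zero] using this.symm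
  have m2 : ∀ s : ℂ, 7 / 6 < s.re → P.symm.Λ (s + δ) =
      mellin (fun x => ∑ j ∈ S, ω j * thS φ (b j) δ (B j) x) (s + δ) := by
    intro s hs
    rcases hg with hg | hg
    · have := ((IsStrongFEPair.mk (P := P) rfl hg).symm.hasMellin (s + δ)).2
      rw [← this]
      simp only [P, WeakFEPair.symm, hg, zero_add]
    · have := (P.symm.hasMellin (s := s + δ) (by simp [P]; linarith)).2
      rw [← this]
      simp only [P, WeakFEPair.symm, add_sub_cancel_left]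
  refine ⟨fun s => (A : ℂ) ^ (s + δ) * Gi (s + δ) * P.Λ₀ (s + δ), (thMel_diff hP δ hA).mul
    (P.differentiable_Λ₀.comp (differentiable_id.add_const _)), fun p q => ?_, fun s hs => ?_,
    fun t ht => ?_⟩
  · obtain ⟨C, hC⟩ := thMel_growth hP δ hA p q
    obtain ⟨D, hD⟩ := LBB.Λ₀_bounded P (p + δ) (q + δ)
    refine ⟨C * D, fun s h1 h2 => ?_⟩
    have h3 := hC s h1 h2
    have h4 := hD (s + δ) (by simpa using h1) (by simpa using h2)
    rw [norm_mul]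
    calc _ ≤ (C * Real.exp (8 * |s.im|)) * D :=
          mul_le_mul h3 h4 (norm_nonneg _) ((norm_nonneg _).trans h3)
      _ = _ := by ring
  · have e1 := m1 s hs
    rw [(mellin_thS hP ha hA hδ hs).2, hΛ, Complex.cpow_neg] at e1
    have e2 := hP.inv (s + δ) (by simp; linarith)
    have e3 := mul_inv_cancel₀ (hA0 (s + δ))
    have e4 : s + δ - (1 + 2 * δ) = s - (1 + δ) := by ring
    rw [e4] at e1
    linear_combination (-((A : ℂ) ^ (s + δ) * Gi (s + δ))) * e1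
      - (Dser a s * (A : ℂ) ^ (s + δ) * ((A : ℂ) ^ (s + δ))⁻¹) * e2 - Dser a s * e3
  · have e1 := P.functional_equation (t + δ)
    have e2 : ((P.k : ℝ) : ℂ) - (t + δ) = 1 - t + δ := by simp only [P]; push_cast; ring
    have e4 : 1 - t + δ - (1 + 2 * δ) = 1 - t - (1 + δ) := by ring
    rw [e2, m2 t ht, hΛ, thMel_mellin_sum S ω _ fun j hj =>
      (mellin_thS hP (hb j hj) (hB j hj) hδ ht).1, e4] at e1
    have e3 : ∑ j ∈ S, ω j * ((A : ℂ) ^ (1 - t + δ) * Gi (1 - t + δ) * G (t + δ) *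
          (B j : ℂ) ^ (-(t + δ)) * Dser (b j) t) = (A : ℂ) ^ (1 - t + δ) * Gi (1 - t + δ) *
          ∑ j ∈ S, ω j * mellin (thS φ (b j) δ (B j)) (t + δ) := by
      rw [Finset.mul_sum]
      refine Finset.sum_congr rfl fun j hj => ?_
      rw [(mellin_thS hP (hb j hj) (hB j hj) hδ ht).2]
      ring
    have e5 : P.ε = 1 := rfl
    rw [e5, one_smul] at e1
    rw [e3, ← e1]
    ring

/-- **Voronoi formula** for a general test function (`contour_shift`, `contour_shift_pole` from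
`Re s = σ₁` to `Re s = -1/2`, then `u ↦ -u`). -/
theorem vor_abs {φ : ℝ → ℝ} {G Gi : ℂ → ℂ} (hP : Prof φ G Gi) {δ : ℝ} (hδ : -(1 / 6) ≤ δ)
    {J : Type} (S : Finset J) {a : O → ℂ} {b : J → O → ℂ} {H : ℝ} (ha : PolyB a H (1 / 6))
    {H' : J → ℝ} (hb : ∀ j ∈ S, PolyB (b j) (H' j) (1 / 6)) {A : ℝ} (hA : 0 < A) {B : J → ℝ}
    (hB : ∀ j ∈ S, 0 < B j) (ω : J → ℂ) {g₀ : ℂ} (hg : g₀ = 0 ∨ δ ≤ 0)
    (h : ∀ x : ℝ, 0 < x → thS φ a δ A x⁻¹ =
      ((x ^ (1 + 2 * δ) : ℝ) : ℂ) * (g₀ + ∑ j ∈ S, ω j * thS φ (b j) δ (B j) x))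
    {Φ : ℂ → ℂ} (hΦ : StripDecay Φ) {σ₁ : ℝ} (hσ : 7 / 6 < σ₁) :
    lineI σ₁ (fun s => Φ s * Dser a s) =
      g₀ * (A : ℂ) ^ ((1 + 2 * δ : ℝ) : ℂ) * Gi ((1 + 2 * δ : ℝ) : ℂ) * Φ ((1 + δ : ℝ) : ℂ) +
        ∑ j ∈ S, ω j * lineI (3 / 2) fun t => Φ (1 - t) * ((A : ℂ) ^ (1 - t + δ) *
          Gi (1 - t + δ) * G (t + δ) * (B j : ℂ) ^ (-(t + δ)) * Dser (b j) t) := by
  obtain ⟨L₀, dL, bL, eL, fL⟩ := fe_abs hP hδ S ha hb hA hB ω hg h
  have dK := thMel_diff hP δ hA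
  have bK := thMel_growth hP δ hA
  have bK' : ∀ p q : ℝ, ∃ C : ℝ, ∀ s : ℂ, p ≤ s.re → s.re ≤ q →
      ‖g₀ * ((A : ℂ) ^ (s + δ) * Gi (s + δ))‖ ≤ C * Real.exp (8 * |s.im|) := fun p q => by
    obtain ⟨C, hC⟩ := bK p q
    refine ⟨‖g₀‖ * C, fun s h1 h2 => ?_⟩
    rw [norm_mul, mul_assoc]
    exact mul_le_mul_of_nonneg_left (hC s h1 h2) (norm_nonneg _)
  obtain ⟨C₁, hC₁, b₁⟩ := thMel_decay hΦ bL (-(1 / 2)) σ₁
  obtain ⟨C₂, hC₂, b₂⟩ := thMel_decay hΦ bK' (-(1 / 2)) σ₁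
  obtain ⟨C₃, hC₃, b₃⟩ := thMel_decay hΦ bK (-(1 / 2)) σ₁
  have h01 : -(1 / 2 : ℝ) ≤ σ₁ := by linarith
  have key := thMel_shift (ρ := 1 + δ) h01 (hΦ.1.mul dL) (hΦ.1.mul (dK.const_mul g₀)) hC₁ hC₂ b₁ b₂
    (hg.imp (fun h0 => by funext s; simp [h0]) fun h0 => ⟨by linarith, by linarith⟩)
  simp only [Pi.mul_apply] at key
  have e1 : ∀ u : ℝ, Φ (σ₁ + u * Complex.I) * Dser a (σ₁ + u * Complex.I) =
      Φ (σ₁ + u * Complex.I) * L₀ (σ₁ + u * Complex.I) + Φ (σ₁ + u * Complex.I) *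
        (g₀ * ((A : ℂ) ^ (σ₁ + u * Complex.I + δ) * Gi (σ₁ + u * Complex.I + δ))) /
        (σ₁ + u * Complex.I - ((1 + δ : ℝ) : ℂ)) := fun u => by
    rw [eL _ (by simpa using hσ)]
    push_cast
    ring
  have ht : ∀ u : ℝ, 7 / 6 < (((3 / 2 : ℝ) : ℂ) + u * Complex.I).re := fun u => by
    simp only [Complex.add_re, Complex.ofReal_re, Complex.mul_re, Complex.I_re, Complex.ofReal_im,
      Complex.I_im]
    norm_num
  have e0 : ∀ u : ℝ, ((-(1 / 2) : ℝ) : ℂ) + ((-u : ℝ) : ℂ) * Complex.I =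
      1 - (((3 / 2 : ℝ) : ℂ) + u * Complex.I) := fun u => by
    push_cast
    ring
  rw [← integral_neg_eq_self (fun u : ℝ => Φ (((-(1 / 2) : ℝ) : ℂ) + u * Complex.I) * _ + _)] at key
  have e2 : ∀ t : ℂ, 7 / 6 < t.re → Φ (1 - t) * L₀ (1 - t) + Φ (1 - t) *
      (g₀ * ((A : ℂ) ^ (1 - t + δ) * Gi (1 - t + δ))) / (1 - t - ((1 + δ : ℝ) : ℂ)) =
      ∑ j ∈ S, ω j * (Φ (1 - t) * ((A : ℂ) ^ (1 - t + δ) *
          Gi (1 - t + δ) * G (t + δ) * (B j : ℂ) ^ (-(t + δ)) * Dser (b j) t)) := fun t ht => by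
    have := fL t ht
    calc _ = Φ (1 - t) * (L₀ (1 - t) +
          g₀ * (A : ℂ) ^ (1 - t + δ) * Gi (1 - t + δ) / (1 - t - (1 + δ))) := by
          push_cast
          ring
      _ = _ := by
          rw [this, Finset.mul_sum]
          exact Finset.sum_congr rfl fun j _ => by ring
  simp only [e0, e2 _ (ht _)] at key
  have hi : ∀ j ∈ S, Integrable fun u : ℝ => Φ (1 - (((3 / 2 : ℝ) : ℂ) + u * Complex.I)) *
      ((A : ℂ) ^ (1 - (((3 / 2 : ℝ) : ℂ) + u * Complex.I) + δ) *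
        Gi (1 - (((3 / 2 : ℝ) : ℂ) + u * Complex.I) + δ) *
        G (((3 / 2 : ℝ) : ℂ) + u * Complex.I + δ) *
        (B j : ℂ) ^ (-(((3 / 2 : ℝ) : ℂ) + u * Complex.I + δ)) *
        Dser (b j) (((3 / 2 : ℝ) : ℂ) + u * Complex.I)) := by
    intro j hj
    have i1 := (Contour.integrable_line le_rfl h01 (hΦ.1.mul dK).continuous.continuousOn
      fun w hw => thMel_lor hC₃ (b₃ w hw)).comp_neg
    simp only [Pi.mul_apply, e0] at i1
    have hre : ∀ u : ℝ, 0 < (((3 / 2 : ℝ) : ℂ) + u * Complex.I + δ).re := fun u => by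
      have := ht u
      rw [Complex.add_re, Complex.ofReal_re]
      linarith
    have c1 : Continuous fun u : ℝ => G (((3 / 2 : ℝ) : ℂ) + u * Complex.I + δ) := by
      have : (fun u : ℝ => G (((3 / 2 : ℝ) : ℂ) + u * Complex.I + δ)) =
          fun u : ℝ => (Gi (((3 / 2 : ℝ) : ℂ) + u * Complex.I + δ))⁻¹ :=
        funext fun u => eq_inv_of_mul_eq_one_left (hP.inv _ (hre u))
      rw [this]
      exact (hP.diff.continuous.comp (by fun_prop)).inv₀ fun u =>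
        right_ne_zero_of_mul_eq_one (hP.inv _ (hre u))
    have c2 : Continuous fun u : ℝ => (B j : ℂ) ^ (-(((3 / 2 : ℝ) : ℂ) + u * Complex.I + δ)) :=
      Continuous.const_cpow (by fun_prop) (Or.inl (Complex.ofReal_ne_zero.2 (hB j hj).ne'))
    have c3 : Continuous fun u : ℝ => Dser (b j) (((3 / 2 : ℝ) : ℂ) + u * Complex.I) :=
      (differentiableOn_Dser (hb j hj)).continuousOn.comp_continuous (by fun_prop) ht
    have bd : ∀ u : ℝ, ‖G (((3 / 2 : ℝ) : ℂ) + u * Complex.I + δ) *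
        (B j : ℂ) ^ (-(((3 / 2 : ℝ) : ℂ) + u * Complex.I + δ)) *
        Dser (b j) (((3 / 2 : ℝ) : ℂ) + u * Complex.I)‖ ≤
        ∫ x in Set.Ioi (0 : ℝ), x ^ (3 / 2 + δ - 1) * ‖thS φ (b j) δ (B j) x‖ := fun u => by
      rw [← (mellin_thS hP (hb j hj) (hB j hj) hδ (ht u)).2, mellin]
      refine (norm_integral_le_integral_norm _).trans (le_of_eq ?_)
      refine setIntegral_congr_fun measurableSet_Ioi fun x hx => ?_
      simp only [norm_smul, Complex.norm_cpow_eq_rpow_re_of_pos hx]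
      simp
    refine (i1.mul_bdd ((c1.mul c2).mul c3).aestronglyMeasurable
      (Eventually.of_forall bd)).congr (Eventually.of_forall fun u => ?_)
    simp only [Pi.mul_apply]
    ring
  rw [integral_finsetSum _ fun j hj => (hi j hj).const_mul _] at key
  simp only [integral_const_mul] at key
  have e3 : ((1 + δ : ℝ) : ℂ) + δ = ((1 + 2 * δ : ℝ) : ℂ) := by push_cast; ring
  have hπ : (Real.pi : ℂ) ≠ 0 := Complex.ofReal_ne_zero.2 Real.pi_ne_zero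
  unfold lineI
  simp only [e1]
  rw [key, e3, mul_add, Finset.mul_sum, add_comm]
  congr 1
  · field_simp
  · exact Finset.sum_congr rfl fun j _ => by ring

end Crest.Agent.R12
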