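import Crest.Agent.R12.ThDefs

/-!
# Row 12, theta half: from a theta relation to the functional equation
-/

set_option autoImplicit false

noncomputable section

namespace Crest.Agent.R12

open Crest.Agent.R17
open scoped ComplexConjugate Topology
open Filter MeasureTheory

/-- A radial profile with Mellin transform `G`, `Gi = 1 / G`. -/
structure Prof (φ : ℝ → ℝ) (G Gi : ℂ → ℂ) : Prop where
  cont : ContinuousOn φ (Set.Ioi 0)
  bound : ∀ A : ℝ, 0 ≤ A → ∃ C : ℝ, ∀ x : ℝ, 0 < x → |φ x| ≤ C * x ^ (-A)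
  mel : ∀ w : ℂ, 0 < w.re → ∫ x in Set.Ioi (0 : ℝ), (φ x : ℂ) * (x : ℂ) ^ (w - 1) = G w
  diff : Differentiable ℂ Gi
  inv : ∀ w : ℂ, 0 < w.re → G w * Gi w = 1
  growth : ∀ a b : ℝ, ∃ C : ℝ, ∀ w : ℂ, a ≤ w.re → w.re ≤ b → ‖Gi w‖ ≤ C * Real.exp (8 * |w.im|)

/-- `mellin_U1` at `w - 1/3`, `norm_inv_Gamma_le`. -/
theorem prof_W0 : Prof W0 (fun w => Complex.Gamma w * Complex.Gamma (w + 1 / 3))
    (fun w => (Complex.Gamma w)⁻¹ * (Complex.Gamma (w + 1 / 3))⁻¹) := by
  refine ⟨continuousOn_W0.mono Set.Ioi_subset_Ici_self, fun A hA => ?_, fun w hw => ?_, ?_,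
    fun w hw => ?_, fun a b => ?_⟩
  · obtain ⟨C, -, h⟩ := W0_le_rpow hA
    exact ⟨C, fun x hx => by rw [abs_of_pos (W0_pos hx.le)]; exact h x hx⟩
  · have h := (mellin_U1 (s := w - 1 / 3) (by simp; linarith)).2
    rw [show w - 1 / 3 + 1 / 3 = w by ring, show w - 1 / 3 + 2 / 3 = w + 1 / 3 by ring] at h
    rw [← h]
    refine setIntegral_congr_fun measurableSet_Ioi fun x (hx : 0 < x) => ?_
    have hx' : (x : ℂ) ≠ 0 := Complex.ofReal_ne_zero.2 hx.ne'
    simp only [U1]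
    rw [Complex.ofReal_mul, Complex.ofReal_cpow hx.le, show w - 1 = ((1 / 3 : ℝ) : ℂ) +
      (w - 1 / 3 - 1) by push_cast; ring, Complex.cpow_add _ _ hx']
    ring
  · exact Complex.differentiable_one_div_Gamma.mul
      (Complex.differentiable_one_div_Gamma.comp (differentiable_id.add_const (1 / 3)))
  · have h1 := Complex.Gamma_ne_zero_of_re_pos hw
    have h2 : Complex.Gamma (w + 1 / 3) ≠ 0 :=
      Complex.Gamma_ne_zero_of_re_pos (by simp; linarith)
    rw [mul_mul_mul_comm, mul_inv_cancel₀ h1, mul_inv_cancel₀ h2, one_mul]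
  · obtain ⟨C₁, hC₁, h₁⟩ := norm_inv_Gamma_le a b
    obtain ⟨C₂, hC₂, h₂⟩ := norm_inv_Gamma_le (a + 1 / 3) (b + 1 / 3)
    refine ⟨C₁ * C₂, fun w ha hb => ?_⟩
    have e1 := h₁ w ha hb
    have e2 := h₂ (w + 1 / 3) (by simp; linarith) (by simp; linarith)
    rw [show (w + 1 / 3).im = w.im by simp] at e2
    rw [norm_mul, show 8 * |w.im| = 4 * |w.im| + 4 * |w.im| by ring, Real.exp_add]
    calc _ ≤ (C₁ * Real.exp (4 * |w.im|)) * (C₂ * Real.exp (4 * |w.im|)) := by gcongr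
      _ = _ := by ring

theorem prof_gw : Prof gw (fun w => Complex.Gamma w * (LBB.cc : ℂ) ^ (-w))
    (fun w => (Complex.Gamma w)⁻¹ * (LBB.cc : ℂ) ^ w) := by
  have hc := LBB.cc_pos
  have hc' : (LBB.cc : ℂ) ≠ 0 := Complex.ofReal_ne_zero.2 hc.ne'
  refine ⟨by unfold gw; fun_prop, fun A hA => ?_, fun w hw => ?_, ?_, fun w hw => ?_,
    fun a b => ?_⟩
  · obtain ⟨C, -, h⟩ := G1_exp_le hA
    refine ⟨C * LBB.cc ^ (-A), fun x hx => ?_⟩
    have h1 := h (LBB.cc * x) (by positivity)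
    rw [Real.mul_rpow hc.le hx.le, ← mul_assoc] at h1
    rw [LBB.gw_eq, abs_of_pos (Real.exp_pos _), neg_mul]
    exact h1
  · have h := Complex.integral_cpow_mul_exp_neg_mul_Ioi hw hc
    rw [one_div, Complex.inv_cpow _ _ (by
      rw [Complex.arg_ofReal_of_nonneg hc.le]; exact Real.pi_pos.ne), ← Complex.cpow_neg,
      mul_comm] at h
    rw [← h]
    refine setIntegral_congr_fun measurableSet_Ioi fun x _ => ?_
    simp only [LBB.gw_eq]
    push_cast
    rw [mul_comm, neg_mul]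
  · exact Complex.differentiable_one_div_Gamma.mul LBB.differentiable_cc_pow
  · have h1 := Complex.Gamma_ne_zero_of_re_pos hw
    have h2 : (LBB.cc : ℂ) ^ w ≠ 0 := by
      rw [Ne, Complex.cpow_eq_zero_iff, not_and_or]
      exact Or.inl hc'
    rw [Complex.cpow_neg]
    field_simp
  · obtain ⟨C₁, hC₁, h₁⟩ := norm_inv_Gamma_le a b
    refine ⟨C₁ * (LBB.cc ^ a + LBB.cc ^ b), fun w ha hb => ?_⟩
    have e1 := h₁ w ha hb
    have e2 := MelN2.rpow_le_add hc ha hb
    have e3 : Real.exp (4 * |w.im|) ≤ Real.exp (8 * |w.im|) :=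
      Real.exp_le_exp.2 (by linarith [abs_nonneg w.im])
    rw [norm_mul, Complex.norm_cpow_eq_rpow_re_of_pos hc]
    calc _ ≤ (C₁ * Real.exp (8 * |w.im|)) * (LBB.cc ^ a + LBB.cc ^ b) := by
          gcongr
          exact e1.trans (by gcongr)
      _ = _ := by ring

/-- The theta sum. -/
def thS (φ : ℝ → ℝ) (a : O → ℂ) (δ A x : ℝ) : ℂ :=
  ∑' n : O, a n * ((nr n ^ δ * φ (A * nr n * x) : ℝ) : ℂ)

section
variable {φ : ℝ → ℝ} {G Gi : ℂ → ℂ} {a : O → ℂ} {H δ A : ℝ}

theorem ThMelA_coef_le (ha : PolyB a H (1 / 6)) {k k' : ℝ} (hk : k' ≤ k) (n : O) :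
    ‖a n‖ * nr n ^ (-k) ≤ H * nr n ^ (-(k' - 1 / 6)) := by
  have hH := WeightB.H_nonneg ha
  by_cases h0 : n = 0
  · rw [h0, ha.1, norm_zero, zero_mul]
    positivity
  · rw [show -(k' - 1 / 6) = 1 / 6 + -k' by ring, Real.rpow_add (nr_pos h0), ← mul_assoc]
    exact mul_le_mul (ha.2 n) (Real.rpow_le_rpow_of_exponent_le (one_le_nr h0) (by linarith))
      (by positivity) (by positivity)

theorem ThMelA_summable_coef (ha : PolyB a H (1 / 6)) {k : ℝ} (hk : 7 / 6 < k) :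
    Summable fun n : O => ‖a n‖ * nr n ^ (-k) :=
  Summable.of_nonneg_of_le (fun n => by positivity) (ThMelA_coef_le ha le_rfl)
    ((summable_nr_rpow (σ := k - 1 / 6) (by linarith)).mul_left H)

theorem ThMelA_norm_term (ha : PolyB a H (1 / 6)) (s : ℂ) (n : O) :
    ‖a n * (nr n : ℂ) ^ (-s)‖ = ‖a n‖ * nr n ^ (-s.re) := by
  by_cases h0 : n = 0
  · simp [h0, ha.1]
  · rw [norm_mul, Complex.norm_cpow_eq_rpow_re_of_pos (nr_pos h0), Complex.neg_re]

theorem ThMelA_term_le (hP : Prof φ G Gi) (ha : PolyB a H (1 / 6)) (hA : 0 < A) {k : ℝ}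
    (hk0 : 0 ≤ k) (hk : 7 / 6 + δ < k) :
    ∃ u : O → ℝ, Summable u ∧ (∀ n, 0 ≤ u n) ∧ ∀ n x, 0 < x →
      ‖a n * ((nr n ^ δ * φ (A * nr n * x) : ℝ) : ℂ)‖ ≤ u n * x ^ (-k) := by
  obtain ⟨C, h⟩ := hP.bound k hk0
  have hC : 0 ≤ C := by simpa using (abs_nonneg _).trans (h 1 one_pos)
  refine ⟨fun n => C * A ^ (-k) * (‖a n‖ * nr n ^ (-(k - δ))),
    (ThMelA_summable_coef ha (by linarith)).mul_left _, fun n => by positivity, fun n x hx => ?_⟩
  by_cases h0 : n = 0
  · simp [h0, ha.1]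
  have hn := nr_pos h0
  have h2 := h (A * nr n * x) (by positivity)
  rw [norm_mul, Complex.norm_real, Real.norm_eq_abs, abs_mul, abs_of_pos (Real.rpow_pos_of_pos hn δ)]
  refine (mul_le_mul_of_nonneg_left (mul_le_mul_of_nonneg_left h2 (by positivity))
    (norm_nonneg _)).trans (le_of_eq ?_)
  beta_reduce
  rw [Real.mul_rpow (by positivity) hx.le, Real.mul_rpow hA.le hn.le,
    show -(k - δ) = δ + -k by ring, Real.rpow_add hn]
  ring

theorem ThMelA_norm_le (hP : Prof φ G Gi) (ha : PolyB a H (1 / 6)) (hA : 0 < A) {k : ℝ}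
    (hk0 : 0 ≤ k) (hk : 7 / 6 + δ < k) :
    ∃ C : ℝ, 0 ≤ C ∧ ∀ x, 0 < x → ‖thS φ a δ A x‖ ≤ C * x ^ (-k) := by
  obtain ⟨u, hu, hu0, h⟩ := ThMelA_term_le hP ha hA hk0 hk
  exact ⟨∑' n, u n, tsum_nonneg hu0,
    fun x hx => tsum_of_norm_bounded (hu.hasSum.mul_right _) fun n => h n x hx⟩

theorem summable_Dser (ha : PolyB a H (1 / 6)) {s : ℂ} (hs : 7 / 6 < s.re) :
    Summable fun n : O => ‖a n * (nr n : ℂ) ^ (-s)‖ := by
  simp only [ThMelA_norm_term ha]
  exact ThMelA_summable_coef ha hs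
theorem norm_Dser_le {σ : ℝ} (hσ : 7 / 6 < σ) : ∃ C : ℝ, 0 < C ∧ ∀ (a : O → ℂ) (H : ℝ) (s : ℂ),
    PolyB a H (1 / 6) → σ ≤ s.re → ‖Dser a s‖ ≤ C * H := by
  have hs := summable_nr_rpow (σ := σ - 1 / 6) (by linarith)
  have h0 : 0 ≤ ∑' n : O, nr n ^ (-(σ - 1 / 6)) := tsum_nonneg fun n => by positivity
  refine ⟨∑' n : O, nr n ^ (-(σ - 1 / 6)) + 1, by linarith, fun a H s ha h => ?_⟩
  have hH := WeightB.H_nonneg ha
  have h1 : ‖Dser a s‖ ≤ H * ∑' n : O, nr n ^ (-(σ - 1 / 6)) :=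
    tsum_of_norm_bounded (hs.hasSum.mul_left H) fun n => by
      rw [ThMelA_norm_term ha]; exact ThMelA_coef_le ha h n
  nlinarith
theorem differentiableOn_Dser (ha : PolyB a H (1 / 6)) :
    DifferentiableOn ℂ (Dser a) {s | 7 / 6 < s.re} := by
  intro s hs
  have hs : 7 / 6 < s.re := hs
  have hU : IsOpen {w : ℂ | (7 / 6 + s.re) / 2 < w.re} :=
    isOpen_lt continuous_const Complex.continuous_re
  refine ((Complex.differentiableOn_tsum_of_summable_norm
    (F := fun n w => a n * (nr n : ℂ) ^ (-w))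
    ((summable_nr_rpow (σ := (7 / 6 + s.re) / 2 - 1 / 6) (by linarith)).mul_left H)
    (fun n => ?_) hU fun n w hw => ?_).differentiableAt
      (hU.mem_nhds (show (7 / 6 + s.re) / 2 < s.re by linarith))).differentiableWithinAt
  · by_cases h0 : n = 0
    · simp only [h0, ha.1, zero_mul]
      exact differentiableOn_const _
    · exact ((differentiable_neg.const_cpow (Or.inl (Complex.ofReal_ne_zero.2
        (nr_pos h0).ne'))).const_mul _).differentiableOn
  · rw [ThMelA_norm_term ha]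
    exact ThMelA_coef_le ha (le_of_lt hw) n
theorem summable_thS (hP : Prof φ G Gi) (ha : PolyB a H (1 / 6)) (hA : 0 < A) {x : ℝ}
    (hx : 0 < x) : Summable fun n : O => ‖a n * ((nr n ^ δ * φ (A * nr n * x) : ℝ) : ℂ)‖ := by
  obtain ⟨u, hu, -, h⟩ := ThMelA_term_le (δ := δ) hP ha hA (k := |δ| + 2) (by positivity)
    (by linarith [le_abs_self δ])
  exact Summable.of_nonneg_of_le (fun _ => norm_nonneg _) (fun n => h n x hx) (hu.mul_right _)
theorem continuousOn_thS (hP : Prof φ G Gi) (ha : PolyB a H (1 / 6)) (hA : 0 < A) :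
    ContinuousOn (thS φ a δ A) (Set.Ioi 0) := by
  obtain ⟨u, hu, hu0, h⟩ := ThMelA_term_le (δ := δ) hP ha hA (k := |δ| + 2) (by positivity)
    (by linarith [le_abs_self δ])
  intro x hx
  have hx : 0 < x / 2 := half_pos hx
  refine ContinuousAt.continuousWithinAt (ContinuousOn.continuousAt (s := Set.Ioi (x / 2)) ?_
    (Ioi_mem_nhds (by linarith)))
  refine continuousOn_tsum (fun n => ?_) (hu.mul_right ((x / 2) ^ (-(|δ| + 2)))) fun n y hy => ?_
  · by_cases h0 : n = 0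
    · simp only [h0, ha.1, zero_mul]
      exact continuousOn_const
    have hn := nr_pos h0
    refine continuousOn_const.mul (Complex.continuous_ofReal.comp_continuousOn
      (continuousOn_const.mul (hP.cont.comp (by fun_prop) fun y hy => ?_)))
    have : 0 < y := hx.trans hy
    exact Set.mem_Ioi.2 (by positivity)
  · exact (h n y (hx.trans hy)).trans (mul_le_mul_of_nonneg_left
      (Real.rpow_le_rpow_of_nonpos hx (le_of_lt hy) (by linarith [abs_nonneg δ])) (hu0 n))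
theorem isBigO_thS (hP : Prof φ G Gi) (ha : PolyB a H (1 / 6)) (hA : 0 < A) (r : ℝ) :
    thS φ a δ A =O[atTop] fun x : ℝ => x ^ r := by
  obtain ⟨C, hC, h⟩ := ThMelA_norm_le (δ := δ) hP ha hA (k := |δ| + |r| + 2) (by positivity)
    (by linarith [le_abs_self δ, abs_nonneg r])
  refine Asymptotics.IsBigO.of_bound C ?_
  filter_upwards [eventually_ge_atTop 1] with x hx
  have hx0 : 0 < x := by linarith
  rw [Real.norm_of_nonneg (by positivity)]
  exact (h x hx0).trans (mul_le_mul_of_nonneg_left (Real.rpow_le_rpow_of_exponent_le hx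
    (by linarith [neg_abs_le r, abs_nonneg δ])) hC)
theorem mellin_thS (hP : Prof φ G Gi) (ha : PolyB a H (1 / 6)) (hA : 0 < A) (hδ : -(1 / 6) ≤ δ)
    {s : ℂ} (hs : 7 / 6 < s.re) :
    MellinConvergent (thS φ a δ A) (s + δ) ∧
      mellin (thS φ a δ A) (s + δ) = G (s + δ) * (A : ℂ) ^ (-(s + δ)) * Dser a s := by
  have hre : (s + δ).re = s.re + δ := by simp
  have hw : 0 < (s + δ).re := by rw [hre]; linarith
  constructor
  · obtain ⟨C, hC, h⟩ := ThMelA_norm_le (δ := δ) hP ha hA (k := (7 / 6 + s.re) / 2 + δ)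
      (by linarith) (by linarith)
    refine mellinConvergent_of_isBigO_rpow (a := s.re + δ + 1) (b := (7 / 6 + s.re) / 2 + δ)
      ((continuousOn_thS hP ha hA).locallyIntegrableOn measurableSet_Ioi)
      (isBigO_thS hP ha hA _) (by rw [hre]; linarith) ?_ (by rw [hre]; linarith)
    refine Asymptotics.IsBigO.of_bound C ?_
    filter_upwards [self_mem_nhdsWithin] with x hx
    have hx0 : 0 < x := hx
    rw [Real.norm_of_nonneg (by positivity)]
    exact h x hx0
  set w : ℂ := s + δ with hwd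
  have h2 : mellin (fun x => (φ x : ℂ)) w = G w := by
    simpa only [mellin, smul_eq_mul, mul_comm] using hP.mel w hw
  have h1 : MellinConvergent (fun x => (φ x : ℂ)) w := by
    refine Integrable.of_integral_ne_zero ?_
    have := left_ne_zero_of_mul_eq_one (hP.inv w hw)
    rw [← h2] at this
    exact this
  have hi : ∀ n : O, Integrable (fun t : ℝ => (t : ℂ) ^ (w - 1) •
      (a n * ((nr n ^ δ * φ (A * nr n * t) : ℝ) : ℂ))) (volume.restrict (Set.Ioi 0)) := by
    intro n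
    by_cases h0 : n = 0
    · simp [h0, ha.1]
    have := ((MellinConvergent.comp_mul_left (mul_pos hA (nr_pos h0))).2 h1).const_smul
      (a n * ((nr n ^ δ : ℝ) : ℂ))
    refine this.congr (Eventually.of_forall fun t => ?_)
    simp only [smul_eq_mul, Complex.ofReal_mul, mul_assoc]
  have hn : ∀ n : O, ∫ t in Set.Ioi (0 : ℝ), ‖(t : ℂ) ^ (w - 1) •
      (a n * ((nr n ^ δ * φ (A * nr n * t) : ℝ) : ℂ))‖ =
      A ^ (-w.re) * (‖a n‖ * nr n ^ (-s.re)) *
        ∫ t in Set.Ioi (0 : ℝ), ‖(t : ℂ) ^ (w - 1) • (φ t : ℂ)‖ := by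
    intro n
    by_cases h0 : n = 0
    · simp [h0, ha.1]
    have hn0 := nr_pos h0
    have hc := mul_pos hA hn0
    have h3 := integral_comp_mul_left_Ioi (fun t : ℝ => ‖(t : ℂ) ^ (w - 1) • (φ t : ℂ)‖) 0 hc
    rw [mul_zero] at h3
    rw [setIntegral_congr_fun (g := fun t => ‖a n‖ * nr n ^ δ * (A * nr n) ^ (1 - w.re) *
      ‖((A * nr n * t : ℝ) : ℂ) ^ (w - 1) • (φ (A * nr n * t) : ℂ)‖) measurableSet_Ioi,
      integral_const_mul, h3, smul_eq_mul, sub_eq_add_neg, Real.rpow_add hc, Real.rpow_one,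
      Real.mul_rpow hA.le hn0.le, show -s.re = δ + -w.re by rw [hre]; ring, Real.rpow_add hn0]
    · have := hA.ne'
      have := hn0.ne'
      field_simp
    · intro t ht
      have ht : 0 < t := ht
      simp only [norm_smul, norm_mul, Complex.ofReal_mul (nr n ^ δ)]
      rw [Complex.norm_cpow_eq_rpow_re_of_pos ht,
        Complex.norm_cpow_eq_rpow_re_of_pos (mul_pos hc ht), Real.mul_rpow hc.le ht.le,
        Complex.sub_re, Complex.one_re, show 1 - w.re = -(w.re - 1) by ring, Real.rpow_neg hc.le,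
        Complex.norm_real (nr n ^ δ), Real.norm_of_nonneg (by positivity)]
      have := (Real.rpow_pos_of_pos hc (w.re - 1)).ne'
      field_simp
  have h4 := integral_tsum_of_summable_integral_norm hi (by
    simp only [hn]
    exact ((ThMelA_summable_coef ha hs).mul_left _).mul_right _)
  rw [mellin]
  simp only [thS, smul_eq_mul] at h4 ⊢
  simp only [← tsum_mul_left]
  rw [← h4, Dser, ← tsum_mul_left]
  refine tsum_congr fun n => ?_
  by_cases h0 : n = 0
  · simp [h0, ha.1]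
  have hn0 := nr_pos h0
  have hn1 : (nr n : ℂ) ≠ 0 := Complex.ofReal_ne_zero.2 hn0.ne'
  have h5 := mellin_comp_mul_left (fun x => (φ x : ℂ)) w (mul_pos hA hn0)
  rw [h2, Complex.ofReal_mul, Complex.mul_cpow_ofReal_nonneg hA.le hn0.le, mellin] at h5
  simp only [smul_eq_mul] at h5
  have e : ∀ t : ℝ, (t : ℂ) ^ (w - 1) * (a n * ((nr n ^ δ * φ (A * nr n * t) : ℝ) : ℂ)) =
      (a n * ((nr n ^ δ : ℝ) : ℂ)) * ((t : ℂ) ^ (w - 1) * (φ (A * nr n * t) : ℂ)) := fun t => by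
    rw [Complex.ofReal_mul]; ring
  simp only [e]
  rw [integral_const_mul, h5, Complex.ofReal_cpow hn0.le,
    show -s = (δ : ℂ) + -w by rw [hwd]; ring, Complex.cpow_add _ _ hn1]
  ring

end

end Crest.Agent.R12
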