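import Crest.Agent.R12.ThCt

/-!
# Row 12, theta half: the constant terms of Patterson's theta function
-/

set_option autoImplicit false

noncomputable section

namespace Crest.Agent.R12

open Crest.Agent.R17
open scoped ComplexConjugate Topology
open Filter MeasureTheory

theorem ThPcA_Cv_unit {u : O} (hu : IsUnit u) (α β : O) : Cv (u * α) (u * β) = Cv α β := by
  rw [Cv_mul hu.ne_zero, show nr u = 1 by simp only [nr, isUnit_iff_nm.1 hu, Nat.cast_one]]
  simp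

theorem ThPcA_cop {α γ : O} (h : IsCoprime α γ) (b : O) : IsCoprime (-γ) (α + 3 * b * γ) := by
  obtain ⟨x, y, hxy⟩ := h
  exact ⟨3 * b * x - y, x, by linear_combination hxy⟩

theorem ThPcA_cub_neg (n a : O) : cub n (-a) = cub n a := by
  rw [← neg_one_mul a, cub_mul_right, cub_neg_one, one_mul]

theorem ThPcA_three_ne : (3 : O) ≠ 0 := fun h => by
  have h1 := nm_natCast 3
  rw [Nat.cast_ofNat, h, nm_zero] at h1
  norm_num at h1

theorem ThPcA_card : (res 3).card = 9 := by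
  rw [card_res ThPcA_three_ne]
  exact_mod_cast nm_natCast 3

theorem ThPcA_sum_const {f : O → ℂ} {c : ℂ} (h : ∀ b, f b = c) : ∑ b ∈ res 3, f b = 9 * c := by
  rw [Finset.sum_congr rfl fun b _ => h b, Finset.sum_const, ThPcA_card, nsmul_eq_mul]
  norm_num

theorem ThPcA_primary_add {n k : O} (hn : Primary n) (hk : (3 : O) ∣ k) : Primary (n + k) := by
  obtain ⟨a, ha⟩ := hn
  obtain ⟨b, hb⟩ := hk
  exact ⟨a + b, by linear_combination ha + hb⟩

theorem ThPcA_unit_congr {u n n' : O} (hu : IsUnit u) (hn : Primary n) (hn' : Primary n')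
    (h : 3 * lam ∣ n - n') : cub n u = cub n' u := by
  obtain ⟨k, -, rfl⟩ := isUnit_iff_pow.1 hu
  rw [cub_pow_right, cub_pow_right, ThPcA_cub_neg, ThPcA_cub_neg, RecipA.om_congr hn hn' h]

theorem ThPcA_primary_neg_two : Primary (-2 : O) := ⟨-1, by norm_num⟩

theorem ThPcA_cub_two {v : O} (hv : IsUnit v) (h : cub (-2) v = 1) : v = 1 ∨ v = -1 := by
  obtain ⟨k, -, rfl⟩ := isUnit_iff_pow.1 hv
  obtain ⟨j, hj, e⟩ := RecipA.cub_om ThPcA_primary_neg_two
  rw [nm_neg, BasicA.nm_two] at hj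
  obtain rfl : j = 1 := by omega
  rw [cub_pow_right, ThPcA_cub_neg, e, pow_one, SymbolAux.omC_pow, ← map_one ι] at h
  rw [neg_pow, ι_injective h, mul_one]
  exact neg_one_pow_eq_or O k

theorem ThPcA_conj_ne {z : ℂ} (h : z ≠ 1) : conj z ≠ 1 := fun h1 => h (by
  rw [← Complex.conj_conj z, h1, map_one])

theorem Cv_neg_neg (α β : O) : Cv (-α) (-β) = Cv α β := by
  rw [← neg_one_mul α, ← neg_one_mul β, ThPcA_Cv_unit isUnit_one.neg]
theorem Pc_mul {ρ : O} (hρ : ρ ≠ 0) (α γ : O) :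
    Pc (ρ * α) (ρ * γ) = ((nr ρ ^ (2 / 3 : ℝ) : ℝ) : ℂ) * Pc α γ := by
  rw [Pc, Pc, Finset.mul_sum]
  refine Finset.sum_congr rfl fun b _ => ?_
  rw [← Cv_mul hρ]
  congr 1 <;> ring
theorem Pc_unit {u : O} (hu : IsUnit u) (α γ : O) : Pc (u * α) (u * γ) = Pc α γ := by
  rw [Pc_mul hu.ne_zero, show nr u = 1 by simp only [nr, isUnit_iff_nm.1 hu, Nat.cast_one]]
  simp

/-- A periodic function with a shift eigenvalue `≠ 1` has mean zero. -/
theorem sum_res_eq_zero_of_shift {q : O} (hq : q ≠ 0) {f : O → ℂ}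
    (hf : ∀ x y, q ∣ x - y → f x = f y) {b₀ : O} {κ : ℂ} (hκ : κ ≠ 1)
    (h : ∀ b, f (b + b₀) = κ * f b) : ∑ b ∈ res q, f b = 0 := by
  have h1 := sum_res_affine hq f hf (a := 1) isCoprime_one_left b₀
  simp only [one_mul, h] at h1
  rw [← Finset.mul_sum] at h1
  have h2 : (κ - 1) * ∑ b ∈ res q, f b = 0 := by linear_combination h1
  exact (mul_eq_zero.1 h2).resolve_left (sub_ne_zero.2 hκ)

theorem Pc_P1 {α γ : O} (h : IsCoprime α γ) (hγ : Primary γ) (hα : Primary α ∨ Primary (-α)) :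
    Pc α γ = 9 * C0 * conj (cub γ α) := by
  rw [Pc, mul_assoc]
  refine ThPcA_sum_const fun b => ?_
  have hc := ThPcA_cop h b
  have e : cub γ (α + 3 * b * γ) = cub γ α := Gauss_cub_per _ _ _ ⟨3 * b, by ring⟩
  rcases hα with hα | hα
  · have hβ : Primary (α + 3 * b * γ) := ThPcA_primary_add hα ⟨b * γ, by ring⟩
    rw [Cv_of_primary_right hc hβ, Cv_zero_one, ThPcA_cub_neg, cub_recip hβ hγ, e, mul_comm]
  · have hβ : Primary (-(α + 3 * b * γ)) := by
      rw [neg_add]; exact ThPcA_primary_add hα ⟨-(b * γ), by ring⟩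
    rw [← Cv_neg_neg, Cv_of_primary_right hc.neg_neg hβ, Cv_zero_one, neg_neg, cub_recip hβ hγ,
      ThPcA_cub_neg, e, mul_comm]
theorem Pc_P2 {α γ : O} (h : IsCoprime α γ) (hγ : Primary γ) (hα : (3 : O) ∣ α) :
    Pc α γ = 9 * C0 * conj (cub γ α) := by
  obtain ⟨a, ha⟩ := hα
  have h1 := sum_res_affine ThPcA_three_ne (fun b => Cv 1 (3 * b)) (fun _ _ => Cv_one_congr)
    hγ.isCoprime_three.neg_left (-a)
  rw [← sum_Cv_one, ← h1, Pc, Finset.sum_mul]
  refine Finset.sum_congr rfl fun b _ => ?_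
  have hc := (ThPcA_cop h b).neg_neg
  rw [neg_neg] at hc
  have e : cub γ (α + 3 * b * γ) = cub γ α := Gauss_cub_per _ _ _ ⟨3 * b, by ring⟩
  have e2 : -(α + 3 * b * γ) = 3 * (-γ * b + -a) := by rw [ha]; ring
  rw [← Cv_neg_neg, neg_neg, Cv_of_primary_left (β₀ := 3 * (-γ * b + -a)) hc hγ ⟨_, e2⟩
    (by rw [e2, sub_self]; exact dvd_zero _), ThPcA_cub_neg, e, mul_comm]
theorem Pc_P3 {α γ : O} (h : IsCoprime α γ) (hγ : Primary γ) (h1 : ¬ Primary α)
    (h2 : ¬ Primary (-α)) (h3 : ¬ (3 : O) ∣ α) : Pc α γ = 0 := by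
  have l3 : lam ∣ (3 : O) := ⟨-lam, by linear_combination lam_sq⟩
  by_cases hl : lam ∣ α
  · refine Finset.sum_eq_zero fun b _ => Cv_eq_zero (ThPcA_cop h b)
      (dvd_add hl ((l3.mul_right b).mul_right γ)) fun h' => h3 ?_
    exact (dvd_add_left ((dvd_mul_right 3 b).mul_right γ)).1 h'
  obtain ⟨v, hv, hvα⟩ := exists_unit_primary hl
  obtain ⟨w, hw⟩ := hv.exists_right_inv
  have hβ : ∀ b, Primary (v * (α + 3 * b * γ)) := fun b => by
    rw [mul_add]; exact ThPcA_primary_add hvα ⟨v * b * γ, by ring⟩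
  have key : ∑ b ∈ res 3, conj (cub (v * (α + 3 * b * γ)) v) = 0 := by
    refine sum_res_eq_zero_of_shift ThPcA_three_ne (b₀ := -w) (κ := conj (cub (-2) v)) ?_
      (ThPcA_conj_ne fun h' => ?_) fun b => ?_
    · rintro x y ⟨t, ht⟩
      rw [KubC1.cub_unit_congr hv (hβ x) (hβ y) ⟨v * t * γ, by linear_combination 3 * v * γ * ht⟩]
    · rcases ThPcA_cub_two hv h' with rfl | rfl
      · exact h1 (by rwa [one_mul] at hvα)
      · exact h2 (by rwa [neg_one_mul] at hvα)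
    · rw [← map_mul, ← cub_mul_left ThPcA_primary_neg_two.ne_zero (hβ b).ne_zero]
      congr 1
      refine KubC1.cub_unit_congr hv (hβ _) (ThPcA_primary_neg_two.mul (hβ b)) ?_
      obtain ⟨r, hr⟩ := hβ b
      obtain ⟨t, ht⟩ := hγ
      exact ⟨r - t, by linear_combination 3 * hr - 3 * γ * hw - 3 * ht⟩
  have e : ∀ b, Cv (-γ) (α + 3 * b * γ) =
      conj (cub (v * (α + 3 * b * γ)) v) * (conj (cub γ (v * α)) * C0) := fun b => by
    rw [← ThPcA_Cv_unit hv, Cv_of_primary_right ((isCoprime_mul_unit_left hv _ _).2 (ThPcA_cop h b))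
      (hβ b), Cv_zero_one, cub_mul_right, ThPcA_cub_neg, cub_recip (hβ b) hγ,
      Gauss_cub_per γ (v * (α + 3 * b * γ)) (v * α) ⟨v * 3 * b, by ring⟩, map_mul, mul_assoc]
  rw [Pc, Finset.sum_congr rfl fun b _ => e b, ← Finset.sum_mul, key, zero_mul]
theorem Pc_P4 {α γ : O} (h : IsCoprime α γ) (hα : Primary α) (hγ : (3 : O) ∣ γ) :
    Pc α γ = 9 * C0 * conj (cub α γ) := by
  rw [Pc, mul_assoc]
  refine ThPcA_sum_const fun b => ?_
  have hβ : Primary (α + 3 * b * γ) := ThPcA_primary_add hα ⟨b * γ, by ring⟩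
  obtain ⟨c, hc⟩ := hγ
  rw [Cv_of_primary_right (ThPcA_cop h b) hβ, Cv_zero_one, ThPcA_cub_neg,
    cub_congr9' hβ hα ⟨b * c, by linear_combination 3 * b * hc⟩ ⟨3 * b, by ring⟩, mul_comm]
theorem Pc_P5 {α γ : O} (h : IsCoprime α γ) (hα : Primary α) (h1 : lam ∣ γ) (h3 : ¬ (3 : O) ∣ γ) :
    Pc α γ = 0 := by
  obtain ⟨g, hg⟩ := h1
  have hl : ¬ lam ∣ g := by
    rintro ⟨k, rfl⟩
    exact h3 ⟨-k, by linear_combination hg + k * lam_sq⟩
  obtain ⟨u, hu, hug⟩ := exists_unit_primary hl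
  obtain ⟨w, hw⟩ := hu.exists_right_inv
  have hwu : IsUnit w := IsUnit.of_mul_eq_one_right u hw
  have hβ : ∀ b, Primary (α + 3 * b * γ) := fun b => ThPcA_primary_add hα ⟨b * γ, by ring⟩
  have hd : Primary (1 + 3 * lam) := ⟨lam, by ring⟩
  have key : ∑ b ∈ res 3, conj (cub (α + 3 * b * γ) lam) = 0 := by
    refine sum_res_eq_zero_of_shift ThPcA_three_ne (b₀ := u) (κ := conj (cub (1 + 3 * lam) lam)) ?_
      (ThPcA_conj_ne (KubC2.cub_lam_ne (by simp))) fun b => ?_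
    · rintro x y ⟨t, ht⟩
      rw [cub_lam_congr (hβ x) (hβ y) ⟨t * γ, by linear_combination 3 * γ * ht⟩]
    · rw [← map_mul, ← cub_mul_left hd.ne_zero (hβ b).ne_zero]
      congr 1
      refine cub_lam_congr (hβ _) (hd.mul (hβ b)) ?_
      obtain ⟨r, hr⟩ := hβ b
      obtain ⟨t, ht⟩ := hug
      exact ⟨lam * (t - r), by linear_combination 3 * u * hg + 3 * lam * ht - 3 * lam * hr⟩
  have e : ∀ b, Cv (-γ) (α + 3 * b * γ) =
      conj (cub (α + 3 * b * γ) lam) * (conj (cub α w * cub (u * g) α) * C0) := fun b => by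
    have e1 : cub (α + 3 * b * γ) γ = cub (α + 3 * b * γ) (lam * (w * (u * g))) := by
      refine congrArg (cub (α + 3 * b * γ)) ?_
      linear_combination hg - lam * g * hw
    rw [Cv_of_primary_right (ThPcA_cop h b) (hβ b), Cv_zero_one, ThPcA_cub_neg, e1, cub_mul_right,
      cub_mul_right _ w, cub_recip (hβ b) hug,
      ThPcA_unit_congr hwu (hβ b) hα ⟨b * g, by linear_combination 3 * b * hg⟩,
      Gauss_cub_per (u * g) (α + 3 * b * γ) α
        ⟨3 * b * lam * w, by linear_combination 3 * b * hg - 3 * b * lam * g * hw⟩,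
      map_mul, mul_assoc]
  rw [Pc, Finset.sum_congr rfl fun b _ => e b, ← Finset.sum_mul, key, zero_mul]

end Crest.Agent.R12
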