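import Crest.Agent.R12.ThMode
import Crest.Agent.R12.ThGam

/-!
# Row 12, theta half: Poisson summation and Hecke L-functions with angular characters
-/

set_option autoImplicit false

noncomputable section

namespace Crest.Agent.R12

open Crest.Agent.R17
open scoped ComplexConjugate Topology
open Filter MeasureTheory

theorem thPoisA_cc_pos : 0 < LBB.cc := by
  have := pois_three_le
  unfold LBB.cc
  linarith

theorem thPoisA_gw (x : ℝ) : gw x = Real.exp (-LBB.cc * x) := rfl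

theorem thPoisA_summable_exp {X : ℝ} (hX : 0 < X) (w : ℂ) (T : ℝ) :
    Summable fun k : O => gw (‖ι k + w‖ ^ 2 / X) * Real.exp (T * ‖ι k + w‖) := by
  have hc := thPoisA_cc_pos
  refine ((summable_gw' (X := 4 * X) (by positivity)).mul_left
    (Real.exp (T ^ 2 * X / (2 * LBB.cc) + LBB.cc * ‖w‖ ^ 2 / (2 * X)))).of_nonneg_of_le
    (fun k => mul_nonneg (gw_pos _).le (Real.exp_pos _).le) fun k => ?_
  rw [thPoisA_gw, thPoisA_gw, ← Real.exp_add, ← Real.exp_add, Real.exp_le_exp, ← norm_ι_sq]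
  set t := ‖ι k + w‖ with ht
  have h1 : ‖ι k‖ ≤ t + ‖w‖ := by
    have := norm_sub_le (ι k + w) w
    rwa [add_sub_cancel_right] at this
  have h2 : ‖ι k‖ ^ 2 ≤ 2 * t ^ 2 + 2 * ‖w‖ ^ 2 := by
    have h3 : ‖ι k‖ ^ 2 ≤ (t + ‖w‖) ^ 2 := pow_le_pow_left₀ (norm_nonneg _) h1 2
    nlinarith [sq_nonneg (t - ‖w‖)]
  have h4 : T * t ≤ T ^ 2 * X / (2 * LBB.cc) + LBB.cc * t ^ 2 / (2 * X) := by
    have e : T ^ 2 * X / (2 * LBB.cc) + LBB.cc * t ^ 2 / (2 * X) - T * t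
        = (T * X - LBB.cc * t) ^ 2 / (2 * LBB.cc * X) := by field_simp; ring
    have : 0 ≤ (T * X - LBB.cc * t) ^ 2 / (2 * LBB.cc * X) := by positivity
    linarith
  have h5 : LBB.cc * (‖ι k‖ ^ 2 / (4 * X)) ≤ LBB.cc * ((2 * t ^ 2 + 2 * ‖w‖ ^ 2) / (4 * X)) := by
    gcongr
  have e2 : LBB.cc * ((2 * t ^ 2 + 2 * ‖w‖ ^ 2) / (4 * X))
      = LBB.cc * t ^ 2 / (2 * X) + LBB.cc * ‖w‖ ^ 2 / (2 * X) := by field_simp; ring
  have e3 : -LBB.cc * (t ^ 2 / X) = -(2 * (LBB.cc * t ^ 2 / (2 * X))) := by field_simp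
  linarith

theorem thPoisA_summable_pow_exp {X : ℝ} (hX : 0 < X) (w : ℂ) (n : ℕ) (T : ℝ) :
    Summable fun k : O =>
      gw (‖ι k + w‖ ^ 2 / X) * (‖ι k + w‖ ^ n * Real.exp (T * ‖ι k + w‖)) := by
  refine ((thPoisA_summable_exp hX w (T + 1)).mul_left (n.factorial : ℝ)).of_nonneg_of_le
    (fun k => mul_nonneg (gw_pos _).le (by positivity)) fun k => ?_
  have h1 := Real.pow_div_factorial_le_exp ‖ι k + w‖ (norm_nonneg _) n
  rw [div_le_iff₀ (by exact_mod_cast n.factorial_pos)] at h1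
  rw [add_mul, one_mul, Real.exp_add, mul_left_comm (n.factorial : ℝ)]
  refine mul_le_mul_of_nonneg_left ?_ (gw_pos _).le
  nlinarith [mul_le_mul_of_nonneg_right h1 (Real.exp_pos (T * ‖ι k + w‖)).le]

theorem thPoisA_summable_pow {X : ℝ} (hX : 0 < X) (w : ℂ) (n : ℕ) :
    Summable fun k : O => gw (‖ι k + w‖ ^ 2 / X) * ‖ι k + w‖ ^ n := by
  simpa using thPoisA_summable_pow_exp hX w n 0

theorem thPoisA_summable_dual {X : ℝ} (hX : 0 < X) (n : ℕ) (T : ℝ) :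
    Summable fun h : O => gw (X * nr h) * (‖ι h‖ ^ n * Real.exp (T * ‖ι h‖)) := by
  have := thPoisA_summable_pow_exp (inv_pos.2 hX) 0 n T
  simpa only [add_zero, norm_ι_sq, div_inv_eq_mul, mul_comm _ X] using this

theorem thPoisA_modeAvg_tsum {ζ : ℂ} (hζ : ‖ζ‖ = 1) (N : ℕ) (l : ℤ) (F : O → ℂ → ℂ)
    (hF : ∀ u, ‖u‖ = 1 → Summable fun k => F k u) :
    HasSum (fun k => modeAvg ζ N l (F k)) (modeAvg ζ N l fun u => ∑' k, F k u) := by
  unfold modeAvg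
  refine HasSum.mul_left _ (hasSum_sum fun j _ => HasSum.mul_left _ ?_)
  exact (hF _ (by rw [norm_pow, hζ, one_pow])).hasSum

theorem thPoisA_modeAvg_mul (ζ : ℂ) (N : ℕ) (l : ℤ) (c : ℂ) (F : ℂ → ℂ) :
    modeAvg ζ N l (fun u => c * F u) = c * modeAvg ζ N l F := by
  unfold modeAvg
  rw [mul_left_comm, Finset.mul_sum (a := c)]
  congr 1
  exact Finset.sum_congr rfl fun j _ => by ring

theorem thPoisA_modeAvg_congr {ζ : ℂ} (hζ : ‖ζ‖ = 1) (N : ℕ) (l : ℤ) {F G : ℂ → ℂ}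
    (h : ∀ u, ‖u‖ = 1 → F u = G u) : modeAvg ζ N l F = modeAvg ζ N l G := by
  unfold modeAvg
  congr 1
  exact Finset.sum_congr rfl fun j _ => by rw [h _ (by rw [norm_pow, hζ, one_pow])]

theorem thPoisA_tendsto {A : ℝ → ℂ} {A₀ : ℂ} {m : ℕ} {C : ℝ}
    (h : ∀ ρ : ℝ, 0 < ρ → ρ ≤ 1 → ‖A ρ - (ρ : ℂ) ^ m * A₀‖ ≤ C * ρ ^ (m + 1)) :
    Tendsto (fun ρ : ℝ => ((ρ : ℂ) ^ m)⁻¹ * A ρ) (𝓝[>] 0) (𝓝 A₀) := by
  rw [tendsto_iff_norm_sub_tendsto_zero]
  have h0 : Tendsto (fun ρ : ℝ => C * ρ) (𝓝[>] 0) (𝓝 0) := by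
    have : Tendsto (fun ρ : ℝ => C * ρ) (𝓝 0) (𝓝 (C * 0)) :=
      (continuous_const.mul continuous_id).tendsto 0
    rw [mul_zero] at this
    exact this.mono_left nhdsWithin_le_nhds
  refine squeeze_zero' (Eventually.of_forall fun _ => norm_nonneg _) ?_ h0
  filter_upwards [Ioc_mem_nhdsGT (zero_lt_one' ℝ)] with ρ hρ
  have hρ0 : (ρ : ℂ) ^ m ≠ 0 := pow_ne_zero _ (Complex.ofReal_ne_zero.2 hρ.1.ne')
  have e : ((ρ : ℂ) ^ m)⁻¹ * A ρ - A₀ = ((ρ : ℂ) ^ m)⁻¹ * (A ρ - (ρ : ℂ) ^ m * A₀) := by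
    field_simp
  have hp : 0 < ρ ^ m := pow_pos hρ.1 m
  rw [e, norm_mul, norm_inv, norm_pow, Complex.norm_real, Real.norm_of_nonneg hρ.1.le,
    inv_mul_le_iff₀ hp]
  refine (h ρ hρ.1 hρ.2).trans (le_of_eq ?_)
  ring

/-- `poisson_shift` on the circle of radius `ρ`. -/
theorem thPoisA_circle {X : ℝ} (hX : 0 < X) (w : ℂ) (ρ : ℝ) {u : ℂ} (hu : ‖u‖ = 1) :
    ∑' k : O, (gw (‖ι k + w‖ ^ 2 / X) : ℂ) * eC (ρ * (ι k + w) * u) =
      (X : ℂ) * gw (X * ρ ^ 2) * ∑' h : O, (gw (X * nr h) : ℂ) * eC (ι h * w) *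
        Complex.exp ((LBB.cc * X * ρ : ℝ) * conj (ι h) * u + (LBB.cc * X * ρ : ℝ) * ι h * u⁻¹) := by
  have H := poisson_shift hX w (ρ * u)
  have e1 : ∀ k : O, (gw (‖ι k + w‖ ^ 2 / X) : ℂ) * eC (ρ * (ι k + w) * u)
      = eC (ρ * u * w) * ((gw (‖ι k + w‖ ^ 2 / X) : ℂ) * eC (ι k * (ρ * u))) := by
    intro k
    rw [mul_left_comm, ← eC_add]
    congr 2
    ring
  simp only [e1]
  rw [tsum_mul_left, H, mul_left_comm, mul_assoc (X : ℂ)]
  congr 1
  rw [← tsum_mul_left, ← tsum_mul_left, ← (Equiv.neg O).tsum_eq]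
  refine tsum_congr fun h => ?_
  simp only [Equiv.neg_apply, map_neg]
  rw [mul_left_comm, ← eC_add, show ρ * u * w + -((-ι h + ρ * u) * w) = ι h * w by ring]
  have hinv : u⁻¹ = conj u := Complex.inv_eq_conj hu
  have hu2 : u * conj u = 1 := by rw [Complex.mul_conj', hu]; simp
  have e2 : ((‖-ι h + ρ * u‖ ^ 2 : ℝ) : ℂ)
      = (nr h : ℝ) + ρ ^ 2 - ρ * (conj (ι h) * u + ι h * conj u) := by
    rw [← norm_ι_sq]
    push_cast
    rw [← Complex.mul_conj', ← Complex.mul_conj']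
    simp only [map_add, map_neg, map_mul, Complex.conj_ofReal]
    linear_combination (ρ : ℂ) ^ 2 * hu2
  have e3 : (gw (X * ‖-ι h + ρ * u‖ ^ 2) : ℂ) = gw (X * ρ ^ 2) * (gw (X * nr h) *
      Complex.exp ((LBB.cc * X * ρ : ℝ) * conj (ι h) * u + (LBB.cc * X * ρ : ℝ) * ι h * u⁻¹)) := by
    simp only [thPoisA_gw, Complex.ofReal_exp, ← Complex.exp_add]
    congr 1
    rw [hinv]
    push_cast at e2 ⊢
    rw [e2]
    ring
  rw [e3]
  ring

/-- The `l`-th mode in `y` of `poisson_shift` (`mode_eC` on the left, `mode_exp` on the right). -/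
theorem poisson_shift_ang (l : ℤ) {X : ℝ} (hX : 0 < X) (w : ℂ) :
    ∑' k : O, (gw (‖ι k + w‖ ^ 2 / X) : ℂ) * Pl l (ι k + w) =
      (X : ℂ) ^ (1 + l.natAbs) * (-1) ^ (-l).toNat *
        ∑' h : O, (gw (X * nr h) : ℂ) * Pl (-l) (ι h) * eC (ι h * w) := by
  have hc := thPoisA_cc_pos
  obtain ⟨ζ, hζ⟩ : ∃ ζ : ℂ, IsPrimitiveRoot ζ (2 * l.natAbs + 1) :=
    ⟨_, Complex.isPrimitiveRoot_exp _ (Nat.succ_ne_zero _)⟩
  have hζ1 : ‖ζ‖ = 1 := hζ.norm'_eq_one (Nat.succ_ne_zero _)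
  obtain ⟨C, hC, hm⟩ := mode_eC l
  have hngw : ∀ x, ‖(gw x : ℂ)‖ = gw x := fun x => by
    rw [Complex.norm_real, Real.norm_of_nonneg (gw_pos _).le]
  set m := l.natAbs with hmdef
  have hmm : l.toNat + (-l).toNat = m := by omega
  set κ : ℂ := (LBB.cc : ℂ) ^ m * (-1) ^ (-l).toNat / (m.factorial : ℂ) with hκ
  set L : ℝ → ℂ := fun ρ => modeAvg ζ (2 * m + 1) l fun u =>
    ∑' k : O, (gw (‖ι k + w‖ ^ 2 / X) : ℂ) * eC (ρ * (ι k + w) * u) with hL
  set R : ℝ → ℂ := fun ρ => modeAvg ζ (2 * m + 1) l fun u =>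
    ∑' h : O, (gw (X * nr h) : ℂ) * eC (ι h * w) *
      Complex.exp ((LBB.cc * X * ρ : ℝ) * conj (ι h) * u + (LBB.cc * X * ρ : ℝ) * ι h * u⁻¹)
    with hR
  have hLR : ∀ ρ, L ρ = (X : ℂ) * gw (X * ρ ^ 2) * R ρ := fun ρ => by
    rw [hL, hR, ← thPoisA_modeAvg_mul]
    exact thPoisA_modeAvg_congr hζ1 _ _ fun u hu => thPoisA_circle hX w ρ hu
  -- the left side
  have sL : Summable fun k : O => (gw (‖ι k + w‖ ^ 2 / X) : ℂ) * Pl l (ι k + w) := by
    refine Summable.of_norm ?_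
    simpa only [norm_mul, hngw, norm_Pl] using thPoisA_summable_pow hX w m
  have tL : Tendsto (fun ρ : ℝ => ((ρ : ℂ) ^ m)⁻¹ * L ρ) (𝓝[>] 0)
      (𝓝 (κ * ∑' k : O, (gw (‖ι k + w‖ ^ 2 / X) : ℂ) * Pl l (ι k + w))) := by
    refine thPoisA_tendsto (C := C * ∑' k : O, gw (‖ι k + w‖ ^ 2 / X) * ‖ι k + w‖ ^ (m + 1))
      fun ρ h0 _ => ?_
    have h1 := thPoisA_modeAvg_tsum hζ1 (2 * m + 1) l
      (fun k u => (gw (‖ι k + w‖ ^ 2 / X) : ℂ) * eC (ρ * (ι k + w) * u)) (fun u _ => by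
        refine Summable.of_norm ?_
        simpa only [norm_mul, hngw, norm_eC, pow_zero] using thPoisA_summable_pow hX w 0)
    have h2 := (sL.hasSum.mul_left κ).mul_left ((ρ : ℂ) ^ m)
    refine (h1.sub h2).norm_le_of_bounded
      (((thPoisA_summable_pow hX w (m + 1)).hasSum.mul_left C).mul_right (ρ ^ (m + 1))) fun k => ?_
    have h3 := (hm ζ hζ (ρ * (ι k + w))).2
    rw [Pl_mul, Pl_ofReal, norm_mul, Complex.norm_real, Real.norm_of_nonneg h0.le, mul_pow] at h3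
    rw [thPoisA_modeAvg_mul,
      show ∀ a b c : ℂ, a * b - (ρ : ℂ) ^ m * (κ * (a * c)) = a * (b - κ * ((ρ : ℂ) ^ m * c)) from
        fun a b c => by ring, norm_mul, hngw]
    refine (mul_le_mul_of_nonneg_left h3 (gw_pos _).le).trans (le_of_eq ?_)
    ring
  -- the right side
  have sR : Summable fun h : O => (gw (X * nr h) : ℂ) * Pl (-l) (ι h) * eC (ι h * w) := by
    refine Summable.of_norm ?_
    simpa only [norm_mul, hngw, norm_Pl, norm_eC, Int.natAbs_neg, zero_mul, Real.exp_zero, mul_one]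
      using thPoisA_summable_dual hX m 0
  have tR : Tendsto (fun ρ : ℝ => ((ρ : ℂ) ^ m)⁻¹ * R ρ) (𝓝[>] 0)
      (𝓝 ((LBB.cc * X : ℂ) ^ m / (m.factorial : ℂ) *
        ∑' h : O, (gw (X * nr h) : ℂ) * Pl (-l) (ι h) * eC (ι h * w))) := by
    refine thPoisA_tendsto (C := (2 * LBB.cc * X) ^ (m + 1) * ∑' h : O, gw (X * nr h) *
      (‖ι h‖ ^ (m + 1) * Real.exp (2 * LBB.cc * X * ‖ι h‖))) fun ρ h0 hρ1 => ?_
    have hn : ∀ h : O, ‖((LBB.cc * X * ρ : ℝ) : ℂ) * conj (ι h)‖ = LBB.cc * X * ρ * ‖ι h‖ ∧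
        ‖((LBB.cc * X * ρ : ℝ) : ℂ) * ι h‖ = LBB.cc * X * ρ * ‖ι h‖ := fun h => by
      rw [norm_mul, norm_mul, Complex.norm_conj, Complex.norm_real,
        Real.norm_of_nonneg (by positivity)]
      exact ⟨rfl, rfl⟩
    have h1 := thPoisA_modeAvg_tsum hζ1 (2 * m + 1) l
      (fun h u => (gw (X * nr h) : ℂ) * eC (ι h * w) * Complex.exp
        ((LBB.cc * X * ρ : ℝ) * conj (ι h) * u + (LBB.cc * X * ρ : ℝ) * ι h * u⁻¹))
      (fun u hu => by
        refine Summable.of_norm_bounded (thPoisA_summable_dual hX 0 (2 * LBB.cc * X * ρ))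
          fun h => ?_
        rw [norm_mul, norm_mul, hngw, norm_eC, mul_one, pow_zero, one_mul]
        refine mul_le_mul_of_nonneg_left ((Complex.norm_exp_le_exp_norm _).trans
          (Real.exp_le_exp.2 ((norm_add_le _ _).trans (le_of_eq ?_)))) (gw_pos _).le
        rw [norm_mul _ u, norm_mul _ u⁻¹, (hn h).1, (hn h).2, norm_inv, hu]
        ring)
    have h2 := (sR.hasSum.mul_left ((LBB.cc * X : ℂ) ^ m / (m.factorial : ℂ))).mul_left
      ((ρ : ℂ) ^ m)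
    refine (h1.sub h2).norm_le_of_bounded
      (((thPoisA_summable_dual hX (m + 1) (2 * LBB.cc * X)).hasSum.mul_left
        ((2 * LBB.cc * X) ^ (m + 1))).mul_right (ρ ^ (m + 1))) fun h => ?_
    have h3 := mode_exp hζ (((LBB.cc * X * ρ : ℝ) : ℂ) * conj (ι h))
      (((LBB.cc * X * ρ : ℝ) : ℂ) * ι h)
    rw [(hn h).1, (hn h).2] at h3
    have e : (ρ : ℂ) ^ m * ((LBB.cc * X : ℂ) ^ m / (m.factorial : ℂ) *
        ((gw (X * nr h) : ℂ) * Pl (-l) (ι h) * eC (ι h * w))) =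
        (gw (X * nr h) : ℂ) * eC (ι h * w) *
          ((((LBB.cc * X * ρ : ℝ) : ℂ) * conj (ι h)) ^ l.toNat *
            (((LBB.cc * X * ρ : ℝ) : ℂ) * ι h) ^ (-l).toNat / (m.factorial : ℂ)) := by
      have e' : (ρ : ℂ) ^ m * (LBB.cc * X : ℂ) ^ m
          = ((LBB.cc * X * ρ : ℝ) : ℂ) ^ l.toNat * ((LBB.cc * X * ρ : ℝ) : ℂ) ^ (-l).toNat := by
        rw [← pow_add, hmm, ← mul_pow]
        push_cast
        ring
      rw [Pl, neg_neg, mul_pow _ (conj _), mul_pow _ (ι h)]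
      linear_combination ((gw (X * nr h) : ℂ) * eC (ι h * w) * ι h ^ (-l).toNat *
        conj (ι h) ^ l.toNat / (m.factorial : ℂ)) * e'
    rw [thPoisA_modeAvg_mul, e, ← mul_sub, norm_mul, norm_mul, hngw, norm_eC, mul_one]
    refine (mul_le_mul_of_nonneg_left h3 (gw_pos _).le).trans ?_
    have h4 : Real.exp (LBB.cc * X * ρ * ‖ι h‖ + LBB.cc * X * ρ * ‖ι h‖)
        ≤ Real.exp (2 * LBB.cc * X * ‖ι h‖) := by
      refine Real.exp_le_exp.2 ?_
      have : 0 ≤ LBB.cc * X * ‖ι h‖ := by positivity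
      nlinarith
    have h5 : (LBB.cc * X * ρ * ‖ι h‖ + LBB.cc * X * ρ * ‖ι h‖) ^ (m + 1)
        = (2 * LBB.cc * X) ^ (m + 1) * ‖ι h‖ ^ (m + 1) * ρ ^ (m + 1) := by
      rw [← mul_pow, ← mul_pow]
      congr 1
      ring
    rw [h5]
    refine (mul_le_mul_of_nonneg_left (mul_le_mul_of_nonneg_left h4 (by positivity))
      (gw_pos _).le).trans (le_of_eq ?_)
    ring
  have tg : Tendsto (fun ρ : ℝ => (X : ℂ) * gw (X * ρ ^ 2)) (𝓝[>] 0) (𝓝 (X : ℂ)) := by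
    have hcont : Continuous fun ρ : ℝ => (X : ℂ) * gw (X * ρ ^ 2) := by
      unfold gw
      fun_prop
    have := hcont.tendsto 0
    simp only [ne_eq, OfNat.ofNat_ne_zero, not_false_eq_true, zero_pow, mul_zero, gw_zero,
      Complex.ofReal_one, mul_one] at this
    exact this.mono_left nhdsWithin_le_nhds
  have hfin := tendsto_nhds_unique tL ((tg.mul tR).congr fun ρ => by rw [hLR]; ring)
  have hc0 : (LBB.cc : ℂ) ^ m ≠ 0 := pow_ne_zero _ (Complex.ofReal_ne_zero.2 hc.ne')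
  have hf0 : (m.factorial : ℂ) ≠ 0 := Nat.cast_ne_zero.2 m.factorial_ne_zero
  have hs : ((-1 : ℂ) ^ (-l).toNat) * (-1) ^ (-l).toNat = 1 := by rw [← mul_pow]; simp
  have hκ0 : κ ≠ 0 := div_ne_zero (mul_ne_zero hc0 (pow_ne_zero _ (by norm_num))) hf0
  refine mul_left_cancel₀ hκ0 ?_
  rw [hfin, hκ, mul_pow, pow_add]
  linear_combination (-((X : ℂ) * (LBB.cc : ℂ) ^ m * (X : ℂ) ^ m / (m.factorial : ℂ) *
    ∑' h : O, (gw (X * nr h) : ℂ) * Pl (-l) (ι h) * eC (ι h * w))) * hs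

/-- Poisson summation with a harmonic polynomial. -/
theorem poisson_ang (l : ℤ) {q : O} (hq : q ≠ 0) (f : O → ℂ)
    (hf : ∀ x y, q ∣ x - y → f x = f y) {X : ℝ} (hX : 0 < X) :
    ∑' k : O, f k * Pl l (ι k) * (gw (nr k / X) : ℂ) =
      ((X / nr q : ℝ) : ℂ) ^ (1 + l.natAbs) * (-1) ^ (-l).toNat * Pl l (ι q) *
        ∑' h : O, ft q f h * Pl (-l) (ι h) * (gw (X * nr h / nr q) : ℂ) := by
  classical
  have hq0 := nr_pos hq
  have hιq : ι q ≠ 0 := fun h0 => hq (ι_injective (by rw [h0, map_zero]))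
  have hX' : 0 < X / nr q := div_pos hX hq0
  have hngw : ∀ x, ‖(gw x : ℂ)‖ = gw x := fun x => by
    rw [Complex.norm_real, Real.norm_of_nonneg (gw_pos _).le]
  have hfb : ∀ k, ‖f k‖ ≤ ∑ x ∈ res q, ‖f x‖ := by
    intro k
    obtain ⟨r, ⟨hr, hr'⟩, -⟩ := exists_unique_res hq k
    rw [hf k r hr']
    exact Finset.single_le_sum (f := fun x => ‖f x‖) (fun _ _ => norm_nonneg _) hr
  have hs : Summable fun k : O => f k * Pl l (ι k) * (gw (nr k / X) : ℂ) := by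
    refine Summable.of_norm_bounded
      ((thPoisA_summable_pow hX 0 l.natAbs).mul_left (∑ x ∈ res q, ‖f x‖)) fun k => ?_
    rw [norm_mul, norm_mul, hngw, norm_Pl, add_zero, norm_ι_sq, mul_assoc, mul_comm (gw _)]
    exact mul_le_mul_of_nonneg_right (hfb k) (mul_nonneg (by positivity) (gw_pos _).le)
  let e : res q × O ≃ O := Equiv.ofBijective (fun z => (z.1 : O) + q * z.2) (by
    constructor
    · rintro ⟨⟨x, hx⟩, k⟩ ⟨⟨x', hx'⟩, k'⟩ hz
      simp only at hz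
      obtain ⟨r, -, hr⟩ := exists_unique_res hq (x + q * k)
      have h1 : x = r := hr x ⟨hx, ⟨k, by ring⟩⟩
      have h2 : x' = r := hr x' ⟨hx', ⟨k', by rw [hz]; ring⟩⟩
      have h3 : x = x' := h1.trans h2.symm
      subst h3
      have h4 : k = k' := mul_left_cancel₀ hq (add_left_cancel hz)
      rw [h4]
    · intro k
      obtain ⟨r, ⟨hr, c, hc⟩, -⟩ := exists_unique_res hq k
      exact ⟨(⟨r, hr⟩, c), by simp only; rw [← hc]; ring⟩)
  have he : ∀ z : res q × O, e z = (z.1 : O) + q * z.2 := fun _ => rfl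
  have t1 := (e.summable_iff.2 hs).tsum_prod
  simp only [Function.comp] at t1
  rw [← e.tsum_eq, t1, tsum_fintype]
  simp only [he]
  set K : ℂ := ((X / nr q : ℝ) : ℂ) ^ (1 + l.natAbs) * (-1) ^ (-l).toNat * Pl l (ι q) with hK
  have inner : ∀ x : O,
      ∑' k : O, f (x + q * k) * Pl l (ι (x + q * k)) * (gw (nr (x + q * k) / X) : ℂ) =
      K * ∑' h : O, f x * eq (h * x) q * Pl (-l) (ι h) * (gw (X * nr h / nr q) : ℂ) := by
    intro x
    have H := poisson_shift_ang l hX' (ι x / ι q)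
    have e1 : ∀ k : O, f (x + q * k) * Pl l (ι (x + q * k)) * (gw (nr (x + q * k) / X) : ℂ)
        = f x * Pl l (ι q) * ((gw (‖ι k + ι x / ι q‖ ^ 2 / (X / nr q)) : ℂ) *
          Pl l (ι k + ι x / ι q)) := by
      intro k
      have h1 : ι k + ι x / ι q = ι (x + q * k) / ι q := by
        rw [map_add, map_mul]
        field_simp
        ring
      have h2 : ‖ι k + ι x / ι q‖ ^ 2 / (X / nr q) = nr (x + q * k) / X := by
        rw [h1, norm_div, div_pow, norm_ι_sq, norm_ι_sq]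
        field_simp
      have h3 : ι (x + q * k) = ι q * (ι k + ι x / ι q) := by
        rw [h1]
        field_simp
      rw [hf (x + q * k) x ⟨k, by ring⟩, h2, h3, Pl_mul]
      ring
    simp only [e1]
    have e2 : ∀ h : O, f x * eq (h * x) q * Pl (-l) (ι h) * (gw (X * nr h / nr q) : ℂ)
        = f x * ((gw (X / nr q * nr h) : ℂ) * Pl (-l) (ι h) * eC (ι h * (ι x / ι q))) := by
      intro h
      rw [eq, map_mul, mul_div_assoc, show X * nr h / nr q = X / nr q * nr h by ring]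
      ring
    simp only [e2]
    rw [tsum_mul_left, tsum_mul_left, H, hK]
    ring
  simp only [inner]
  rw [Finset.sum_coe_sort (res q) (fun x => K *
    ∑' h : O, f x * eq (h * x) q * Pl (-l) (ι h) * (gw (X * nr h / nr q) : ℂ)), ← Finset.mul_sum]
  congr 1
  have hs2 : ∀ x : O, Summable fun h : O =>
      f x * eq (h * x) q * Pl (-l) (ι h) * (gw (X * nr h / nr q) : ℂ) := by
    intro x
    refine Summable.of_norm_bounded ((thPoisA_summable_dual hX' l.natAbs 0).mul_left ‖f x‖)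
      fun h => le_of_eq ?_
    rw [norm_mul, norm_mul, norm_mul, norm_eq, hngw, norm_Pl, Int.natAbs_neg, zero_mul,
      Real.exp_zero, show X * nr h / nr q = X / nr q * nr h by ring]
    ring
  rw [← Summable.tsum_finsetSum fun x _ => hs2 x]
  refine tsum_congr fun h => ?_
  rw [ft, Finset.sum_mul, Finset.sum_mul]

end Crest.Agent.R12
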