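import Crest.Agent.R12.ThSA

/-!
# Row 12, theta half: the coefficients at the cusp `0`
-/

set_option autoImplicit false

noncomputable section

namespace Crest.Agent.R12

open Crest.Agent.R17
open scoped ComplexConjugate Topology
open Filter MeasureTheory

theorem ThSB_10 (σ : SL2) : (σ * SS⁻¹) 1 0 = -σ 1 1 := by
  rw [KubC1.mul_apply, KubC1.inv_00, KubC1.inv_10]
  simp [SS]

theorem ThSB_11 (σ : SL2) : (σ * SS⁻¹) 1 1 = σ 1 0 := by
  rw [KubC1.mul_apply, KubC1.inv_01, KubC1.inv_11]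
  simp [SS]

theorem ThSB_mem {σ : SL2} (h1 : (9 : O) ∣ σ 1 1) (h2 : Primary (σ 1 0)) : σ * SS⁻¹ ∈ Gam :=
  mem_Gam.2 ⟨by rw [ThSB_10]; exact h1.neg_right, by rw [ThSB_11]; exact h2⟩

theorem ThSB_tt {σ : SL2} (h1 : (9 : O) ∣ σ 1 1) (h2 : Primary (σ 1 0)) (r : O) :
    tt σ r = cub (σ 1 0) (σ 1 1) * tt SS r := by
  have h := tt_mul_Gam (ThSB_mem h1 h2) SS r
  rw [inv_mul_cancel_right, kap, ThSB_10, ThSB_11, neg_eq_neg_one_mul (σ 1 1), cub_mul_right,
    cub_neg_one, one_mul] at h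
  exact h

theorem ThSB_nine {p : O} (hp' : Primary p) : IsCoprime p 9 := by
  rw [show (9 : O) = 3 ^ 2 by norm_num]
  exact hp'.isCoprime_three.pow_right

/-- Hecke relation at the cusp `0` (`hecke_coeff` for `σ ≡ S (9)`, `σ ≡ 1 (p³)`; both `σ S⁻¹` and
`σ' S⁻¹` lie in `Gam` and have the same symbol). -/
theorem hecke_SS {p r : O} (hp : Prime p) (hp' : Primary p) (h : ¬ p ∣ r) :
    tt SS (p * r) = ((nr p ^ (-(2 / 3 : ℝ)) : ℝ) : ℂ) * cub p 9 * gc p r * tt SS r := by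
  obtain ⟨τ, h9, hτ⟩ := exists_cong_crt SS (N := p ^ 3) (hp'.pow 3).isCoprime_three
  obtain ⟨c, hc⟩ : p ∣ τ 1 0 := by
    have := hτ 1 0
    rw [show (1 : SL2) 1 0 = 0 from rfl, sub_zero] at this
    exact (dvd_pow_self p three_ne_zero).trans this
  have hdet := τ.det_eq
  have h11 : (9 : O) ∣ τ 1 1 := by simpa [SS] using h9 1 1
  have h10 : Primary (τ 1 0) := by
    have := h9 1 0
    exact Dvd.dvd.trans ⟨3, by norm_num⟩ this
  have hcp : Primary c := hp'.of_mul (hc ▸ h10)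
  have hd : p ∣ τ 1 1 - 1 := (dvd_pow_self p three_ne_zero).trans (hτ 1 1)
  have h3 := (hecke_coeff hp hp' hτ
    (σ' := mkSL (τ 0 0) (p * τ 0 1) c (τ 1 1) (by linear_combination hdet + τ 0 1 * hc))
    rfl rfl hc.symm rfl r).2.2 h
  rw [ThSB_tt h11 h10, ThSB_tt (σ := mkSL _ _ _ _ _) h11 hcp, mkSL_10, mkSL_11, hc,
    cub_mul_left hp.ne_zero hcp.ne_zero, KubC1.cub_congr' hd, cub_one_right, one_mul] at h3
  have hne : cub c (τ 1 1) ≠ 0 := fun h0 => (cub_eq_zero_iff hcp).1 h0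
    ⟨-(p * τ 0 1), τ 0 0, by linear_combination hdet + τ 0 1 * hc⟩
  refine mul_left_cancel₀ hne (h3.trans ?_)
  ring

theorem ThSB_formula {r : O} (hr : r ≠ 0) (h : pf r = ∅) {m : O} (hm : Primary m) :
    Squarefree m →
      tt SS (m * r) = ((nr m ^ (-(2 / 3 : ℝ)) : ℝ) : ℂ) * cub m 9 * gc m r * tt SS r := by
  refine Primary.induction (P := fun m => Squarefree m →
    tt SS (m * r) = ((nr m ^ (-(2 / 3 : ℝ)) : ℝ) : ℂ) * cub m 9 * gc m r * tt SS r)
    (fun _ => by simp [nr]) ?_ hm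
  intro p n hp hp' hn ih hs
  obtain ⟨h1, h2⟩ := K2_sqfree hp hs
  have hc := (hp.coprime_iff_not_dvd).2 h2
  rw [mul_assoc p, hecke_SS hp hp' fun hd => (hp.dvd_or_dvd hd).elim h2 (K2_not_dvd hr h hp hp'),
    ih h1, mul_comm n r, gc_mul_unit hp' hc.symm, gc_mul hp' hn hc, cub_recip hn hp', conj_cub,
    nr_mul, Real.mul_rpow (Nat.cast_nonneg _) (Nat.cast_nonneg _), Complex.ofReal_mul,
    cub_mul_left hp.ne_zero hn.ne_zero]
  ring

/-- Induction as in `K2_formula`, `K2_full`. -/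
theorem tt_SS_full {r : O} (hr : r ≠ 0) (h : pf r = ∅) {m d : O} (hm : Primary m)
    (hs : Squarefree m) (hd : Primary d) :
    tt SS (r * (m * d ^ 3)) =
      ((nr m ^ (-(2 / 3 : ℝ)) : ℝ) : ℂ) * cub m 9 * gc m r * tt SS r := by
  rw [← ThSB_formula hr h hm hs, ← K2_cube SS hd (m * r)]
  congr 1
  ring

theorem ThSB_three : (3 : O) ≠ 0 ∧ pf (3 : O) = ∅ := by
  have := K2_pf (u := -1) isUnit_neg_one 2
  rwa [lam_sq, show (-1 : O) * -3 = 3 by norm_num] at this

theorem ThSB_gc {m : O} (hm : Primary m) (hs : Squarefree m) : cub m 9 * gc m 3 = gc m lam := by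
  have hl : IsCoprime m lam :=
    hm.isCoprime_three.of_isCoprime_of_dvd_right ⟨-lam, by linear_combination lam_sq⟩
  have h3 : cub m 3 = cub m lam ^ 2 := by
    rw [show (3 : O) = -1 * lam ^ 2 by linear_combination lam_sq, cub_mul_right, cub_neg_one,
      one_mul, cub_pow_right]
  have h9 : cub m 9 = cub m 3 ^ 2 := by
    rw [← cub_pow_right]; norm_num
  have hc := cub_pow_three hm hl
  rw [gc_sqfree hm hs 3, gc_sqfree hm hs lam, conj_cub, conj_cub, h9, h3]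
  linear_combination (cub m lam ^ 2 * gc m 1 * (cub m lam ^ 3 + 1)) * hc

theorem tt_SS_three {n : O} (hn : Primary n) :
    tt SS (3 * n) = tt SS 3 * tc n * ((nr n ^ (-(1 / 6 : ℝ)) : ℝ) : ℂ) := by
  obtain ⟨h0, hpf⟩ := ThSB_three
  by_cases hv : ∀ p ∈ pf n, vp p n % 3 ≠ 2
  · obtain ⟨e', hm, hs, hd⟩ := eq_sq1_mul_cu hn hv
    rw [tc, if_pos ⟨hn, hv⟩]
    generalize sq1 n = m at e' hm hs
    generalize cu n = d at e' hd
    have hM := nr_pos hm.ne_zero
    have hD := nr_pos hd.ne_zero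
    have h2 : nr n ^ (-(1 / 6 : ℝ)) = nr m ^ (-(1 / 6 : ℝ)) * (Real.sqrt (nr d))⁻¹ := by
      rw [e', nr_mul, nr_pow, Real.mul_rpow (by positivity) (by positivity),
        Real.rpow_neg (by positivity : 0 ≤ nr d ^ 3), K2_rpow_cube hD.le]
    have h3 : nr m ^ (-(2 / 3 : ℝ)) = (Real.sqrt (nr m))⁻¹ * nr m ^ (-(1 / 6 : ℝ)) := by
      rw [Real.sqrt_eq_rpow, ← Real.rpow_neg hM.le, ← Real.rpow_add hM]
      norm_num
    have hD' : ((Real.sqrt (nr d) : ℝ) : ℂ) ≠ 0 :=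
      Complex.ofReal_ne_zero.2 (Real.sqrt_pos.2 hD).ne'
    rw [h2, e', tt_SS_full h0 hpf hm hs hd, mul_assoc _ (cub m 9), ThSB_gc hm hs, Gn, h3]
    push_cast
    field_simp
  · have h1 : tt SS (3 * n) = 0 := by
      by_contra h1
      exact hv (K2_mod h0 hpf hn (by rwa [mul_comm]))
    rw [tc, if_neg fun h => hv h.2, h1, mul_zero, zero_mul]

theorem norm_tt_SS_le {r : O} (hr : r ≠ 0) (h : pf r = ∅) {n : O} (hn : Primary n) :
    ‖tt SS (r * n)‖ ≤ ‖tt SS r‖ := by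
  by_cases hv : ∀ p ∈ pf n, vp p n % 3 ≠ 2
  · obtain ⟨e', hm, hs, hd⟩ := eq_sq1_mul_cu hn hv
    generalize sq1 n = m at e' hm hs
    generalize cu n = d at e' hd
    have hM := nr_pos hm.ne_zero
    rw [e', tt_SS_full hr h hm hs hd, gc_sqfree hm hs, norm_mul, norm_mul, norm_mul, norm_mul,
      norm_cub hm (ThSB_nine hm), Complex.norm_conj, norm_cub hm (K2_coprime hr h hm),
      norm_gc hm hs, Complex.norm_real, Real.norm_of_nonneg (Real.rpow_nonneg hM.le _), mul_one,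
      one_mul, Real.sqrt_eq_rpow, ← Real.rpow_add hM]
    refine mul_le_of_le_one_left (norm_nonneg _) ?_
    exact Real.rpow_le_one_of_one_le_of_nonpos (one_le_nr hm.ne_zero) (by norm_num)
  · have h1 : tt SS (r * n) = 0 := by
      by_contra h1
      exact hv (K2_mod hr h hn (by rwa [mul_comm]))
    rw [h1, norm_zero]
    exact norm_nonneg _

/-- Gauss sums with a non-squarefree modulus vanish at arguments prime to the modulus. -/
theorem gc_eq_zero {c r : O} (hc : Primary c) (hs : ¬ Squarefree c) (h : IsCoprime c r) :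
    gc c r = 0 := by
  obtain ⟨q, hq, hu⟩ : ∃ q, q * q ∣ c ∧ ¬ IsUnit q := by
    by_contra hn
    exact hs fun q hq => by_contra fun hu => hn ⟨q, hq, hu⟩
  obtain ⟨e, he⟩ := hq
  have hc0 := hc.ne_zero
  have hq0 : q ≠ 0 := by rintro rfl; simp at he; exact hc0 he
  have he0 : e ≠ 0 := by rintro rfl; simp at he; exact hc0 he
  have hqe : q * e ≠ 0 := mul_ne_zero hq0 he0
  have hqr : ¬ q ∣ r := fun hd => hu (h.isUnit_of_dvd' ⟨q * e, by rw [he]; ring⟩ hd)
  have he' : c = q * e * q := by rw [he]; ring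
  rw [gc, he', sum_res_mul hqe hq0 _ fun x y hxy => by
    rw [KubC1.cub_congr' hxy, eq_congr (x := r * x) (y := r * y) (by
      rw [← mul_sub]; exact hxy.mul_left r)]]
  refine Finset.sum_eq_zero fun x _ => ?_
  have e1 : ∀ y, cub (q * e * q) (x + q * e * y) * eq (r * (x + q * e * y)) (q * e * q) =
      cub (q * e * q) x * eq (r * x) (q * e * q) * eq (r * y) q := fun y => by
    rw [cub_mul_left hqe hq0, cub_mul_left hqe hq0,
      KubC1.cub_congr' (n := q * e) (a := x + q * e * y) (b := x) ⟨y, by ring⟩,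
      KubC1.cub_congr' (n := q) (a := x + q * e * y) (b := x) ⟨e * y, by ring⟩,
      show r * (x + q * e * y) = r * x + q * e * (r * y) by ring, eq_add, eq_mul_mul hqe]
    ring
  simp only [e1]
  rw [← Finset.mul_sum, sum_res_eq_char hq0, if_neg hqr, mul_zero]

end Crest.Agent.R12
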