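import Crest.Agent.R17.Basic

/-!
# Row 12, theta half: the lattice sum (auxiliary file)
-/

set_option autoImplicit false

noncomputable section

namespace Crest.Agent.R12

open Crest.Agent.R17

theorem ThW0_geo {q : ℝ} (h0 : 0 ≤ q) (h1 : q < 1) (c : ℕ) (T : Finset ℤ)
    (h : ∀ x ∈ T, c ≤ x.natAbs) : ∑ x ∈ T, q ^ x.natAbs ≤ 2 * (q ^ c / (1 - q)) := by
  rw [Finset.sum_comp (fun n : ℕ => q ^ n) Int.natAbs]
  have h2 : ∀ n : ℕ, (T.filter fun a => a.natAbs = n).card ≤ 2 := by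
    intro n
    refine (Finset.card_le_card (t := {(n : ℤ), -(n : ℤ)}) fun a ha => ?_).trans
      Finset.card_le_two
    have := (Finset.mem_filter.1 ha).2
    simp only [Finset.mem_insert, Finset.mem_singleton]
    omega
  calc _ ≤ ∑ n ∈ T.image Int.natAbs, 2 * q ^ n := by
        refine Finset.sum_le_sum fun n _ => ?_
        rw [nsmul_eq_mul]
        exact mul_le_mul_of_nonneg_right (by exact_mod_cast h2 n) (by positivity)
    _ ≤ ∑ n ∈ Finset.Ico c ((T.image Int.natAbs).sup id + 1), 2 * q ^ n := by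
        refine Finset.sum_le_sum_of_subset_of_nonneg (fun n hn => ?_) fun _ _ _ => by positivity
        have h3 : n ≤ (T.image Int.natAbs).sup id := Finset.le_sup (f := id) hn
        obtain ⟨x, hx, rfl⟩ := Finset.mem_image.1 hn
        exact Finset.mem_Ico.2 ⟨h x hx, by omega⟩
    _ ≤ _ := by
        rw [← Finset.mul_sum]
        exact mul_le_mul_of_nonneg_left (geom_sum_Ico_le_of_lt_one h0 h1) (by norm_num)

theorem ThW0_geo0 {q : ℝ} (h0 : 0 ≤ q) (h1 : q < 1) (T : Finset ℤ) :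
    ∑ x ∈ T, q ^ x.natAbs ≤ 1 + 2 * (q / (1 - q)) := by
  have h := ThW0_geo h0 h1 1 (T.erase 0) fun x hx => by
    have := Finset.ne_of_mem_erase hx; omega
  rw [pow_one] at h
  calc _ ≤ ∑ x ∈ insert 0 (T.erase 0), q ^ x.natAbs :=
        Finset.sum_le_sum_of_subset_of_nonneg (Finset.subset_insert_iff.2 (le_refl _))
          fun _ _ _ => by positivity
    _ ≤ _ := by
        rw [Finset.sum_insert (Finset.notMem_erase _ _)]
        simpa using h

theorem ThW0_exp {x c : ℝ} (hx : 0 ≤ x) (hc : 0 < c) (n : ℕ)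
    (h : 1 ≤ c * ∑ i ∈ Finset.range n, x ^ i / i.factorial) : Real.exp (-x) ≤ c := by
  rw [Real.exp_neg, inv_le_comm₀ (Real.exp_pos _) hc, inv_le_iff_one_le_mul₀' hc]
  exact h.trans (mul_le_mul_of_nonneg_left (Real.sum_le_exp_of_nonneg hx n) hc.le)

theorem ThW0_A : Real.exp (-1.83) ≤ 0.17 :=
  ThW0_exp (by norm_num) (by norm_num) 6 (by norm_num [Finset.sum_range_succ, Nat.factorial])

theorem ThW0_q : Real.exp (-0.35) ≤ 0.71 :=
  ThW0_exp (by norm_num) (by norm_num) 3 (by norm_num [Finset.sum_range_succ, Nat.factorial])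

theorem ThW0_p : Real.exp (-4.38) ≤ 0.013 :=
  ThW0_exp (by norm_num) (by norm_num) 10 (by norm_num [Finset.sum_range_succ, Nat.factorial])

theorem ThW0_nr (r : O) : nr r = (r.re : ℝ) ^ 2 - r.re * r.im + (r.im : ℝ) ^ 2 := by
  have h := nm_cast r
  unfold nr
  exact_mod_cast h

theorem ThW0_axis (r : O) (h : r.im = 0) :
    Real.exp (-1.83 * Real.sqrt (nr r)) ≤ 0.17 ^ r.re.natAbs := by
  have h1 : Real.sqrt (nr r) = (r.re.natAbs : ℝ) := by
    rw [ThW0_nr, h, Nat.cast_natAbs, Int.cast_abs, ← Real.sqrt_sq_eq_abs]; simp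
  rw [h1, mul_comm, Real.exp_nat_mul]
  exact pow_le_pow_left₀ (Real.exp_pos _).le ThW0_A _

theorem ThW0_off (r : O) (h : (3 : ℤ) ∣ r.im) :
    Real.exp (-1.83 * Real.sqrt (nr r)) ≤
      0.71 ^ (2 * r.re - r.im).natAbs * 0.013 ^ (r.im / 3).natAbs := by
  obtain ⟨k, hk⟩ := h
  have hk' : r.im / 3 = k := by omega
  rw [hk']
  set a : ℝ := ((2 * r.re - r.im).natAbs : ℝ) with ha
  set b : ℝ := (k.natAbs : ℝ) with hb
  have ha0 : 0 ≤ a := by positivity
  have hb0 : 0 ≤ b := by positivity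
  have ha2 : a ^ 2 = (2 * (r.re : ℝ) - 3 * k) ^ 2 := by
    rw [ha, Nat.cast_natAbs, Int.cast_abs, sq_abs, hk]; push_cast; ring
  have hb2 : b ^ 2 = (k : ℝ) ^ 2 := by rw [hb, Nat.cast_natAbs, Int.cast_abs, sq_abs]
  have h1 : nr r = (a ^ 2 + 27 * b ^ 2) / 4 := by
    rw [ThW0_nr, ha2, hb2, hk]; push_cast; ring
  have h2 : 5 / 26 * a + 12 / 13 * 2.598 * b ≤ Real.sqrt (nr r) := by
    refine Real.le_sqrt_of_sq_le ?_
    rw [h1]
    nlinarith [sq_nonneg (12 * (a / 2) - 5 * (2.598 * b)), sq_nonneg b]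
  calc _ ≤ Real.exp (a * (-0.35) + b * (-4.38)) := Real.exp_le_exp.2 (by nlinarith)
    _ = Real.exp (-0.35) ^ (2 * r.re - r.im).natAbs * Real.exp (-4.38) ^ k.natAbs := by
        rw [Real.exp_add, ha, hb, Real.exp_nat_mul, Real.exp_nat_mul]
    _ ≤ _ := mul_le_mul (pow_le_pow_left₀ (Real.exp_pos _).le ThW0_q _)
        (pow_le_pow_left₀ (Real.exp_pos _).le ThW0_p _) (by positivity) (by positivity)

theorem ThW0_lattice (S : Finset O) (hS : ∀ r ∈ S, (3 : ℤ) ∣ r.im ∧ 4 ≤ nm r) :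
    ∑ r ∈ S, Real.exp (-1.83 * Real.sqrt (nr r)) ≤ 0.23 := by
  classical
  rw [← Finset.sum_filter_add_sum_filter_not S fun r => r.im = 0]
  have h1 : ∑ r ∈ S.filter (fun r => r.im = 0), Real.exp (-1.83 * Real.sqrt (nr r)) ≤
      2 * (0.17 ^ 2 / (1 - 0.17)) := by
    refine (Finset.sum_le_sum fun r hr => ThW0_axis r (Finset.mem_filter.1 hr).2).trans ?_
    rw [← Finset.sum_image (g := fun r : O => r.re) (f := fun x : ℤ => (0.17 : ℝ) ^ x.natAbs)]
    · refine ThW0_geo (by norm_num) (by norm_num) 2 _ fun x hx => ?_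
      obtain ⟨r, hr, rfl⟩ := Finset.mem_image.1 hx
      obtain ⟨hr1, hr2⟩ := Finset.mem_filter.1 hr
      have h3 : (4 : ℤ) ≤ nm r := by exact_mod_cast (hS r hr1).2
      rw [nm_cast, hr2] at h3
      by_contra hlt
      have h4 : r.re = -1 ∨ r.re = 0 ∨ r.re = 1 := by omega
      rcases h4 with h4 | h4 | h4 <;> simp [h4] at h3
    · intro r hr s hs e
      exact QuadraticAlgebra.ext e
        ((Finset.mem_filter.1 hr).2.trans (Finset.mem_filter.1 hs).2.symm)
  have h2 : ∑ r ∈ S.filter (fun r => ¬ r.im = 0), Real.exp (-1.83 * Real.sqrt (nr r)) ≤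
      (1 + 2 * (0.71 / (1 - 0.71))) * (2 * (0.013 ^ 1 / (1 - 0.013))) := by
    set S1 := S.filter (fun r => ¬ r.im = 0) with hS1
    refine (Finset.sum_le_sum fun r hr => ThW0_off r (hS r (Finset.mem_filter.1 hr).1).1).trans ?_
    rw [← Finset.sum_image (g := fun r : O => (2 * r.re - r.im, r.im / 3))
      (f := fun v : ℤ × ℤ => (0.71 : ℝ) ^ v.1.natAbs * 0.013 ^ v.2.natAbs)]
    · refine (Finset.sum_le_sum_of_subset_of_nonneg
        (t := S1.image (fun r : O => 2 * r.re - r.im) ×ˢ S1.image (fun r : O => r.im / 3))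
        (fun v hv => ?_) fun _ _ _ => by positivity).trans ?_
      · obtain ⟨r, hr, rfl⟩ := Finset.mem_image.1 hv
        exact Finset.mem_product.2 ⟨Finset.mem_image_of_mem _ hr, Finset.mem_image_of_mem _ hr⟩
      · rw [Finset.sum_product]
        dsimp only
        rw [← Finset.sum_mul_sum]
        refine mul_le_mul (ThW0_geo0 (by norm_num) (by norm_num) _)
          (ThW0_geo (by norm_num) (by norm_num) 1 _ fun x hx => ?_) (by positivity) (by norm_num)
        obtain ⟨r, hr, rfl⟩ := Finset.mem_image.1 hx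
        obtain ⟨hr1, hr2⟩ := Finset.mem_filter.1 hr
        have := (hS r hr1).1
        omega
    · intro r hr s hs e
      have h3 := (hS r (Finset.mem_filter.1 hr).1).1
      have h4 := (hS s (Finset.mem_filter.1 hs).1).1
      simp only [Prod.mk.injEq] at e
      refine QuadraticAlgebra.ext ?_ ?_ <;> omega
  norm_num at h1 h2 ⊢
  linarith

end Crest.Agent.R12
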