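import Crest.Agent.R12.ThW0A
import Crest.Agent.R12.ThW0Aux

/-!
# Row 12, theta half: numerical estimates for the sign
-/

set_option autoImplicit false

noncomputable section

namespace Crest.Agent.R12

open Crest.Agent.R17
open scoped ComplexConjugate Topology
open Filter MeasureTheory

/-- `r = x + 3kω`, `4 N r = (2x - 3k)² + 27 k²`.  The terms `k = 0` give `≤ 0.062`; for `k ≠ 0`
use `√(a² + b²) ≥ (5a + 12b)/13`: `≤ 0.145`. -/
theorem lattice_sum (S : Finset O) (hS : ∀ r ∈ S, (3 : ℤ) ∣ r.im ∧ 4 ≤ nm r) :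
    ∑ r ∈ S, Real.exp (-1.83 * Real.sqrt (nr r)) ≤ 0.23 :=
  ThW0_lattice S hS

end Crest.Agent.R12
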