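import Crest.Agent.R12.ThSym
import Crest.Agent.R12.ThW0

/-!
# Row 12, theta half: the sign of the leading coefficient
-/

set_option autoImplicit false

noncomputable section

namespace Crest.Agent.R12

open Crest.Agent.R17
open scoped ComplexConjugate Topology
open Filter MeasureTheory

theorem ThSign_y : ∃ y : ℝ, 1 ≤ y ∧ y ^ (2 / 3 : ℝ) = 6 / 5 ∧ y ^ 2 = 216 / 125 := by
  refine ⟨(6 / 5 : ℝ) ^ (3 / 2 : ℝ), Real.one_le_rpow (by norm_num) (by norm_num), ?_, ?_⟩
  · rw [← Real.rpow_mul (by norm_num)]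
    norm_num
  · rw [← Real.rpow_natCast, ← Real.rpow_mul (by norm_num),
      show (3 / 2 : ℝ) * ((2 : ℕ) : ℝ) = ((3 : ℕ) : ℝ) by norm_num, Real.rpow_natCast]
    norm_num

theorem ThSign_b1 : 1.46 ≤ 9 * b1 := by
  have := Real.pi_gt_d2
  unfold b1
  nlinarith

theorem ThSign_small {r : O} (h0 : r ≠ 0) (h3 : (3 : ℤ) ∣ r.im) (h4 : ¬ 4 ≤ nm r) :
    r = 1 ∨ r = -1 := by
  obtain ⟨k, hk⟩ := h3
  have h1 := nm_cast r
  have h2 : (nm r : ℤ) ≤ 3 := by omega
  have h5 : nm r ≠ 0 := fun h => h0 (nm_eq_zero.1 h)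
  have h6 : (1 : ℤ) ≤ nm r := by omega
  rw [hk] at h1
  have hk0 : k = 0 := by
    by_contra hne
    have : 1 ≤ k ^ 2 := by
      have := sq_pos_of_ne_zero hne
      omega
    nlinarith [sq_nonneg (2 * r.re - 3 * k)]
  subst hk0
  have h7 : r.re ≤ 1 := by nlinarith
  have h8 : -1 ≤ r.re := by nlinarith
  have h9 : r.re ≠ 0 := by
    intro h
    rw [h] at h1
    omega
  have : r.re = 1 ∨ r.re = -1 := by omega
  rcases this with h | h
  · left
    ext <;> simp [h, hk, QuadraticAlgebra.re_one, QuadraticAlgebra.im_one]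
  · right
    ext <;> simp [h, hk, QuadraticAlgebra.re_one, QuadraticAlgebra.im_one]

/-- If `aP 1 = -3 c C0`, compare the heights `y = (6/5)^{3/2}` and `y⁻¹` in `sum_aP_symm`:
`((6/5)² - 1) Γ(1/3) C0 ≤ 0.94 Γ(1/3) C0 · 2 · 0.23`, which is false. -/
theorem a1_eq : tt SS 3 = ((3 * cP * C0 : ℝ) : ℂ) := by
  classical
  have hC := C0_pos
  have hc := cP_pos
  have hG : 0 < Real.Gamma (1 / 3) := Real.Gamma_pos_of_pos (by norm_num)
  have him := tt_SS_three_im
  have hn := norm_a1
  have hre : tt SS 3 = ((tt SS 3).re : ℂ) := Complex.ext rfl (by simpa using him)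
  have habs : |(tt SS 3).re| = 3 * cP * C0 := by
    rw [← hn, hre, Complex.norm_real, Complex.ofReal_re, Real.norm_eq_abs]
  rcases (abs_eq (by positivity)).1 habs with h | h
  · rw [hre, h]
  exfalso
  obtain ⟨y, hy1, hy2, hy3⟩ := ThSign_y
  have hy0 : 0 < y := by linarith
  have hi2 : y⁻¹ ^ (2 / 3 : ℝ) = 5 / 6 := by
    rw [Real.inv_rpow hy0.le, hy2]
    norm_num
  have hi3 : y⁻¹ ^ 2 = 125 / 216 := by
    rw [inv_pow, hy3]
    norm_num
  have hb := ThSign_b1
  have hP1 : aP 1 = tt SS 3 := by rw [aP, mul_one]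
  set F : O → ℝ := fun r => (aP r).re * (Mk y⁻¹ (9 * b1 * nr r) - Mk y (9 * b1 * nr r)) with hF
  have hs : HasSum F 0 := by
    have h1 := (summable_aP hy0).of_norm.hasSum
    have h2 := (summable_aP (inv_pos.2 hy0)).of_norm.hasSum
    rw [sum_aP_symm hy0] at h1
    have h3 := Complex.hasSum_re (h2.sub h1)
    rw [sub_self, Complex.zero_re] at h3
    refine h3.congr_fun fun r => ?_
    simp only [hF, Complex.sub_re, Complex.mul_re, Complex.ofReal_re, Complex.ofReal_im]
    ring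
  have hF0 : F 0 = -(11 / 30) * (C0 * Real.Gamma (1 / 3)) := by
    have e : nr (0 : O) = 0 := by simp [nr, nm]
    simp only [hF, aP, mul_zero, tt_SS_zero, Complex.ofReal_re, e, Mk, W0_zero, hy2, hi2]
    ring
  set K : ℝ := 0.94 * Real.Gamma (1 / 3) * C0 * (5 / 6 * 2) with hK
  have hK0 : 0 ≤ K := by positivity
  have hle : ∀ r : O, F r - (if r = 0 then F 0 else 0) ≤
      if (3 : ℤ) ∣ r.im ∧ 4 ≤ nm r then K * Real.exp (-1.83 * Real.sqrt (nr r)) else 0 := by
    intro r
    by_cases h0 : r = 0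
    · subst h0
      rw [if_pos rfl, sub_self]
      split_ifs
      · positivity
      · exact le_rfl
    rw [if_neg h0, sub_zero]
    have hN := one_le_nr h0
    have hD := Mk_le_Mk_inv hy1 (b := 9 * b1 * nr r) (by nlinarith)
    by_cases h3 : (3 : ℤ) ∣ r.im
    swap
    · rw [if_neg fun h => h3 h.1]
      simp only [hF, aP_eq_zero h3, Complex.zero_re, zero_mul, le_refl]
    by_cases h4 : 4 ≤ nm r
    · rw [if_pos ⟨h3, h4⟩]
      have hN4 : (4 : ℝ) ≤ nr r := by exact_mod_cast h4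
      have a1 : (aP r).re ≤ 0.94 * Real.Gamma (1 / 3) * C0 := by
        have := (Complex.re_le_norm (aP r)).trans (norm_aP_le h0)
        rw [hP1, hn] at this
        exact this.trans (mul_le_mul_of_nonneg_right three_cP_le hC.le)
      have a2 := Mk_pos hy0 (b := 9 * b1 * nr r) (by nlinarith)
      have a3 : Mk y⁻¹ (9 * b1 * nr r) ≤ 5 / 6 * 2 * Real.exp (-1.83 * Real.sqrt (nr r)) := by
        rw [Mk, hi2, hi3, mul_assoc (5 / 6 : ℝ)]
        refine mul_le_mul_of_nonneg_left ((W0_le_exp (by nlinarith)).trans ?_) (by norm_num)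
        refine mul_le_mul_of_nonneg_left (Real.exp_le_exp.2 ?_) (by norm_num)
        have b1' : 0.915 * Real.sqrt (nr r) ≤ Real.sqrt (125 / 216 * (9 * b1 * nr r)) := by
          refine Real.le_sqrt_of_sq_le ?_
          rw [mul_pow, Real.sq_sqrt (by linarith)]
          nlinarith
        linarith
      calc F r ≤ 0.94 * Real.Gamma (1 / 3) * C0 *
            (Mk y⁻¹ (9 * b1 * nr r) - Mk y (9 * b1 * nr r)) :=
            mul_le_mul_of_nonneg_right a1 (sub_nonneg.2 hD)
        _ ≤ 0.94 * Real.Gamma (1 / 3) * C0 *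
            (5 / 6 * 2 * Real.exp (-1.83 * Real.sqrt (nr r))) :=
            mul_le_mul_of_nonneg_left (by linarith) (by positivity)
        _ = _ := by rw [hK]; ring
    · rw [if_neg fun h => h4 h.2]
      have a1 : aP r = tt SS 3 := by
        rcases ThSign_small h0 h3 h4 with rfl | rfl
        · exact hP1
        · rw [aP, mul_neg, mul_one, tt_SS_neg]
      refine mul_nonpos_of_nonpos_of_nonneg ?_ (sub_nonneg.2 hD)
      rw [a1, h]
      have : 0 < 3 * cP * C0 := by positivity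
      linarith
  have hfin : 0 - F 0 ≤ K * 0.23 := by
    refine hasSum_le_of_sum_le (hs.sub (hasSum_ite_eq 0 (F 0))) fun S => ?_
    refine (Finset.sum_le_sum fun r _ => hle r).trans ?_
    rw [← Finset.sum_filter, ← Finset.mul_sum]
    exact mul_le_mul_of_nonneg_left
      (lattice_sum _ fun r hr => (Finset.mem_filter.1 hr).2) hK0
  rw [hF0, hK] at hfin
  have := mul_pos hC hG
  nlinarith

end Crest.Agent.R12
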