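import Crest.Agent.R12.ThAbs

/-!
# Row 12, theta half: invariance of Patterson's theta function under `SL₂(ℤ)`
-/

set_option autoImplicit false

noncomputable section

namespace Crest.Agent.R12

open Crest.Agent.R17
open scoped ComplexConjugate Topology
open Filter MeasureTheory

theorem ThSym_Cv (b : O) (σ : SL2) (α β : O) :
    Cv ((SS * nT (3 * b) * σ) 0 0 * α + (SS * nT (3 * b) * σ) 0 1 * β)
        ((SS * nT (3 * b) * σ) 1 0 * α + (SS * nT (3 * b) * σ) 1 1 * β) =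
      Cv (-(σ 1 0 * α + σ 1 1 * β))
        (σ 0 0 * α + σ 0 1 * β + 3 * b * (σ 1 0 * α + σ 1 1 * β)) := by
  simp only [KubC2.mul_apply, SS, nT, mkSL_00, mkSL_01, mkSL_10, mkSL_11]
  congr 1 <;> ring

theorem ThSym_two {σ τ : SL2}
    (h : ∀ α β, Pc (σ 0 0 * α + σ 0 1 * β) (σ 1 0 * α + σ 1 1 * β) =
      Pc (τ 0 0 * α + τ 0 1 * β) (τ 1 0 * α + τ 1 1 * β)) (w : H) :
    Theta (σ • w) = Theta (τ • w) := by
  have h1 := vanish_of_ct (J := res 3 ⊕ res 3)
    (Sum.elim (fun b => ((SS * nT (3 * b) * σ : SL2) : Mat))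
      fun b => ((SS * nT (3 * b) * τ : SL2) : Mat))
    (by rintro (b | b) <;> exact SL2.det_ne _)
    (Sum.elim (fun _ => 1) fun _ => -1) (fun α β => by
      have h2 := h α β
      rw [Pc, Pc, ← Finset.sum_coe_sort (res 3), ← Finset.sum_coe_sort (res 3)] at h2
      simp only [Fintype.sum_sum_type, Sum.elim_inl, Sum.elim_inr, Matrix.SpecialLinearGroup.det_coe,
        ThSym_Cv, nr, nm_one, Nat.cast_one, Real.one_rpow, Complex.ofReal_one, mul_one, one_mul,
        neg_mul, Finset.sum_neg_distrib]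
      rw [h2, add_neg_cancel]) w
  simp only [Fintype.sum_sum_type, Sum.elim_inl, Sum.elim_inr, one_mul, neg_mul,
    Finset.sum_neg_distrib, ← smul_def, Th_smul, LimB.Th_mul (SS * nT _)] at h1
  rw [Theta, Theta, ← Finset.sum_coe_sort (res 3), ← Finset.sum_coe_sort (res 3)]
  exact add_neg_eq_zero.1 h1

theorem ThSym_nm_three : nm (3 : O) = 9 := by simpa using nm_natCast 3

theorem ThSym_nr (r : O) : b1 * nr (3 * r) = 9 * b1 * nr r := by
  rw [nr_mul, nr, ThSym_nm_three]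
  push_cast
  ring

theorem ThSym_inj : Function.Injective fun r : O => 3 * r := fun _ _ h =>
  mul_left_cancel₀ (by norm_num) h

/-- `vanish_of_ct` for the matrices `S n(3b) σ` and `S n(3b)`. -/
theorem Theta_smul {σ : SL2}
    (h : ∀ α β, Pc (σ 0 0 * α + σ 0 1 * β) (σ 1 0 * α + σ 1 1 * β) = Pc α β) (w : H) :
    Theta (σ • w) = Theta w := by
  have h1 := ThSym_two (σ := σ) (τ := 1) (fun α β => by rw [h]; simp) w
  rwa [one_smul] at h1

theorem summable_aP {y : ℝ} (hy0 : 0 < y) :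
    Summable fun r : O => ‖aP r * (Mk y (9 * b1 * nr r) : ℂ)‖ := by
  refine ((summable_Th SS hy0).comp_injective ThSym_inj).congr fun r => ?_
  simp only [Function.comp_apply, aP, ThSym_nr]

/-- `tt_mul_nT`, `sum_res_eq_char`. -/
theorem Theta_eq (z : ℂ) {y : ℝ} (hy0 : 0 < y) :
    Theta (hp z y) = 9 * ∑' r : O, aP r * (Mk y (9 * b1 * nr r) : ℂ) * eC (ι r * z / 3) := by
  classical
  have h3 : (3 : O) ≠ 0 := by norm_num
  rw [Theta]
  simp only [LimB.Th_hp _ z hy0]
  rw [← Summable.tsum_finsetSum fun b _ => LimB.summable_mul_eC (summable_Th _ hy0) _]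
  have e : ∀ ν : O, ∑ b ∈ res 3, tt (SS * nT (3 * b)) ν * (Mk y (b1 * nr ν) : ℂ) * eC (ι ν * z / 9)
      = if (3 : O) ∣ ν then 9 * (tt SS ν * (Mk y (b1 * nr ν) : ℂ) * eC (ι ν * z / 9)) else 0 := by
    intro ν
    have e1 : ∀ b, eq (ν * (3 * b)) 9 = eq (ν * b) 3 := fun b => by
      rw [← eq_mul_mul h3 (ν * b) 3, show ν * (3 * b) = 3 * (ν * b) by ring,
        show (9 : O) = 3 * 3 by norm_num]
    simp only [tt_mul_nT, e1]
    rw [← Finset.sum_mul, ← Finset.sum_mul, ← Finset.mul_sum, sum_res_eq_char h3, ThSym_nm_three]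
    split_ifs
    · push_cast
      ring
    · simp
  simp only [e]
  rw [← ThSym_inj.tsum_eq, ← tsum_mul_left]
  · refine tsum_congr fun r => ?_
    rw [if_pos (dvd_mul_right _ _), ThSym_nr, aP, map_mul, map_ofNat]
    congr 3
    ring
  · intro ν hν
    by_contra h
    refine hν (if_neg ?_)
    rintro ⟨r, rfl⟩
    exact h ⟨r, rfl⟩

/-- Invariance under `w ↦ w + 1` (`Pc_T`, `coeff_unique`). -/
theorem aP_eq_zero {r : O} (h : ¬ (3 : ℤ) ∣ r.im) : aP r = 0 := by
  have h3 : (3 : O) ≠ 0 := by norm_num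
  have hs := summable_aP one_pos
  have key := coeff_unique (q := 3) h3
    (a := fun r => aP r * (Mk 1 (9 * b1 * nr r) : ℂ) * eq r 3)
    (a' := fun r => aP r * (Mk 1 (9 * b1 * nr r) : ℂ))
    (hs.congr fun r => by rw [norm_mul _ (eq r 3), norm_eq, mul_one]) hs fun z => by
      have h1 := Theta_smul (σ := nT 1) (fun α β => by simpa [nT] using Pc_T α β) (hp z 1)
      have h2 : nT 1 • hp z 1 = hp (z + 1) 1 := by
        rw [nT_smul, map_one]
        rfl
      rw [h2, Theta_eq _ one_pos, Theta_eq _ one_pos] at h1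
      rw [map_ofNat, ← mul_left_cancel₀ (by norm_num) h1]
      refine tsum_congr fun r => ?_
      rw [mul_assoc _ (eq r 3), eq, map_ofNat, ← eC_add]
      congr 2
      ring
  have h1 := congrFun key r
  have hM : ((Mk 1 (9 * b1 * nr r) : ℝ) : ℂ) ≠ 0 :=
    Complex.ofReal_ne_zero.2 (Mk_pos one_pos (by have := b1_pos; positivity)).ne'
  by_contra h0
  have h2 : eq r 3 = 1 := mul_left_cancel₀ (mul_ne_zero h0 hM) (h1.trans (mul_one _).symm)
  rw [eq_eq_one_iff h3, ThSym_nm_three] at h2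
  have h4 : (r * cj 3).im = 3 * r.im := by
    have : cj 3 = 3 := by
      ext <;> simp [cj, QuadraticAlgebra.re_ofNat, QuadraticAlgebra.im_ofNat]
    rw [this, QuadraticAlgebra.im_mul]
    simp [QuadraticAlgebra.re_ofNat, QuadraticAlgebra.im_ofNat, mul_comm]
  rw [h4] at h2
  apply h
  omega

/-- Invariance under `S` (`Pc_S`) on the vertical axis. -/
theorem sum_aP_symm {y : ℝ} (hy0 : 0 < y) :
    ∑' r : O, aP r * (Mk y (9 * b1 * nr r) : ℂ) =
      ∑' r : O, aP r * (Mk y⁻¹ (9 * b1 * nr r) : ℂ) := by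
  have h1 := Theta_smul (σ := SS) (fun α β => by simpa [SS] using Pc_S α β) (hp 0 y)
  have h2 : SS • hp 0 y = hp 0 y⁻¹ := by
    have h3 := actC_geod (α := 0) (x := 1) (β := -1) (δ := 0) (by ring) (by norm_num) 0 hy0
    have e : (SS : Mat).map ι = !![0, -1; - -1, 0] := by
      ext i j
      fin_cases i <;> fin_cases j <;> simp [SS]
    rw [smul_def, act, e]
    simp only [zero_div, add_zero] at h3
    rw [h3]
    refine congrArg₂ hp (by simp) ?_
    simp
    field_simp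
  have h0 : eC 0 = 1 := by simp [eC]
  rw [h2, Theta_eq _ hy0, Theta_eq _ (inv_pos.2 hy0)] at h1
  simp only [mul_zero, zero_div, h0, mul_one] at h1
  exact (mul_left_cancel₀ (by norm_num) h1).symm

theorem ThSym_unit {u : O} (hu : IsUnit u) : ‖aP u‖ ≤ ‖tt SS 3‖ := by
  have h0 : ∀ v : O, ¬ (3 : ℤ) ∣ v.im → ‖aP v‖ ≤ ‖tt SS 3‖ := fun v hv => by
    rw [aP_eq_zero hv, norm_zero]
    exact norm_nonneg _
  rcases BasicA.unit_cases hu with rfl | rfl | rfl | rfl | rfl | rfl
  · exact le_of_eq (congrArg (fun r => ‖tt SS r‖) (mul_one 3))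
  · exact h0 _ (by decide)
  · exact h0 _ (by decide)
  · have e : (3 : O) * ⟨-1, 0⟩ = -3 := by
      rw [show (⟨-1, 0⟩ : O) = -1 from rfl]
      ring
    rw [aP, e, tt_SS_neg]
  · exact h0 _ (by decide)
  · exact h0 _ (by decide)

theorem ThSym_unit_lam {u : O} (hu : IsUnit u) : aP (u * lam) = 0 := by
  refine aP_eq_zero ?_
  rcases BasicA.unit_cases hu with rfl | rfl | rfl | rfl | rfl | rfl <;> decide

theorem ThSym_lam_pow (j : ℕ) : ∀ u : O, IsUnit u → ‖tt SS (u * lam ^ (j + 1))‖ ≤ ‖tt SS 3‖ := by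
  induction j using Nat.strong_induction_on with
  | _ j ih =>
  intro u hu
  match j with
  | 0 => simpa using norm_tt_lam hu
  | 1 =>
    have e : u * lam ^ (1 + 1) = 3 * -u := by linear_combination u * lam_sq
    rw [e]
    exact ThSym_unit hu.neg
  | 2 =>
    have e : u * lam ^ (2 + 1) = 3 * (-u * lam) := by linear_combination u * lam * lam_sq
    rw [e, ← aP, ThSym_unit_lam hu.neg, norm_zero]
    exact norm_nonneg _
  | j + 3 =>
    have e : u * lam ^ (j + 3 + 1) = lam ^ 3 * (u * lam ^ (j + 1)) := by ring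
    rw [e, tt_SS_lam_cube]
    exact ih j (by omega) u hu

/-- Write `r = u λ^j n`; `norm_tt_SS_le`, `tt_SS_lam_cube`, `aP_eq_zero`, `norm_tt_lam`. -/
theorem norm_aP_le {r : O} (hr : r ≠ 0) : ‖aP r‖ ≤ ‖aP 1‖ := by
  obtain ⟨u, j, hu, e⟩ := exists_eq_unit_lam_primary hr
  have hn : Primary (∏ p ∈ pf r, p ^ vp p r) := BasicB.primary_prod_pow (fun _ => BasicB.pf_sub) _
  set n := ∏ p ∈ pf r, p ^ vp p r
  have e' : 3 * r = -u * lam ^ (j + 1 + 1) * n := by
    rw [e]
    linear_combination u * lam ^ j * n * lam_sq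
  rw [aP, aP, mul_one, e']
  exact (norm_tt_SS_le (K2_pf hu.neg _).1 (K2_pf hu.neg _).2 hn).trans (ThSym_lam_pow _ _ hu.neg)

end Crest.Agent.R12
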