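import Crest.Agent.R12.ThVorA

/-!
# Row 12, theta half: the additive Voronoi formula for all angular frequencies
-/

set_option autoImplicit false

noncomputable section

namespace Crest.Agent.R12

open Crest.Agent.R17
open scoped ComplexConjugate Topology
open Filter MeasureTheory

theorem ThVor_geod (τ σ : SL2) (hβ : σ 1 0 ≠ 0) (z : ℂ) {y : ℝ} (hy0 : 0 < y) :
    Th τ (hp (ι (σ 0 0) / ι (σ 1 0) + z) y) =
      Th (τ * σ) (hp (-ι (σ 1 1) / ι (σ 1 0) -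
          conj z / (ι (σ 1 0) ^ 2 * ((‖z‖ ^ 2 + y ^ 2 : ℝ) : ℂ)))
        (y / (‖ι (σ 1 0)‖ ^ 2 * (‖z‖ ^ 2 + y ^ 2)))) := by
  rw [← actC_geod (x := ι (σ 0 1)) (by rw [← map_mul, ← map_mul, ← map_sub, σ.det_eq, map_one])
    ((map_ne_zero_iff ι ι_injective).2 hβ) z hy0, LimB.Th_mul]
  congr 1
  rw [← inv_smul_eq_iff, smul_def, act, Matrix.SpecialLinearGroup.SL2_inv_expl]
  congr 1
  refine Matrix.ext fun i j => ?_
  fin_cases i <;> fin_cases j <;> simp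

theorem ThVor_mode_inv (ζ : ℂ) (N : ℕ) (l : ℤ) (F G : ℂ → ℂ) (hζ : ‖ζ‖ = 1)
    (h : ∀ w : ℂ, ‖w‖ = 1 → F w = G w⁻¹) : modeAvg ζ N l F = modeAvg ζ⁻¹ N (-l) G := by
  unfold modeAvg
  congr 1
  refine Finset.sum_congr rfl fun j _ => ?_
  rw [h _ (by rw [norm_pow, hζ, one_pow]), inv_pow, neg_neg, inv_zpow', ]

theorem ThVor_sign (l : ℤ) :
    (-1 : ℂ) ^ l.toNat * Pl (-l) (-1) = (-1) ^ (-l).toNat := by
  have h : Pl (-l) (-1) = (-1) ^ (l.toNat + (-l).toNat) := by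
    have := Pl_ofReal (-l) (-1)
    rw [Int.natAbs_neg, Complex.ofReal_neg, Complex.ofReal_one] at this
    rw [this]
    congr 1
    omega
  rw [h, pow_add, ← mul_assoc, ← mul_pow]
  norm_num

/-- **Additive Voronoi formula** with constant terms (`VorM2.geod` for a general base cusp `τ`,
`Th_mode` on both sides, with `ζ` and `ζ⁻¹`). -/
theorem voronoi_TM (τ σ : SL2) (hβ : σ 1 0 ≠ 0) (l : ℤ) {y : ℝ} (hy0 : 0 < y) :
    TM τ l (ι (σ 0 0) / ι (σ 1 0)) y =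
      (((y ^ (2 * l.natAbs))⁻¹ : ℝ) : ℂ) * (Pl (-l) (ι (σ 1 0)) ^ 2)⁻¹ *
        TM (τ * σ) (-l) (-ι (σ 1 1) / ι (σ 1 0)) (nr (σ 1 0) * y)⁻¹ := by
  have hb : ι (σ 1 0) ≠ 0 := (map_ne_zero_iff ι ι_injective).2 hβ
  have hn := nr_pos hβ
  have hN : 2 * l.natAbs + 1 ≠ 0 := by omega
  obtain ⟨ζ, hζ⟩ : ∃ ζ : ℂ, IsPrimitiveRoot ζ (2 * l.natAbs + 1) :=
    ⟨_, Complex.isPrimitiveRoot_exp _ hN⟩
  have hζ1 : ‖ζ‖ = 1 := hζ.norm'_eq_one hN
  have h1 := Th_mode τ l hζ (ι (σ 0 0) / ι (σ 1 0)) (ξ := fun _ => 1) (η := fun _ => y)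
    continuousAt_const continuousAt_const hy0
  have h2 := Th_mode (τ * σ) (-l) (ζ := ζ⁻¹) (by rw [Int.natAbs_neg]; exact hζ.inv)
    (-ι (σ 1 1) / ι (σ 1 0))
    (ξ := fun t => -(1 / (ι (σ 1 0) ^ 2 * ((t ^ 2 + y ^ 2 : ℝ) : ℂ))))
    (η := fun t => y / (‖ι (σ 1 0)‖ ^ 2 * (t ^ 2 + y ^ 2)))
    (ContinuousAt.neg (continuousAt_const.div (by fun_prop)
      (mul_ne_zero (pow_ne_zero _ hb) (Complex.ofReal_ne_zero.2 (by positivity)))))
    (continuousAt_const.div (by fun_prop) (by positivity)) (by positivity)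
  rw [Int.natAbs_neg] at h2
  have h3 := tendsto_nhds_unique h1 (h2.congr fun t => by
    congr 1
    symm
    refine ThVor_mode_inv ζ _ l _ _ hζ1 fun w hw => ?_
    rw [ThVor_geod τ σ hβ _ hy0, mul_one, norm_mul, hw, mul_one, Complex.norm_real,
      Real.norm_eq_abs, sq_abs, map_mul, Complex.conj_ofReal, ← Complex.inv_eq_conj hw]
    congr 2
    ring)
  have h4 : y / (‖ι (σ 1 0)‖ ^ 2 * (0 ^ 2 + y ^ 2)) = (nr (σ 1 0) * y)⁻¹ := by
    rw [norm_ι_sq]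
    field_simp
    ring
  have h5 : Pl (-l) (-(1 / (ι (σ 1 0) ^ 2 * (((0 : ℝ) ^ 2 + y ^ 2 : ℝ) : ℂ)))) =
      Pl (-l) (-1) * ((((y ^ (2 * l.natAbs))⁻¹ : ℝ) : ℂ) * (Pl (-l) (ι (σ 1 0)) ^ 2)⁻¹) := by
    rw [← neg_one_mul (1 / _ : ℂ), Pl_mul, one_div, Pl_inv, Pl_mul, Pl_ofReal, sq (ι _), Pl_mul, Int.natAbs_neg,
      ← sq, zero_pow two_ne_zero, zero_add, pow_mul]
    push_cast
    rw [mul_inv]
    ring
  have h6 : Pl l 1 = 1 := by simp [Pl]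
  have hc : (LBB.cc / 9 : ℂ) ^ l.natAbs * (-1) ^ (-l).toNat / (l.natAbs.factorial : ℂ) ≠ 0 := by
    have h7 : (LBB.cc : ℂ) ≠ 0 := Complex.ofReal_ne_zero.2 (by unfold LBB.cc; positivity)
    have h8 : (l.natAbs.factorial : ℂ) ≠ 0 := Nat.cast_ne_zero.2 (Nat.factorial_ne_zero _)
    exact div_ne_zero (mul_ne_zero (pow_ne_zero _ (div_ne_zero h7 (by norm_num)))
      (pow_ne_zero _ (by norm_num))) h8
  apply mul_left_cancel₀ hc
  simp only [h4, h5, h6, neg_neg] at h3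
  rw [← ThVor_sign l] at h3 ⊢
  linear_combination h3

/-- High in the cusp only the constant term survives: `y^{2/3} Mk y⁻¹ b = W0 (b / y²)`. -/
theorem lim_ct (τ : SL2) (z : ℂ) :
    Tendsto (fun y : ℝ => ((y ^ (2 / 3 : ℝ) : ℝ) : ℂ) * TM τ 0 z y⁻¹) (𝓝[>] 0)
      (𝓝 (tt τ 0 * (Real.Gamma (1 / 3) : ℂ))) := by
  have hb := b1_pos
  have hs : Summable fun ν : O => ‖tt τ ν * (Mk 1 (b1 * nr ν) : ℂ)‖ := summable_Th τ one_pos
  have hW : ∀ ν : O, Tendsto (fun y : ℝ => W0 (y⁻¹ ^ 2 * (b1 * nr ν))) (𝓝[>] 0)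
      (𝓝 (if ν = 0 then Real.Gamma (1 / 3) else 0)) := by
    intro ν
    split_ifs with hν
    · subst hν
      have : nr 0 = 0 := by simp [nr]
      simp only [this, mul_zero, W0_zero]
      exact tendsto_const_nhds
    · obtain ⟨D, hD, h2⟩ := W0_le_rpow (A := 1) zero_le_one
      have hn := nr_pos hν
      have h3 : Tendsto (fun y : ℝ => D * (y ^ 2 * (b1 * nr ν)⁻¹)) (𝓝[>] 0) (𝓝 0) := by
        have : Continuous fun y : ℝ => D * (y ^ 2 * (b1 * nr ν)⁻¹) := by fun_prop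
        simpa using (this.tendsto 0).mono_left nhdsWithin_le_nhds
      refine squeeze_zero' ?_ ?_ h3
      · exact Eventually.of_forall fun y => (W0_pos (by positivity)).le
      · filter_upwards [self_mem_nhdsWithin] with y (hy0 : 0 < y)
        refine (h2 _ (by positivity)).trans_eq ?_
        rw [Real.rpow_neg_one, mul_inv, inv_pow, inv_inv]
  have key := tendsto_tsum_of_dominated_convergence (𝓕 := 𝓝[>] (0 : ℝ))
    (f := fun y (ν : O) => tt τ ν * (W0 (y⁻¹ ^ 2 * (b1 * nr ν)) : ℂ) * eC (ι ν * z / 9))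
    (g := fun ν : O => tt τ ν * ((if ν = 0 then Real.Gamma (1 / 3) else 0 : ℝ) : ℂ) *
      eC (ι ν * z / 9)) hs
    (fun ν => ((Complex.continuous_ofReal.tendsto _).comp (hW ν)).const_mul _ |>.mul_const _)
    (by
      filter_upwards [Ioo_mem_nhdsGT (zero_lt_one' ℝ)] with y hy ν
      have h0 : 0 ≤ b1 * nr ν := LimB.b1_nr_nonneg ν
      have h1 : 1 ≤ y⁻¹ ^ 2 := one_le_pow₀ ((one_le_inv₀ hy.1).2 hy.2.le)
      rw [norm_mul, norm_eC, mul_one, norm_mul, norm_mul, Complex.norm_real, Complex.norm_real,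
        Real.norm_of_nonneg (W0_pos (by positivity)).le, Real.norm_of_nonneg (Mk_pos one_pos h0).le,
        Mk, Real.one_rpow, one_mul, one_pow, one_mul]
      refine mul_le_mul_of_nonneg_left ?_ (norm_nonneg _)
      exact W0_antitoneOn h0 (show 0 ≤ y⁻¹ ^ 2 * (b1 * nr ν) by positivity)
        (le_mul_of_one_le_left h0 h1))
  rw [tsum_eq_single 0 fun ν hν => by simp [hν]] at key
  simp only [if_true, map_zero, zero_mul, zero_div, eC_zero, mul_one] at key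
  refine key.congr' ?_
  filter_upwards [self_mem_nhdsWithin] with y (hy0 : 0 < y)
  rw [TM, ← tsum_mul_left]
  refine tsum_congr fun ν => ?_
  have e : ((y ^ (2 / 3 : ℝ) : ℝ) : ℂ) * ((y⁻¹ ^ (2 / 3 : ℝ) : ℝ) : ℂ) = 1 := by
    rw [← Complex.ofReal_mul, ← Real.mul_rpow hy0.le (by positivity), mul_inv_cancel₀ hy0.ne',
      Real.one_rpow, Complex.ofReal_one]
  rw [Pl_zero_left, Mk, Complex.ofReal_mul]
  linear_combination (-(tt τ ν * (W0 (y⁻¹ ^ 2 * (b1 * nr ν)) : ℂ) * eC (ι ν * z / 9))) * e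

/-- The behaviour of `Th S` near an integral point `s` (take `σ = (s -1; 1 0)`). -/
theorem lim_SS (s : O) :
    Tendsto (fun y : ℝ => ((y ^ (2 / 3 : ℝ) : ℝ) : ℂ) * TM SS 0 (ι s) y) (𝓝[>] 0)
      (𝓝 (Cv (-1) s * (Real.Gamma (1 / 3) : ℂ))) := by
  set σ : SL2 := mkSL s (-1) 1 0 (by ring) with hσ
  have h1 : Cv (-1) s = tt (SS * σ) 0 :=
    Cusp.Cv_col _ (by rw [Cusp.mul_00]; simp [SS, hσ]) (by rw [Cusp.mul_10]; simp [SS, hσ])
  rw [h1]
  refine (lim_ct (SS * σ) 0).congr' ?_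
  filter_upwards [self_mem_nhdsWithin] with y (hy0 : 0 < y)
  have h2 := voronoi_TM SS σ (by simp [hσ]) 0 hy0
  have h3 : nr 1 = 1 := by simp [nr]
  have h4 : TM (SS * σ) 0 0 y⁻¹ = TM SS 0 (ι s) y := by
    simpa [hσ, Pl_zero_left, h3] using h2.symm
  rw [h4]

end Crest.Agent.R12
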