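import Crest.Agent.R12.ThMode

/-!
# Row 12, theta half: the additive Voronoi formula for all angular frequencies
-/

set_option autoImplicit false

noncomputable section

namespace Crest.Agent.R12

open Crest.Agent.R17
open scoped ComplexConjugate Topology
open Filter MeasureTheory

theorem W0_zero : W0 0 = Real.Gamma (1 / 3) := by
  rw [W0, Real.Gamma_eq_integral (by norm_num)]
  refine setIntegral_congr_fun measurableSet_Ioi fun X _ => ?_
  simp only [zero_div, sub_zero]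
  norm_num

open Classical in
/-- A summable majorant. -/
def ThVorA_wt (r : O) : ℝ := nr r ^ (-2 : ℝ) + if r = 0 then 1 else 0

theorem ThVorA_summable_wt : Summable ThVorA_wt := by
  classical
  refine (summable_nr_rpow one_lt_two).add ?_
  refine summable_of_ne_finset_zero (s := {0}) fun r hr => ?_
  rw [if_neg (by simpa using hr)]

theorem ThVorA_bound (σ : SL2) (m : ℕ) : ∃ g : ℝ → ℝ, (∀ y, 0 < y → ContinuousAt g y) ∧
    ∀ (r : O) (y : ℝ), 0 < y →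
      ‖tt σ r * (Mk y (b1 * nr r) : ℂ)‖ * ‖ι r‖ ^ m ≤ g y * ThVorA_wt r := by
  obtain ⟨C, hC, h1⟩ := norm_tt_le
  obtain ⟨D, hD, h2⟩ := W0_le_rpow (A := m + 3) (by positivity)
  have hb := b1_pos
  refine ⟨fun y => C * D * (y ^ (2 / 3 : ℝ) * (y ^ 2 * b1) ^ (-(m + 3 : ℝ))) +
    ‖tt σ 0‖ * Mk y (b1 * nr 0), fun y hy => ?_, fun r y hy0 => ?_⟩
  · refine ContinuousAt.add (((continuousAt_id.rpow_const (.inl hy.ne')).mul
      (((continuousAt_id.pow 2).mul_const _).rpow_const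
        (.inl (mul_pos (pow_pos hy 2) hb).ne'))).const_mul _) (ContinuousAt.const_mul ?_ _)
    exact (continuousOn_Mk (by positivity)).continuousAt (Ioi_mem_nhds hy)
  have hM : ∀ r : O, 0 ≤ Mk y (b1 * nr r) := fun r => (Mk_pos hy0 (by positivity)).le
  rw [norm_mul, Complex.norm_real, Real.norm_of_nonneg (hM r), ThVorA_wt]
  rcases eq_or_ne r 0 with rfl | hr
  · rw [if_pos rfl, map_zero, norm_zero]
    have h3 : (0 : ℝ) ^ m ≤ 1 := pow_le_one₀ le_rfl zero_le_one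
    have h4 := hM 0
    have h5 : 0 ≤ nr 0 ^ (-2 : ℝ) := by positivity
    calc _ ≤ ‖tt σ 0‖ * Mk y (b1 * nr 0) * 1 := by gcongr
      _ ≤ _ := mul_le_mul (le_add_of_nonneg_left (by positivity)) (by linarith) zero_le_one
          (by positivity)
  rw [if_neg hr, add_zero]
  have hn := one_le_nr hr
  have h3 : ‖tt σ r‖ ≤ C * nr r :=
    (h1 σ r hr).trans (mul_le_mul_of_nonneg_left (Real.rpow_le_self_of_one_le hn (by norm_num)) hC.le)
  have h4 : ‖ι r‖ ≤ nr r := by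
    rw [norm_ι]
    exact Real.sqrt_le_iff.2 ⟨by positivity, by nlinarith⟩
  have h5 := h2 (y ^ 2 * (b1 * nr r)) (by positivity)
  have h6 : nr r ^ (-2 : ℝ) = nr r * nr r ^ (-(m + 3 : ℝ)) * nr r ^ m := by
    rw [← Real.rpow_natCast, mul_assoc, ← Real.rpow_add (by positivity),
      ← Real.rpow_one_add' (by positivity) (by norm_num)]
    congr 1
    ring
  rw [← mul_assoc, Real.mul_rpow (by positivity) (by positivity)] at h5
  have h7 := (W0_pos (b := y ^ 2 * (b1 * nr r)) (by positivity)).le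
  have h8 := hM 0
  refine le_trans ?_ (mul_le_mul_of_nonneg_right (le_add_of_nonneg_right (by positivity))
    (by positivity))
  rw [Mk, h6]
  calc _ ≤ C * nr r * (y ^ (2 / 3 : ℝ) * (D * ((y ^ 2 * b1) ^ (-(m + 3 : ℝ)) *
        nr r ^ (-(m + 3 : ℝ))))) * nr r ^ m := by
        gcongr
        rwa [← mul_assoc]
    _ = _ := by ring

theorem summable_TM (σ : SL2) (l : ℤ) {y : ℝ} (hy0 : 0 < y) :
    Summable fun ν : O => ‖tt σ ν * (Mk y (b1 * nr ν) : ℂ) * Pl l (ι ν)‖ := by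
  obtain ⟨g, -, h⟩ := ThVorA_bound σ l.natAbs
  refine .of_nonneg_of_le (fun _ => norm_nonneg _) (fun r => ?_) (ThVorA_summable_wt.mul_left (g y))
  rw [norm_mul, norm_Pl]
  exact h r y hy0

theorem TM_zero (σ : SL2) (z : ℂ) {y : ℝ} (hy0 : 0 < y) : TM σ 0 z y = Th σ (hp z y) := by
  simp only [TM, Th, Pl_zero_left, mul_one, hy_hp _ hy0, hp_fst]

theorem ThVorA_mode (l : ℤ) : ∃ C : ℝ, 0 < C ∧ ∀ ζ : ℂ, IsPrimitiveRoot ζ (2 * l.natAbs + 1) →
    (∀ (ρ : ℝ) (u : ℂ), 0 < ρ → ‖((ρ : ℂ) ^ l.natAbs)⁻¹ *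
      modeAvg ζ (2 * l.natAbs + 1) l (fun w => eC (ρ * u * w))‖ ≤ C * ‖u‖ ^ l.natAbs) ∧
    ∀ u : ℝ → ℂ, ContinuousAt u 0 → Tendsto (fun ρ : ℝ => ((ρ : ℂ) ^ l.natAbs)⁻¹ *
      modeAvg ζ (2 * l.natAbs + 1) l (fun w => eC (ρ * u ρ * w))) (𝓝[>] 0)
      (𝓝 ((LBB.cc : ℂ) ^ l.natAbs * (-1) ^ (-l).toNat / (l.natAbs.factorial : ℂ) * Pl l (u 0))) := by
  obtain ⟨C, hC, h⟩ := mode_eC l
  refine ⟨C, hC, fun ζ hζ => ⟨fun ρ u hρ => ?_, fun u hu => ?_⟩⟩
  · have h1 := (h ζ hζ (ρ * u)).1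
    rw [norm_mul, Complex.norm_real, Real.norm_of_nonneg hρ.le, mul_pow] at h1
    rw [norm_mul, norm_inv, norm_pow, Complex.norm_real, Real.norm_of_nonneg hρ.le,
      inv_mul_le_iff₀ (by positivity)]
    exact h1.trans_eq (by ring)
  · set c : ℂ := (LBB.cc : ℂ) ^ l.natAbs * (-1) ^ (-l).toNat / (l.natAbs.factorial : ℂ) with hc
    have h1 : Tendsto (fun ρ : ℝ => c * Pl l (u ρ)) (𝓝[>] 0) (𝓝 (c * Pl l (u 0))) :=
      (((continuous_Pl l).continuousAt.comp hu).const_mul c).tendsto.mono_left nhdsWithin_le_nhds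
    have h2 : Tendsto (fun ρ : ℝ => C * (ρ * ‖u ρ‖ ^ (l.natAbs + 1))) (𝓝[>] 0) (𝓝 0) := by
      have h3 : ContinuousAt (fun ρ : ℝ => C * (ρ * ‖u ρ‖ ^ (l.natAbs + 1))) 0 :=
        (continuousAt_id.mul (hu.norm.pow _)).const_mul C
      simpa using h3.tendsto.mono_left nhdsWithin_le_nhds
    have h4 : Tendsto (fun ρ : ℝ => ((ρ : ℂ) ^ l.natAbs)⁻¹ *
        modeAvg ζ (2 * l.natAbs + 1) l (fun w => eC (ρ * u ρ * w)) - c * Pl l (u ρ))
        (𝓝[>] 0) (𝓝 0) := by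
      refine squeeze_zero_norm' ?_ h2
      filter_upwards [self_mem_nhdsWithin] with ρ (hρ : 0 < ρ)
      have h5 := (h ζ hζ (ρ * u ρ)).2
      have hρ' : ((ρ : ℂ) ^ l.natAbs) ≠ 0 := pow_ne_zero _ (Complex.ofReal_ne_zero.2 hρ.ne')
      rw [norm_mul, Complex.norm_real, Real.norm_of_nonneg hρ.le, mul_pow, Pl_mul, Pl_ofReal] at h5
      have h6 : ((ρ : ℂ) ^ l.natAbs)⁻¹ *
          modeAvg ζ (2 * l.natAbs + 1) l (fun w => eC (ρ * u ρ * w)) - c * Pl l (u ρ) =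
          ((ρ : ℂ) ^ l.natAbs)⁻¹ * (modeAvg ζ (2 * l.natAbs + 1) l (fun w => eC (ρ * u ρ * w)) -
            c * ((ρ : ℂ) ^ l.natAbs * Pl l (u ρ))) := by
        field_simp
      rw [h6, norm_mul, norm_inv, norm_pow, Complex.norm_real, Real.norm_of_nonneg hρ.le,
        inv_mul_le_iff₀ (by positivity)]
      exact h5.trans_eq (by ring)
    simpa using h4.add h1

theorem ThVorA_swap (σ : SL2) (l : ℤ) (ζ : ℂ) (N : ℕ) (z₀ u : ℂ) (ρ : ℝ) {y : ℝ} (hy0 : 0 < y) :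
    modeAvg ζ N l (fun w => Th σ (hp (z₀ + ρ * u * w) y)) =
      ∑' r : O, tt σ r * (Mk y (b1 * nr r) : ℂ) * eC (ι r * z₀ / 9) *
        modeAvg ζ N l (fun w => eC (ρ * (ι r * u / 9) * w)) := by
  have hs := fun z : ℂ => Summable.of_norm (f := fun r : O =>
    tt σ r * (Mk y (b1 * nr r) : ℂ) * eC (ι r * z / 9))
    ((summable_Th σ hy0).congr fun r => by rw [norm_mul _ (eC _), norm_eC, mul_one])
  simp only [modeAvg, Th, hy_hp _ hy0, hp_fst, ← tsum_mul_left]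
  rw [← Summable.tsum_finsetSum fun j _ => (hs _).mul_left _, ← tsum_mul_left]
  refine tsum_congr fun r => ?_
  simp only [Finset.mul_sum]
  refine Finset.sum_congr rfl fun j _ => ?_
  rw [show ι r * (z₀ + ρ * u * ζ ^ j) / 9 = ι r * z₀ / 9 + ρ * (ι r * u / 9) * ζ ^ j by ring, eC_add]
  ring

/-- The leading coefficient of the `l`-th angular mode of an expansion on small circles
(`mode_eC`, `tendsto_tsum_of_dominated_convergence`; compare `VorM2.odd_deriv`). -/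
theorem Th_mode (σ : SL2) (l : ℤ) {ζ : ℂ} (hζ : IsPrimitiveRoot ζ (2 * l.natAbs + 1)) (z₀ : ℂ)
    {ξ : ℝ → ℂ} {η : ℝ → ℝ} (hξ : ContinuousAt ξ 0) (hη : ContinuousAt η 0) (hη0 : 0 < η 0) :
    Tendsto (fun ρ : ℝ => ((ρ : ℂ) ^ l.natAbs)⁻¹ *
        modeAvg ζ (2 * l.natAbs + 1) l fun w => Th σ (hp (z₀ + ρ * ξ ρ * w) (η ρ)))
      (𝓝[>] 0)
      (𝓝 ((LBB.cc / 9 : ℂ) ^ l.natAbs * (-1) ^ (-l).toNat / (l.natAbs.factorial : ℂ) *
        Pl l (ξ 0) * TM σ l z₀ (η 0))) := by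
  obtain ⟨g, hg, h⟩ := ThVorA_bound σ l.natAbs
  obtain ⟨C, hC, hm⟩ := ThVorA_mode l
  obtain ⟨hm1, hm2⟩ := hm ζ hζ
  have hb := b1_pos
  have hpos : ∀ᶠ t in 𝓝 (0 : ℝ), 0 < η t := hη.eventually (lt_mem_nhds hη0)
  have hG : ContinuousAt (fun t => C * ‖ξ t / 9‖ ^ l.natAbs * g (η t)) 0 :=
    (((hξ.div_const 9).norm.pow _).const_mul C).mul ((hg _ hη0).comp hη)
  have hw : ∀ r, 0 ≤ ThVorA_wt r := fun r => by
    unfold ThVorA_wt
    split_ifs <;> positivity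
  have hc : ∀ r : O, ContinuousAt
      (fun t => tt σ r * (Mk (η t) (b1 * nr r) : ℂ) * eC (ι r * z₀ / 9)) 0 := fun r => by
    have h1 : ContinuousAt (fun t => Mk (η t) (b1 * nr r)) 0 :=
      ((continuousOn_Mk (by positivity)).continuousAt (Ioi_mem_nhds hη0)).comp hη
    fun_prop
  have key := tendsto_tsum_of_dominated_convergence (𝓕 := 𝓝[>] (0 : ℝ))
    (f := fun ρ (r : O) => tt σ r * (Mk (η ρ) (b1 * nr r) : ℂ) * eC (ι r * z₀ / 9) *
      (((ρ : ℂ) ^ l.natAbs)⁻¹ *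
        modeAvg ζ (2 * l.natAbs + 1) l (fun w => eC (ρ * (ι r * ξ ρ / 9) * w))))
    (ThVorA_summable_wt.mul_left (C * ‖ξ 0 / 9‖ ^ l.natAbs * g (η 0) + 1))
    (fun r => ((hc r).tendsto.mono_left nhdsWithin_le_nhds).mul
      (hm2 (fun ρ => ι r * ξ ρ / 9) ((hξ.const_mul _).div_const 9)))
    (by
      filter_upwards [nhdsWithin_le_nhds hpos,
        nhdsWithin_le_nhds (hG.eventually (gt_mem_nhds (lt_add_one _))), self_mem_nhdsWithin]
        with t h1 h2 h3 r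
      refine le_trans ?_ (mul_le_mul_of_nonneg_right h2.le (hw r))
      have h4 := h r _ h1
      have h5 := hm1 t (ι r * ξ t / 9) h3
      rw [norm_mul, norm_mul _ (eC _), norm_eC, mul_one]
      refine (mul_le_mul_of_nonneg_left h5 (norm_nonneg _)).trans ?_
      rw [mul_div_assoc, norm_mul (ι r), mul_pow]
      calc _ = C * ‖ξ t / 9‖ ^ l.natAbs *
            (‖tt σ r * (Mk (η t) (b1 * nr r) : ℂ)‖ * ‖ι r‖ ^ l.natAbs) := by ring
        _ ≤ C * ‖ξ t / 9‖ ^ l.natAbs * (g (η t) * ThVorA_wt r) :=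
            mul_le_mul_of_nonneg_left h4 (by positivity)
        _ = _ := by ring)
  have e : (LBB.cc / 9 : ℂ) ^ l.natAbs * (-1) ^ (-l).toNat / (l.natAbs.factorial : ℂ) *
      Pl l (ξ 0) * TM σ l z₀ (η 0) =
      ∑' r : O, tt σ r * (Mk (η 0) (b1 * nr r) : ℂ) * eC (ι r * z₀ / 9) *
        ((LBB.cc : ℂ) ^ l.natAbs * (-1) ^ (-l).toNat / (l.natAbs.factorial : ℂ) *
          Pl l (ι r * ξ 0 / 9)) := by
    rw [TM, ← tsum_mul_left]
    refine tsum_congr fun r => ?_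
    rw [show ι r * ξ 0 / 9 = ι r * ξ 0 * ((1 / 9 : ℝ) : ℂ) by push_cast; ring, Pl_mul, Pl_mul,
      Pl_ofReal]
    push_cast
    ring
  rw [e]
  refine key.congr' ?_
  filter_upwards [nhdsWithin_le_nhds hpos] with t h1
  rw [ThVorA_swap σ l ζ _ z₀ _ t h1, ← tsum_mul_left]
  refine tsum_congr fun r => ?_
  ring

end Crest.Agent.R12
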