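import Crest.Agent.R12.ThDefs

/-!
# Row 12, theta half: numerical estimates for the sign
-/

set_option autoImplicit false

noncomputable section

namespace Crest.Agent.R12

open Crest.Agent.R17
open scoped ComplexConjugate Topology
open Filter MeasureTheory

theorem ThW0A_cosh (u : ℝ) : 2 + u ^ 2 ≤ Real.exp u + Real.exp (-u) := by
  have h1 : |u / 2| ≤ |Real.sinh (u / 2)| := by
    rw [Real.abs_sinh]
    exact Real.self_le_sinh_iff.2 (abs_nonneg _)
  have h2 := sq_le_sq.2 h1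
  have h3 := Real.cosh_two_mul (u / 2)
  rw [Real.cosh_sq, show 2 * (u / 2) = u by ring, Real.cosh_eq] at h3
  linarith

theorem ThW0A_point {s : ℝ} (hs : 1 ≤ s) (u : ℝ) :
    |s * Real.exp u| • (Real.exp (-(s * Real.exp u) - s ^ 2 / (s * Real.exp u)) *
      (s * Real.exp u) ^ (-(2 / 3 : ℝ))) ≤
      √s * Real.exp (-2 * s) * Real.exp (1 / 36) * Real.exp (-s * (u - 1 / (6 * s)) ^ 2) := by
  have h0 : 0 < s := by linarith
  have h1 : 0 < s * Real.exp u := by positivity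
  have h2 : s ^ (1 / 3 : ℝ) ≤ √s := by
    rw [Real.sqrt_eq_rpow]
    exact Real.rpow_le_rpow_of_exponent_le hs (by norm_num)
  have h3 : s * Real.exp u * (s * Real.exp u) ^ (-(2 / 3 : ℝ)) =
      s ^ (1 / 3 : ℝ) * Real.exp (u / 3) := by
    rw [show -(2 / 3 : ℝ) = 1 / 3 - 1 by ring, Real.rpow_sub_one h1.ne', mul_div_cancel₀ _ h1.ne',
      Real.mul_rpow h0.le (Real.exp_pos u).le, ← Real.exp_mul]
    congr 2
    ring
  have h4 : s ^ 2 / (s * Real.exp u) = s * Real.exp (-u) := by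
    rw [Real.exp_neg]; field_simp
  have h5 : 1 / (36 * s) ≤ 1 / 36 := by gcongr; linarith
  have h6 : -s * (u - 1 / (6 * s)) ^ 2 = -s * u ^ 2 + u / 3 - 1 / (36 * s) := by
    field_simp; ring
  rw [abs_of_pos h1, smul_eq_mul, mul_left_comm, h3, h4, mul_left_comm, ← Real.exp_add, mul_assoc,
    mul_assoc, ← Real.exp_add, ← Real.exp_add, h6]
  refine mul_le_mul h2 (Real.exp_le_exp.2 ?_) (Real.exp_pos _).le (Real.sqrt_nonneg _)
  nlinarith [mul_le_mul_of_nonneg_left (ThW0A_cosh u) h0.le]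

/-- Substitute `X = √b e^u`, use `cosh u ≥ 1 + u²/2` and a Gaussian integral:
`W0 b ≤ b^{1/6} e^{-x} √(2π/x) e^{1/(18x)}`, `x = 2√b ≥ 2`. -/
theorem W0_le_exp {b : ℝ} (hb : 1 ≤ b) : W0 b ≤ 2 * Real.exp (-2 * Real.sqrt b) := by
  obtain ⟨s, hs, rfl⟩ : ∃ s : ℝ, 1 ≤ s ∧ b = s ^ 2 :=
    ⟨√b, Real.one_le_sqrt.2 hb, (Real.sq_sqrt (by linarith)).symm⟩
  have h0 : 0 < s := by linarith
  have him : (fun u => s * Real.exp u) '' Set.univ = Set.Ioi 0 := by
    ext X
    simp only [Set.image_univ, Set.mem_range, Set.mem_Ioi]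
    refine ⟨by rintro ⟨u, rfl⟩; positivity, fun hX => ⟨Real.log (X / s), ?_⟩⟩
    rw [Real.exp_log (by positivity), mul_div_cancel₀ _ h0.ne']
  rw [Real.sqrt_sq h0.le, W0, ← him, integral_image_eq_integral_abs_deriv_smul MeasurableSet.univ
    (f' := fun u => s * Real.exp u)
    (fun u _ => ((Real.hasDerivAt_exp u).const_mul s).hasDerivWithinAt)
    (fun u _ v _ h => Real.exp_injective (mul_left_cancel₀ h0.ne' h)), Measure.restrict_univ]
  refine (integral_mono_of_nonneg (Eventually.of_forall fun u => by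
    simp only [Pi.zero_apply, smul_eq_mul]; positivity)
    (((integrable_exp_neg_mul_sq h0).comp_sub_right (1 / (6 * s))).const_mul _)
    (Eventually.of_forall (ThW0A_point hs))).trans ?_
  rw [integral_const_mul, integral_sub_right_eq_self (fun u => Real.exp (-s * u ^ 2)),
    integral_gaussian, Real.sqrt_div Real.pi_pos.le]
  have h1 : √Real.pi ≤ 9 / 5 := Real.sqrt_le_iff.2 ⟨by norm_num, by linarith [Real.pi_lt_d2]⟩
  have h2 : Real.exp (1 / 36) ≤ 36 / 35 :=
    (Real.exp_bound_div_one_sub_of_interval (by norm_num) (by norm_num)).trans (by norm_num)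
  have h3 : 0 < √s := Real.sqrt_pos.2 h0
  calc √s * Real.exp (-2 * s) * Real.exp (1 / 36) * (√Real.pi / √s)
      = Real.exp (1 / 36) * √Real.pi * Real.exp (-2 * s) := by field_simp
    _ ≤ 36 / 35 * (9 / 5) * Real.exp (-2 * s) := by gcongr
    _ ≤ _ := by gcongr; norm_num

/-- `Mk y b = Mo (Fk y b) = ∫ y e^{-y (X + b/X)} X^{-2/3} dX` and `X + b / X ≥ 2`. -/
theorem Mk_le_Mk_inv {y b : ℝ} (hy1 : 1 ≤ y) (hb : 1 ≤ b) : Mk y b ≤ Mk y⁻¹ b := by
  have hy : 0 < y := by linarith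
  have hb0 : 0 ≤ b := by linarith
  have hp := Mk_pos (inv_pos.2 hy) hb0
  rw [← Mo_Fk (inv_pos.2 hy) hb0] at hp ⊢
  rw [← Mo_Fk hy hb0]
  refine integral_mono_of_nonneg ((ae_restrict_iff' measurableSet_Ioi).2
    (Eventually.of_forall fun X (hX : 0 < X) => by simp only [Pi.zero_apply, Fk]; positivity))
    (Integrable.of_integral_ne_zero hp.ne') ((ae_restrict_iff' measurableSet_Ioi).2
    (Eventually.of_forall fun X (hX : 0 < X) => ?_))
  have hT : 2 ≤ X + b / X := by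
    have : 2 - X ≤ b / X := by
      rw [le_div_iff₀ hX]
      nlinarith [sq_nonneg (X - 1)]
    linarith
  have h1 : y⁻¹ ≤ 1 := inv_le_one_of_one_le₀ hy1
  have h2 : y ≤ Real.exp (y - y⁻¹) := by linarith [Real.add_one_le_exp (y - y⁻¹)]
  have h3 : y * y ≤ Real.exp ((y - y⁻¹) * (X + b / X)) := by
    refine (mul_le_mul h2 h2 hy.le (Real.exp_pos _).le).trans ?_
    rw [← Real.exp_add]
    exact Real.exp_le_exp.2 (by nlinarith)
  refine mul_le_mul_of_nonneg_right ?_ (by positivity)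
  calc Fk y b X = y⁻¹ / X * (y * y * Real.exp (-y * (X + b / X))) := by
        rw [Fk]; field_simp
    _ ≤ y⁻¹ / X * (Real.exp ((y - y⁻¹) * (X + b / X)) * Real.exp (-y * (X + b / X))) := by gcongr
    _ = _ := by rw [Fk, ← Real.exp_add]; congr 2; ring

end Crest.Agent.R12
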