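import Crest.Agent.R12.ThWDA

/-!
# Row 12, theta half: calculus of weak densities
-/

set_option autoImplicit false

noncomputable section

namespace Crest.Agent.R12

open Crest.Agent.R17
open scoped ComplexConjugate Topology
open Filter MeasureTheory

open Classical in
/-- Convolution with `w(d) N(d)²` placed on the cubes `d³` of primary elements. -/
def conv3 (w g : O → ℂ) (n : O) : ℂ :=
  ∑' d : O, if Primary d ∧ d ^ 3 ∣ n then w d * ((nr d ^ 2 : ℝ) : ℂ) * g (n / d ^ 3) else 0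

theorem thWD_bdd {g : O → ℂ} (hg : PolyG g) {k : ℝ → ℝ} (hk : KC k) {l : ℂ}
    (hl : Tendsto (Sk g k) (𝓝[>] 0) (𝓝 l)) : ∃ M : ℝ, ∀ y, 0 < y → ‖Sk g k y‖ ≤ M := by
  have h1 : ∀ᶠ y in 𝓝[>] (0 : ℝ), ‖Sk g k y‖ < ‖l‖ + 1 :=
    hl.norm.eventually (gt_mem_nhds (lt_add_one _))
  obtain ⟨δ, hδ, hδ'⟩ := (mem_nhdsGT_iff_exists_Ioo_subset).1 h1
  obtain ⟨C, hC⟩ := norm_Sk_le hg hk (Y₀ := δ) hδ
  refine ⟨max (‖l‖ + 1) C, fun y hy => ?_⟩
  rcases lt_or_ge y δ with hy' | hy'
  · exact (le_of_lt (hδ' ⟨hy, hy'⟩)).trans (le_max_left _ _)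
  · exact (hC y hy').trans (le_max_right _ _)

open Classical in
/-- reindexing map -/
def thWDψ (x : O × O) : O × O := (x.1, if x.1 = 0 then x.2 else x.1 ^ 3 * x.2)

theorem thWDψ_inj : Function.Injective thWDψ := by
  rintro ⟨d, m⟩ ⟨d', m'⟩ h
  simp only [thWDψ, Prod.mk.injEq] at h
  obtain ⟨rfl, h⟩ := h
  by_cases hd : d = 0
  · simp only [if_pos hd] at h
    rw [h]
  · simp only [if_neg hd] at h
    rw [mul_left_cancel₀ (pow_ne_zero 3 hd) h]

open Classical in
theorem thWD_Sk_conv3 {w g : O → ℂ} (hw : ∀ d, ‖w d‖ ≤ 1) (hg : PolyG g) {k : ℝ → ℝ} (hk : KC k)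
    {Y : ℝ} (hY : 0 < Y) : Sk (conv3 w g) k Y = ∑' d : O,
      if Primary d then w d * ((((nr d)⁻¹) ^ 2 : ℝ) : ℂ) * Sk g k (Y * nr d ^ 3) else 0 := by
  obtain ⟨A, C, hA, hC0, hC⟩ := dens2_term_le hg hk
  set F : O × O → ℂ := fun x => (if Primary x.1 ∧ x.1 ^ 3 ∣ x.2 then
    w x.1 * ((nr x.1 ^ 2 : ℝ) : ℂ) * g (x.2 / x.1 ^ 3) else 0) * (k (Y * nr x.2) : ℂ) with hF
  set G : O × O → ℂ := fun x => if Primary x.1 then
    w x.1 * ((nr x.1 ^ 2 : ℝ) : ℂ) * (g x.2 * (k (Y * nr x.1 ^ 3 * nr x.2) : ℂ)) else 0 with hG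
  have hFG : ∀ x, F (thWDψ x) = G x := by
    rintro ⟨d, m⟩
    simp only [hF, hG, thWDψ]
    by_cases hd : Primary d
    · rw [if_neg hd.ne_zero, if_pos ⟨hd, dvd_mul_right _ _⟩, if_pos hd,
        mul_div_cancel_left₀ _ (pow_ne_zero 3 hd.ne_zero), nr_mul, nr_pow, mul_assoc Y, mul_assoc]
    · rw [if_neg (fun h => hd h.1), if_neg hd, zero_mul]
  have hsupp : Function.support F ⊆ Set.range thWDψ := by
    rintro ⟨d, n⟩ hx
    have h1 : Primary d ∧ d ^ 3 ∣ n := by
      by_contra h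
      exact hx (by simp only [hF]; rw [if_neg h, zero_mul])
    obtain ⟨hd, m, rfl⟩ := h1
    exact ⟨(d, m), by simp only [thWDψ, if_neg hd.ne_zero]⟩
  have hGs : Summable G := by
    refine Summable.of_norm_bounded (((summable_nr_rpow one_lt_two).mul_of_nonneg
      (summable_nr_rpow one_lt_two) (fun _ => by positivity) (fun _ => by positivity)).mul_left
        (C * Y ^ (-A))) ?_
    rintro ⟨d, m⟩
    simp only [hG]
    split_ifs with hd
    · have h1 := one_le_nr hd.ne_zero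
      have h0 : 0 < nr d := by linarith
      have h2 := hC (Y * nr d ^ 3) (by positivity) m
      have h3 : nr d ^ 2 * (nr d ^ 3) ^ (-A) ≤ nr d ^ (-2 : ℝ) := by
        rw [← Real.rpow_natCast, ← Real.rpow_natCast, ← Real.rpow_mul h0.le, ← Real.rpow_add h0]
        exact Real.rpow_le_rpow_of_exponent_le h1 (by push_cast; linarith)
      rw [norm_mul, norm_mul, Complex.norm_real, Real.norm_of_nonneg (by positivity)]
      calc ‖w d‖ * nr d ^ 2 * ‖g m * (k (Y * nr d ^ 3 * nr m) : ℂ)‖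
          ≤ 1 * nr d ^ 2 * (C * (Y * nr d ^ 3) ^ (-A) * nr m ^ (-2 : ℝ)) := by
            gcongr
            exact hw d
        _ = C * Y ^ (-A) * ((nr d ^ 2 * (nr d ^ 3) ^ (-A)) * nr m ^ (-2 : ℝ)) := by
            rw [Real.mul_rpow hY.le (by positivity)]; ring
        _ ≤ _ := by gcongr
    · rw [norm_zero]; positivity
  have hFs : Summable F := by
    rw [← thWDψ_inj.summable_iff (fun x hx => by
      by_contra h
      exact hx (hsupp h))]
    exact hGs.congr fun x => (hFG x).symm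
  have h1 : ∑' n : O, conv3 w g n * (k (Y * nr n) : ℂ) = ∑' d, ∑' m, G (d, m) := by
    calc ∑' n : O, conv3 w g n * (k (Y * nr n) : ℂ) = ∑' n, ∑' d, F (d, n) := by
          refine tsum_congr fun n => ?_
          rw [conv3, ← tsum_mul_right]
      _ = ∑' d, ∑' n, F (d, n) := Summable.tsum_comm (f := fun d n => F (d, n)) hFs
      _ = ∑' x, F x := hFs.tsum_prod.symm
      _ = ∑' x, G x := by
          rw [← thWDψ_inj.tsum_eq hsupp]
          exact tsum_congr hFG
      _ = _ := hGs.tsum_prod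
  rw [Sk, h1, ← tsum_mul_left]
  refine tsum_congr fun d => ?_
  simp only [hG]
  split_ifs with hd
  · have h0 := nr_pos hd.ne_zero
    have e : Y ^ (4 / 3 : ℝ) * nr d ^ 2 = (nr d)⁻¹ ^ 2 * (Y * nr d ^ 3) ^ (4 / 3 : ℝ) := by
      rw [Real.mul_rpow hY.le (by positivity), ← Real.rpow_natCast (nr d) 3,
        ← Real.rpow_mul h0.le, show ((3 : ℕ) : ℝ) * (4 / 3) = (4 : ℕ) by norm_num,
        Real.rpow_natCast]
      field_simp
    have e' := congrArg (fun x : ℝ => (x : ℂ)) e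
    simp only [Complex.ofReal_mul] at e'
    rw [tsum_mul_left, Sk]
    linear_combination (w d * ∑' m : O, g m * (k (Y * nr d ^ 3 * nr m) : ℂ)) * e'
  · simp

open Classical in
/-- `Sk (conv3 w g) k Y = ∑_d w(d) N(d)^{-2} Sk g k (Y N(d)³)` (Fubini with `dens2_term_le`), then
dominated convergence (`norm_Sk_le`). -/
theorem wd_conv3 {w g : O → ℂ} (hw : ∀ d, ‖w d‖ ≤ 1) (hg : PolyG g) {t : ℂ} (h : WD g t) :
    WD (conv3 w g) ((∑' d : O, if Primary d then w d * ((((nr d)⁻¹) ^ 2 : ℝ) : ℂ) else 0) * t) := by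
  obtain ⟨k, hk, h⟩ := h
  obtain ⟨M, hM⟩ := thWD_bdd hg hk h
  have hM0 : 0 ≤ M := (norm_nonneg _).trans (hM 1 one_pos)
  refine ⟨k, hk, ?_⟩
  rw [mul_assoc, ← tsum_mul_right]
  refine (tendsto_tsum_of_dominated_convergence (bound := fun d => ((nr d)⁻¹) ^ 2 * M)
    (f := fun Y d => if Primary d then
      w d * ((((nr d)⁻¹) ^ 2 : ℝ) : ℂ) * Sk g k (Y * nr d ^ 3) else 0)
    (TAE1.summable_inv_sq.mul_right M) (fun d => ?_) ?_).congr' ?_
  · by_cases hd : Primary d
    · simp only [if_pos hd]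
      refine (h.comp ?_).const_mul _
      have hn : 0 < nr d ^ 3 := pow_pos (nr_pos hd.ne_zero) 3
      refine tendsto_nhdsWithin_iff.2 ⟨?_, ?_⟩
      · have : Tendsto (fun Y : ℝ => Y * nr d ^ 3) (𝓝 0) (𝓝 (0 * nr d ^ 3)) :=
          tendsto_id.mul_const _
        rw [zero_mul] at this
        exact this.mono_left nhdsWithin_le_nhds
      · filter_upwards [self_mem_nhdsWithin] with Y hY
        exact mul_pos hY hn
    · simp only [if_neg hd, zero_mul]
      exact tendsto_const_nhds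
  · filter_upwards [self_mem_nhdsWithin] with Y hY d
    split_ifs with hd
    · rw [norm_mul, norm_mul, Complex.norm_real, Real.norm_of_nonneg (by positivity)]
      exact mul_le_mul (mul_le_of_le_one_left (by positivity) (hw d))
        (hM _ (mul_pos hY (pow_pos (nr_pos hd.ne_zero) 3))) (norm_nonneg _) (by positivity)
    · rw [norm_zero]; positivity
  · filter_upwards [self_mem_nhdsWithin] with Y hY
    exact (thWD_Sk_conv3 hw hg hk hY).symm

open Classical in
/-- The norm on the cubes of primary elements. -/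
def cubeN (c : O) : ℂ := if ∃ e, Primary e ∧ c = e ^ 3 then (nr c : ℂ) else 0

theorem polyG_cubeN : PolyG cubeN := by
  refine ⟨1, 1, zero_le_one, ?_, fun n => ?_⟩
  · unfold cubeN
    split_ifs <;> simp
  · unfold cubeN
    split_ifs
    · simp
    · rw [norm_zero]; positivity

/-- the kernel for the cubes -/
def thWDk (x : ℝ) : ℝ := x⁻¹ * gw (x ^ (1 / 3 : ℝ))

theorem thWD_c_pos : 0 < 2 * Real.pi / Real.sqrt 3 := by positivity

theorem thWD_Mo : Mo thWDk = 3 / (2 * Real.pi / Real.sqrt 3) := by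
  have h := integral_rpow_mul_exp_neg_mul_rpow (p := 1 / 3) (q := -(2 / 3)) (by norm_num)
    (by norm_num) thWD_c_pos
  rw [show (-(2 / 3) + 1 : ℝ) / (1 / 3) = 1 by norm_num,
    show -(-(2 / 3) + 1 : ℝ) / (1 / 3) = -1 by norm_num, Real.Gamma_one, Real.rpow_neg_one] at h
  rw [Mo, show 3 / (2 * Real.pi / Real.sqrt 3) = (2 * Real.pi / Real.sqrt 3)⁻¹ * (1 / (1 / 3)) * 1
    by rw [div_eq_mul_inv]; ring, ← h]
  refine setIntegral_congr_fun measurableSet_Ioi fun x (hx : 0 < x) => ?_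
  simp only [thWDk, gw]
  rw [show -(2 / 3 : ℝ) = 1 / 3 - 1 by ring, Real.rpow_sub_one hx.ne']
  field_simp

theorem thWD_KC : KC thWDk := by
  refine ⟨by unfold thWDk gw; fun_prop, fun x hx => mul_nonneg (by positivity) (gw_pos _).le,
    by rw [thWD_Mo]; positivity, fun A hA => ?_⟩
  obtain ⟨C, hC, h⟩ := gw_le_rpow (3 * (A - 1))
  refine ⟨C, fun x hx => ?_⟩
  have h1 := h (x ^ (1 / 3 : ℝ)) (by positivity) (by linarith)
  rw [← Real.rpow_mul hx.le, show 1 / 3 * -(3 * (A - 1)) = -A + 1 by ring,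
    Real.rpow_add_one hx.ne'] at h1
  calc thWDk x ≤ x⁻¹ * (C * (x ^ (-A) * x)) := mul_le_mul_of_nonneg_left h1 (by positivity)
    _ = _ := by field_simp

theorem thWD_cube_inj {m m' : O} (hm : Primary m) (hm' : Primary m') (h : m ^ 3 = m' ^ 3) :
    m = m' := by
  refine hm.ext_vp hm' fun p hp _ => ?_
  have := congrArg (vp p) h
  rw [vp_pow hp hm.ne_zero, vp_pow hp hm'.ne_zero] at this
  omega

theorem thWD_Sk_cube {Y : ℝ} (hY : 0 < Y) : Sk cubeN thWDk Y = (1 / 9 : ℂ) *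
    ∑' h : O, ft 3 E2.pri h * (gw ((Y ^ (1 / 3 : ℝ))⁻¹ * nr h / 9) : ℂ) := by
  have hZ : 0 < Y ^ (1 / 3 : ℝ) := by positivity
  have hprim : ∀ (e : O) (z : ℂ), E2.pri e * z ≠ 0 → Primary e := fun e z h => by
    by_contra h'
    exact h (by rw [E2.pri, if_neg h', zero_mul])
  have hterm : ∀ e, Primary e → cubeN (e ^ 3) * (thWDk (Y * nr (e ^ 3)) : ℂ) =
      E2.pri e * ((Y⁻¹ * gw (nr e / (Y ^ (1 / 3 : ℝ))⁻¹) : ℝ) : ℂ) := fun e he => by
    have h0 := nr_pos he.ne_zero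
    rw [cubeN, if_pos ⟨e, he, rfl⟩, E2.pri, if_pos he, one_mul, ← Complex.ofReal_mul, thWDk, nr_pow,
      Real.mul_rpow hY.le (by positivity), ← Real.rpow_natCast (nr e) 3, ← Real.rpow_mul h0.le,
      show ((3 : ℕ) : ℝ) * (1 / 3) = 1 by norm_num, Real.rpow_one, div_inv_eq_mul,
      mul_comm (nr e) (Y ^ (1 / 3 : ℝ))]
    congr 1
    have : 0 < nr e ^ ((3 : ℕ) : ℝ) := by positivity
    field_simp
  have h1 : ∑' c : O, cubeN c * (thWDk (Y * nr c) : ℂ) =
      ∑' e : O, E2.pri e * ((Y⁻¹ * gw (nr e / (Y ^ (1 / 3 : ℝ))⁻¹) : ℝ) : ℂ) := by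
    refine tsum_eq_tsum_of_ne_zero_bij (fun x => x.1 ^ 3) ?_ ?_ ?_
    · rintro ⟨e, he⟩ ⟨e', he'⟩ h
      exact Subtype.ext (thWD_cube_inj (hprim _ _ he) (hprim _ _ he') h)
    · intro c hc
      have h2 : ∃ e, Primary e ∧ c = e ^ 3 := by
        by_contra h
        exact hc (by simp only [cubeN]; rw [if_neg h, zero_mul])
      obtain ⟨e, he, rfl⟩ := h2
      exact ⟨⟨e, by rw [Function.mem_support, ← hterm e he]; exact hc⟩, rfl⟩
    · rintro ⟨e, he⟩
      exact hterm e (hprim _ _ he)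
  have h9 : nr (3 : O) = 9 := by
    have := nm_natCast 3
    rw [nr, show (3 : O) = ((3 : ℕ) : O) by norm_num, this]; norm_num
  have h2 := poisson E2.three_ne E2.pri E2.pri_per (inv_pos.2 hZ)
  rw [h9] at h2
  have e : Y ^ (4 / 3 : ℝ) * Y⁻¹ * ((Y ^ (1 / 3 : ℝ))⁻¹ / 9) = 1 / 9 := by
    rw [show (4 / 3 : ℝ) = 1 / 3 + 1 by norm_num, Real.rpow_add_one hY.ne']
    field_simp
  have e' := congrArg (fun x : ℝ => (x : ℂ)) e
  simp only [Complex.ofReal_mul] at e'
  rw [Sk, h1]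
  simp only [Complex.ofReal_mul, mul_left_comm (E2.pri _), tsum_mul_left]
  rw [h2, ← mul_assoc, ← mul_assoc, e']
  push_cast
  rfl

/-- Kernel `k x = x⁻¹ gw (x^{1/3})`, `Mo k = 3 √3 / (2π)`; `poisson` with `q = 3`. -/
theorem wd_cubeN : WD cubeN ((rho0 / 3 : ℝ) : ℂ) := by
  classical
  refine ⟨thWDk, thWD_KC, ?_⟩
  have hv : ((rho0 / 3 : ℝ) : ℂ) * (Mo thWDk : ℂ) =
      (1 / 9 : ℂ) * ∑' h : O, if h = 0 then (1 : ℂ) else 0 := by
    rw [tsum_ite_eq, ← Complex.ofReal_mul, thWD_Mo, rho0]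
    have h3 : 0 < Real.sqrt 3 := by positivity
    have hp := Real.pi_pos
    rw [show 2 * Real.pi / (9 * Real.sqrt 3) / 3 * (3 / (2 * Real.pi / Real.sqrt 3)) = 1 / 9 by
      field_simp]
    push_cast
    ring
  rw [hv]
  have hX : Tendsto (fun Y : ℝ => (Y ^ (1 / 3 : ℝ))⁻¹) (𝓝[>] 0) atTop := by
    refine tendsto_inv_nhdsGT_zero.comp (tendsto_nhdsWithin_iff.2 ⟨?_, ?_⟩)
    · have := (Real.continuous_rpow_const (q := 1 / 3) (by norm_num)).tendsto 0
      rw [Real.zero_rpow (by norm_num)] at this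
      exact this.mono_left nhdsWithin_le_nhds
    · filter_upwards [self_mem_nhdsWithin] with Y hY
      exact Real.rpow_pos_of_pos hY _
  have hlim : Tendsto (fun X : ℝ => ∑' h : O, ft 3 E2.pri h * (gw (X * nr h / 9) : ℂ)) atTop
      (𝓝 (∑' h : O, if h = 0 then (1 : ℂ) else 0)) := by
    refine tendsto_tsum_of_dominated_convergence
      (bound := fun h => (∑ x ∈ res 3, ‖E2.pri x‖) * gw (nr h / 9))
      ((summable_gw' (by norm_num)).mul_left _) (fun h => ?_) ?_
    · by_cases hh : h = 0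
      · subst hh
        have h1 := E2.sum_pri (m := 1) one_ne_zero
        rw [mul_one, isUnit_iff_nm.1 isUnit_one] at h1
        simp only [LBB.ft_zero, h1, nr, nm_eq_zero.2 rfl, if_true]
        simp
      · rw [if_neg hh, ← mul_zero (ft 3 E2.pri h)]
        refine Tendsto.const_mul _ ?_
        rw [← Complex.ofReal_zero]
        refine (Complex.continuous_ofReal.tendsto 0).comp ?_
        unfold gw
        refine Real.tendsto_exp_atBot.comp ?_
        refine Tendsto.const_mul_atTop_of_neg (neg_lt_zero.2 thWD_c_pos) ?_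
        exact (tendsto_id.atTop_mul_const (nr_pos hh)).atTop_div_const (by norm_num)
    · filter_upwards [eventually_ge_atTop (1 : ℝ)] with X hX1 h
      rw [norm_mul, Complex.norm_real, Real.norm_of_nonneg (gw_pos _).le]
      refine mul_le_mul (LBB.norm_ft_le _ _ _) (gw_antitone ?_) (gw_pos _).le
        (Finset.sum_nonneg fun _ _ => norm_nonneg _)
      have : 0 ≤ nr h := by positivity
      gcongr
      exact le_mul_of_one_le_left this hX1
  refine ((hlim.comp hX).const_mul _).congr' ?_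
  filter_upwards [self_mem_nhdsWithin] with Y hY
  exact (thWD_Sk_cube hY).symm

theorem zeta2_pos : 0 < zeta2 := by
  classical
  refine Summable.tsum_pos (TAE1.summable_inv_sq.of_nonneg_of_le (fun d => ?_) fun d => ?_)
    (fun d => ?_) 1 ?_
  · split_ifs <;> positivity
  · split_ifs
    · exact le_rfl
    · positivity
  · split_ifs <;> positivity
  · rw [if_pos primary_one]
    have := nr_pos (one_ne_zero (α := O))
    positivity

open Classical in
theorem zeta2_eq :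
    (∑' d : O, if Primary d then (1 : ℂ) * ((((nr d)⁻¹) ^ 2 : ℝ) : ℂ) else 0) = (zeta2 : ℂ) := by
  rw [zeta2, Complex.ofReal_tsum]
  refine tsum_congr fun d => ?_
  split_ifs <;> simp

open Classical in
/-- `LBA.CM.conv`. -/
theorem zeta2_mul_mu :
    (zeta2 : ℂ) * (∑' d : O, if Primary d then mu d * ((((nr d)⁻¹) ^ 2 : ℝ) : ℂ) else 0) = 1 := by
  have h : LBA.CM fun n : O => if Primary n then ((((nr n)⁻¹) ^ 2 : ℝ) : ℂ) else 0 := by
    refine ⟨fun n hn => if_neg hn, ?_, fun m n hm hn => ?_, ?_⟩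
    · rw [if_pos primary_one, nr, isUnit_iff_nm.1 isUnit_one]; simp
    · rw [if_pos hm, if_pos hn, if_pos (hm.mul hn), nr_mul]; push_cast; ring
    · refine TAE1.summable_inv_sq.of_nonneg_of_le (fun _ => norm_nonneg _) fun n => ?_
      split_ifs
      · rw [Complex.norm_real, Real.norm_of_nonneg (sq_nonneg _)]
      · rw [norm_zero]; exact sq_nonneg _
  have h2 := h.conv
  rw [← zeta2_eq]
  simpa only [one_mul, mul_ite, mul_zero] using h2

end Crest.Agent.R12
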