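import Crest.Agent.R12.ThDefs

/-!
# Row 12, theta half: calculus of weak densities
-/

set_option autoImplicit false

noncomputable section

namespace Crest.Agent.R12

open Crest.Agent.R17
open scoped ComplexConjugate Topology
open Filter MeasureTheory

theorem ThWDA_add_eq (g g' : O → ℂ) : g + g' = g - fun c => -1 * g' c := by
  funext c; simp

theorem polyG_add {g g' : O → ℂ} (hg : PolyG g) (hg' : PolyG g') : PolyG (g + g') := by
  rw [ThWDA_add_eq]; exact hg.sub (hg'.const_mul _)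
theorem wd_add {g g' : O → ℂ} (hg : PolyG g) (hg' : PolyG g') {t t' : ℂ} (h : WD g t)
    (h' : WD g' t') : WD (g + g') (t + t') := by
  rw [ThWDA_add_eq, show t + t' = t - -1 * t' by ring]
  exact WD.sub hg (hg'.const_mul _) h (h'.const_mul _)
theorem polyG_sum {α : Type*} (s : Finset α) {g : α → O → ℂ} (hg : ∀ i ∈ s, PolyG (g i)) :
    PolyG fun c => ∑ i ∈ s, g i c := by
  classical
  induction s using Finset.induction_on with
  | empty => exact ⟨0, 0, le_rfl, by simp, fun n => by simp⟩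
  | insert a s ha ih =>
    simp only [Finset.sum_insert ha]
    exact polyG_add (hg a (Finset.mem_insert_self _ _))
      (ih fun i hi => hg i (Finset.mem_insert_of_mem hi))
theorem wd_sum {α : Type*} (s : Finset α) {g : α → O → ℂ} (hg : ∀ i ∈ s, PolyG (g i)) {t : α → ℂ}
    (h : ∀ i ∈ s, WD (g i) (t i)) : WD (fun c => ∑ i ∈ s, g i c) (∑ i ∈ s, t i) := by
  classical
  induction s using Finset.induction_on with
  | empty =>
    refine ⟨Fk 1 0, KC_Fk one_pos le_rfl, ?_⟩
    simp only [Finset.sum_empty, zero_mul]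
    refine tendsto_const_nhds.congr fun Y => ?_
    simp [Sk]
  | insert a s ha ih =>
    simp only [Finset.sum_insert ha]
    exact wd_add (hg a (Finset.mem_insert_self _ _))
      (polyG_sum s fun i hi => hg i (Finset.mem_insert_of_mem hi)) (h a (Finset.mem_insert_self _ _))
      (ih (fun i hi => hg i (Finset.mem_insert_of_mem hi))
        fun i hi => h i (Finset.mem_insert_of_mem hi))
theorem polyG_conj {g : O → ℂ} (hg : PolyG g) : PolyG fun c => conj (g c) := by
  obtain ⟨H, B, hB, hg⟩ := hg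
  exact ⟨H, B, hB, by simp [hg.1], fun n => by simpa using hg.2 n⟩
theorem wd_conj {g : O → ℂ} {t : ℂ} (h : WD g t) : WD (fun c => conj (g c)) (conj t) := by
  obtain ⟨k, hk, h⟩ := h
  refine ⟨k, hk, ?_⟩
  have h1 := (Complex.continuous_conj.tendsto _).comp h
  rw [map_mul, Complex.conj_ofReal] at h1
  refine h1.congr fun Y => ?_
  simp only [Function.comp, Sk, map_mul, Complex.conj_ofReal, Complex.conj_tsum]
theorem wd_comp_cj {g : O → ℂ} {t : ℂ} (h : WD g t) : WD (fun c => g (cj c)) t := by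
  obtain ⟨k, hk, h⟩ := h
  refine ⟨k, hk, h.congr fun Y => ?_⟩
  unfold Sk
  rw [← SymbolAux.cjE.toEquiv.tsum_eq]
  congr 1
  refine tsum_congr fun c => ?_
  change g (cj c) * (k (Y * nr (cj c)) : ℂ) = _
  rw [nr, SymbolAux.nm_cj]
theorem wd_nonneg {g : O → ℝ} (hg : ∀ c, 0 ≤ g c) {t : ℂ} (h : WD (fun c => (g c : ℂ)) t) :
    t.im = 0 ∧ 0 ≤ t.re := by
  obtain ⟨k, hk, h⟩ := h
  have hM := hk.2.2.1
  have e : ∀ Y, Sk (fun c => (g c : ℂ)) k Y =
      ((Y ^ (4 / 3 : ℝ) * ∑' c : O, g c * k (Y * nr c) : ℝ) : ℂ) := by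
    intro Y
    unfold Sk
    push_cast
    rfl
  have h1 := (Complex.continuous_im.tendsto _).comp h
  have h2 := (Complex.continuous_re.tendsto _).comp h
  simp only [Function.comp_def, e, Complex.ofReal_im, Complex.ofReal_re, Complex.mul_im,
    Complex.mul_re, mul_zero, zero_add, sub_zero] at h1 h2
  refine ⟨(mul_eq_zero.1 (tendsto_nhds_unique h1 tendsto_const_nhds)).resolve_right hM.ne', ?_⟩
  have h3 : Tendsto (fun Y : ℝ => Y ^ (4 / 3 : ℝ) * -|g 0 * k 0|) (𝓝[>] 0) (𝓝 0) := by
    have h4 : Tendsto (fun Y : ℝ => Y ^ (4 / 3 : ℝ)) (𝓝 0) (𝓝 0) := by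
      have := (Real.continuous_rpow_const (q := 4 / 3) (by norm_num)).tendsto 0
      rwa [Real.zero_rpow (by norm_num)] at this
    simpa using (h4.mul_const (-|g 0 * k 0|)).mono_left nhdsWithin_le_nhds
  refine nonneg_of_mul_nonneg_left (le_of_tendsto_of_tendsto h3 h2 ?_) hM
  filter_upwards [self_mem_nhdsWithin] with Y hY
  have hY0 : 0 < Y := hY
  refine mul_le_mul_of_nonneg_left ?_ (Real.rpow_nonneg hY0.le _)
  by_cases hs : Summable fun c : O => g c * k (Y * nr c)
  · refine le_trans ?_ (hs.le_tsum 0 fun c hc =>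
      mul_nonneg (hg c) (hk.2.1 _ (mul_pos hY0 (nr_pos hc))))
    rw [nr, nm_eq_zero.2 rfl, Nat.cast_zero, mul_zero]
    exact neg_abs_le _
  · rw [tsum_eq_zero_of_not_summable hs]
    exact neg_nonpos.2 (abs_nonneg _)

end Crest.Agent.R12
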