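import Crest.Agent.R12.ThMark
import Crest.Agent.R12.ThSign
import Crest.Agent.R12.ThGam
import Crest.Agent.R12.ThExact

/-!
# Row 12, theta half: type I estimates for the completed cubic Gauss sums
-/

set_option autoImplicit false

noncomputable section

namespace Crest.Agent.R12

open Crest.Agent.R17
open scoped ComplexConjugate Topology
open Filter MeasureTheory

open Classical in
/-- The dual coefficients. -/
def bD (σ : SL2) (l : ℤ) (za ν : O) : ℂ :=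
  if ν = 0 then 0 else
    tt σ ν * ((nr ν ^ (1 / 6 : ℝ) : ℝ) : ℂ) * arg ν ^ (-l) * conj (cub za ν)

/-- `tt_support` with `D = λ^{⌊j/3⌋} d`. -/
theorem cubeB_bD : ∃ C : ℝ, 0 < C ∧ ∀ (σ : SL2) (l : ℤ) (za : O), CubeB (bD σ l za) C := by
  obtain ⟨C, hC, h⟩ := tt_support
  refine ⟨3 * C, by positivity, fun σ l za => ⟨by positivity, by simp [bD], fun ν hν => ?_⟩⟩
  have hb : ‖bD σ l za ν‖ ≤ ‖tt σ ν‖ * nr ν ^ (1 / 6 : ℝ) := by
    rw [bD, if_neg hν, norm_mul, norm_mul, norm_mul, RCLike.norm_conj, Complex.norm_real,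
      Real.norm_of_nonneg (by positivity), mul_assoc]
    exact mul_le_of_le_one_right (by positivity)
      (mul_le_one₀ (norm_arg_zpow_le ν _) (norm_nonneg _) (norm_cub_le _ _))
  by_cases h0 : tt σ ν = 0
  · refine ⟨1, one_ne_zero, by simp, hb.trans ?_⟩
    rw [h0, norm_zero, zero_mul]
    positivity
  obtain ⟨u, j, n, d, -, -, -, hd, e, hle⟩ := h σ ν hν h0
  refine ⟨lam ^ (j / 3) * d, mul_ne_zero (pow_ne_zero _ prime_lam.ne_zero) hd.ne_zero,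
    ⟨u * lam ^ (j % 3) * n, ?_⟩, hb.trans (hle.trans ?_)⟩
  · rw [e]
    conv_lhs => rw [← Nat.div_add_mod j 3]
    ring
  · have h3 : nr lam = 3 := by simp [nr, nm_lam]
    rw [nr_mul, nr_pow, h3, Real.sqrt_mul (by positivity), ← mul_assoc]
    refine mul_le_mul_of_nonneg_right ?_ (Real.sqrt_nonneg _)
    rw [mul_comm 3 C, mul_assoc]
    refine mul_le_mul_of_nonneg_left ?_ hC.le
    rw [Real.sqrt_eq_rpow, ← Real.rpow_natCast, ← Real.rpow_mul (by norm_num),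
      ← Real.rpow_one_add' (by norm_num) (by positivity)]
    refine Real.rpow_le_rpow_of_exponent_le (by norm_num) ?_
    have h4 : (j : ℝ) ≤ 3 * ((j / 3 : ℕ) : ℝ) + 2 := by exact_mod_cast (by omega : j ≤ 3 * (j / 3) + 2)
    linarith

theorem ThetaA.nr_three (n : O) : nr (3 * n) = 9 * nr n := by
  have : nr 3 = 9 := by
    have := nm_natCast 3
    simp only [nr]; exact_mod_cast this
  rw [nr_mul, this]

open Classical in
/-- The original side. -/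
theorem ThetaA.lhs (l : ℤ) {z : O} (hz : Primary z) (y : ℝ) :
    (∑' ν : O, if (9 : O) ∣ ν - 3 then
        tt SS ν * (if z ∣ ν then 1 else 0) * (Mk y (b1 * nr ν) : ℂ) * Pl l (ι ν) else 0) =
      tt SS 3 * 3 ^ l.natAbs * ((y ^ (2 / 3 : ℝ) : ℝ) : ℂ) *
        thS W0 (tm l z) ((l.natAbs : ℝ) / 2 - 1 / 6) (9 * b1) (y ^ 2) := by
  have hinj : Function.Injective fun n : O => 3 * n := mul_right_injective₀ (by norm_num)
  rw [← hinj.tsum_eq, thS, ← tsum_mul_left]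
  · refine tsum_congr fun n => ?_
    have h1 : (9 : O) ∣ 3 * n - 3 ↔ Primary n := by
      rw [show (9 : O) = 3 * 3 by norm_num, show 3 * n - 3 = 3 * (n - 1) by ring,
        mul_dvd_mul_iff_left (by norm_num)]
      rfl
    have h2 : z ∣ 3 * n ↔ z ∣ n :=
      ⟨fun h => hz.isCoprime_three.dvd_of_dvd_mul_left h, fun h => h.mul_left _⟩
    by_cases hn : Primary n
    · have h0 := nr_pos hn.ne_zero
      rw [if_pos (h1.2 hn), tm, tt_SS_three hn, map_mul, Pl_mul, Pl_ι hn.ne_zero, Mk,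
        ThetaA.nr_three, map_ofNat, show (3 : ℂ) = ((3 : ℝ) : ℂ) by norm_num, Pl_ofReal, h2,
        sub_eq_add_neg ((l.natAbs : ℝ) / 2), Real.rpow_add h0,
        show y ^ 2 * (b1 * (9 * nr n)) = 9 * b1 * nr n * y ^ 2 by ring]
      split_ifs
      · push_cast; ring
      · simp
    · rw [if_neg fun h => hn (h1.1 h), tm, tc_of_not hn]
      simp
  · intro ν hν
    by_cases h : (9 : O) ∣ ν - 3
    · obtain ⟨k, hk⟩ := h
      exact ⟨1 + 3 * k, by linear_combination -hk⟩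
    · exact absurd (if_neg h) hν

open Classical in
/-- The dual side. -/
theorem ThetaA.rhs (σ : SL2) (l : ℤ) {D : O} (hD : Primary D) (hs : Squarefree D) {y : ℝ}
    (hy0 : 0 < y) :
    ∑' ν : O, tt σ ν * ft D (dualChr D fun a => cub D a ^ 3) (-ν) *
        (Mk (nr D * y)⁻¹ (b1 * nr ν) : ℂ) * Pl (-l) (ι ν) =
      (if l = 0 ∧ D = 1 then
        tt σ 0 * ((y ^ (-(2 / 3 : ℝ)) * Real.Gamma (1 / 3) : ℝ) : ℂ) else 0) +
      gc D 1 * ((nr D ^ (-(2 / 3 : ℝ)) * y ^ (-(2 / 3 : ℝ)) : ℝ) : ℂ) *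
        thS W0 (bD σ l D) ((l.natAbs : ℝ) / 2 - 1 / 6) (b1 / nr D ^ 2) (y ^ 2)⁻¹ := by
  have hD0 := nr_pos hD.ne_zero
  have hy1 : 0 < (nr D * y)⁻¹ := inv_pos.2 (mul_pos hD0 hy0)
  simp only [ft_dual_cube hD hs]
  have hsum : Summable fun ν : O => tt σ ν * (gc D 1 * conj (cub D ν)) *
      (Mk (nr D * y)⁻¹ (b1 * nr ν) : ℂ) * Pl (-l) (ι ν) := by
    refine Summable.of_norm_bounded ((summable_TM σ (-l) hy1).mul_left ‖gc D 1‖) fun ν => ?_
    simp only [norm_mul, RCLike.norm_conj]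
    have := norm_cub_le D ν
    calc _ = ‖gc D 1‖ * (‖tt σ ν‖ * ‖(Mk (nr D * y)⁻¹ (b1 * nr ν) : ℂ)‖ * ‖Pl (-l) (ι ν)‖) *
          ‖cub D ν‖ := by ring
      _ ≤ _ := mul_le_of_le_one_right (by positivity) this
  have hp : ((nr D * y)⁻¹) ^ (2 / 3 : ℝ) = nr D ^ (-(2 / 3 : ℝ)) * y ^ (-(2 / 3 : ℝ)) := by
    rw [Real.inv_rpow (by positivity), Real.mul_rpow hD0.le hy0.le, mul_inv,
      Real.rpow_neg hD0.le, Real.rpow_neg hy0.le]
  rw [hsum.tsum_eq_add_tsum_ite 0, thS, ← tsum_mul_left]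
  congr 1
  · rw [map_zero, Pl_zero_right, Mk, hp]
    by_cases hl : l = 0
    · by_cases h1 : D = 1
      · subst h1
        simp [hl, nr, W0_zero]
      · rw [(cub_eq_zero_iff hD).2 fun h => h1 (hD.eq_one_of_isUnit (isCoprime_zero_right.1 h))]
        simp [h1]
    · simp [hl]
  · refine tsum_congr fun ν => ?_
    by_cases hν : ν = 0
    · simp [hν, bD]
    · have h0 := nr_pos hν
      have h1 : nr ν ^ ((l.natAbs : ℝ) / 2) =
          nr ν ^ (1 / 6 : ℝ) * nr ν ^ ((l.natAbs : ℝ) / 2 - 1 / 6) := by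
        rw [← Real.rpow_add h0]; congr 1; ring
      rw [if_neg hν, bD, if_neg hν, Mk, hp, Pl_ι hν, Int.natAbs_neg, h1,
        show ((nr D * y)⁻¹) ^ 2 * (b1 * nr ν) = b1 / nr D ^ 2 * nr ν * (y ^ 2)⁻¹ by field_simp]
      push_cast; ring

open Classical in
theorem ThetaA.sum_split {S : Finset O} (h1 : 1 ∈ S) {f g : O → ℂ} {c : ℂ}
    (h : ∀ D ∈ S, f D = (if D = 1 then c else 0) + g D) : ∑ D ∈ S, f D = c + ∑ D ∈ S, g D := by
  rw [Finset.sum_congr rfl h, Finset.sum_add_distrib, Finset.sum_ite_eq', if_pos h1]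

open Classical in
theorem ThetaA.aux (l : ℤ) (R : Finset O) (ρ : O → O → ℂ)
    (hC : ∑ t ∈ R, eq (-t) 3 * Cv (-1) t = 27 * (C0 : ℂ))
    (hρ : ∀ D : O, Primary D → (∀ t, ‖ρ D t‖ = 1) ∧
      (D = 1 → ∀ t, ρ D t * tt (rep t (D % 9)) 0 = eq (-t) 3 * Cv (-1) t) ∧
      ∀ (l : ℤ) (y : ℝ), 0 < y →
      (∑' ν : O, if (9 : O) ∣ ν - 3 then
          tt SS ν * ft D (fun a => cub D a ^ 3) ν * (Mk y (b1 * nr ν) : ℂ) * Pl l (ι ν) else 0) =
        (81 : ℂ)⁻¹ * (((y ^ (2 * l.natAbs))⁻¹ : ℝ) : ℂ) * (Pl (-l) (ι D) ^ 2)⁻¹ *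
          ∑ t ∈ R, ρ D t * ∑' ν : O, tt (rep t (D % 9)) ν *
            ft D (dualChr D fun a => cub D a ^ 3) (-ν) *
            (Mk (nr D * y)⁻¹ (b1 * nr ν) : ℂ) * Pl (-l) (ι ν)) :
    ∃ (C : ℝ) (ω : O → O → ℂ), 0 < C ∧
    (∀ t za, Primary za → Squarefree za →
      ‖ω t za‖ ≤ C * nr za ^ (-(1 / 6 + l.natAbs : ℝ))) ∧
    ∀ z : O, Primary z → Squarefree z → ∀ x : ℝ, 0 < x →
      thS W0 (tm l z) ((l.natAbs : ℝ) / 2 - 1 / 6) (9 * b1) x⁻¹ =
        ((x ^ (1 + 2 * ((l.natAbs : ℝ) / 2 - 1 / 6)) : ℝ) : ℂ) *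
          ((if l = 0 then ((Real.Gamma (1 / 3) / (9 * cP * nr z) : ℝ) : ℂ) else 0) +
            ∑ p ∈ R ×ˢ pdiv z, (((nr z)⁻¹ : ℝ) : ℂ) * ω p.1 p.2 *
              thS W0 (bD (rep p.1 (p.2 % 9)) l p.2) ((l.natAbs : ℝ) / 2 - 1 / 6)
                (b1 / nr p.2 ^ 2) x) := by
  have ha : (0 : ℝ) < 3 * cP * C0 := by have := cP_pos; have := C0_pos; positivity
  set m := l.natAbs with hm
  refine ⟨(3 * cP * C0 * 3 ^ m * 81)⁻¹, fun t D => (((3 * cP * C0 * 3 ^ m * 81)⁻¹ : ℝ) : ℂ) *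
    ρ D t * gc D 1 * (Pl (-l) (ι D) ^ 2)⁻¹ * ((nr D ^ (-(2 / 3 : ℝ)) : ℝ) : ℂ), by positivity,
    fun t D hD hs => le_of_eq ?_, fun z hz hs x hx => ?_⟩
  · have h0 := nr_pos hD.ne_zero
    rw [norm_mul, norm_mul, norm_mul, norm_mul, (hρ D hD).1, norm_gc hD hs, norm_inv, norm_pow,
      norm_Pl, Int.natAbs_neg, ← hm, ← pow_mul, mul_comm m 2, pow_mul, norm_ι_sq,
      Complex.norm_real, Complex.norm_real, Real.norm_of_nonneg (by positivity),
      Real.norm_of_nonneg (by positivity), mul_one, mul_assoc, mul_assoc, Real.sqrt_eq_rpow,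
      ← Real.rpow_natCast (nr D), ← Real.rpow_neg h0.le, ← Real.rpow_add h0, ← Real.rpow_add h0]
    congr 2; ring
  have hz0 := nr_pos hz.ne_zero
  obtain ⟨y, hy0, rfl⟩ : ∃ y : ℝ, 0 < y ∧ x = (y ^ 2)⁻¹ :=
    ⟨(Real.sqrt x)⁻¹, by positivity, by rw [inv_pow, inv_inv, Real.sq_sqrt hx.le]⟩
  have hP : ∀ D ∈ pdiv z, Primary D ∧ Squarefree D := fun D hD =>
    ⟨((mem_pdiv hz.ne_zero).1 hD).1, hs.squarefree_of_dvd ((mem_pdiv hz.ne_zero).1 hD).2⟩
  have h1 := ThetaA.lhs l hz y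
  have hsum : ∀ D : O, Summable fun ν : O => if (9 : O) ∣ ν - 3 then tt SS ν *
      ft D (fun a => cub D a ^ 3) ν * (Mk y (b1 * nr ν) : ℂ) * Pl l (ι ν) else 0 := fun D => by
    refine Summable.of_norm_bounded
      ((summable_TM SS l hy0).mul_left (∑ a ∈ res D, ‖cub D a ^ 3‖)) fun ν => ?_
    have h2 : ‖ft D (fun a => cub D a ^ 3) ν‖ ≤ ∑ a ∈ res D, ‖cub D a ^ 3‖ :=
      (norm_sum_le _ _).trans (Finset.sum_le_sum fun a _ => by rw [norm_mul, norm_eq, mul_one])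
    split_ifs
    · calc _ = ‖ft D (fun a => cub D a ^ 3) ν‖ *
            ‖tt SS ν * (Mk y (b1 * nr ν) : ℂ) * Pl l (ι ν)‖ := by
            rw [← norm_mul]; congr 1; ring
        _ ≤ _ := mul_le_mul_of_nonneg_right h2 (norm_nonneg _)
    · rw [norm_zero]
      exact mul_nonneg ((norm_nonneg _).trans h2) (norm_nonneg _)
  have h2 : (∑' ν : O, if (9 : O) ∣ ν - 3 then
        tt SS ν * (if z ∣ ν then 1 else 0) * (Mk y (b1 * nr ν) : ℂ) * Pl l (ι ν) else 0) =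
      (((nr z)⁻¹ : ℝ) : ℂ) * ∑ D ∈ pdiv z, ∑' ν : O, if (9 : O) ∣ ν - 3 then tt SS ν *
        ft D (fun a => cub D a ^ 3) ν * (Mk y (b1 * nr ν) : ℂ) * Pl l (ι ν) else 0 := by
    rw [← Summable.tsum_finsetSum fun D _ => hsum D, ← tsum_mul_left]
    refine tsum_congr fun ν => ?_
    split_ifs with h9 hzν
    · have := mark_eq hz hs ν
      rw [if_pos hzν] at this
      rw [this]
      simp only [Finset.mul_sum, Finset.sum_mul]
      exact Finset.sum_congr rfl fun D _ => by ring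
    · have := mark_eq hz hs ν
      rw [if_neg hzν] at this
      rw [this]
      simp only [Finset.mul_sum, Finset.sum_mul]
      exact Finset.sum_congr rfl fun D _ => by ring
    · simp
  set G : O → O → ℂ := fun t D =>
    thS W0 (bD (rep t (D % 9)) l D) ((m : ℝ) / 2 - 1 / 6) (b1 / nr D ^ 2) (y ^ 2)⁻¹ with hG
  have h3 : ∀ D ∈ pdiv z, (∑' ν : O, if (9 : O) ∣ ν - 3 then tt SS ν *
        ft D (fun a => cub D a ^ 3) ν * (Mk y (b1 * nr ν) : ℂ) * Pl l (ι ν) else 0) =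
      (if D = 1 then (if l = 0 then
        ((C0 / 3 * y ^ (-(2 / 3 : ℝ)) * Real.Gamma (1 / 3) : ℝ) : ℂ) else 0) else 0) +
      ∑ t ∈ R, (81 : ℂ)⁻¹ * (((y ^ (2 * m))⁻¹ * y ^ (-(2 / 3 : ℝ)) : ℝ) : ℂ) *
        (ρ D t * gc D 1 * (Pl (-l) (ι D) ^ 2)⁻¹ * ((nr D ^ (-(2 / 3 : ℝ)) : ℝ) : ℂ) * G t D) := by
    intro D hD
    obtain ⟨hD1, hD2⟩ := hP D hD
    rw [(hρ D hD1).2.2 l y hy0]
    simp only [ThetaA.rhs _ l hD1 hD2 hy0, mul_add, Finset.sum_add_distrib]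
    refine congrArg₂ (· + ·) ?_ ?_
    · by_cases hl : l = 0
      · by_cases h1 : D = 1
        · have h4 := (hρ D hD1).2.1 h1
          simp only [hl, h1, and_self, if_true, ← mul_assoc] at h4 ⊢
          simp only [h4]
          rw [← Finset.sum_mul, hC]
          simp [Pl_zero_left]
          ring
        · simp [h1]
      · simp [hl]
    · rw [Finset.mul_sum]
      refine Finset.sum_congr rfl fun t _ => ?_
      simp only [hG, ← hm]
      push_cast; ring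
  rw [h2, ThetaA.sum_split ((mem_pdiv hz.ne_zero).2 ⟨primary_one, one_dvd _⟩) h3, a1_eq,
    ← hm] at h1
  have hy2 : (0 : ℝ) < y ^ (2 / 3 : ℝ) := by positivity
  have hne : (((3 * cP * C0 : ℝ) : ℂ) * 3 ^ m * ((y ^ (2 / 3 : ℝ) : ℝ) : ℂ)) ≠ 0 := by
    exact_mod_cast (by positivity : (3 * cP * C0 * 3 ^ m * y ^ (2 / 3 : ℝ) : ℝ) ≠ 0)
  have hx2 : ((y ^ 2)⁻¹) ^ (1 + 2 * ((m : ℝ) / 2 - 1 / 6)) =
      (y ^ (2 * m))⁻¹ * (y ^ (2 / 3 : ℝ))⁻¹ * (y ^ (2 / 3 : ℝ))⁻¹ := by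
    rw [← Real.rpow_natCast y 2, ← Real.rpow_natCast y (2 * m), ← Real.rpow_neg hy0.le,
      ← Real.rpow_neg hy0.le, ← Real.rpow_neg hy0.le, ← Real.rpow_mul hy0.le,
      ← Real.rpow_add hy0, ← Real.rpow_add hy0]
    refine congrArg (y ^ ·) ?_
    push_cast; ring
  rw [inv_inv]
  refine mul_left_cancel₀ hne ?_
  rw [← h1, hx2, Finset.sum_product_right, Real.rpow_neg hy0.le, mul_add, mul_add, mul_add]
  have c1 : (cP : ℂ) ≠ 0 := by exact_mod_cast cP_pos.ne'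
  have c2 : (C0 : ℂ) ≠ 0 := by exact_mod_cast C0_pos.ne'
  have c3 : ((y ^ (2 / 3 : ℝ) : ℝ) : ℂ) ≠ 0 := by exact_mod_cast hy2.ne'
  have c4 : ((nr z : ℝ) : ℂ) ≠ 0 := by exact_mod_cast hz0.ne'
  have c5 : (y : ℂ) ≠ 0 := by exact_mod_cast hy0.ne'
  refine congrArg₂ (· + ·) ?_ ?_
  · by_cases hl : l = 0
    · have : m = 0 := by simp [hm, hl]
      simp only [hl, if_true, this]
      generalize y ^ (2 / 3 : ℝ) = Y at c3
      generalize nr z = N at c4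
      push_cast
      field_simp
      ring
    · simp [hl]
  · simp only [Finset.mul_sum]
    refine Finset.sum_congr rfl fun D _ => Finset.sum_congr rfl fun t _ => ?_
    simp only [hG]
    generalize y ^ (2 / 3 : ℝ) = Y at c3
    generalize nr z = N at c4
    push_cast
    field_simp


/-- The theta relation for the marked coefficients. -/
theorem theta_rel (l : ℤ) : ∃ (C : ℝ) (ω : O → O → ℂ), 0 < C ∧
    (∀ t za, Primary za → Squarefree za →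
      ‖ω t za‖ ≤ C * nr za ^ (-(1 / 6 + l.natAbs : ℝ))) ∧
    ∀ z : O, Primary z → Squarefree z → ∀ x : ℝ, 0 < x →
      thS W0 (tm l z) ((l.natAbs : ℝ) / 2 - 1 / 6) (9 * b1) x⁻¹ =
        ((x ^ (1 + 2 * ((l.natAbs : ℝ) / 2 - 1 / 6)) : ℝ) : ℂ) *
          ((if l = 0 then ((Real.Gamma (1 / 3) / (9 * cP * nr z) : ℝ) : ℂ) else 0) +
            ∑ p ∈ res 9 ×ˢ pdiv z, (((nr z)⁻¹ : ℝ) : ℂ) * ω p.1 p.2 *
              thS W0 (bD (rep p.1 (p.2 % 9)) l p.2) ((l.natAbs : ℝ) / 2 - 1 / 6)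
                (b1 / nr p.2 ^ 2) x) := by
  classical
  have hex : ∀ D : O, ∃ ρ : O → ℂ, Primary D → _ := fun D => by
    by_cases hD : Primary D
    · exact (vor_twist hD (isChr_cub_cube hD)).imp fun ρ h _ => h
    · exact ⟨0, fun h => absurd h hD⟩
  choose ρ hρ using hex
  have hC : ∑ t ∈ res 9, eq (-t) 3 * Cv (-1) t = 27 * (C0 : ℂ) := by
    have := sum_P_three
    simpa only [one_mul, show (3 : O) * 3 = 9 by norm_num] using this
  exact ThetaA.aux l (res 9) ρ hC hρ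

end Crest.Agent.R12
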