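import Crest.Agent.R12.WinA0
import Crest.Agent.R17.Poisson

/-!
# Row 12, analytic half: the thin annulus weight
-/

set_option autoImplicit false

noncomputable section

namespace Crest.Agent.R12

open Crest.Agent.R17
open scoped ComplexConjugate Topology
open Filter MeasureTheory

theorem WinA_gw_shift (a : O) (z : ℂ) {X : ℝ} (hX : 0 < X) :
    gw (‖ι a - z‖ ^ 2 / X) ≤ gw (-(‖z‖ ^ 2 / X)) * gw (nr a / (2 * X)) := by
  rw [← gw_add]
  refine gw_antitone ?_
  have h1 : ‖ι a‖ ≤ ‖ι a - z‖ + ‖z‖ := by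
    simpa using norm_add_le (ι a - z) z
  have h2 : nr a ≤ 2 * ‖ι a - z‖ ^ 2 + 2 * ‖z‖ ^ 2 := by
    rw [← norm_ι_sq]
    nlinarith [norm_nonneg (ι a), norm_nonneg (ι a - z), norm_nonneg z,
      sq_nonneg (‖ι a - z‖ - ‖z‖)]
  have e : -(‖z‖ ^ 2 / X) + nr a / (2 * X) = (nr a / 2 - ‖z‖ ^ 2) / X := by
    field_simp
    ring
  rw [e]
  exact div_le_div_of_nonneg_right (by linarith) hX.le

theorem WinA_bdd {q : O} (hq : q ≠ 0) (f : O → ℂ) (hf : ∀ x y, q ∣ x - y → f x = f y) (k : O) :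
    ‖f k‖ ≤ ∑ x ∈ res q, ‖f x‖ := by
  obtain ⟨r, ⟨hr, hr'⟩, -⟩ := exists_unique_res hq k
  rw [hf k r hr']
  exact Finset.single_le_sum (f := fun x => ‖f x‖) (fun _ _ => norm_nonneg _) hr

theorem WinA_norm_ft_le (q : O) (f : O → ℂ) (h : O) : ‖ft q f h‖ ≤ ∑ x ∈ res q, ‖f x‖ := by
  refine (norm_sum_le _ _).trans (le_of_eq (Finset.sum_congr rfl fun x _ => ?_))
  rw [norm_mul, norm_eq, mul_one]

/-- Poisson summation for a periodic function against a shifted Gaussian (as `poisson`, from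
`poisson_shift`). -/
theorem poisson_centre {q : O} (hq : q ≠ 0) (f : O → ℂ) (hf : ∀ x y, q ∣ x - y → f x = f y)
    {X : ℝ} (hX : 0 < X) (z : ℂ) :
    ∑' a : O, f a * (gw (‖ι a - z‖ ^ 2 / X) : ℂ) = ((X / nr q : ℝ) : ℂ) *
      ∑' k : O, ft q f k * (gw (X * nr k / nr q) : ℂ) * eC (-(ι k / ι q * z)) := by
  classical
  have hq0 := nr_pos hq
  have hιq : ι q ≠ 0 := fun h0 => hq (ι_injective (by rw [h0, map_zero]))
  have hX' : 0 < X / nr q := div_pos hX hq0
  have hs : Summable fun k : O => f k * (gw (‖ι k - z‖ ^ 2 / X) : ℂ) := by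
    refine Summable.of_norm_bounded (((summable_gw' (X := 2 * X) (by linarith)).mul_left
      (gw (-(‖z‖ ^ 2 / X)))).mul_left (∑ x ∈ res q, ‖f x‖)) fun k => ?_
    rw [norm_mul, Complex.norm_real, Real.norm_of_nonneg (gw_pos _).le]
    exact mul_le_mul (WinA_bdd hq f hf k) (WinA_gw_shift k z hX) (gw_pos _).le
      (Finset.sum_nonneg fun _ _ => norm_nonneg _)
  let e : res q × O ≃ O := Equiv.ofBijective (fun z => (z.1 : O) + q * z.2) (by
    constructor
    · rintro ⟨⟨x, hx⟩, k⟩ ⟨⟨x', hx'⟩, k'⟩ hz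
      simp only at hz
      obtain ⟨r, -, hr⟩ := exists_unique_res hq (x + q * k)
      have h1 : x = r := hr x ⟨hx, ⟨k, by ring⟩⟩
      have h2 : x' = r := hr x' ⟨hx', ⟨k', by rw [hz]; ring⟩⟩
      have h3 : x = x' := h1.trans h2.symm
      subst h3
      have h4 : k = k' := mul_left_cancel₀ hq (add_left_cancel hz)
      rw [h4]
    · intro k
      obtain ⟨r, ⟨hr, c, hc⟩, -⟩ := exists_unique_res hq k
      exact ⟨(⟨r, hr⟩, c), by simp only; rw [← hc]; ring⟩)
  have he : ∀ z : res q × O, e z = (z.1 : O) + q * z.2 := fun _ => rfl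
  have t1 := (e.summable_iff.2 hs).tsum_prod
  simp only [Function.comp] at t1
  rw [← e.tsum_eq, t1, tsum_fintype]
  simp only [he]
  have inner : ∀ x : O, ∑' k : O, f (x + q * k) * (gw (‖ι (x + q * k) - z‖ ^ 2 / X) : ℂ) =
      (X / nr q : ℝ) * ∑' h : O, f x * eq (h * x) q * (gw (X * nr h / nr q) : ℂ) *
        eC (-(ι h / ι q * z)) := by
    intro x
    have H := poisson_shift hX' ((ι x - z) / ι q) 0
    simp only [mul_zero, eC_zero, mul_one, add_zero] at H
    have e1 : ∀ k : O, f (x + q * k) * (gw (‖ι (x + q * k) - z‖ ^ 2 / X) : ℂ)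
        = f x * (gw (‖ι k + (ι x - z) / ι q‖ ^ 2 / (X / nr q)) : ℂ) := by
      intro k
      rw [hf (x + q * k) x ⟨k, by ring⟩]
      congr 3
      have : ι k + (ι x - z) / ι q = (ι (x + q * k) - z) / ι q := by
        rw [map_add, map_mul]
        field_simp
        ring
      rw [this, norm_div, div_pow, norm_ι_sq]
      field_simp
    simp only [e1]
    rw [tsum_mul_left, H, mul_left_comm, ← tsum_mul_left, ← (Equiv.neg O).tsum_eq]
    congr 1
    refine tsum_congr fun h => ?_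
    simp only [Equiv.neg_apply, norm_ι_sq, nr, norm_neg, eq, map_neg, map_mul]
    rw [show -(-ι h * ((ι x - z) / ι q)) = ι h * ι x / ι q + -(ι h / ι q * z) by ring, eC_add,
      show X / (nm q : ℝ) * (nm h : ℝ) = X * (nm h : ℝ) / (nm q : ℝ) by ring]
    ring
  simp only [inner]
  rw [Finset.sum_coe_sort (res q) (fun x => ((X / nr q : ℝ) : ℂ) *
    ∑' h : O, f x * eq (h * x) q * (gw (X * nr h / nr q) : ℂ) * eC (-(ι h / ι q * z))),
    ← Finset.mul_sum]
  congr 1
  have hs2 : ∀ x : O, Summable fun h : O =>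
      f x * eq (h * x) q * (gw (X * nr h / nr q) : ℂ) * eC (-(ι h / ι q * z)) := by
    intro x
    refine Summable.of_norm_bounded ((summable_gw' (inv_pos.2 hX')).mul_left ‖f x‖) fun h => ?_
    rw [norm_mul, norm_mul, norm_mul, norm_eq, norm_eC, mul_one, mul_one, Complex.norm_real,
      Real.norm_of_nonneg (gw_pos _).le]
    refine le_of_eq ?_
    congr 2
    field_simp
  rw [← Summable.tsum_finsetSum fun x _ => hs2 x]
  refine tsum_congr fun h => ?_
  rw [ft, Finset.sum_mul, Finset.sum_mul]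

theorem WinA_tsum_integral (F : O → ℝ → ℂ) (hF : ∀ a, Continuous (F a)) (b : O → ℝ)
    (hb : Summable b) (h : ∀ a θ, ‖F a θ‖ ≤ b a) :
    ∑' a, ∫ θ in (0 : ℝ)..2 * Real.pi, F a θ = ∫ θ in (0 : ℝ)..2 * Real.pi, ∑' a, F a θ :=
  (intervalIntegral.hasSum_integral_of_dominated_convergence (fun a _ => b a)
    (fun a => (hF a).aestronglyMeasurable) (fun a => Eventually.of_forall fun θ _ => h a θ)
    (Eventually.of_forall fun _ _ => hb) intervalIntegrable_const
    (Eventually.of_forall fun θ _ =>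
      (Summable.of_norm_bounded hb fun a => h a θ).hasSum)).tsum_eq

theorem WinA_continuous_gw : Continuous gw := by
  unfold gw
  fun_prop

theorem WinA_continuous_eC : Continuous eC := by
  unfold eC
  fun_prop

theorem WinA_phT {T Y : ℝ} (hT : 1 ≤ T) (hY : 0 < Y) (a : O) :
    phT T (nr a / Y) = (T : ℂ) * ∫ θ in (0 : ℝ)..2 * Real.pi,
      (gw (‖ι a - (Real.sqrt Y : ℂ) * Complex.exp (θ * Complex.I)‖ ^ 2 / (Y / T ^ 2)) : ℂ) := by
  have hs : 0 < Real.sqrt Y := Real.sqrt_pos.2 hY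
  have hs' : (Real.sqrt Y : ℂ) ≠ 0 := Complex.ofReal_ne_zero.2 hs.ne'
  have hn : ‖(Real.sqrt Y : ℂ)‖ ^ 2 = Y := by
    rw [Complex.norm_real, Real.norm_of_nonneg hs.le, Real.sq_sqrt hY.le]
  have e : nr a / Y = ‖ι a / (Real.sqrt Y : ℂ)‖ ^ 2 := by
    rw [norm_div, div_pow, norm_ι_sq, hn]
  rw [e, phT_eq]
  congr 1
  refine intervalIntegral.integral_congr fun θ _ => ?_
  have e2 : ι a / (Real.sqrt Y : ℂ) - Complex.exp (θ * Complex.I) =
      (ι a - (Real.sqrt Y : ℂ) * Complex.exp (θ * Complex.I)) / (Real.sqrt Y : ℂ) := by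
    field_simp
  have hT0 : T ≠ 0 := by linarith
  simp only [e2, norm_div, div_pow, hn]
  congr 2
  field_simp

theorem WinA_bound {T Y : ℝ} (hT : 1 ≤ T) (hY : 0 < Y) (a : O) (θ : ℝ) :
    gw (‖ι a - (Real.sqrt Y : ℂ) * Complex.exp (θ * Complex.I)‖ ^ 2 / (Y / T ^ 2)) ≤
      gw (-(Y / (Y / T ^ 2))) * gw (nr a / (2 * (Y / T ^ 2))) := by
  have hT0 : 0 < T := by linarith
  have h := WinA_gw_shift a ((Real.sqrt Y : ℂ) * Complex.exp (θ * Complex.I))
    (X := Y / T ^ 2) (by positivity)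
  rwa [norm_mul, Complex.norm_exp_ofReal_mul_I, mul_one, Complex.norm_real,
    Real.norm_of_nonneg (Real.sqrt_nonneg Y), Real.sq_sqrt hY.le] at h

/-- `poisson_centre` with `X = Y / T²`, `z = √Y e^{iθ}`, integrated over `θ`. -/
theorem pp_T {T : ℝ} (hT : 1 ≤ T) : PP (phT T) (kT T) := by
  have hT0 : 0 < T := by linarith
  refine ⟨fun Y hY => ?_, fun ρ hρ => ?_, fun q f Y hq hf _ hY => ?_⟩
  · have hX : 0 < Y / T ^ 2 := by positivity
    refine Summable.of_nonneg_of_le (fun _ => norm_nonneg _) (fun a => ?_)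
      ((((summable_gw' (X := 2 * (Y / T ^ 2)) (by linarith)).mul_left
        (gw (-(Y / (Y / T ^ 2))))).mul_right |2 * Real.pi - 0|).mul_left T)
    rw [WinA_phT hT hY, norm_mul, Complex.norm_real, Real.norm_of_nonneg hT0.le]
    refine mul_le_mul_of_nonneg_left
      (intervalIntegral.norm_integral_le_of_norm_le_const fun θ _ => ?_) hT0.le
    rw [Complex.norm_real, Real.norm_of_nonneg (gw_pos _).le]
    exact WinA_bound hT hY a θ
  · have hX : 0 < T ^ 2 / ρ := by positivity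
    refine Summable.of_nonneg_of_le (fun _ => norm_nonneg _) (fun h => ?_)
      (((summable_gw' hX).mul_left T⁻¹).mul_right (2 * Real.pi))
    have e : ρ * nr h / T ^ 2 = nr h / (T ^ 2 / ρ) := by field_simp
    have hp : 0 ≤ T⁻¹ * gw (nr h / (T ^ 2 / ρ)) := mul_nonneg (inv_nonneg.2 hT0.le) (gw_pos _).le
    rw [kT, norm_mul, Complex.norm_real, e, Real.norm_of_nonneg hp]
    exact mul_le_mul_of_nonneg_left (norm_Jc_le _) hp
  · have hX : 0 < Y / T ^ 2 := by positivity
    have hq0 := nr_pos hq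
    have hS : 0 ≤ ∑ x ∈ res q, ‖f x‖ := Finset.sum_nonneg fun _ _ => norm_nonneg _
    have hgw := WinA_continuous_gw
    have heC := WinA_continuous_eC
    have L : ∑' a : O, f a * phT T (nr a / Y) = (T : ℂ) * ∫ θ in (0 : ℝ)..2 * Real.pi, ∑' a : O,
        f a * (gw (‖ι a - (Real.sqrt Y : ℂ) * Complex.exp (θ * Complex.I)‖ ^ 2 / (Y / T ^ 2)) : ℂ) := by
      rw [← WinA_tsum_integral _ (fun a => by fun_prop) _
        (((summable_gw' (X := 2 * (Y / T ^ 2)) (by linarith)).mul_left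
          (gw (-(Y / (Y / T ^ 2))))).mul_left (∑ x ∈ res q, ‖f x‖)) (fun a θ => by
            rw [norm_mul, Complex.norm_real, Real.norm_of_nonneg (gw_pos _).le]
            exact mul_le_mul (WinA_bdd hq f hf a) (WinA_bound hT hY a θ) (gw_pos _).le hS),
        ← tsum_mul_left]
      refine tsum_congr fun a => ?_
      rw [WinA_phT hT hY, intervalIntegral.integral_const_mul]
      ring
    have R : ∫ θ in (0 : ℝ)..2 * Real.pi, ∑' k : O, ft q f k * (gw (Y / T ^ 2 * nr k / nr q) : ℂ) *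
        eC (-(ι k / ι q * ((Real.sqrt Y : ℂ) * Complex.exp (θ * Complex.I)))) =
        ∑' k : O, ft q f k * (gw (Y / T ^ 2 * nr k / nr q) : ℂ) *
          Jc (Real.sqrt (Y / nr q * nr k)) := by
      rw [← WinA_tsum_integral _ (fun a => by fun_prop) _
        ((summable_gw' (X := nr q / (Y / T ^ 2)) (by positivity)).mul_left (∑ x ∈ res q, ‖f x‖))
        (fun k θ => by
          have e : Y / T ^ 2 * nr k / nr q = nr k / (nr q / (Y / T ^ 2)) := by field_simp
          rw [norm_mul, norm_mul, norm_eC, mul_one, Complex.norm_real,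
            Real.norm_of_nonneg (gw_pos _).le, e]
          exact mul_le_mul_of_nonneg_right (WinA_norm_ft_le q f k) (gw_pos _).le)]
      refine tsum_congr fun k => ?_
      rw [intervalIntegral.integral_const_mul]
      congr 1
      have e : Real.sqrt (Y / nr q * nr k) = ‖-(ι k / ι q * (Real.sqrt Y : ℂ))‖ := by
        rw [norm_neg, norm_mul, norm_div, norm_ι, norm_ι, Complex.norm_real,
          Real.norm_of_nonneg (Real.sqrt_nonneg Y), Real.sqrt_mul (by positivity),
          Real.sqrt_div hY.le]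
        ring
      rw [e, ← integral_eC_rot]
      refine intervalIntegral.integral_congr fun θ _ => ?_
      congr 1
      ring
    rw [L]
    simp only [poisson_centre hq f hf hX]
    rw [intervalIntegral.integral_const_mul, R, ← mul_assoc, ← tsum_mul_left, ← tsum_mul_left]
    refine tsum_congr fun k => ?_
    have e : Y / nr q * nr k / T ^ 2 = Y / T ^ 2 * nr k / nr q := by ring
    have hT' : (T : ℂ) ≠ 0 := Complex.ofReal_ne_zero.2 hT0.ne'
    rw [kT, e]
    push_cast
    field_simp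

end Crest.Agent.R12
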