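import Crest.Agent.R12.Defs

/-!
# Row 12, analytic half: the thin annulus weight
-/

set_option autoImplicit false

noncomputable section

namespace Crest.Agent.R12

open Crest.Agent.R17
open scoped ComplexConjugate Topology
open Filter MeasureTheory

theorem WinA0_rot (F : ℂ → ℂ) (α : ℝ) :
    ∫ θ in (0 : ℝ)..2 * Real.pi, F (Complex.exp (α * Complex.I) * Complex.exp (θ * Complex.I)) =
      ∫ θ in (0 : ℝ)..2 * Real.pi, F (Complex.exp (θ * Complex.I)) := by
  have hp : Function.Periodic (fun θ : ℝ => F (Complex.exp (θ * Complex.I))) (2 * Real.pi) := by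
    intro θ
    simp only
    congr 1
    push_cast
    rw [add_mul, Complex.exp_add, Complex.exp_two_pi_mul_I, mul_one]
  have h1 := intervalIntegral.integral_comp_add_left (a := 0) (b := 2 * Real.pi)
    (fun θ : ℝ => F (Complex.exp (θ * Complex.I))) α
  have h2 := hp.intervalIntegral_add_eq α 0
  rw [add_zero] at h1
  rw [zero_add] at h2
  rw [← h2, ← h1]
  refine intervalIntegral.integral_congr fun θ _ => ?_
  rw [← Complex.exp_add]
  congr 2
  push_cast
  ring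

theorem WinA0_phT (T y : ℝ) : phT T y = ((T * ∫ θ in (0 : ℝ)..2 * Real.pi,
    gw (T ^ 2 * ‖(Real.sqrt y : ℂ) - Complex.exp (θ * Complex.I)‖ ^ 2) : ℝ) : ℂ) := by
  rw [phT, intervalIntegral.integral_ofReal, Complex.ofReal_mul]

/-- Rotation invariance (`Function.Periodic.intervalIntegral_add_eq`). -/
theorem integral_eC_rot (z : ℂ) :
    ∫ θ in (0 : ℝ)..2 * Real.pi, eC (z * Complex.exp (θ * Complex.I)) = Jc ‖z‖ := by
  rw [Jc, ← WinA0_rot (fun w => eC ((‖z‖ : ℂ) * w)) z.arg]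
  refine intervalIntegral.integral_congr fun θ _ => ?_
  rw [← mul_assoc, Complex.norm_mul_exp_arg_mul_I]
theorem phT_eq (T : ℝ) (z : ℂ) : phT T (‖z‖ ^ 2) = (T : ℂ) * ∫ θ in (0 : ℝ)..2 * Real.pi,
    (gw (T ^ 2 * ‖z - Complex.exp (θ * Complex.I)‖ ^ 2) : ℂ) := by
  rw [phT, Real.sqrt_sq (norm_nonneg z),
    ← WinA0_rot (fun w => (gw (T ^ 2 * ‖z - w‖ ^ 2) : ℂ)) z.arg]
  congr 1
  refine intervalIntegral.integral_congr fun θ _ => ?_
  have h : z - Complex.exp (z.arg * Complex.I) * Complex.exp (θ * Complex.I) =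
      Complex.exp (z.arg * Complex.I) * ((‖z‖ : ℂ) - Complex.exp (θ * Complex.I)) := by
    rw [mul_sub, mul_comm _ (‖z‖ : ℂ), Complex.norm_mul_exp_arg_mul_I]
  rw [h, norm_mul, Complex.norm_exp_ofReal_mul_I, one_mul]
theorem norm_Jc_le (r : ℝ) : ‖Jc r‖ ≤ 2 * Real.pi := by
  have h := intervalIntegral.norm_integral_le_of_norm_le_const (a := 0) (b := 2 * Real.pi) (C := 1)
    (f := fun θ : ℝ => eC ((r : ℂ) * Complex.exp (θ * Complex.I))) fun θ _ => (norm_eC _).le
  rwa [one_mul, sub_zero, abs_of_pos Real.two_pi_pos] at h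
theorem phT_real {T : ℝ} (hT : 0 ≤ T) (y : ℝ) : ∃ x : ℝ, 0 ≤ x ∧ phT T y = x :=
  ⟨_, mul_nonneg hT (intervalIntegral.integral_nonneg Real.two_pi_pos.le
    fun _ _ => (gw_pos _).le), WinA0_phT T y⟩
/-- On `θ ∈ [0, 1/T]` the argument of `gw` is at most `4`. -/
theorem phT_ge : ∃ c : ℝ, 0 < c ∧ ∀ T y : ℝ, 1 ≤ T → 1 ≤ y → y ≤ Real.exp (1 / T) →
    c ≤ (phT T y).re := by
  refine ⟨gw 9, gw_pos _, fun T y hT hy hy' => ?_⟩
  have hT0 : 0 < T := by linarith
  have hi : 0 < 1 / T := by positivity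
  have hi1 : 1 / T ≤ 1 := (div_le_one hT0).2 hT
  rw [WinA0_phT, Complex.ofReal_re]
  have hc : Continuous fun θ : ℝ =>
      gw (T ^ 2 * ‖(Real.sqrt y : ℂ) - Complex.exp (θ * Complex.I)‖ ^ 2) := by
    unfold gw
    fun_prop
  have h1 : Real.sqrt y - 1 ≤ 2 * (1 / T) := by
    have h2 : Real.sqrt y ≤ y := Real.sqrt_le_iff.2 ⟨by linarith, by nlinarith⟩
    have h3 := (abs_le.1 (Real.abs_exp_sub_one_le (x := 1 / T) (by rwa [abs_of_pos hi]))).2
    rw [abs_of_pos hi] at h3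
    linarith
  have h1' : 0 ≤ Real.sqrt y - 1 := sub_nonneg.2 (Real.one_le_sqrt.2 hy)
  have h4 : ∫ _ in (0 : ℝ)..1 / T, gw 9 ≤ ∫ θ in (0 : ℝ)..1 / T,
      gw (T ^ 2 * ‖(Real.sqrt y : ℂ) - Complex.exp (θ * Complex.I)‖ ^ 2) := by
    refine intervalIntegral.integral_mono_on hi.le intervalIntegrable_const
      (hc.intervalIntegrable _ _) fun θ hθ => gw_antitone ?_
    have h5 : ‖Complex.exp (θ * Complex.I) - 1‖ ≤ 1 / T := by
      rw [mul_comm]
      refine Real.norm_exp_I_mul_ofReal_sub_one_le.trans ?_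
      rw [Real.norm_of_nonneg hθ.1]
      exact hθ.2
    have h6 : ‖(Real.sqrt y : ℂ) - 1‖ ≤ 2 * (1 / T) := by
      rw [← Complex.ofReal_one, ← Complex.ofReal_sub, Complex.norm_real, Real.norm_of_nonneg h1']
      exact h1
    have h7 : ‖(Real.sqrt y : ℂ) - Complex.exp (θ * Complex.I)‖ ≤ 3 * (1 / T) := by
      rw [← sub_sub_sub_cancel_right _ _ (1 : ℂ)]
      linarith [norm_sub_le ((Real.sqrt y : ℂ) - 1) (Complex.exp (θ * Complex.I) - 1)]
    calc _ ≤ T ^ 2 * (3 * (1 / T)) ^ 2 :=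
          mul_le_mul_of_nonneg_left (pow_le_pow_left₀ (norm_nonneg _) h7 2) (sq_nonneg T)
      _ = 9 := by field_simp; norm_num
  have h8 := intervalIntegral.integral_mono_interval (μ := volume) (le_refl (0 : ℝ)) hi.le
    (by linarith [Real.pi_gt_three] : 1 / T ≤ 2 * Real.pi)
    (Eventually.of_forall fun _ => (gw_pos _).le) (hc.intervalIntegrable 0 (2 * Real.pi))
  rw [intervalIntegral.integral_const, sub_zero, smul_eq_mul] at h4
  calc gw 9 = T * (1 / T * gw 9) := by field_simp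
    _ ≤ _ := mul_le_mul_of_nonneg_left (h4.trans h8) hT0.le
theorem norm_kT_zero_le {T : ℝ} (hT : 1 ≤ T) : ‖kT T 0‖ ≤ 7 / T := by
  have hT0 : 0 < T := by linarith
  rw [kT, zero_div, gw_zero, mul_one, norm_mul, Complex.norm_real,
    Real.norm_of_nonneg (by positivity), div_eq_inv_mul]
  exact mul_le_mul_of_nonneg_left ((norm_Jc_le _).trans (by linarith [Real.pi_lt_d2]))
    (by positivity)

end Crest.Agent.R12
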