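import Crest.Agent.R12.WinB0

/-!
# Row 12, analytic half: decay of the circle integral
-/

set_option autoImplicit false

noncomputable section

namespace Crest.Agent.R12

open Crest.Agent.R17
open scoped ComplexConjugate Topology
open Filter MeasureTheory

/-- The majorant of the kernel and of its first two logarithmic derivatives. -/
def wT (T ρ : ℝ) : ℝ := T⁻¹ * min 1 (ρ ^ (-(1 / 4 : ℝ))) * gw (ρ / (20 * T ^ 2))

theorem wT_nonneg {T ρ : ℝ} (hT : 0 < T) (hρ : 0 ≤ ρ) : 0 ≤ wT T ρ :=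
  mul_nonneg (mul_nonneg (by positivity) (le_min zero_le_one (by positivity))) (gw_pos _).le

theorem WinB_one_le_c : 1 ≤ 2 * Real.pi / Real.sqrt 3 := by
  rw [one_le_div (by positivity)]
  have : Real.sqrt 3 ≤ 2 := Real.sqrt_le_iff.2 ⟨by norm_num, by norm_num⟩
  linarith [Real.pi_gt_three]

theorem WinB_min_le {ρ x : ℝ} (hρ : 0 < ρ) (h2 : x ≤ 2) :
    min 1 ((Real.sqrt ρ * Real.exp (-x / 2)) ^ (-(1 / 2 : ℝ))) ≤ 2 * min 1 (ρ ^ (-(1 / 4 : ℝ))) := by
  have h1 : (Real.sqrt ρ * Real.exp (-x / 2)) ^ (-(1 / 2 : ℝ)) ≤ 2 * ρ ^ (-(1 / 4 : ℝ)) := by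
    rw [Real.mul_rpow (by positivity) (by positivity), Real.sqrt_eq_rpow, ← Real.rpow_mul hρ.le,
      ← Real.exp_mul, mul_comm, show 1 / 2 * -(1 / 2 : ℝ) = -(1 / 4) by norm_num]
    gcongr
    refine (Real.exp_le_exp.2 (show _ ≤ 1 / 2 by linarith)).trans ?_
    refine (pow_le_pow_iff_left₀ (Real.exp_pos _).le zero_le_two two_ne_zero).1 ?_
    rw [← Real.exp_nat_mul]
    norm_num
    linarith [Real.exp_one_lt_d9]
  rw [mul_min_of_nonneg _ _ zero_le_two]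
  exact min_le_min (by norm_num) h1

theorem WinB_G_le {T ρ x : ℝ} (hT : 1 ≤ T) (hρ : 0 < ρ) (h0 : 0 ≤ x) (h2 : x ≤ 2) :
    Real.exp (-x / 2 - 2 * Real.pi / Real.sqrt 3 * (ρ * Real.exp (-x) / T ^ 2)) *
      (1 + 2 * Real.pi / Real.sqrt 3 * (ρ * Real.exp (-x) / T ^ 2)) ^ 2 ≤
      16 * gw (ρ / (20 * T ^ 2)) := by
  have hc := WinB_one_le_c
  have h10 : 1 / 10 ≤ Real.exp (-x) := by
    refine le_trans ?_ (Real.exp_le_exp.2 (show -2 ≤ -x by linarith))
    rw [Real.exp_neg, one_div, show (2 : ℝ) = 1 + 1 by norm_num, Real.exp_add]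
    gcongr
    nlinarith [Real.exp_one_lt_d9, Real.exp_pos 1]
  have h3 : ρ / (20 * T ^ 2) ≤ ρ * Real.exp (-x) / T ^ 2 / 2 := by
    calc _ = ρ * (1 / 10) / T ^ 2 / 2 := by field_simp; norm_num
      _ ≤ _ := by gcongr
  unfold gw
  generalize 2 * Real.pi / Real.sqrt 3 = c at *
  have hu : 0 ≤ ρ * Real.exp (-x) / T ^ 2 := by positivity
  generalize ρ * Real.exp (-x) / T ^ 2 = u at *
  have hv : 0 ≤ c * u := by positivity
  have h4 : (1 + c * u) ^ 2 ≤ 16 * Real.exp (c * u / 2) := by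
    have h5 := Real.add_one_le_exp (c * u / 4)
    calc (1 + c * u) ^ 2 ≤ (4 * Real.exp (c * u / 4)) ^ 2 := by gcongr; linarith
      _ = _ := by rw [mul_pow, ← Real.exp_nat_mul]; norm_num; ring_nf
  calc _ ≤ Real.exp (-x / 2 - c * u) * (16 * Real.exp (c * u / 2)) := by gcongr
    _ = 16 * Real.exp (-x / 2 - c * (u / 2)) := by
        rw [mul_left_comm, ← Real.exp_add]; congr 2; ring
    _ ≤ _ := by
        gcongr
        nlinarith [mul_le_mul_of_nonneg_left h3 (zero_le_one.trans hc)]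

theorem kT_deriv : ∃ C : ℝ, 0 < C ∧ ∀ T ρ : ℝ, 1 ≤ T → 0 < ρ → ∃ h' h'' : ℝ → ℂ,
    (∀ x, HasDerivAt (fun x : ℝ => (Real.exp (-x / 2) : ℂ) * kT T (ρ * Real.exp (-x))) (h' x) x) ∧
    (∀ x, HasDerivAt h' (h'' x) x) ∧ Continuous h'' ∧ ∀ x : ℝ, 0 ≤ x → x ≤ 2 →
      ‖(Real.exp (-x / 2) : ℂ) * kT T (ρ * Real.exp (-x))‖ ≤ C * wT T ρ ∧
      ‖h' x‖ ≤ C * T * wT T ρ ∧ ‖h'' x‖ ≤ C * T ^ 2 * wT T ρ := by
  obtain ⟨C, hC, hJ⟩ := norm_Jm_le
  obtain ⟨κ, hκ⟩ : ∃ κ : ℂ, κ = Complex.I * (2 * LBB.cc : ℝ) := ⟨_, rfl⟩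
  obtain ⟨c, hc⟩ : ∃ c : ℝ, c = 2 * Real.pi / Real.sqrt 3 := ⟨_, rfl⟩
  have hc1 : 1 ≤ c := hc ▸ WinB_one_le_c
  have hk := norm_nonneg κ
  refine ⟨32 * C * (2 + 2 * ‖κ‖ + ‖κ‖ ^ 2), by positivity, fun T ρ hT hρ => ?_⟩
  have hT0 : 0 < T := by linarith
  obtain ⟨U, hU⟩ : ∃ U : ℝ → ℝ, U = fun x => c * (ρ * Real.exp (-x) / T ^ 2) := ⟨_, rfl⟩
  obtain ⟨r, hr⟩ : ∃ r : ℝ → ℝ, r = fun x => Real.sqrt ρ * Real.exp (-x / 2) := ⟨_, rfl⟩
  obtain ⟨G, hG⟩ : ∃ G : ℝ → ℝ, G = fun x => T⁻¹ * Real.exp (-x / 2 - U x) := ⟨_, rfl⟩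
  have dU : ∀ x, HasDerivAt U (-U x) x := fun x => by
    rw [hU]
    refine ((((hasDerivAt_neg x).exp.const_mul ρ).div_const (T ^ 2)).const_mul c).congr_deriv ?_
    ring
  have dr : ∀ x, HasDerivAt r (-r x / 2) x := fun x => by
    rw [hr]
    refine (((hasDerivAt_neg x).div_const 2).exp.const_mul (Real.sqrt ρ)).congr_deriv ?_
    ring
  have dG : ∀ x, HasDerivAt G ((U x - 1 / 2) * G x) x := fun x => by
    rw [hG]
    refine ((((hasDerivAt_neg x).div_const 2).fun_sub (dU x)).exp.const_mul T⁻¹).congr_deriv ?_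
    ring
  have dJ : ∀ j x, HasDerivAt (fun x => Jm j (r x)) (-(r x : ℂ) / 2 * κ * Jm (j + 1) (r x)) x :=
    fun j x => by
      refine ((hasDerivAt_Jm j (r x)).scomp x (dr x)).congr_deriv ?_
      rw [hκ, Complex.real_smul]
      push_cast
      ring
  have e : ∀ x : ℝ, (Real.exp (-x / 2) : ℂ) * kT T (ρ * Real.exp (-x)) = G x * Jm 0 (r x) :=
    fun x => by
      have h1 : Real.sqrt (ρ * Real.exp (-x)) = r x := by
        rw [hr, Real.sqrt_mul hρ.le, ← Real.exp_half]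
      rw [kT, Jc_eq, h1, ← mul_assoc, ← Complex.ofReal_mul, hG, hU, gw, ← hc]
      congr 2
      rw [mul_left_comm, ← Real.exp_add]
      congr 2
      ring
  simp only [e]
  refine ⟨fun x => G x * (((U x : ℂ) - 1 / 2) * Jm 0 (r x) - κ * r x / 2 * Jm 1 (r x)),
    fun x => G x * ((((U x : ℂ) - 1 / 2) ^ 2 - U x) * Jm 0 (r x) +
      (κ * r x / 4 - κ * ((U x : ℂ) - 1 / 2) * r x) * Jm 1 (r x) + κ ^ 2 * r x ^ 2 / 4 * Jm 2 (r x)),
    fun x => ?_, fun x => ?_, ?_, fun x h0 h2 => ?_⟩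
  · refine ((dG x).ofReal_comp.fun_mul (dJ 0 x)).congr_deriv ?_
    push_cast
    ring
  · refine ((dG x).ofReal_comp.fun_mul ((((dU x).ofReal_comp.sub_const (1 / 2)).fun_mul (dJ 0 x)).fun_sub
      ((((dr x).ofReal_comp.const_mul κ).div_const 2).fun_mul (dJ 1 x)))).congr_deriv ?_
    push_cast
    ring
  · have c1 : Continuous fun x => (G x : ℂ) :=
      continuous_iff_continuousAt.2 fun x => (dG x).ofReal_comp.continuousAt
    have c2 : Continuous fun x => (U x : ℂ) :=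
      continuous_iff_continuousAt.2 fun x => (dU x).ofReal_comp.continuousAt
    have c3 : Continuous fun x => (r x : ℂ) :=
      continuous_iff_continuousAt.2 fun x => (dr x).ofReal_comp.continuousAt
    have c4 : ∀ j, Continuous fun x => Jm j (r x) := fun j =>
      continuous_iff_continuousAt.2 fun x => (dJ j x).continuousAt
    exact c1.mul ((((((c2.sub continuous_const).pow 2).sub c2).mul (c4 0)).add
      ((((continuous_const.mul c3).div_const 4).sub ((continuous_const.mul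
        (c2.sub continuous_const)).mul c3)).mul (c4 1))).add
      (((continuous_const.mul (c3.pow 2)).div_const 4).mul (c4 2)))
  · have hw := wT_nonneg hT0 hρ.le
    have hU0 : 0 ≤ U x := by rw [hU]; positivity
    have hr0 : 0 < r x := by rw [hr]; positivity
    have hG0 : 0 < G x := by rw [hG]; positivity
    obtain ⟨m, hm⟩ : ∃ m, m = C * (2 * min 1 (ρ ^ (-(1 / 4 : ℝ)))) := ⟨_, rfl⟩
    have hJm : ∀ j, j ≤ 2 → ‖Jm j (r x)‖ ≤ m := fun j hj => (hJ j _ hj hr0).trans (by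
      rw [hm, hr]; gcongr; exact WinB_min_le hρ h2)
    have hm0 : 0 ≤ m := (norm_nonneg _).trans (hJm 0 (by norm_num))
    obtain ⟨P, hP⟩ : ∃ P, P = 1 + U x := ⟨_, rfl⟩
    have hP1 : 1 ≤ P := by linarith
    have core : G x * (P ^ 2 * m) ≤ 32 * C * wT T ρ := by
      have h1 := WinB_G_le hT hρ h0 h2
      rw [← hc] at h1
      have h3 : 0 ≤ min 1 (ρ ^ (-(1 / 4 : ℝ))) := le_min zero_le_one (by positivity)
      calc _ = 2 * C * T⁻¹ * min 1 (ρ ^ (-(1 / 4 : ℝ))) * (Real.exp (-x / 2 - U x) * P ^ 2) := by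
            rw [hG, hm]; ring
        _ ≤ 2 * C * T⁻¹ * min 1 (ρ ^ (-(1 / 4 : ℝ))) * (16 * gw (ρ / (20 * T ^ 2))) := by
            refine mul_le_mul_of_nonneg_left ?_ (by positivity)
            rw [hP, hU]
            exact h1
        _ = _ := by rw [wT]; ring
    have ha : ‖(U x : ℂ) - 1 / 2‖ ≤ P := (norm_sub_le _ _).trans (by
      rw [Complex.norm_real, Real.norm_of_nonneg hU0]; norm_num; linarith)
    have hUP : ‖(U x : ℂ)‖ ≤ P ^ 2 := by
      rw [Complex.norm_real, Real.norm_of_nonneg hU0]; nlinarith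
    have hrP : ‖(r x : ℂ)‖ ≤ T * P := by
      rw [Complex.norm_real, Real.norm_of_nonneg hr0.le]
      refine (pow_le_pow_iff_left₀ hr0.le (by positivity) two_ne_zero).1 ?_
      have h1 : c * r x ^ 2 = T ^ 2 * U x := by
        simp only [hr, hU]
        rw [mul_pow, Real.sq_sqrt hρ.le, ← Real.exp_nat_mul]
        field_simp
        congr 1
        push_cast
        ring
      have h3 : r x ^ 2 ≤ c * r x ^ 2 := le_mul_of_one_le_left (by positivity) hc1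
      rw [mul_pow]
      refine h3.trans (h1.trans_le ?_)
      gcongr
      nlinarith
    have fin : ∀ (z : ℂ) (t : ℝ), 0 ≤ t → ‖z‖ ≤ (2 + 2 * ‖κ‖ + ‖κ‖ ^ 2) * t * (P ^ 2 * m) →
        ‖(G x : ℂ) * z‖ ≤ 32 * C * (2 + 2 * ‖κ‖ + ‖κ‖ ^ 2) * t * wT T ρ := fun z t ht hz => by
      rw [norm_mul, Complex.norm_real, Real.norm_of_nonneg hG0.le]
      calc _ ≤ G x * ((2 + 2 * ‖κ‖ + ‖κ‖ ^ 2) * t * (P ^ 2 * m)) := by gcongr
        _ = (2 + 2 * ‖κ‖ + ‖κ‖ ^ 2) * t * (G x * (P ^ 2 * m)) := by ring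
        _ ≤ (2 + 2 * ‖κ‖ + ‖κ‖ ^ 2) * t * (32 * C * wT T ρ) := by gcongr
        _ = _ := by ring
    have hPP : P ≤ P ^ 2 := by nlinarith
    have hTT : T ≤ T ^ 2 := by nlinarith
    have j0 := hJm 0 (by norm_num)
    have j1 := hJm 1 (by norm_num)
    have j2 := hJm 2 le_rfl
    refine ⟨by
      simpa using fin _ 1 zero_le_one (j0.trans (by
        rw [← mul_assoc]
        exact le_mul_of_one_le_left hm0 (by nlinarith [sq_nonneg ‖κ‖]))),
      fin _ T hT0.le ?_, fin _ (T ^ 2) (by positivity) ?_⟩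
    · calc _ ≤ T * P ^ 2 * m + ‖κ‖ * (T * P ^ 2) / 1 * m := by
            refine (norm_sub_le _ _).trans ?_
            simp only [norm_mul, norm_div, Complex.norm_ofNat]
            gcongr
            · nlinarith
            · exact hrP.trans (by gcongr)
            · norm_num
        _ = (1 + ‖κ‖) * T * (P ^ 2 * m) := by ring
        _ ≤ _ := by gcongr ?_ * _ * _; nlinarith [sq_nonneg ‖κ‖]
    · calc _ ≤ (P ^ 2 + P ^ 2) * m + (‖κ‖ * (T * P) / 1 + ‖κ‖ * P * (T * P)) * m +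
            ‖κ‖ ^ 2 * (T * P) ^ 2 / 1 * m := by
            refine norm_add₃_le.trans ?_
            simp only [norm_mul, norm_div, norm_pow, Complex.norm_ofNat]
            gcongr
            · exact (norm_sub_le _ _).trans (by rw [norm_pow]; gcongr)
            · refine (norm_sub_le _ _).trans ?_
              simp only [norm_mul, norm_div, Complex.norm_ofNat]
              gcongr
              norm_num
            · norm_num
        _ = 2 * 1 * (P ^ 2 * m) + ‖κ‖ * T * (P * m) + ‖κ‖ * T * (P ^ 2 * m) +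
            ‖κ‖ ^ 2 * T ^ 2 * (P ^ 2 * m) := by ring
        _ ≤ 2 * T ^ 2 * (P ^ 2 * m) + ‖κ‖ * T ^ 2 * (P ^ 2 * m) + ‖κ‖ * T ^ 2 * (P ^ 2 * m) +
            ‖κ‖ ^ 2 * T ^ 2 * (P ^ 2 * m) := by gcongr; linarith
        _ = _ := by ring

end Crest.Agent.R12
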