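import Crest.Agent.R12.WinA

/-!
# Row 12, analytic half: decay of the circle integral
-/

set_option autoImplicit false

noncomputable section

namespace Crest.Agent.R12

open Crest.Agent.R17
open scoped ComplexConjugate Topology
open Filter MeasureTheory

/-- `∫ sin^j θ · exp (i (4π/√3) r sin θ) dθ`. -/
def Jm (j : ℕ) (r : ℝ) : ℂ := ∫ θ in (0 : ℝ)..2 * Real.pi,
  (Real.sin θ : ℂ) ^ j * Complex.exp (Complex.I * (2 * LBB.cc * r * Real.sin θ : ℝ))

theorem WinB0_norm_exp (x : ℝ) : ‖Complex.exp (Complex.I * (x : ℂ))‖ = 1 := by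
  rw [mul_comm, Complex.norm_exp_ofReal_mul_I]

theorem WinB0_deriv_exp {f : ℝ → ℝ} {f' x : ℝ} (h : HasDerivAt f f' x) :
    HasDerivAt (fun y => Complex.exp (Complex.I * (f y : ℂ)))
      (Complex.exp (Complex.I * (f x : ℂ)) * (Complex.I * (f' : ℂ))) x :=
  (h.ofReal_comp.const_mul Complex.I).cexp

theorem WinB0_norm_le (j : ℕ) (θ x : ℝ) :
    ‖(Real.sin θ : ℂ) ^ j * Complex.exp (Complex.I * (x : ℂ))‖ ≤ 1 := by
  rw [norm_mul, WinB0_norm_exp, mul_one, norm_pow, Complex.norm_real, Real.norm_eq_abs]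
  exact pow_le_one₀ (abs_nonneg _) (Real.abs_sin_le_one θ)

/-- `∫ dθ / (cos² θ + δ²) ≤ C / δ`: the function `G = -sin θ · arctan (cos θ / δ) / δ` is periodic
and `G' + 1 + π / (2δ) ≥ 1 / (cos² θ + δ²)`. -/
theorem WinB0_int {δ : ℝ} (hδ : 0 < δ) :
    ∫ θ in (0 : ℝ)..2 * Real.pi, 1 / (Real.cos θ ^ 2 + δ ^ 2) ≤
      2 * Real.pi * (1 + Real.pi / (2 * δ)) := by
  have hq : ∀ θ, 0 < Real.cos θ ^ 2 + δ ^ 2 := fun θ => by positivity
  have hd : ∀ θ, HasDerivAt
      (fun θ => (1 + Real.pi / (2 * δ)) * θ - Real.sin θ * Real.arctan (Real.cos θ / δ) / δ)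
      (1 + Real.pi / (2 * δ) - Real.cos θ * Real.arctan (Real.cos θ / δ) / δ +
        Real.sin θ ^ 2 / (Real.cos θ ^ 2 + δ ^ 2)) θ := fun θ => by
    have h1 := ((hasDerivAt_id θ).const_mul (1 + Real.pi / (2 * δ))).sub
      (((Real.hasDerivAt_sin θ).mul ((Real.hasDerivAt_cos θ).div_const δ).arctan).div_const δ)
    refine HasDerivAt.congr_deriv h1 ?_
    have := hq θ
    field_simp
    ring
  have hc : Continuous fun θ => 1 + Real.pi / (2 * δ) -
      Real.cos θ * Real.arctan (Real.cos θ / δ) / δ + Real.sin θ ^ 2 / (Real.cos θ ^ 2 + δ ^ 2) :=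
    (continuous_const.sub (by fun_prop)).add
      (Continuous.div (by fun_prop) (by fun_prop) fun θ => (hq θ).ne')
  have hc' : Continuous fun θ => 1 / (Real.cos θ ^ 2 + δ ^ 2) :=
    Continuous.div (by fun_prop) (by fun_prop) fun θ => (hq θ).ne'
  have h1 := intervalIntegral.integral_eq_sub_of_hasDerivAt (a := 0) (b := 2 * Real.pi)
    (fun θ _ => hd θ) (hc.intervalIntegrable _ _)
  rw [Real.sin_two_pi, Real.sin_zero] at h1
  refine (intervalIntegral.integral_mono_on (by positivity) (hc'.intervalIntegrable _ _)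
    (hc.intervalIntegrable _ _) fun θ _ => ?_).trans (h1.trans (by ring)).le
  have h2 : Real.cos θ * Real.arctan (Real.cos θ / δ) ≤ Real.pi / 2 := by
    refine (le_abs_self _).trans ?_
    rw [abs_mul]
    refine (mul_le_of_le_one_left (abs_nonneg _) (Real.abs_cos_le_one θ)).trans (abs_le.2 ⟨?_, ?_⟩)
    · exact (Real.neg_pi_div_two_lt_arctan _).le
    · exact (Real.arctan_lt_pi_div_two _).le
  have h3 : Real.cos θ * Real.arctan (Real.cos θ / δ) / δ ≤ Real.pi / (2 * δ) := by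
    rw [← div_div]
    exact div_le_div_of_nonneg_right h2 hδ.le
  have h4 : Real.cos θ ^ 2 / (Real.cos θ ^ 2 + δ ^ 2) ≤ 1 := by
    rw [div_le_one (hq θ)]
    nlinarith
  have h5 : 1 / (Real.cos θ ^ 2 + δ ^ 2) = Real.cos θ ^ 2 / (Real.cos θ ^ 2 + δ ^ 2) +
      Real.sin θ ^ 2 / (Real.cos θ ^ 2 + δ ^ 2) := by
    rw [← add_div, Real.cos_sq_add_sin_sq]
  linarith

theorem WinB0_u_le {j : ℕ} (hj : j ≤ 2) {s c δ : ℝ} (hδ : 0 < δ) (hs : |s| ≤ 1) (hc : |c| ≤ 1) :
    |(j * s ^ (j - 1) * c ^ 2 - s ^ j * s * ((δ ^ 2 - c ^ 2) / (c ^ 2 + δ ^ 2))) / (c ^ 2 + δ ^ 2)| ≤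
      3 / (c ^ 2 + δ ^ 2) := by
  have hq : 0 < c ^ 2 + δ ^ 2 := by positivity
  rw [abs_div, abs_of_pos hq]
  refine div_le_div_of_nonneg_right ((abs_sub _ _).trans ?_) hq.le
  have h1 : |(j : ℝ) * s ^ (j - 1) * c ^ 2| ≤ 2 := by
    rw [abs_mul, abs_mul, abs_pow, abs_pow, Nat.abs_cast]
    have h2 : (j : ℝ) ≤ 2 := by exact_mod_cast hj
    calc (j : ℝ) * |s| ^ (j - 1) * |c| ^ 2 ≤ 2 * 1 * 1 := by
          gcongr
          · exact pow_le_one₀ (abs_nonneg _) hs
          · exact pow_le_one₀ (abs_nonneg _) hc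
      _ = 2 := by norm_num
  have h2 : |s ^ j * s * ((δ ^ 2 - c ^ 2) / (c ^ 2 + δ ^ 2))| ≤ 1 := by
    rw [abs_mul, abs_mul, abs_pow]
    refine mul_le_one₀ (mul_le_one₀ (pow_le_one₀ (abs_nonneg _) hs) (abs_nonneg _) hs)
      (abs_nonneg _) ?_
    rw [abs_div, abs_of_pos hq, div_le_one hq, abs_le]
    constructor <;> nlinarith [sq_nonneg c, sq_nonneg δ]
  linarith

/-- regularised integration by parts with `u = sin^j θ cos θ / (cos² θ + δ²)` -/
theorem WinB0_osc {j : ℕ} (hj : j ≤ 2) {l δ : ℝ} (hl : 0 < l) (hδ : 0 < δ) :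
    ‖∫ θ in (0 : ℝ)..2 * Real.pi,
      (Real.sin θ : ℂ) ^ j * Complex.exp (Complex.I * (l * Real.sin θ : ℝ))‖ ≤
      (δ ^ 2 + 3 / l) * (2 * Real.pi * (1 + Real.pi / (2 * δ))) := by
  have hq : ∀ θ, 0 < Real.cos θ ^ 2 + δ ^ 2 := fun θ => by positivity
  set u : ℝ → ℝ := fun θ => Real.sin θ ^ j * Real.cos θ / (Real.cos θ ^ 2 + δ ^ 2) with hu
  set u' : ℝ → ℝ := fun θ => (j * Real.sin θ ^ (j - 1) * Real.cos θ ^ 2 - Real.sin θ ^ j * Real.sin θ *
    ((δ ^ 2 - Real.cos θ ^ 2) / (Real.cos θ ^ 2 + δ ^ 2))) / (Real.cos θ ^ 2 + δ ^ 2) with hu'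
  set e : ℝ → ℂ := fun θ => Complex.exp (Complex.I * (l * Real.sin θ : ℝ)) with he
  have hud : ∀ θ, HasDerivAt u (u' θ) θ := fun θ => by
    have h1 := (((Real.hasDerivAt_sin θ).pow j).mul (Real.hasDerivAt_cos θ)).div
      (((Real.hasDerivAt_cos θ).pow 2).add_const (δ ^ 2)) (hq θ).ne'
    refine HasDerivAt.congr_deriv h1 ?_
    have := hq θ
    simp only [hu', Pi.mul_apply, Pi.pow_apply, show (2 : ℕ) - 1 = 1 from rfl, pow_one,
      Nat.cast_ofNat]
    field_simp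
    ring
  have hed : ∀ θ, HasDerivAt e (e θ * (Complex.I * (l * Real.cos θ : ℝ))) θ := fun θ =>
    WinB0_deriv_exp ((Real.hasDerivAt_sin θ).const_mul l)
  have hcq : Continuous fun θ => Real.cos θ ^ 2 + δ ^ 2 := by fun_prop
  have huc : Continuous u := Continuous.div (by fun_prop) hcq fun θ => (hq θ).ne'
  have hu'c : Continuous u' :=
    Continuous.div (Continuous.sub (by fun_prop) (Continuous.mul (by fun_prop)
      (Continuous.div (by fun_prop) hcq fun θ => (hq θ).ne'))) hcq fun θ => (hq θ).ne'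
  have hec : Continuous e := by
    simp only [he]
    fun_prop
  have hH : ∀ θ, HasDerivAt (fun θ => (u θ : ℂ) * e θ / (Complex.I * l))
      (((u' θ : ℂ) * e θ + (u θ : ℂ) * (e θ * (Complex.I * (l * Real.cos θ : ℝ)))) /
        (Complex.I * l)) θ := fun θ => ((hud θ).ofReal_comp.mul (hed θ)).div_const _
  have hHc : Continuous fun θ => ((u' θ : ℂ) * e θ +
      (u θ : ℂ) * (e θ * (Complex.I * (l * Real.cos θ : ℝ)))) / (Complex.I * l) := by
    fun_prop
  have h1 := intervalIntegral.integral_eq_sub_of_hasDerivAt (a := 0) (b := 2 * Real.pi)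
    (fun θ _ => hH θ) (hHc.intervalIntegrable _ _)
  have h2 : u (2 * Real.pi) = u 0 := by
    simp only [hu, Real.sin_two_pi, Real.cos_two_pi, Real.sin_zero, Real.cos_zero]
  have h3 : e (2 * Real.pi) = e 0 := by
    simp only [he, Real.sin_two_pi, Real.sin_zero]
  rw [h2, h3, sub_self] at h1
  have hfc : Continuous fun θ => (Real.sin θ : ℂ) ^ j * e θ := by fun_prop
  have hc' : Continuous fun θ => 1 / (Real.cos θ ^ 2 + δ ^ 2) :=
    Continuous.div (by fun_prop) hcq fun θ => (hq θ).ne'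
  change ‖∫ θ in (0 : ℝ)..2 * Real.pi, (Real.sin θ : ℂ) ^ j * e θ‖ ≤ _
  rw [← sub_zero (∫ θ in (0 : ℝ)..2 * Real.pi, (Real.sin θ : ℂ) ^ j * e θ), ← h1,
    ← intervalIntegral.integral_sub (hfc.intervalIntegrable _ _) (hHc.intervalIntegrable _ _)]
  refine (intervalIntegral.norm_integral_le_of_norm_le
    (g := fun θ => (δ ^ 2 + 3 / l) * (1 / (Real.cos θ ^ 2 + δ ^ 2))) (by positivity)
    (Eventually.of_forall fun θ _ => ?_) ((hc'.const_mul _).intervalIntegrable _ _)).trans ?_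
  · have hl' : (l : ℂ) ≠ 0 := Complex.ofReal_ne_zero.2 hl.ne'
    have e1 : Real.sin θ ^ j - u θ * Real.cos θ =
        Real.sin θ ^ j * (δ ^ 2 / (Real.cos θ ^ 2 + δ ^ 2)) := by
      have := hq θ
      simp only [hu]
      field_simp
      ring
    have e2 : (Real.sin θ : ℂ) ^ j * e θ - ((u' θ : ℂ) * e θ +
        (u θ : ℂ) * (e θ * (Complex.I * (l * Real.cos θ : ℝ)))) / (Complex.I * l) =
        (((Real.sin θ ^ j - u θ * Real.cos θ : ℝ) : ℂ) - (u' θ : ℂ) / (Complex.I * l)) * e θ := by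
      rw [Complex.ofReal_sub, Complex.ofReal_mul, Complex.ofReal_mul, Complex.ofReal_pow]
      field_simp
      ring
    have e3 : ‖e θ‖ = 1 := WinB0_norm_exp _
    rw [e2, norm_mul, e3, mul_one, e1]
    refine (norm_sub_le _ _).trans ?_
    rw [norm_div, norm_mul, Complex.norm_I, one_mul, Complex.norm_real, Complex.norm_real,
      Complex.norm_real, Real.norm_eq_abs, Real.norm_eq_abs, Real.norm_of_nonneg hl.le, abs_mul,
      abs_of_pos (div_pos (pow_pos hδ 2) (hq θ)), add_mul]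
    refine add_le_add ?_ ?_
    · rw [mul_one_div]
      refine mul_le_of_le_one_left (div_pos (pow_pos hδ 2) (hq θ)).le ?_
      rw [abs_pow]
      exact pow_le_one₀ (abs_nonneg _) (Real.abs_sin_le_one θ)
    · have h4 : |u' θ| ≤ 3 / (Real.cos θ ^ 2 + δ ^ 2) :=
        WinB0_u_le hj hδ (Real.abs_sin_le_one θ) (Real.abs_cos_le_one θ)
      refine (div_le_div_of_nonneg_right h4 hl.le).trans (le_of_eq ?_)
      ring
  · rw [intervalIntegral.integral_const_mul]
    exact mul_le_mul_of_nonneg_left (WinB0_int hδ) (by positivity)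

theorem Jc_eq (r : ℝ) : Jc r = Jm 0 r := by
  unfold Jc Jm LBB.cc
  refine intervalIntegral.integral_congr fun θ _ => ?_
  rw [eC_eq, Complex.im_ofReal_mul, Complex.exp_ofReal_mul_I_im, pow_zero, one_mul,
    mul_comm Complex.I]
  congr 3
  ring

theorem hasDerivAt_Jm (j : ℕ) (r : ℝ) :
    HasDerivAt (Jm j) (Complex.I * (2 * LBB.cc : ℝ) * Jm (j + 1) r) r := by
  unfold Jm
  generalize LBB.cc = c
  have hc : ∀ (k : ℕ) (x : ℝ), Continuous fun θ : ℝ =>
      (Real.sin θ : ℂ) ^ k * Complex.exp (Complex.I * (2 * c * x * Real.sin θ : ℝ)) :=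
    fun k x => by fun_prop
  rw [← intervalIntegral.integral_const_mul]
  refine (intervalIntegral.hasDerivAt_integral_of_dominated_loc_of_deriv_le
    (F' := fun x θ => Complex.I * (2 * c : ℝ) *
      ((Real.sin θ : ℂ) ^ (j + 1) * Complex.exp (Complex.I * (2 * c * x * Real.sin θ : ℝ))))
    (bound := fun _ => ‖Complex.I * (2 * c : ℝ)‖) (s := Set.univ) univ_mem
    (Eventually.of_forall fun x => (hc j x).aestronglyMeasurable)
    ((hc j r).intervalIntegrable _ _) ((hc (j + 1) r).const_mul _).aestronglyMeasurable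
    (Eventually.of_forall fun θ _ x _ => ?_) intervalIntegrable_const
    (Eventually.of_forall fun θ _ x _ => ?_)).2
  · rw [norm_mul]
    exact mul_le_of_le_one_right (norm_nonneg _) (WinB0_norm_le _ _ _)
  · have h1 := (WinB0_deriv_exp ((((hasDerivAt_id x).const_mul (2 * c)).mul_const
      (Real.sin θ)))).const_mul ((Real.sin θ : ℂ) ^ j)
    refine HasDerivAt.congr_deriv h1 ?_
    simp only [id]
    rw [mul_one, Complex.ofReal_mul (2 * c) (Real.sin θ)]
    ring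

/-- Cut out the neighbourhoods of radius `r^{-1/2}` of the zeros of `cos θ` and integrate by parts
on the remaining intervals (`∫ |d (sin^j θ / cos θ)| ≤ C / δ`). -/
theorem norm_Jm_le : ∃ C : ℝ, 0 < C ∧ ∀ (j : ℕ) (r : ℝ), j ≤ 2 → 0 < r →
    ‖Jm j r‖ ≤ C * min 1 (r ^ (-(1 / 2 : ℝ))) := by
  have hc := LBB.cc_pos
  have hpi := Real.pi_pos
  unfold Jm
  generalize LBB.cc = c at hc
  refine ⟨(1 + 3 / (2 * c)) * (2 * Real.pi * (1 + Real.pi / 2)), by positivity,
    fun j r hj hr => ?_⟩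
  rcases le_total r 1 with h1 | h1
  · rw [min_eq_left (Real.one_le_rpow_of_pos_of_le_one_of_nonpos hr h1 (by norm_num)), mul_one]
    refine (intervalIntegral.norm_integral_le_of_norm_le_const
      fun θ _ => WinB0_norm_le j θ _).trans ?_
    rw [sub_zero, abs_of_pos (by positivity), one_mul]
    refine le_trans ?_ (le_mul_of_one_le_left (by positivity) (le_add_of_nonneg_right (by positivity)))
    exact le_mul_of_one_le_right (by positivity) (le_add_of_nonneg_right (by positivity))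
  · have h2 : r ^ (-(1 / 2 : ℝ)) ≤ 1 := Real.rpow_le_one_of_one_le_of_nonpos h1 (by norm_num)
    have h3 : 0 < r ^ (-(1 / 2 : ℝ)) := Real.rpow_pos_of_pos hr _
    have h4 : (r ^ (-(1 / 2 : ℝ))) ^ 2 = r⁻¹ := by
      rw [← Real.rpow_natCast, ← Real.rpow_mul hr.le, ← Real.rpow_neg_one]
      norm_num
    rw [min_eq_right h2]
    refine (WinB0_osc hj (l := 2 * c * r) (by positivity) h3).trans ?_
    generalize r ^ (-(1 / 2 : ℝ)) = δ at h2 h3 h4
    have h5 : δ ^ 2 + 3 / (2 * c * r) = (1 + 3 / (2 * c)) * δ ^ 2 := by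
      rw [h4]
      field_simp
    have h6 : δ ^ 2 * (1 + Real.pi / (2 * δ)) ≤ (1 + Real.pi / 2) * δ := by
      have : δ ^ 2 * (1 + Real.pi / (2 * δ)) = δ * δ + Real.pi / 2 * δ := by
        field_simp
      rw [this]
      nlinarith
    rw [h5]
    calc (1 + 3 / (2 * c)) * δ ^ 2 * (2 * Real.pi * (1 + Real.pi / (2 * δ)))
        = (1 + 3 / (2 * c)) * (2 * Real.pi) * (δ ^ 2 * (1 + Real.pi / (2 * δ))) := by ring
      _ ≤ (1 + 3 / (2 * c)) * (2 * Real.pi) * ((1 + Real.pi / 2) * δ) :=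
          mul_le_mul_of_nonneg_left h6 (by positivity)
      _ = _ := by ring

end Crest.Agent.R12
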