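import Crest.Agent.R12.WinC0

/-!
# Row 12, analytic half: separation of variables on a window
-/

set_option autoImplicit false

noncomputable section

namespace Crest.Agent.R12

open Crest.Agent.R17
open scoped ComplexConjugate Topology
open Filter MeasureTheory

theorem WinC_sqrt {B x y : ℝ} (hB : 0 < B) (G : ℝ) :
    G / Real.sqrt (B * Real.exp x * (B * Real.exp y)) = G / B * Real.exp (-(x + y) / 2) := by
  have e : B * Real.exp x * (B * Real.exp y) = (B * Real.exp ((x + y) / 2)) ^ 2 := by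
    rw [mul_pow, ← Real.exp_nat_mul, show ((2 : ℕ) : ℝ) * ((x + y) / 2) = x + y by push_cast; ring,
      Real.exp_add]
    ring
  rw [e, Real.sqrt_sq (by positivity), neg_div, Real.exp_neg]
  field_simp

theorem WinC_arg {A B G E N : ℝ} (hA : 0 < A) (hB : 0 < B) (hG : 0 < G) (hE : 0 < E) (x y : ℝ) :
    A * G ^ 2 / (9 * E * (B * Real.exp x * (B * Real.exp y))) * N =
      N / (9 * E * B ^ 2 / (A * G ^ 2)) * Real.exp (-(x + y)) := by
  rw [Real.exp_neg, Real.exp_add]
  field_simp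

/-- `sep_lemma` with `x b = log (N b / B)`, `δ = 1/T`, `kT_deriv`. -/
theorem QQ_window : ∃ C : ℝ, 0 < C ∧ ∀ (T A B M : ℝ) (S K : Finset O) (γ : O → ℂ) (g e k₀ : O),
    1 ≤ T → 0 < A → 0 < B → g ≠ 0 → e ≠ 0 → (∀ k ∈ K, k ≠ 0) →
    (∀ b ∈ S, B < nr b ∧ nr b ≤ B * Real.exp (1 / T)) →
    (∀ S' ⊆ S, ∑ k ∈ K, wT T (nr k / (9 * nr e * B ^ 2 / (A * nr g ^ 2))) *
      ‖∑ b ∈ Sd S' (g * k₀), γ b * cub (b / (g * k₀)) (row g e k)‖ ^ 2 ≤ M) →
    ∑ k ∈ K, ‖QQ (kT T) A S γ g e k₀ k‖ ≤ C * (nr g / B) * M := by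
  classical
  obtain ⟨C, hC, H⟩ := kT_deriv
  refine ⟨4 * C, by positivity, fun T A B M S K γ g e k₀ hT hA hB hg he hK hS hM => ?_⟩
  have hT0 : 0 < T := one_pos.trans_le hT
  have hg0 := nr_pos hg
  have he0 := nr_pos he
  have hρ : ∀ k ∈ K, 0 < nr k / (9 * nr e * B ^ 2 / (A * nr g ^ 2)) := fun k hk => by
    have := nr_pos (hK k hk)
    positivity
  choose! h' h'' d1 d2 hc hb using fun k (hk : k ∈ K) => H T _ hT (hρ k hk)
  have hx : ∀ b ∈ S, nr b = B * Real.exp (Real.log (nr b / B)) := fun b hb => by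
    have := hB.trans (hS b hb).1
    rw [Real.exp_log (by positivity)]
    field_simp
  have hsub : ∀ b ∈ Sd S (g * k₀), b ∈ S := fun b hb => (Finset.mem_filter.1 hb).1
  have key := sep_lemma (Sd S (g * k₀)) K (fun b => Real.log (nr b / B))
    (fun k b => γ b * cub (b / (g * k₀)) (row g e k))
    (fun k => C * wT T (nr k / (9 * nr e * B ^ 2 / (A * nr g ^ 2))))
    (fun k x => (Real.exp (-x / 2) : ℂ) *
      kT T (nr k / (9 * nr e * B ^ 2 / (A * nr g ^ 2)) * Real.exp (-x))) h' h''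
    (δ := 1 / T) (M := C * M) (by positivity)
    (fun b hb => by
      obtain ⟨a1, a2⟩ := hS b (hsub b hb)
      refine ⟨Real.log_nonneg ((one_le_div hB).2 a1.le), ?_⟩
      rw [Real.log_le_iff_le_exp (div_pos (hB.trans a1) hB), div_le_iff₀ hB, mul_comm]
      exact a2)
    (fun k hk => mul_nonneg hC.le (wT_nonneg hT0 (hρ k hk).le)) d1 d2 hc
    (fun k hk y y0 y1 => by
      have : 1 / T ≤ 1 := (div_le_one hT0).2 hT
      obtain ⟨a1, a2, a3⟩ := hb k hk y y0 (by linarith)
      refine ⟨a1, a2.trans_eq ?_, a3.trans_eq ?_⟩ <;> field_simp)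
    (fun s => by
      have e1 : (Sd S (g * k₀)).filter (fun b => s ≤ Real.log (nr b / B)) =
          Sd (S.filter fun b => s ≤ Real.log (nr b / B)) (g * k₀) := by
        unfold Sd
        rw [Finset.filter_comm]
      rw [e1]
      simp only [mul_assoc C]
      rw [← Finset.mul_sum]
      exact mul_le_mul_of_nonneg_left (hM _ (Finset.filter_subset _ _)) hC.le)
  have e2 : ∀ k, QQ (kT T) A S γ g e k₀ k = ((nr g / B : ℝ) : ℂ) *
      ∑ i ∈ Sd S (g * k₀), ∑ j ∈ Sd S (g * k₀), γ i * cub (i / (g * k₀)) (row g e k) *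
        conj (γ j * cub (j / (g * k₀)) (row g e k)) *
        ((Real.exp (-(Real.log (nr i / B) + Real.log (nr j / B)) / 2) : ℂ) *
          kT T (nr k / (9 * nr e * B ^ 2 / (A * nr g ^ 2)) *
            Real.exp (-(Real.log (nr i / B) + Real.log (nr j / B))))) := by
    intro k
    unfold QQ
    rw [Finset.mul_sum]
    refine Finset.sum_congr rfl fun i hi => ?_
    rw [Finset.mul_sum]
    refine Finset.sum_congr rfl fun j hj => ?_
    rw [← WinC_arg hA hB hg0 he0, ← hx i (hsub i hi), ← hx j (hsub j hj)]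
    have := WinC_sqrt (x := Real.log (nr i / B)) (y := Real.log (nr j / B)) hB (nr g)
    rw [← hx i (hsub i hi), ← hx j (hsub j hj)] at this
    rw [this, Complex.ofReal_mul]
    ring
  simp only [e2, norm_mul, Complex.norm_real, Real.norm_eq_abs]
  rw [← Finset.mul_sum, abs_of_pos (div_pos hg0 hB)]
  refine (mul_le_mul_of_nonneg_left key (div_pos hg0 hB).le).trans_eq ?_
  ring

end Crest.Agent.R12
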