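import Crest.Agent.R12.WinB
import Crest.Agent.R12.ExpB

/-!
# Row 12, analytic half: separation of variables on a window
-/

set_option autoImplicit false

noncomputable section

namespace Crest.Agent.R12

open Crest.Agent.R17
open scoped ComplexConjugate Topology
open Filter MeasureTheory

open Classical in
/-- the tail sums -/
def WinC0_U {ι : Type} (I : Finset ι) (x : ι → ℝ) (v : ι → ℂ) (s : ℝ) : ℂ :=
  ∑ i ∈ I.filter (fun i => s ≤ x i), v i

theorem WinC0_U_eq {ι : Type} (I : Finset ι) (x : ι → ℝ) (v : ι → ℂ) :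
    WinC0_U I x v = fun s => ∑ i ∈ I, (Set.Iic (x i)).indicator (fun _ => v i) s := by
  classical
  funext s
  rw [WinC0_U, Finset.sum_filter]
  exact Finset.sum_congr rfl fun i _ => by simp [Set.indicator_apply]

theorem WinC0_U_meas {ι : Type} (I : Finset ι) (x : ι → ℝ) (v : ι → ℂ) :
    Measurable (WinC0_U I x v) := by
  rw [WinC0_U_eq]
  exact Finset.measurable_sum _ fun i _ => measurable_const.indicator measurableSet_Iic

theorem WinC0_U_le {ι : Type} (I : Finset ι) (x : ι → ℝ) (v : ι → ℂ) (s : ℝ) :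
    ‖WinC0_U I x v s‖ ≤ ∑ i ∈ I, ‖v i‖ := by
  classical
  exact (norm_sum_le _ _).trans (Finset.sum_le_sum_of_subset_of_nonneg (Finset.filter_subset _ _)
    fun _ _ _ => norm_nonneg _)

theorem WinC0_U_int {ι : Type} (I : Finset ι) (x : ι → ℝ) (v : ι → ℂ) (n : ℕ) (a b : ℝ) :
    IntervalIntegrable (fun s => ‖WinC0_U I x v s‖ ^ n) volume a b := by
  refine (intervalIntegrable_const (c := (∑ i ∈ I, ‖v i‖) ^ n)).mono_fun'
    ((WinC0_U_meas I x v).norm.pow_const n).aestronglyMeasurable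
    (Eventually.of_forall fun s => ?_)
  simp only [norm_pow, norm_norm]
  exact pow_le_pow_left₀ (norm_nonneg _) (WinC0_U_le I x v s) n

theorem WinC0_U_conj {ι : Type} (I : Finset ι) (x : ι → ℝ) (v : ι → ℂ) (s : ℝ) :
    ‖WinC0_U I x (fun i => conj (v i)) s‖ = ‖WinC0_U I x v s‖ := by
  rw [WinC0_U, WinC0_U, ← map_sum, RCLike.norm_conj]

/-- summation by parts -/
theorem WinC0_abel {ι : Type} (I : Finset ι) (x : ι → ℝ) (v : ι → ℂ) {δ : ℝ}
    (hx : ∀ i ∈ I, 0 ≤ x i ∧ x i ≤ δ) {g g' : ℝ → ℂ} (d : ∀ y, HasDerivAt g (g' y) y)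
    (hc : Continuous g') :
    ∑ i ∈ I, v i * g (x i) = g 0 * WinC0_U I x v 0 + ∫ s in (0 : ℝ)..δ, g' s * WinC0_U I x v s := by
  classical
  have h0 : WinC0_U I x v 0 = ∑ i ∈ I, v i := by
    rw [WinC0_U, Finset.filter_true_of_mem fun i hi => (hx i hi).1]
  have h1 : ∀ s, g' s * WinC0_U I x v s =
      ∑ i ∈ I, (Set.Iic (x i)).indicator (fun s => g' s * v i) s := fun s => by
    rw [WinC0_U_eq, Finset.mul_sum]
    exact Finset.sum_congr rfl fun i _ => by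
      simp only [Set.indicator_apply]
      split_ifs <;> simp
  simp only [h1]
  rw [intervalIntegral.integral_finsetSum fun i _ => by
    rw [intervalIntegrable_iff]
    exact ((hc.mul continuous_const).intervalIntegrable 0 δ).def'.indicator measurableSet_Iic,
    h0, Finset.mul_sum, ← Finset.sum_add_distrib]
  refine Finset.sum_congr rfl fun i hi => ?_
  have h2 := intervalIntegral.integral_indicator (μ := volume) (f := fun s => g' s * v i)
    (a₁ := 0) (a₂ := x i) (a₃ := δ) (hx i hi)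
  have h3 := intervalIntegral.integral_eq_sub_of_hasDerivAt (a := 0) (b := x i)
    (fun y _ => d y) (hc.intervalIntegrable _ _)
  rw [show Set.Iic (x i) = {s | s ≤ x i} from rfl, h2, intervalIntegral.integral_mul_const, h3]
  ring

theorem WinC0_bound {ι : Type} (I : Finset ι) (x : ι → ℝ) (v : ι → ℂ) {δ b : ℝ} (hδ : 0 < δ)
    (hx : ∀ i ∈ I, 0 ≤ x i ∧ x i ≤ δ) {g g' : ℝ → ℂ} (d : ∀ y, HasDerivAt g (g' y) y)
    (hc : Continuous g') (h0 : ‖g 0‖ ≤ b) (h1 : ∀ s, 0 ≤ s → s ≤ δ → ‖g' s‖ ≤ b / δ) :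
    ‖∑ i ∈ I, v i * g (x i)‖ ≤
      b * (‖WinC0_U I x v 0‖ + (∫ s in (0 : ℝ)..δ, ‖WinC0_U I x v s‖ ^ 1) / δ) := by
  rw [WinC0_abel I x v hx d hc, mul_add]
  refine (norm_add_le _ _).trans (add_le_add ?_ ?_)
  · rw [norm_mul]
    exact mul_le_mul_of_nonneg_right h0 (norm_nonneg _)
  · refine (intervalIntegral.norm_integral_le_of_norm_le hδ.le
      (g := fun s => b / δ * ‖WinC0_U I x v s‖ ^ 1) (Eventually.of_forall fun s hs => ?_)
      ((WinC0_U_int I x v 1 0 δ).const_mul _)).trans (le_of_eq ?_)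
    · rw [norm_mul, pow_one]
      exact mul_le_mul_of_nonneg_right (h1 s hs.1.le hs.2) (norm_nonneg _)
    · rw [intervalIntegral.integral_const_mul]
      ring

theorem WinC0_cs {ι : Type} (I : Finset ι) (x : ι → ℝ) (v : ι → ℂ) {δ : ℝ} (hδ : 0 < δ) :
    ((∫ s in (0 : ℝ)..δ, ‖WinC0_U I x v s‖ ^ 1) / δ) ^ 2 ≤
      (∫ s in (0 : ℝ)..δ, ‖WinC0_U I x v s‖ ^ 2) / δ := by
  set a := (∫ s in (0 : ℝ)..δ, ‖WinC0_U I x v s‖ ^ 1) / δ with ha
  have h1 : ∫ s in (0 : ℝ)..δ, ‖WinC0_U I x v s‖ ^ 1 = a * δ := by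
    rw [ha, div_mul_cancel₀ _ hδ.ne']
  have h2 := intervalIntegral.integral_mono_on hδ.le ((WinC0_U_int I x v 1 0 δ).const_mul (2 * a))
    ((intervalIntegrable_const (c := a ^ 2)).add (WinC0_U_int I x v 2 0 δ))
    fun s _ => by nlinarith [sq_nonneg (a - ‖WinC0_U I x v s‖)]
  rw [intervalIntegral.integral_const_mul, intervalIntegral.integral_add intervalIntegrable_const
    (WinC0_U_int I x v 2 0 δ), intervalIntegral.integral_const, h1, sub_zero, smul_eq_mul] at h2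
  rw [le_div_iff₀ hδ]
  linarith

theorem WinC0_one {ι : Type} (I : Finset ι) (x : ι → ℝ) (u : ι → ℂ) {w : ℝ} {h h' h'' : ℝ → ℂ}
    {δ : ℝ} (hδ : 0 < δ) (hx : ∀ i ∈ I, 0 ≤ x i ∧ x i ≤ δ) (hw : 0 ≤ w)
    (d1 : ∀ y, HasDerivAt h (h' y) y) (d2 : ∀ y, HasDerivAt h' (h'' y) y) (hc : Continuous h'')
    (hb : ∀ y, 0 ≤ y → y ≤ 2 * δ → ‖h y‖ ≤ w ∧ ‖h' y‖ ≤ w / δ ∧ ‖h'' y‖ ≤ w / δ ^ 2) :
    ‖∑ i ∈ I, ∑ j ∈ I, u i * conj (u j) * h (x i + x j)‖ ≤
      2 * (w * ‖WinC0_U I x u 0‖ ^ 2) + 2 * (∫ s in (0 : ℝ)..δ, w * ‖WinC0_U I x u s‖ ^ 2) / δ := by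
  have hc' : Continuous h' := continuous_iff_continuousAt.2 fun y => (d2 y).continuousAt
  set A := ‖WinC0_U I x u 0‖ + (∫ s in (0 : ℝ)..δ, ‖WinC0_U I x u s‖ ^ 1) / δ with hA
  have e : ∑ i ∈ I, ∑ j ∈ I, u i * conj (u j) * h (x i + x j) =
      ∑ i ∈ I, u i * ∑ j ∈ I, conj (u j) * h (x i + x j) := by
    simp only [Finset.mul_sum, mul_assoc]
  have k1 := WinC0_bound I x u (b := w * A) hδ hx (g := fun y => ∑ j ∈ I, conj (u j) * h (y + x j))
    (g' := fun y => ∑ j ∈ I, conj (u j) * h' (y + x j))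
    (fun y => HasDerivAt.fun_sum fun j _ => ((d1 (y + x j)).comp_add_const y (x j)).const_mul _)
    (continuous_finsetSum _ fun j _ => continuous_const.mul (hc'.comp (by fun_prop))) ?_ ?_
  · rw [e]
    refine k1.trans ?_
    have k2 := WinC0_cs I x u hδ
    rw [intervalIntegral.integral_const_mul, ← hA]
    have k3 : A * A ≤ 2 * ‖WinC0_U I x u 0‖ ^ 2 +
        2 * ((∫ s in (0 : ℝ)..δ, ‖WinC0_U I x u s‖ ^ 2) / δ) := by
      rw [hA]
      nlinarith [sq_nonneg (‖WinC0_U I x u 0‖ - (∫ s in (0 : ℝ)..δ, ‖WinC0_U I x u s‖ ^ 1) / δ)]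
    have k4 := mul_le_mul_of_nonneg_left k3 hw
    calc w * A * A = w * (A * A) := by ring
      _ ≤ _ := k4
      _ = _ := by ring
  · have k := WinC0_bound I x (fun j => conj (u j)) (b := w) hδ hx d1 hc'
      (hb 0 le_rfl (by linarith)).1 fun s h0 h1 => (hb s h0 (by linarith)).2.1
    simp only [WinC0_U_conj] at k
    simpa only [zero_add] using k
  · intro s h0 h1
    have k := WinC0_bound I x (fun j => conj (u j)) (b := w / δ) hδ hx
      (g := fun t => h' (s + t)) (g' := fun t => h'' (s + t))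
      (fun y => (d2 (s + y)).comp_const_add s y) (hc.comp (by fun_prop))
      (by simpa using (hb s h0 (by linarith)).2.1) fun t t0 t1 => by
        rw [div_div, ← sq]
        exact (hb (s + t) (by linarith) (by linarith)).2.2
    simp only [WinC0_U_conj] at k
    refine k.trans (le_of_eq ?_)
    rw [← hA]
    ring

open Classical in
/-- `h(x + y) = h(0) + ∫_0^x h' + ∫_0^y h' + ∫_0^x ∫_0^y h''(s + t)`. -/
theorem sep_lemma {ι ρ : Type} (I : Finset ι) (K : Finset ρ) (x : ι → ℝ) (u : ρ → ι → ℂ)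
    (w : ρ → ℝ) (h h' h'' : ρ → ℝ → ℂ) {δ M : ℝ} (hδ : 0 < δ) (hx : ∀ i ∈ I, 0 ≤ x i ∧ x i ≤ δ)
    (hw : ∀ k ∈ K, 0 ≤ w k) (d1 : ∀ k ∈ K, ∀ y, HasDerivAt (h k) (h' k y) y)
    (d2 : ∀ k ∈ K, ∀ y, HasDerivAt (h' k) (h'' k y) y) (hc : ∀ k ∈ K, Continuous (h'' k))
    (hb : ∀ k ∈ K, ∀ y, 0 ≤ y → y ≤ 2 * δ →
      ‖h k y‖ ≤ w k ∧ ‖h' k y‖ ≤ w k / δ ∧ ‖h'' k y‖ ≤ w k / δ ^ 2)
    (hM : ∀ s : ℝ, ∑ k ∈ K, w k * ‖∑ i ∈ I.filter (fun i => s ≤ x i), u k i‖ ^ 2 ≤ M) :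
    ∑ k ∈ K, ‖∑ i ∈ I, ∑ j ∈ I, u k i * conj (u k j) * h k (x i + x j)‖ ≤ 4 * M := by
  have hM' : ∀ s : ℝ, ∑ k ∈ K, w k * ‖WinC0_U I x (u k) s‖ ^ 2 ≤ M := hM
  refine (Finset.sum_le_sum fun k hk => WinC0_one I x (u k) hδ hx (hw k hk) (d1 k hk) (d2 k hk)
    (hc k hk) (hb k hk)).trans ?_
  rw [Finset.sum_add_distrib, ← Finset.mul_sum, ← Finset.sum_div, ← Finset.mul_sum,
    ← intervalIntegral.integral_finsetSum fun k _ => (WinC0_U_int I x (u k) 2 0 δ).const_mul _]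
  have h1 := intervalIntegral.integral_mono_on hδ.le
    (IntervalIntegrable.sum K fun k _ => (WinC0_U_int I x (u k) 2 0 δ).const_mul (w k))
    (intervalIntegrable_const (c := M)) fun s _ => by simpa only [Finset.sum_apply] using hM' s
  rw [intervalIntegral.integral_const, sub_zero, smul_eq_mul] at h1
  simp only [Finset.sum_apply] at h1
  have h2 : 2 * (∫ s in (0 : ℝ)..δ, ∑ k ∈ K, w k * ‖WinC0_U I x (u k) s‖ ^ 2) / δ ≤ 2 * M := by
    rw [div_le_iff₀ hδ]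
    linarith
  linarith [hM' 0]

end Crest.Agent.R12
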