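import Crest.Agent.R12.WinD0

/-!
# Row 12, analytic half: the window lemma
-/

set_option autoImplicit false

noncomputable section

namespace Crest.Agent.R12

open Crest.Agent.R17
open scoped ComplexConjugate Topology
open Filter MeasureTheory

theorem WinD_rpow {x y : ℝ} (j : ℕ) (hx : 0 ≤ x) (hy : 0 ≤ y) (h : x ^ j ≤ y ^ 3) :
    x ^ ((j : ℝ) / 3) ≤ y := by
  rw [← pow_le_pow_iff_left₀ (by positivity) hy three_ne_zero, ← Real.rpow_natCast,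
    ← Real.rpow_mul hx, show (j : ℝ) / 3 * ((3 : ℕ) : ℝ) = j by push_cast; ring, Real.rpow_natCast]
  exact h

theorem WinD_num {A B n G h : ℝ} (hA : 1 ≤ A) (hB : 1 ≤ B) (hn : 1 ≤ n) (hG : n ≤ G) (hh : 1 ≤ h) :
    A / (9 * n) * (G / B) * ((9 * n * B ^ 2 / (A * G ^ 2)) ^ (1 / 3 : ℝ) * (3 * B / (G * h))) ≤
      (A * B) ^ (2 / 3 : ℝ) ∧
    A / (9 * n) * (G / B) * (9 * n * B ^ 2 / (A * G ^ 2)) ≤ B ∧
    A / (9 * n) * (G / B) * (9 * n * B ^ 2 / (A * G ^ 2) * (3 * B / (G * h))) ^ (2 / 3 : ℝ) ≤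
      A ^ (1 / 3 : ℝ) * B := by
  have hG1 : 1 ≤ G := hn.trans hG
  have hA0 : 0 < A := by linarith
  have hB0 : 0 < B := by linarith
  have hn0 : 0 < n := by linarith
  have hG0 : 0 < G := by linarith
  have hh0 : 0 < h := by linarith
  have c3 : ∀ x : ℝ, 0 < x → (x ^ (1 / 3 : ℝ)) ^ 3 = x := fun x hx => by
    rw [← Real.rpow_natCast, ← Real.rpow_mul hx.le]
    norm_num
  have e : (A * B) ^ (2 / 3 : ℝ) = (A ^ (1 / 3 : ℝ) * B ^ (1 / 3 : ℝ)) ^ 2 := by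
    rw [← Real.mul_rpow hA0.le hB0.le, ← Real.rpow_natCast, ← Real.rpow_mul (by positivity)]
    norm_num
  rw [e]
  have ha3 := c3 A hA0
  have hb3 := c3 B hB0
  have ha0 : 0 < A ^ (1 / 3 : ℝ) := by positivity
  have hb0 : 0 < B ^ (1 / 3 : ℝ) := by positivity
  generalize A ^ (1 / 3 : ℝ) = a at ha3 ha0 ⊢
  generalize B ^ (1 / 3 : ℝ) = b at hb3 hb0 ⊢
  refine ⟨?_, ?_, ?_⟩
  · have h1 := WinD_rpow (x := 9 * n * B ^ 2 / (A * G ^ 2)) (y := 3 * b ^ 2 / a) 1 (by positivity)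
      (by positivity) (by
        rw [pow_one, show (3 * b ^ 2 / a) ^ 3 = 27 * (b ^ 3) ^ 2 / a ^ 3 by ring, ha3, hb3,
          show 9 * n * B ^ 2 / (A * G ^ 2) = (9 * n / G ^ 2) * (B ^ 2 / A) by field_simp,
          mul_div_assoc 27]
        refine mul_le_mul_of_nonneg_right ?_ (by positivity)
        rw [div_le_iff₀ (by positivity)]
        nlinarith)
    rw [Nat.cast_one] at h1
    calc _ ≤ A / (9 * n) * (G / B) * (3 * b ^ 2 / a * (3 * B / (G * h))) := by gcongr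
      _ = (a * b) ^ 2 / (n * h) := by rw [← ha3]; field_simp; ring
      _ ≤ _ := div_le_self (by positivity) (one_le_mul_of_one_le_of_one_le hn hh)
  · calc _ = B / G := by field_simp
      _ ≤ _ := div_le_self hB0.le hG1
  · have h1 := WinD_rpow (x := 9 * n * B ^ 2 / (A * G ^ 2) * (3 * B / (G * h)))
      (y := 9 * n * B ^ 2 / (a ^ 2 * G)) 2 (by positivity) (by positivity) (by
        rw [show (9 * n * B ^ 2 / (a ^ 2 * G)) ^ 3 =
            n * (729 * n ^ 2 * B ^ 6 / ((a ^ 3) ^ 2 * G ^ 3)) by field_simp; ring, ha3,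
          show (9 * n * B ^ 2 / (A * G ^ 2) * (3 * B / (G * h))) ^ 2 =
            (729 * n ^ 2 * B ^ 6 / (A ^ 2 * G ^ 3)) / (G ^ 3 * h ^ 2) by field_simp; ring]
        exact (div_le_self (by positivity) (one_le_mul_of_one_le_of_one_le (one_le_pow₀ hG1)
          (one_le_pow₀ hh))).trans (le_mul_of_one_le_left (by positivity) hn))
    rw [Nat.cast_ofNat] at h1
    calc _ ≤ A / (9 * n) * (G / B) * (9 * n * B ^ 2 / (a ^ 2 * G)) := by gcongr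
      _ = _ := by rw [← ha3]; field_simp

open Classical in
theorem WinD_one {ε : ℝ} (hε : 0 < ε) : ∃ C : ℝ, 0 < C ∧ ∀ (R T A B : ℝ) (S : Finset O)
    (γ : O → ℂ) (g e h : O), 3 ≤ R → 1 ≤ T → T ≤ R → 1 ≤ A → 1 ≤ B → B ≤ R →
    (∀ b ∈ S, PS b ∧ B < nr b ∧ nr b ≤ B * Real.exp (1 / T)) → PS g → e ∈ pdiv g → PS h →
    A / (9 * nr e) * ∑' k : O, (if True ∧ ¬ k = 0 then ‖QQ (kT T) A S γ g e h k‖ else 0) ≤
      C * (Real.log R ^ 4 * ((A * B) ^ (2 / 3 : ℝ) * T ^ (-(2 / 3 : ℝ))) +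
        R ^ ε * (B * T ^ (1 / 2 : ℝ) + A ^ (1 / 3 : ℝ) * B * T ^ (-(1 / 6 : ℝ)))) *
        N2 (Sd S (g * h)) γ := by
  obtain ⟨C₁, hC₁, H₁⟩ := QQ_window
  obtain ⟨C₂, hC₂, H₂⟩ := LS_wT hε
  refine ⟨C₁ * C₂, by positivity, fun R T A B S γ g e h hR hT hTR hA hB hBR hS hg he hh => ?_⟩
  have hA0 : 0 < A := by linarith
  have hB0 : 0 < B := by linarith
  have hT0 : 0 < T := by linarith
  have hR0 : 0 < R := by linarith
  have hL : 0 ≤ Real.log R := Real.log_nonneg (by linarith)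
  have hN := N2_nonneg (Sd S (g * h)) γ
  rcases (Sd S (g * h)).eq_empty_or_nonempty with h0 | ⟨b₀, hb₀⟩
  · simp only [QQ, h0, Finset.sum_empty, norm_zero, ite_self, tsum_zero, mul_zero, N2, le_refl]
  obtain ⟨he1, he2⟩ := (mem_pdiv hg.ne_zero).1 he
  have hn1 := one_le_nr he1.ne_zero
  have hnG : nr e ≤ nr g := Nat.cast_le.2 (nm_le_of_dvd he2 hg.ne_zero)
  have hG1 := hg.one_le
  have hh1 := hh.one_le
  have h3 : ∀ b ∈ S, nr b ≤ 3 * B := fun b hb => by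
    have h1 : Real.exp (1 / T) ≤ 3 :=
      (Real.exp_le_exp.2 ((div_le_one hT0).2 hT)).trans (Real.exp_one_lt_three).le
    exact (hS b hb).2.2.trans (by nlinarith)
  obtain ⟨hb₀S, hb₀d⟩ := mem_Sd.1 hb₀
  have hd : nr g * nr h ≤ 3 * B := by
    rw [← nr_mul]
    exact le_trans (Nat.cast_le.2 (nm_le_of_dvd hb₀d (hS _ hb₀S).1.ne_zero)) (h3 _ hb₀S)
  obtain ⟨n1, n2, n3⟩ := WinD_num hA hB hn1 hnG hh1
  set K' := 9 * nr e * B ^ 2 / (A * nr g ^ 2) with hK'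
  set B' := 3 * B / (nr g * nr h) with hB'
  have hK0 : 0 < K' := by positivity
  have hKR : K' ≤ 9 * R ^ 2 := by
    rw [hK', div_le_iff₀ (by positivity)]
    calc 9 * nr e * B ^ 2 ≤ 9 * (A * nr g ^ 2) * R ^ 2 := by
          gcongr
          nlinarith
      _ = _ := by ring
  have hB'1 : 1 ≤ B' := (one_le_div (by positivity)).2 hd
  have hB'R : B' ≤ 3 * R :=
    (div_le_self (by positivity) (one_le_mul_of_one_le_of_one_le hG1 hh1)).trans (by linarith)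
  set D := C₂ * (Real.log R ^ 4 * (K' ^ (1 / 3 : ℝ) * B' * T ^ (-(5 / 6 : ℝ))) +
    R ^ ε * (K' * T ^ (1 / 2 : ℝ) + (K' * B') ^ (2 / 3 : ℝ) * T ^ (-(1 / 6 : ℝ)))) with hD
  have hD0 : 0 ≤ D := by positivity
  have key : ∀ K : Finset O, ∑ k ∈ K, (if True ∧ ¬ k = 0 then ‖QQ (kT T) A S γ g e h k‖ else 0) ≤
      C₁ * (nr g / B) * (D * N2 (Sd S (g * h)) γ) := by
    intro K
    rw [← Finset.sum_filter]
    have hK : ∀ k ∈ K.filter (fun k => True ∧ ¬ k = 0), k ≠ 0 := fun k hk =>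
      (Finset.mem_filter.1 hk).2.2
    refine H₁ T A B _ S _ γ g e h hT hA0 hB0 hg.ne_zero he1.ne_zero hK
      (fun b hb => (hS b hb).2) fun S' hS' => ?_
    have hc := fun k => sum_Sd_eq_col (S := S') (fun b hb => (hS b (hS' hb)).1) (hg.1.mul hh.1) γ k
      (e * (g / e) ^ 2)
    simp only [row, fun k => (hc k).1]
    refine (H₂ R T K' B' _ _ _ hR hT hTR hK0 hKR hB'1 hB'R (fun b hb => ?_) hK).trans
      (mul_le_mul_of_nonneg_left ((hc 0).2.1.trans ?_) hD0)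
    · obtain ⟨a1, a2⟩ := (hc 0).2.2 b hb
      refine ⟨a1, (le_div_iff₀ (by positivity)).2 ?_⟩
      rw [← nr_mul, ← nr_mul, mul_comm]
      exact h3 _ (hS' a2)
    · exact Finset.sum_le_sum_of_subset_of_nonneg
        (fun b hb => mem_Sd.2 ⟨hS' (mem_Sd.1 hb).1, (mem_Sd.1 hb).2⟩) fun _ _ _ => by positivity
  have hT1 : T ^ (-(5 / 6 : ℝ)) ≤ T ^ (-(2 / 3 : ℝ)) :=
    Real.rpow_le_rpow_of_exponent_le hT (by norm_num)
  calc _ ≤ A / (9 * nr e) * (C₁ * (nr g / B) * (D * N2 (Sd S (g * h)) γ)) :=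
        mul_le_mul_of_nonneg_left
          (Real.tsum_le_of_sum_le (fun _ => by split_ifs <;> positivity) key) (by positivity)
    _ = C₁ * C₂ * (Real.log R ^ 4 *
          (A / (9 * nr e) * (nr g / B) * (K' ^ (1 / 3 : ℝ) * B') * T ^ (-(5 / 6 : ℝ))) +
        R ^ ε * (A / (9 * nr e) * (nr g / B) * K' * T ^ (1 / 2 : ℝ) +
          A / (9 * nr e) * (nr g / B) * (K' * B') ^ (2 / 3 : ℝ) * T ^ (-(1 / 6 : ℝ)))) *
        N2 (Sd S (g * h)) γ := by rw [hD]; ring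
    _ ≤ _ := by gcongr

/-- **Window lemma.**  `phT_ge`, `tsum_TT`, the row `k = 0`, `norm_rowSum_le`, `QQ_window`,
`sum_Sd_eq_col`, `LS_wT` with `K' = 9 N(e) B² / (A N(g)²)` and length `3 B / N(g h)`,
`sum_N2_Sd_le`. -/
theorem window_lemma {ε : ℝ} (hε : 0 < ε) : ∃ C : ℝ, 0 < C ∧ ∀ (R T A B : ℝ) (Sa S : Finset O)
    (γ : O → ℂ), 3 ≤ R → 1 ≤ T → T ≤ R → 1 ≤ A → A ≤ R → 1 ≤ B → B ≤ R →
    (∀ a ∈ Sa, Primary a ∧ A < nr a ∧ nr a ≤ A * Real.exp (1 / T)) →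
    (∀ b ∈ S, PS b ∧ B < nr b ∧ nr b ≤ B * Real.exp (1 / T)) →
    ∑ a ∈ Sa, ‖TT S γ a‖ ^ 2 ≤
      C * (Real.log R ^ 4 * (A / T + (A * B) ^ (2 / 3 : ℝ) * T ^ (-(2 / 3 : ℝ))) +
        R ^ ε * (B * T ^ (1 / 2 : ℝ) + A ^ (1 / 3 : ℝ) * B * T ^ (-(1 / 6 : ℝ)))) * NW 8 S γ := by
  classical
  obtain ⟨c, hc, Hc⟩ := phT_ge
  obtain ⟨C, hC, H⟩ := WinD_one hε
  refine ⟨(7 + C) / c, by positivity, fun R T A B Sa S γ hR hT hTR hA _ hB hBR hSa hS => ?_⟩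
  have hA0 : 0 < A := by linarith
  have hB0 : 0 < B := by linarith
  have hT0 : 0 < T := by linarith
  have hR0 : 0 < R := by linarith
  have hL : 1 ≤ Real.log R ^ 4 := one_le_pow₀ (by
    rw [Real.le_log_iff_exp_le hR0]
    exact Real.exp_one_lt_three.le.trans hR)
  have hP : ∀ b ∈ S, PS b := fun b hb => (hS b hb).1
  have hpp := pp_T hT
  obtain ⟨hs, he⟩ := tsum_TT hpp hA0 hP γ
  have h1 : c * ∑ a ∈ Sa, ‖TT S γ a‖ ^ 2 ≤ ‖RowSum (kT T) A S γ fun _ _ _ => True‖ := by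
    rw [← he]
    refine le_trans ?_ (Complex.re_le_norm _)
    rw [Complex.re_tsum hs, Finset.mul_sum]
    refine le_trans (Finset.sum_le_sum fun a ha => ?_)
      ((Complex.reCLM.summable hs).sum_le_tsum Sa fun a _ => ?_)
    · obtain ⟨a1, a2, a3⟩ := hSa a ha
      rw [if_pos a1, Complex.re_mul_ofReal]
      exact mul_le_mul_of_nonneg_right (Hc T _ hT ((one_le_div hA0).2 a2.le)
        ((div_le_iff₀' hA0).2 a3)) (by positivity)
    · obtain ⟨x, hx, hx'⟩ := phT_real hT0.le (nr a / A)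
      rw [hx']
      split_ifs
      · rw [Complex.re_mul_ofReal, Complex.ofReal_re]
        positivity
      · simp
  set Λ := Real.log R ^ 4 * ((A * B) ^ (2 / 3 : ℝ) * T ^ (-(2 / 3 : ℝ))) +
    R ^ ε * (B * T ^ (1 / 2 : ℝ) + A ^ (1 / 3 : ℝ) * B * T ^ (-(1 / 6 : ℝ))) with hΛ
  have hΛ0 : 0 ≤ Λ := by positivity
  have hW := NW_nonneg (k := 8) (by norm_num) S γ
  have h2 : ‖RowSum (kT T) A S γ fun _ _ k => True ∧ k = 0‖ ≤
      7 * (Real.log R ^ 4 * (A / T)) * NW 8 S γ := by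
    rw [rowSum_congr _ _ _ _ (𝒦' := fun _ _ k => k = 0) fun _ _ _ => by simp]
    refine (norm_rowSum_zero_le _ hA0 hP γ).trans (mul_le_mul ?_ (N2_le_NW (by norm_num) S γ)
      (N2_nonneg S γ) (by positivity))
    calc _ ≤ A * (7 / T) := mul_le_mul_of_nonneg_left (norm_kT_zero_le hT) hA0.le
      _ = 7 * (1 * (A / T)) := by ring
      _ ≤ _ := by gcongr
  have h3 : ‖RowSum (kT T) A S γ fun _ _ k => True ∧ ¬ k = 0‖ ≤ C * Λ * NW 8 S γ := by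
    refine (norm_rowSum_le hpp hA0 hP γ _).trans ?_
    calc _ ≤ ∑ g ∈ DS S, ∑ _e ∈ pdiv g, ∑ k₀ ∈ DS S, C * Λ * N2 (Sd S (g * k₀)) γ := by
          refine Finset.sum_le_sum fun g hg => Finset.sum_le_sum fun e he =>
            Finset.sum_le_sum fun h hh => ?_
          refine le_of_eq_of_le ?_
            (H R T A B S γ g e h hR hT hTR hA hB hBR hS (mem_DS hP hg) he (mem_DS hP hh))
          congr! 4
      _ = C * Λ * ∑ g ∈ DS S, ∑ _e ∈ pdiv g, ∑ k₀ ∈ DS S, N2 (Sd S (g * k₀)) γ := by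
          simp only [Finset.mul_sum]
      _ ≤ _ := mul_le_mul_of_nonneg_left ((sum_N2_Sd_le hP γ).trans
          (NW_mono (by norm_num) (by norm_num) S γ)) (by positivity)
  rw [rowSum_split hpp hA0 hP γ _ fun _ _ k => k = 0] at h1
  have h4 := h1.trans ((norm_add_le _ _).trans (add_le_add h2 h3))
  have h5 : 0 ≤ Real.log R ^ 4 * (A / T) := by positivity
  rw [show Real.log R ^ 4 * (A / T + (A * B) ^ (2 / 3 : ℝ) * T ^ (-(2 / 3 : ℝ))) +
      R ^ ε * (B * T ^ (1 / 2 : ℝ) + A ^ (1 / 3 : ℝ) * B * T ^ (-(1 / 6 : ℝ))) =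
      Real.log R ^ 4 * (A / T) + Λ by rw [hΛ]; ring, div_mul_eq_mul_div, div_mul_eq_mul_div,
    le_div_iff₀' hc]
  refine h4.trans ?_
  rw [← add_mul]
  refine mul_le_mul_of_nonneg_right ?_ hW
  nlinarith [mul_nonneg hC.le h5]

end Crest.Agent.R12
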