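import Crest.Agent.R12.WinC
import Crest.Agent.R12.LS

/-!
# Row 12, analytic half: the window lemma
-/

set_option autoImplicit false

noncomputable section

namespace Crest.Agent.R12

open Crest.Agent.R17
open scoped ComplexConjugate Topology
open Filter MeasureTheory

/-- The summable profile. -/
def WinD0_g (x : ℝ) : ℝ := x ^ (1 / 12 : ℝ) * (1 + x) ^ 3 * gw (x / 20)

/-- The telescoping function. -/
def WinD0_f (x : ℝ) : ℝ := x ^ (1 / 12 : ℝ) / (1 + x ^ (1 / 12 : ℝ))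

theorem WinD0_rpow_le {x a : ℝ} (hx : 0 ≤ x) (h0 : 0 ≤ a) (h1 : a ≤ 1) : x ^ a ≤ 1 + x := by
  rcases le_total x 1 with h | h
  · linarith [Real.rpow_le_one hx h h0]
  · have := Real.rpow_le_rpow_of_exponent_le h h1
    rw [Real.rpow_one] at this
    linarith

theorem WinD0_tele : ∃ C : ℝ, 0 < C ∧ ∀ x : ℝ, 0 < x →
    WinD0_g x ≤ C * (WinD0_f (2 * x) - WinD0_f x) := by
  set q : ℝ := 2 ^ (1 / 12 : ℝ) with hq
  have hq1 : 1 < q := Real.one_lt_rpow one_lt_two (by norm_num)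
  have hq0 : 0 < q - 1 := by linarith
  refine ⟨4 * 100 ^ 5 * q / (q - 1), by positivity, fun x hx => ?_⟩
  unfold WinD0_g WinD0_f
  rw [Real.mul_rpow (by norm_num) hx.le, ← hq]
  have hy1 := WinD0_rpow_le hx.le (a := 1 / 12) (by norm_num) (by norm_num)
  set y : ℝ := x ^ (1 / 12 : ℝ) with hy
  have hy0 : 0 < y := by positivity
  have e : q * y / (1 + q * y) - y / (1 + y) = (q - 1) * (y / ((1 + q * y) * (1 + y))) := by
    field_simp
    ring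
  have h1 : (1 + x) ^ 5 * gw (x / 20) ≤ 100 ^ 5 := by
    have h2 : (1 + x / 100) ^ 5 ≤ Real.exp (x / 100) ^ 5 := by
      have := Real.add_one_le_exp (x / 100)
      gcongr
      linarith
    rw [← Real.exp_nat_mul, show ((5 : ℕ) : ℝ) * (x / 100) = x / 20 by push_cast; ring] at h2
    have h3 : (1 + x) ^ 5 ≤ (100 * (1 + x / 100)) ^ 5 := by
      gcongr
      linarith
    calc _ ≤ (100 ^ 5 * Real.exp (x / 20)) * Real.exp (-(x / 20)) := by
          refine mul_le_mul (h3.trans ?_) (gw_le_exp (by positivity)) (gw_pos _).le (by positivity)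
          rw [mul_pow]
          gcongr
      _ = 100 ^ 5 := by rw [mul_assoc, ← Real.exp_add, add_neg_cancel, Real.exp_zero, mul_one]
  have h4 : (1 + q * y) * (1 + y) ≤ q * (4 * (1 + x) ^ 2) := by
    calc _ ≤ (q * (2 * (1 + x))) * (2 * (1 + x)) := by
          refine mul_le_mul ?_ (by linarith) (by positivity) (by positivity)
          nlinarith
      _ = _ := by ring
  rw [e, ← mul_assoc, div_mul_cancel₀ _ hq0.ne', ← mul_div_assoc, le_div_iff₀ (by positivity)]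
  have hg := gw_pos (x / 20)
  calc _ ≤ y * (1 + x) ^ 3 * gw (x / 20) * (q * (4 * (1 + x) ^ 2)) := by gcongr
    _ = 4 * q * y * ((1 + x) ^ 5 * gw (x / 20)) := by ring
    _ ≤ 4 * q * y * 100 ^ 5 := by gcongr
    _ = _ := by ring

theorem WinD0_sum : ∃ C : ℝ, 0 < C ∧ ∀ (Y : ℝ) (J : ℕ), 0 < Y →
    ∑ j ∈ Finset.range J, WinD0_g (2 ^ j / Y) ≤ C := by
  obtain ⟨C, hC, h⟩ := WinD0_tele
  refine ⟨C, hC, fun Y J hY => ?_⟩
  have h1 : ∑ j ∈ Finset.range J, WinD0_g (2 ^ j / Y) ≤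
      ∑ j ∈ Finset.range J, C * (WinD0_f (2 ^ (j + 1) / Y) - WinD0_f (2 ^ j / Y)) := by
    refine Finset.sum_le_sum fun j _ => ?_
    rw [show (2 : ℝ) ^ (j + 1) / Y = 2 * (2 ^ j / Y) by ring]
    exact h _ (by positivity)
  rw [← Finset.mul_sum, Finset.sum_range_sub fun j => WinD0_f (2 ^ j / Y)] at h1
  refine h1.trans (mul_le_of_le_one_right hC.le ?_)
  have h2 : 0 ≤ WinD0_f (2 ^ 0 / Y) := by unfold WinD0_f; positivity
  have h3 : WinD0_f (2 ^ J / Y) ≤ 1 := by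
    unfold WinD0_f
    rw [div_le_one (by positivity)]
    linarith
  linarith

theorem WinD0_wT {T K' N x : ℝ} (hT : 0 < T) (hK : 0 < K') (hx : 0 < x)
    (hN : x * (K' * T ^ 2) ≤ N) :
    wT T (N / K') ≤ T ^ (-(3 / 2 : ℝ)) * (x ^ (-(1 / 4 : ℝ)) * gw (x / 20)) := by
  have h1 : x * T ^ 2 ≤ N / K' := by
    rw [le_div_iff₀ hK]
    linarith
  have h2 : min 1 ((N / K') ^ (-(1 / 4 : ℝ))) ≤ x ^ (-(1 / 4 : ℝ)) * T ^ (-(1 / 2 : ℝ)) := by
    refine (min_le_right _ _).trans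
      ((Real.rpow_le_rpow_of_nonpos (by positivity) h1 (by norm_num)).trans (le_of_eq ?_))
    rw [Real.mul_rpow hx.le (by positivity), ← Real.rpow_natCast, ← Real.rpow_mul hT.le]
    norm_num
  have h3 : gw (N / K' / (20 * T ^ 2)) ≤ gw (x / 20) := by
    refine gw_antitone ?_
    rw [le_div_iff₀ (by positivity)]
    linarith
  unfold wT
  calc _ ≤ T⁻¹ * (x ^ (-(1 / 4 : ℝ)) * T ^ (-(1 / 2 : ℝ))) * gw (x / 20) :=
        mul_le_mul (by gcongr) h3 (gw_pos _).le (by positivity)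
    _ = _ := by
        rw [← Real.rpow_neg_one, show -(3 / 2 : ℝ) = -1 + -(1 / 2) by norm_num, Real.rpow_add hT]
        ring

theorem WinD0_block {ε e R Y B x : ℝ} (he0 : 0 < e) (he1 : e ≤ 1) (he : 9 * e ≤ ε) (hR : 3 ≤ R)
    (hY : 0 < Y) (hY' : Y ≤ 9 * R ^ 4) (hB : 1 ≤ B) (hB' : B ≤ 3 * R) (hx : 0 < x)
    (hH : 1 ≤ 2 * x * Y) :
    x ^ (-(1 / 4 : ℝ)) * ((2 * x * Y / 1) ^ (1 / 3 : ℝ) * B * (1 + Real.log (2 * x * Y)) ^ 3 +
      (2 * x * Y * B) ^ e * (2 * x * Y + (2 * x * Y * B) ^ (2 / 3 : ℝ))) ≤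
    1024 * (x ^ (1 / 12 : ℝ) * (1 + x) ^ 3) *
      (Real.log R ^ 4 * (Y ^ (1 / 3 : ℝ) * B) + R ^ ε * (Y + (Y * B) ^ (2 / 3 : ℝ))) := by
  have hR0 : 0 < R := by linarith
  have hL : 1 ≤ Real.log R := by
    rw [Real.le_log_iff_exp_le hR0]
    linarith [Real.exp_one_lt_three]
  set L := Real.log R with hLd
  have h1 : 1 + Real.log (2 * x * Y) ≤ 8 * L * (1 + x) := by
    have a1 : 2 * x * Y ≤ R ^ 7 * x := by
      have : 18 * R ^ 4 ≤ R ^ 7 := by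
        have : 18 ≤ R ^ 3 := le_trans (by norm_num) (pow_le_pow_left₀ (by norm_num) hR 3)
        calc 18 * R ^ 4 ≤ R ^ 3 * R ^ 4 := by gcongr
          _ = _ := by ring
      nlinarith
    have a2 := Real.log_le_log (by positivity) a1
    rw [Real.log_mul (x := R ^ 7) (by positivity) hx.ne', Real.log_pow] at a2
    have a3 := Real.log_le_self hx.le
    push_cast at a2
    nlinarith
  have h1' : (1 + Real.log (2 * x * Y)) ^ 3 ≤ 512 * L ^ 4 * (1 + x) ^ 3 := by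
    have := Real.log_nonneg hH
    calc _ ≤ (8 * L * (1 + x)) ^ 3 := by gcongr
      _ = 512 * L ^ 3 * (1 + x) ^ 3 := by ring
      _ ≤ _ := by gcongr; norm_num
  have h2 : (2 * x * Y * B) ^ e ≤ R ^ ε * (1 + x) := by
    have a1 : 2 * x * Y * B ≤ R ^ 9 * x := by
      have : 54 ≤ R ^ 4 := le_trans (by norm_num) (pow_le_pow_left₀ (by norm_num) hR 4)
      calc _ ≤ 2 * x * (9 * R ^ 4) * (3 * R) := by gcongr
        _ = 54 * R ^ 5 * x := by ring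
        _ ≤ R ^ 4 * R ^ 5 * x := by gcongr
        _ = _ := by ring
    refine (Real.rpow_le_rpow (by positivity) a1 he0.le).trans ?_
    rw [Real.mul_rpow (by positivity) hx.le, ← Real.rpow_natCast, ← Real.rpow_mul hR0.le]
    exact mul_le_mul (Real.rpow_le_rpow_of_exponent_le (by linarith) (by push_cast; linarith))
      (WinD0_rpow_le hx.le he0.le he1) (by positivity) (by positivity)
  have two : ∀ a : ℝ, a ≤ 1 → (2 : ℝ) ^ a ≤ 2 := fun a ha => by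
    have := Real.rpow_le_rpow_of_exponent_le one_le_two ha
    rwa [Real.rpow_one] at this
  have p1 : x ^ (-(1 / 4 : ℝ)) * (2 * x * Y / 1) ^ (1 / 3 : ℝ) ≤
      2 * x ^ (1 / 12 : ℝ) * Y ^ (1 / 3 : ℝ) := by
    rw [div_one, Real.mul_rpow (by positivity) hY.le, Real.mul_rpow (by norm_num) hx.le,
      show (1 / 12 : ℝ) = -(1 / 4) + 1 / 3 by norm_num, Real.rpow_add hx]
    have := two (1 / 3) (by norm_num)
    calc _ = 2 ^ (1 / 3 : ℝ) * (x ^ (-(1 / 4 : ℝ)) * x ^ (1 / 3 : ℝ)) * Y ^ (1 / 3 : ℝ) := by ring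
      _ ≤ _ := by gcongr
  have p2 : x ^ (-(1 / 4 : ℝ)) * (2 * x * Y) ≤ 2 * x ^ (1 / 12 : ℝ) * (1 + x) * Y := by
    have e1 : x ^ (-(1 / 4 : ℝ)) * x = x ^ (1 / 12 : ℝ) * x ^ (2 / 3 : ℝ) := by
      rw [← Real.rpow_add hx, ← Real.rpow_add_one hx.ne']
      norm_num
    have := WinD0_rpow_le hx.le (a := 2 / 3) (by norm_num) (by norm_num)
    calc _ = 2 * (x ^ (-(1 / 4 : ℝ)) * x) * Y := by ring
      _ = 2 * x ^ (1 / 12 : ℝ) * x ^ (2 / 3 : ℝ) * Y := by rw [e1]; ring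
      _ ≤ _ := by gcongr
  have p3 : x ^ (-(1 / 4 : ℝ)) * (2 * x * Y * B) ^ (2 / 3 : ℝ) ≤
      2 * x ^ (1 / 12 : ℝ) * (1 + x) * (Y * B) ^ (2 / 3 : ℝ) := by
    have e1 : x ^ (-(1 / 4 : ℝ)) * x ^ (2 / 3 : ℝ) = x ^ (1 / 12 : ℝ) * x ^ (1 / 3 : ℝ) := by
      rw [← Real.rpow_add hx, ← Real.rpow_add hx]
      norm_num
    have := WinD0_rpow_le hx.le (a := 1 / 3) (by norm_num) (by norm_num)
    have := two (2 / 3) (by norm_num)
    rw [mul_assoc (2 * x), Real.mul_rpow (by positivity) (by positivity),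
      Real.mul_rpow (by norm_num) hx.le]
    calc _ = 2 ^ (2 / 3 : ℝ) * (x ^ (-(1 / 4 : ℝ)) * x ^ (2 / 3 : ℝ)) * (Y * B) ^ (2 / 3 : ℝ) := by
          ring
      _ = 2 ^ (2 / 3 : ℝ) * x ^ (1 / 12 : ℝ) * x ^ (1 / 3 : ℝ) * (Y * B) ^ (2 / 3 : ℝ) := by
          rw [e1]; ring
      _ ≤ _ := by gcongr
  have q1 : x ^ (-(1 / 4 : ℝ)) *
      ((2 * x * Y / 1) ^ (1 / 3 : ℝ) * B * (1 + Real.log (2 * x * Y)) ^ 3) ≤
      1024 * (x ^ (1 / 12 : ℝ) * (1 + x) ^ 3) * (L ^ 4 * (Y ^ (1 / 3 : ℝ) * B)) := by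
    have := Real.log_nonneg hH
    calc _ = x ^ (-(1 / 4 : ℝ)) * (2 * x * Y / 1) ^ (1 / 3 : ℝ) * B *
          (1 + Real.log (2 * x * Y)) ^ 3 := by ring
      _ ≤ 2 * x ^ (1 / 12 : ℝ) * Y ^ (1 / 3 : ℝ) * B * (512 * L ^ 4 * (1 + x) ^ 3) := by gcongr
      _ = _ := by ring
  have q2 : x ^ (-(1 / 4 : ℝ)) *
      ((2 * x * Y * B) ^ e * (2 * x * Y + (2 * x * Y * B) ^ (2 / 3 : ℝ))) ≤
      1024 * (x ^ (1 / 12 : ℝ) * (1 + x) ^ 3) * (R ^ ε * (Y + (Y * B) ^ (2 / 3 : ℝ))) := by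
    have a1 : 2 * (1 + x) ^ 2 ≤ 1024 * (1 + x) ^ 3 := by
      have : (1 + x) ^ 2 ≤ (1 + x) ^ 3 := pow_le_pow_right₀ (by linarith) (by norm_num)
      nlinarith [sq_nonneg (1 + x)]
    calc _ = (2 * x * Y * B) ^ e * (x ^ (-(1 / 4 : ℝ)) * (2 * x * Y) +
          x ^ (-(1 / 4 : ℝ)) * (2 * x * Y * B) ^ (2 / 3 : ℝ)) := by ring
      _ ≤ R ^ ε * (1 + x) * (2 * x ^ (1 / 12 : ℝ) * (1 + x) * Y +
          2 * x ^ (1 / 12 : ℝ) * (1 + x) * (Y * B) ^ (2 / 3 : ℝ)) := by gcongr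
      _ = 2 * (1 + x) ^ 2 * (x ^ (1 / 12 : ℝ) * (R ^ ε * (Y + (Y * B) ^ (2 / 3 : ℝ)))) := by ring
      _ ≤ 1024 * (1 + x) ^ 3 * (x ^ (1 / 12 : ℝ) * (R ^ ε * (Y + (Y * B) ^ (2 / 3 : ℝ)))) := by
          gcongr
      _ = _ := by ring
  exact le_trans (le_of_eq (mul_add _ _ _)) ((add_le_add q1 q2).trans (le_of_eq (by ring)))

/-- Dyadic decomposition of the rows and `LS_all` with `Z = 1`. -/
theorem LS_wT {ε : ℝ} (hε : 0 < ε) : ∃ C : ℝ, 0 < C ∧ ∀ (R T K' B : ℝ) (S K : Finset O)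
    (β : O → ℂ), 3 ≤ R → 1 ≤ T → T ≤ R → 0 < K' → K' ≤ 9 * R ^ 2 → 1 ≤ B → B ≤ 3 * R →
    (∀ b ∈ S, PS b ∧ nr b ≤ B) → (∀ k ∈ K, k ≠ 0) →
    ∑ k ∈ K, wT T (nr k / K') * ‖col S β k‖ ^ 2 ≤
      C * (Real.log R ^ 4 * (K' ^ (1 / 3 : ℝ) * B * T ^ (-(5 / 6 : ℝ))) +
        R ^ ε * (K' * T ^ (1 / 2 : ℝ) + (K' * B) ^ (2 / 3 : ℝ) * T ^ (-(1 / 6 : ℝ)))) * N2 S β := by
  classical
  have he0 : 0 < min (ε / 9) 1 := lt_min (by positivity) one_pos
  obtain ⟨C₁, hC₁, h₁⟩ := LS_all he0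
  obtain ⟨C₂, hC₂, h₂⟩ := WinD0_sum
  refine ⟨C₁ * 1024 * C₂, by positivity,
    fun R T K' B S K β hR hT hTR hK hK' hB hB' hS hK0 => ?_⟩
  have hT0 : 0 < T := by linarith
  have hB0 : 0 < B := by linarith
  have hR0 : 0 < R := by linarith
  set Y : ℝ := K' * T ^ 2 with hYd
  have hY : 0 < Y := by positivity
  have hY' : Y ≤ 9 * R ^ 4 := by
    calc Y ≤ 9 * R ^ 2 * R ^ 2 := by rw [hYd]; gcongr
      _ = _ := by ring
  set M : ℝ := T ^ (-(3 / 2 : ℝ)) *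
    (Real.log R ^ 4 * (Y ^ (1 / 3 : ℝ) * B) + R ^ ε * (Y + (Y * B) ^ (2 / 3 : ℝ))) with hM
  have hM0 : 0 ≤ M := by positivity
  have hN := N2_nonneg S β
  have eM : Real.log R ^ 4 * (K' ^ (1 / 3 : ℝ) * B * T ^ (-(5 / 6 : ℝ))) +
      R ^ ε * (K' * T ^ (1 / 2 : ℝ) + (K' * B) ^ (2 / 3 : ℝ) * T ^ (-(1 / 6 : ℝ))) = M := by
    have e0 : ∀ a : ℝ, T ^ (-(3 / 2 : ℝ)) * (T ^ 2) ^ a = T ^ (2 * a - 3 / 2) := fun a => by
      rw [← Real.rpow_natCast, ← Real.rpow_mul hT0.le, ← Real.rpow_add hT0]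
      congr 1; push_cast; ring
    have e1 := e0 (1 / 3)
    have e2 := e0 1
    have e3 := e0 (2 / 3)
    rw [Real.rpow_one] at e2
    rw [hM, hYd, mul_right_comm K' (T ^ 2) B, Real.mul_rpow (x := K') (y := T ^ 2) hK.le (by positivity),
      Real.mul_rpow (x := K' * B) (by positivity) (by positivity),
      show -(5 / 6 : ℝ) = 2 * (1 / 3) - 3 / 2 by norm_num,
      show (1 / 2 : ℝ) = 2 * 1 - 3 / 2 by norm_num,
      show -(1 / 6 : ℝ) = 2 * (2 / 3) - 3 / 2 by norm_num, ← e1, ← e2, ← e3]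
    ring
  rw [eM]
  let d : O → ℕ := fun k => Nat.log 2 ⌊nr k⌋₊
  have hd : ∀ k ∈ K, (2 : ℝ) ^ d k ≤ nr k ∧ nr k ≤ 2 ^ (d k + 1) := by
    intro k hk
    have h1 := one_le_nr (hK0 k hk)
    have hf : ⌊nr k⌋₊ ≠ 0 := by
      have := (Nat.one_le_floor_iff _).2 h1
      omega
    constructor
    · exact_mod_cast (Nat.le_floor_iff (by linarith)).1 (Nat.pow_log_le_self 2 hf)
    · exact_mod_cast ((Nat.floor_lt (by linarith)).1
        (Nat.lt_pow_succ_log_self (b := 2) one_lt_two ⌊nr k⌋₊)).le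
  have hmap : ∀ k ∈ K, d k ∈ Finset.range (K.sup d + 1) := fun k hk =>
    Finset.mem_range.2 (Nat.lt_succ_of_le (Finset.le_sup hk))
  rw [← Finset.sum_fiberwise_of_maps_to hmap]
  have key : ∀ j : ℕ, ∑ k ∈ K with d k = j, wT T (nr k / K') * ‖col S β k‖ ^ 2 ≤
      C₁ * 1024 * M * N2 S β * WinD0_g (2 ^ j / Y) := by
    intro j
    set x : ℝ := 2 ^ j / Y with hxd
    have hx : 0 < x := by positivity
    have ex : x * Y = 2 ^ j := div_mul_cancel₀ _ hY.ne'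
    have eH : 2 * x * Y = 2 ^ (j + 1) := by rw [mul_assoc, ex]; ring
    have hH : 1 ≤ 2 * x * Y := by rw [eH]; exact one_le_pow₀ one_le_two
    have a1 := h₁ (2 * x * Y) B 1 S (K.filter fun k => d k = j) β hH hB le_rfl hS fun k hk => by
      obtain ⟨b1, b2⟩ := Finset.mem_filter.1 hk
      exact ⟨hK0 k b1, by rw [eH, ← b2]; exact (hd k b1).2, one_le_cnd k⟩
    have a2 := WinD0_block (ε := ε) he0 (min_le_right _ _)
      (by linarith [min_le_left (ε / 9) 1]) hR hY hY' hB hB' hx hH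
    have hg := gw_pos (x / 20)
    calc _ ≤ ∑ k ∈ K with d k = j,
          T ^ (-(3 / 2 : ℝ)) * (x ^ (-(1 / 4 : ℝ)) * gw (x / 20)) * ‖col S β k‖ ^ 2 := by
          refine Finset.sum_le_sum fun k hk => mul_le_mul_of_nonneg_right ?_ (by positivity)
          obtain ⟨b1, b2⟩ := Finset.mem_filter.1 hk
          exact WinD0_wT hT0 hK hx (by rw [← hYd, ex, ← b2]; exact (hd k b1).1)
      _ ≤ _ := by
          rw [← Finset.mul_sum]
          refine (mul_le_mul_of_nonneg_left a1 (by positivity)).trans ?_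
          have a3 := mul_le_mul_of_nonneg_left a2
            (show 0 ≤ T ^ (-(3 / 2 : ℝ)) * gw (x / 20) * C₁ * N2 S β by positivity)
          refine le_trans (le_of_eq (by ring)) (a3.trans (le_of_eq ?_))
          rw [hM, WinD0_g]
          ring
  refine (Finset.sum_le_sum fun j _ => key j).trans ?_
  rw [← Finset.mul_sum]
  refine (mul_le_mul_of_nonneg_left (h₂ Y _ hY) (by positivity)).trans (le_of_eq ?_)
  ring

end Crest.Agent.R12
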