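import Crest.Agent.R12.WinD
import Crest.Agent.R12.WtA
import Crest.Agent.R12.Cnt

/-!
# Row 12, analytic half: the bilinear estimate for thin weights
-/

set_option autoImplicit false

noncomputable section

namespace Crest.Agent.R12

open Crest.Agent.R17
open scoped ComplexConjugate Topology
open Filter MeasureTheory

theorem WinE0_card (N m : ℕ) (c : ℝ) (P : ℕ → Prop) [DecidablePred P]
    (hP : ∀ j, P j → |c + j| ≤ m) : (((Finset.range N).filter P).card : ℝ) ≤ 2 * m + 1 := by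
  have h : (Finset.range N).filter P ⊆ Finset.Icc ⌈-c - m⌉₊ (⌈-c - m⌉₊ + 2 * m) := fun j hj => by
    obtain ⟨h1, h2⟩ := abs_le.1 (hP j (Finset.mem_filter.1 hj).2)
    refine Finset.mem_Icc.2 ⟨Nat.ceil_le.2 (by linarith), ?_⟩
    have := Nat.le_ceil (-c - m)
    exact_mod_cast (by linarith : (j : ℝ) ≤ ⌈-c - m⌉₊ + 2 * m)
  have := Finset.card_le_card h
  rw [Nat.card_Icc] at this
  exact_mod_cast (by omega : ((Finset.range N).filter P).card ≤ 2 * m + 1)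

/-- Schur's test for a band matrix. -/
theorem band_le (N m : ℕ) (x₀ : ℝ) (p q : ℕ → ℝ) :
    ∑ i ∈ Finset.range N, ∑ j ∈ (Finset.range N).filter (fun j : ℕ => |(i : ℝ) + j - x₀| ≤ m),
      |p i| * |q j| ≤ (2 * m + 1) * Real.sqrt (∑ i ∈ Finset.range N, p i ^ 2) *
        Real.sqrt (∑ j ∈ Finset.range N, q j ^ 2) := by
  set s := (Finset.range N ×ˢ Finset.range N).filter fun x : ℕ × ℕ => |(x.1 : ℝ) + x.2 - x₀| ≤ m
  have e1 : ∀ f : ℕ → ℕ → ℝ, ∑ x ∈ s, f x.1 x.2 = ∑ i ∈ Finset.range N,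
      ∑ j ∈ (Finset.range N).filter (fun j : ℕ => |(i : ℝ) + j - x₀| ≤ m), f i j := fun f => by
    simp only [s, Finset.sum_filter, Finset.sum_product]
  have e2 : ∀ f : ℕ → ℕ → ℝ, ∑ x ∈ s, f x.1 x.2 = ∑ j ∈ Finset.range N,
      ∑ i ∈ (Finset.range N).filter (fun i : ℕ => |(i : ℝ) + j - x₀| ≤ m), f i j := fun f => by
    simp only [s, Finset.sum_filter, Finset.sum_product_right]
  have h1 : ∑ x ∈ s, |p x.1| ^ 2 ≤ (2 * m + 1) * ∑ i ∈ Finset.range N, p i ^ 2 := by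
    rw [e1 fun i _ => |p i| ^ 2, Finset.mul_sum]
    refine Finset.sum_le_sum fun i _ => ?_
    rw [Finset.sum_const, nsmul_eq_mul, sq_abs]
    exact mul_le_mul_of_nonneg_right (WinE0_card N m (i - x₀) _ fun j hj => by
      rwa [sub_add_eq_add_sub]) (sq_nonneg _)
  have h2 : ∑ x ∈ s, |q x.2| ^ 2 ≤ (2 * m + 1) * ∑ i ∈ Finset.range N, q i ^ 2 := by
    rw [e2 fun _ j => |q j| ^ 2, Finset.mul_sum]
    refine Finset.sum_le_sum fun j _ => ?_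
    rw [Finset.sum_const, nsmul_eq_mul, sq_abs]
    exact mul_le_mul_of_nonneg_right (WinE0_card N m (j - x₀) _ fun i hi => by
      rwa [sub_add_eq_add_sub, add_comm]) (sq_nonneg _)
  have h0 : (0 : ℝ) ≤ 2 * m + 1 := by positivity
  rw [← e1 fun i j => |p i| * |q j|]
  refine (Real.sum_mul_le_sqrt_mul_sqrt s _ _).trans ((mul_le_mul (Real.sqrt_le_sqrt h1)
    (Real.sqrt_le_sqrt h2) (Real.sqrt_nonneg _) (Real.sqrt_nonneg _)).trans_eq ?_)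
  rw [Real.sqrt_mul h0, Real.sqrt_mul h0, mul_mul_mul_comm, Real.mul_self_sqrt h0, mul_assoc]

theorem WinE0_sq {x : ℝ} (hx : 0 ≤ x) (r : ℝ) : (x ^ r) ^ 2 = x ^ (2 * r) := by
  rw [mul_comm, Real.rpow_mul hx, Real.rpow_two]

theorem WinE0_sqrt {L P A B T ε : ℝ} (hP : 0 ≤ P) (hA : 0 ≤ A) (hB : 0 ≤ B) (hT : 0 ≤ T) :
    Real.sqrt (L ^ 4 * (A / T + (A * B) ^ (2 / 3 : ℝ) * T ^ (-(2 / 3 : ℝ))) +
        P ^ ε * (B * T ^ (1 / 2 : ℝ) + A ^ (1 / 3 : ℝ) * B * T ^ (-(1 / 6 : ℝ)))) ≤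
      L ^ 2 * ((A / T) ^ (1 / 2 : ℝ) + (A * B) ^ (1 / 3 : ℝ) * T ^ (-(1 / 3 : ℝ))) +
        P ^ (ε / 2) * (B ^ (1 / 2 : ℝ) * T ^ (1 / 4 : ℝ) +
          A ^ (1 / 6 : ℝ) * B ^ (1 / 2 : ℝ) * T ^ (-(1 / 12 : ℝ))) := by
  have h1 : A / T = ((A / T) ^ (1 / 2 : ℝ)) ^ 2 := by
    rw [WinE0_sq (by positivity)]
    norm_num
  have h2 : (A * B) ^ (2 / 3 : ℝ) * T ^ (-(2 / 3 : ℝ)) =
      ((A * B) ^ (1 / 3 : ℝ) * T ^ (-(1 / 3 : ℝ))) ^ 2 := by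
    rw [mul_pow, WinE0_sq (by positivity), WinE0_sq hT]
    norm_num
  have h3 : B * T ^ (1 / 2 : ℝ) = (B ^ (1 / 2 : ℝ) * T ^ (1 / 4 : ℝ)) ^ 2 := by
    rw [mul_pow, WinE0_sq hB, WinE0_sq hT]
    norm_num
  have h4 : A ^ (1 / 3 : ℝ) * B * T ^ (-(1 / 6 : ℝ)) =
      (A ^ (1 / 6 : ℝ) * B ^ (1 / 2 : ℝ) * T ^ (-(1 / 12 : ℝ))) ^ 2 := by
    rw [mul_pow, mul_pow, WinE0_sq hA, WinE0_sq hB, WinE0_sq hT]
    norm_num
  have h5 : P ^ ε = (P ^ (ε / 2)) ^ 2 := by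
    rw [WinE0_sq hP]
    congr 1
    ring
  have p1 : 0 ≤ (A / T) ^ (1 / 2 : ℝ) := by positivity
  have p2 : 0 ≤ (A * B) ^ (1 / 3 : ℝ) * T ^ (-(1 / 3 : ℝ)) := by positivity
  have p3 : 0 ≤ B ^ (1 / 2 : ℝ) * T ^ (1 / 4 : ℝ) := by positivity
  have p4 : 0 ≤ A ^ (1 / 6 : ℝ) * B ^ (1 / 2 : ℝ) * T ^ (-(1 / 12 : ℝ)) := by positivity
  have p5 : 0 ≤ P ^ (ε / 2) := by positivity
  refine Real.sqrt_le_iff.2 ⟨by positivity, ?_⟩
  rw [h2, h3, h4, h5]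
  nth_rewrite 1 [h1]
  generalize (A / T) ^ (1 / 2 : ℝ) = a at *
  generalize (A * B) ^ (1 / 3 : ℝ) * T ^ (-(1 / 3 : ℝ)) = b at *
  generalize B ^ (1 / 2 : ℝ) * T ^ (1 / 4 : ℝ) = c at *
  generalize A ^ (1 / 6 : ℝ) * B ^ (1 / 2 : ℝ) * T ^ (-(1 / 12 : ℝ)) = d at *
  generalize P ^ (ε / 2) = Q at *
  have q1 : 0 ≤ L ^ 4 * (a * b) := by positivity
  have q2 : 0 ≤ Q ^ 2 * (c * d) := by positivity
  have q3 : 0 ≤ L ^ 2 * (a + b) * (Q * (c + d)) := by positivity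
  linarith

theorem WinE0_tw (l : ℤ) (X t : ℝ) (hX : 0 < X) {Sa : Finset O} (Sb : Finset O) (α β : O → ℂ)
    (ha : ∀ a ∈ Sa, PS a) :
    ‖∑ x ∈ Sa ×ˢ Sb, α x.1 * β x.2 * (arg x.1 ^ l * arg x.2 ^ l * Gn x.1 * gk x.1 x.2) *
      ((nr (x.1 * x.2) / X : ℝ) : ℂ) ^ (-(t * Complex.I))‖ ≤
      Real.sqrt (N2 Sa α) * Real.sqrt (∑ a ∈ Sa, ‖TT Sb (tw l t β) a‖ ^ 2) := by
  rw [Finset.sum_product]
  refine (norm_sum_le _ _).trans ((Finset.sum_le_sum fun a h => ?_).trans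
    (Real.sum_mul_le_sqrt_mul_sqrt Sa (fun a => ‖α a‖) fun a => ‖TT Sb (tw l t β) a‖))
  have h0 : 0 < nr a / X := div_pos (nr_pos (ha a h).ne_zero) hX
  have e : ∑ b ∈ Sb, α a * β b * (arg a ^ l * arg b ^ l * Gn a * gk a b) *
      ((nr (a * b) / X : ℝ) : ℂ) ^ (-(t * Complex.I)) =
      α a * (arg a ^ l * Gn a * ((nr a / X : ℝ) : ℂ) ^ (-(t * Complex.I))) *
        TT Sb (tw l t β) a := by
    rw [TT, Finset.mul_sum]
    refine Finset.sum_congr rfl fun b _ => ?_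
    rw [nr_mul, mul_div_right_comm, Complex.ofReal_mul,
      Complex.mul_cpow_ofReal_nonneg h0.le (Nat.cast_nonneg _), tw]
    ring
  rw [e, norm_mul, norm_mul, norm_mul, norm_mul, norm_zpow, norm_arg (ha a h).ne_zero,
    norm_Gn (ha a h).1 (ha a h).2, Complex.norm_cpow_eq_rpow_re_of_pos h0]
  simp

theorem WinE0_mdl {a b : O} (ha : PS a) {A B : ℝ} (hA : 0 < A) (hB : 0 < B) (h1 : A ≤ nr a)
    (h2 : B ≤ nr b) : ‖mdl a b‖ ≤ cP * (A * B) ^ (-(1 / 6 : ℝ)) := by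
  have hc : 0 < cP := by
    have := Real.Gamma_pos_of_pos (s := 2 / 3) (by norm_num)
    unfold cP
    positivity
  rw [mdl]
  split_ifs
  · rw [norm_mul, Complex.norm_conj, tc_sqfree ha.1 ha.2, norm_Gn ha.1 ha.2, one_mul,
      Complex.norm_real, Real.norm_of_nonneg (by positivity), Real.mul_rpow hA.le hB.le, mul_assoc]
    refine mul_le_mul_of_nonneg_left (mul_le_mul ?_ ?_ (by positivity) (by positivity)) hc.le
    · exact Real.rpow_le_rpow_of_nonpos hA h1 (by norm_num)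
    · exact Real.rpow_le_rpow_of_nonpos hB h2 (by norm_num)
  · rw [norm_zero]
    positivity

theorem WinE0_sum {S : Finset O} (β : O → ℂ) {c : ℝ} (h : (S.card : ℝ) ≤ c) :
    ∑ b ∈ S, ‖β b‖ ≤ Real.sqrt c * Real.sqrt (N2 S β) := by
  rw [← Real.sqrt_mul ((Nat.cast_nonneg _).trans h)]
  refine Real.le_sqrt_of_sq_le ((sq_sum_norm_le S β).trans ?_)
  exact mul_le_mul_of_nonneg_right h (Finset.sum_nonneg fun _ _ => sq_nonneg _)

/-- One pair of windows: `ff_mul`; the Gauss sum part by `Adm.sum_le` (`J = 0`), Cauchy–Schwarz and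
`window_lemma`; the model part trivially (`card_window_le`). -/
theorem bil_window (l : ℤ) {ε : ℝ} (hε : 0 < ε) : ∃ C : ℝ, 0 < C ∧
    ∀ (X A B T T₁ : ℝ) (v : ℝ → ℂ) (Φ : ℂ → ℂ) (Sa Sb : Finset O) (α β : O → ℂ), 3 ≤ X →
    Adm v Φ T T₁ → T ≤ X → 1 ≤ A → A ≤ 4 * X → 1 ≤ B → B ≤ 4 * X → T₁ ^ 2 ≤ A → T₁ ^ 2 ≤ B →
    (∀ a ∈ Sa, PS a ∧ A < nr a ∧ nr a ≤ A * Real.exp (1 / T₁)) →
    (∀ b ∈ Sb, PS b ∧ B < nr b ∧ nr b ≤ B * Real.exp (1 / T₁)) →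
    ‖Bil l v X Sa Sb α β‖ ≤ C * Real.sqrt (N2 Sa α) * Real.sqrt (NW 8 Sb β) *
      (Real.log X ^ 3 * ((A / T₁) ^ (1 / 2 : ℝ) + (A * B) ^ (1 / 3 : ℝ) * T₁ ^ (-(1 / 3 : ℝ))) +
        X ^ ε * (B ^ (1 / 2 : ℝ) * T₁ ^ (1 / 4 : ℝ) +
          A ^ (1 / 6 : ℝ) * B ^ (1 / 2 : ℝ) * T₁ ^ (-(1 / 12 : ℝ)))) := by
  obtain ⟨C₁, hC₁, H₁⟩ := window_lemma hε
  obtain ⟨C₂, hC₂, H₂⟩ := Adm.sum_le 0
  obtain ⟨C₃, hC₃, H₃⟩ := card_window_le
  have hc : 0 < cP := by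
    have := Real.Gamma_pos_of_pos (s := 2 / 3) (by norm_num)
    unfold cP
    positivity
  refine ⟨C₂ * Real.sqrt C₁ * (18 + 4 / ε * 4 ^ (ε / 2)) + cP * C₃, by positivity, ?_⟩
  intro X A B T T₁ v Φ Sa Sb α β hX hv hT hA hA' hB hB' hTA hTB ha hb
  have hT₁ := hv.one_le
  have hT₂ := hv.le
  have hL : 1 ≤ Real.log X := by
    rw [Real.le_log_iff_exp_le (by linarith)]
    linarith [Real.exp_one_lt_d9]
  have hL1 : Real.log (2 + T) ≤ 2 * Real.log X := by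
    have := Real.log_le_log (by linarith) (by nlinarith : 2 + T ≤ X ^ 2)
    rwa [Real.log_pow] at this
  have hL2 : Real.log (4 * X) ≤ 3 * Real.log X := by
    have := Real.log_le_log (by linarith) (by nlinarith [sq_nonneg X] : 4 * X ≤ X ^ 3)
    rwa [Real.log_pow] at this
  have hL3 : 0 ≤ Real.log (4 * X) := Real.log_nonneg (by linarith)
  have hL4 : Real.log X * (4 * X) ^ (ε / 2) ≤ 2 / ε * 4 ^ (ε / 2) * X ^ ε := by
    have h1 := Real.log_le_rpow_div (by linarith : 0 ≤ X) (half_pos hε)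
    have h2 : X ^ ε = X ^ (ε / 2) * X ^ (ε / 2) := by
      rw [← Real.rpow_add (by linarith), add_halves]
    rw [Real.mul_rpow (by norm_num) (by linarith), h2]
    refine (mul_le_mul_of_nonneg_right h1 (by positivity)).trans_eq ?_
    field_simp
  have X0 : 0 < X := by linarith
  have A0 : 0 < A := by linarith
  have B0 : 0 < B := by linarith
  have T0 : 0 < T₁ := by linarith
  set u := (A / T₁) ^ (1 / 2 : ℝ) + (A * B) ^ (1 / 3 : ℝ) * T₁ ^ (-(1 / 3 : ℝ)) with hu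
  set w := B ^ (1 / 2 : ℝ) * T₁ ^ (1 / 4 : ℝ) +
    A ^ (1 / 6 : ℝ) * B ^ (1 / 2 : ℝ) * T₁ ^ (-(1 / 12 : ℝ)) with hw
  have u0 : 0 ≤ u := by positivity
  have w0 : 0 ≤ w := by positivity
  set n := Real.sqrt (N2 Sa α) * Real.sqrt (NW 8 Sb β) with hn
  have n0 : 0 ≤ n := by positivity
  -- the Gauss sum part
  have g1 := H₂ v Φ T T₁ _ (Sa ×ˢ Sb)
    (fun x => α x.1 * β x.2 * (arg x.1 ^ l * arg x.2 ^ l * Gn x.1 * gk x.1 x.2))
    (fun x => nr (x.1 * x.2) / X)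
    (Real.sqrt C₁ * n * (Real.log (4 * X) ^ 2 * u + (4 * X) ^ (ε / 2) * w)) 0 0 hv
    (fun x hx => div_pos (nr_pos (mul_ne_zero (ha _ (Finset.mem_product.1 hx).1).1.ne_zero
      (hb _ (Finset.mem_product.1 hx).2).1.ne_zero)) X0) (by positivity) le_rfl le_rfl fun t => by
      rw [pow_zero, mul_one, ite_self, add_zero]
      refine (WinE0_tw l X t X0 Sb α β fun a h => (ha a h).1).trans ?_
      have h1 := Real.sqrt_le_sqrt (H₁ (4 * X) T₁ A B Sa Sb (tw l t β) (by linarith) hT₁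
        (by linarith) hA hA' hB hB' (fun a h => ⟨(ha a h).1.1, (ha a h).2⟩) hb)
      have h2 : NW 8 Sb (tw l t β) = NW 8 Sb β :=
        Finset.sum_congr rfl fun b h => by rw [norm_tw l t β (hb b h).1.ne_zero]
      rw [h2, Real.sqrt_mul' _ (NW_nonneg (by norm_num) _ _), Real.sqrt_mul hC₁.le] at h1
      have h3 := WinE0_sqrt (L := Real.log (4 * X)) (P := 4 * X) (ε := ε) (by positivity) A0.le
        B0.le T0.le
      calc _ ≤ Real.sqrt (N2 Sa α) * (Real.sqrt C₁ *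
            (Real.log (4 * X) ^ 2 * u + (4 * X) ^ (ε / 2) * w) * Real.sqrt (NW 8 Sb β)) := by
            refine mul_le_mul_of_nonneg_left (h1.trans ?_) (Real.sqrt_nonneg _)
            gcongr
        _ = _ := by rw [hn]; ring
  have g2 : (Real.log (4 * X) ^ 2 * u + (4 * X) ^ (ε / 2) * w) * Real.log (2 + T) ≤
      (18 + 4 / ε * 4 ^ (ε / 2)) * (Real.log X ^ 3 * u + X ^ ε * w) := by
    have h1 : (0 : ℝ) ≤ 4 / ε * 4 ^ (ε / 2) * (Real.log X ^ 3 * u) := by positivity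
    have h2 : 0 ≤ X ^ ε * w := by positivity
    have h3 := mul_le_mul_of_nonneg_right hL4 w0
    have h4 : 0 ≤ Real.log (2 + T) := Real.log_nonneg (by linarith)
    calc _ ≤ ((3 * Real.log X) ^ 2 * u + (4 * X) ^ (ε / 2) * w) * (2 * Real.log X) := by
          gcongr
      _ ≤ _ := by
          have : (4 : ℝ) / ε = 2 * (2 / ε) := by ring
          rw [this] at h1 ⊢
          linarith
  -- the model part
  have m1 : ‖∑ x ∈ Sa ×ˢ Sb, α x.1 * β x.2 * (arg x.1 ^ l * arg x.2 ^ l * Gn x.1 * mdl x.1 x.2) *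
      v (nr (x.1 * x.2) / X)‖ ≤
      cP * (A * B) ^ (-(1 / 6 : ℝ)) * ((∑ a ∈ Sa, ‖α a‖) * ∑ b ∈ Sb, ‖β b‖) := by
    rw [Finset.sum_mul_sum, ← Finset.sum_product', Finset.mul_sum]
    refine (norm_sum_le _ _).trans (Finset.sum_le_sum fun x hx => ?_)
    obtain ⟨a1, a2, -⟩ := ha _ (Finset.mem_product.1 hx).1
    obtain ⟨b1, b2, -⟩ := hb _ (Finset.mem_product.1 hx).2
    have h1 := WinE0_mdl (b := x.2) a1 A0 B0 a2.le b2.le
    have h2 := hv.norm_le_one (div_pos (nr_pos (mul_ne_zero a1.ne_zero b1.ne_zero)) X0)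
    simp only [norm_mul, norm_zpow, norm_arg a1.ne_zero, norm_arg b1.ne_zero, norm_Gn a1.1 a1.2,
      one_zpow, one_mul]
    calc _ ≤ ‖α x.1‖ * ‖β x.2‖ * (cP * (A * B) ^ (-(1 / 6 : ℝ))) * 1 := by gcongr
      _ = _ := by ring
  have m2 : (A * B) ^ (-(1 / 6 : ℝ)) * ((∑ a ∈ Sa, ‖α a‖) * ∑ b ∈ Sb, ‖β b‖) ≤
      C₃ * n * (Real.log X ^ 3 * u + X ^ ε * w) := by
    have h1 := WinE0_sum α (H₃ T₁ A Sa hT₁ hTA fun a h => ⟨(ha a h).1.1, (ha a h).2⟩)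
    have h2 := WinE0_sum β (H₃ T₁ B Sb hT₁ hTB fun b h => ⟨(hb b h).1.1, (hb b h).2⟩)
    have h3 := Real.sqrt_le_sqrt (N2_le_NW (k := 8) (by norm_num) Sb β)
    have h4 : Real.sqrt (C₃ * A / T₁) * Real.sqrt (C₃ * B / T₁) =
        C₃ * T₁⁻¹ * (A * B) ^ (1 / 2 : ℝ) := by
      rw [← Real.sqrt_mul (by positivity), ← Real.sqrt_eq_rpow,
        show C₃ * A / T₁ * (C₃ * B / T₁) = (C₃ * T₁⁻¹) ^ 2 * (A * B) by ring,
        Real.sqrt_mul (sq_nonneg _), Real.sqrt_sq (by positivity)]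
    have h5 : (A * B) ^ (-(1 / 6 : ℝ)) * (A * B) ^ (1 / 2 : ℝ) = (A * B) ^ (1 / 3 : ℝ) := by
      rw [← Real.rpow_add (by positivity)]
      norm_num
    have h6 : T₁⁻¹ ≤ T₁ ^ (-(1 / 3 : ℝ)) := by
      rw [← Real.rpow_neg_one]
      exact Real.rpow_le_rpow_of_exponent_le hT₁ (by norm_num)
    have h7 : (A * B) ^ (1 / 3 : ℝ) * T₁⁻¹ ≤ Real.log X ^ 3 * u + X ^ ε * w := by
      have k1 : (A * B) ^ (1 / 3 : ℝ) * T₁⁻¹ ≤ u :=
        (mul_le_mul_of_nonneg_left h6 (by positivity)).trans (le_add_of_nonneg_left (by positivity))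
      have k2 := le_mul_of_one_le_left u0 (one_le_pow₀ (n := 3) hL)
      have k3 : 0 ≤ X ^ ε * w := by positivity
      linarith
    calc _ ≤ (A * B) ^ (-(1 / 6 : ℝ)) * ((Real.sqrt (C₃ * A / T₁) * Real.sqrt (N2 Sa α)) *
          (Real.sqrt (C₃ * B / T₁) * Real.sqrt (NW 8 Sb β))) := by
          refine mul_le_mul_of_nonneg_left (mul_le_mul h1 (h2.trans ?_)
            (Finset.sum_nonneg fun _ _ => norm_nonneg _) (by positivity)) (by positivity)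
          gcongr
      _ = C₃ * n * ((A * B) ^ (1 / 3 : ℝ) * T₁⁻¹) := by
          rw [mul_mul_mul_comm, h4, ← h5, hn]
          ring
      _ ≤ _ := by gcongr
  have e : Bil l v X Sa Sb α β =
      ∑ x ∈ Sa ×ˢ Sb, α x.1 * β x.2 * (arg x.1 ^ l * arg x.2 ^ l * Gn x.1 * gk x.1 x.2) *
        v (nr (x.1 * x.2) / X) -
      ∑ x ∈ Sa ×ˢ Sb, α x.1 * β x.2 * (arg x.1 ^ l * arg x.2 ^ l * Gn x.1 * mdl x.1 x.2) *
        v (nr (x.1 * x.2) / X) := by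
    rw [Bil, ← Finset.sum_product', ← Finset.sum_sub_distrib]
    refine Finset.sum_congr rfl fun x hx => ?_
    rw [ff_mul l (ha _ (Finset.mem_product.1 hx).1).1 (hb _ (Finset.mem_product.1 hx).2).1]
    ring
  have g3 := mul_le_mul_of_nonneg_left g2 (by positivity : 0 ≤ C₂ * Real.sqrt C₁ * n)
  have m3 := mul_le_mul_of_nonneg_left m2 hc.le
  rw [e, mul_assoc _ (Real.sqrt (N2 Sa α)), ← hn]
  refine (norm_sub_le _ _).trans ?_
  linarith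

end Crest.Agent.R12
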