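import Crest.Agent.R12.Defs
import Crest.Agent.R12.ThGam

/-!
# Row 12, analytic half: admissible weights
-/

set_option autoImplicit false

noncomputable section

namespace Crest.Agent.R12

open Crest.Agent.R17
open scoped ComplexConjugate Topology
open Filter MeasureTheory

section
variable {v : ℝ → ℂ} {Φ : ℂ → ℂ} {T T₁ : ℝ}

theorem Adm.one_le_T (h : Adm v Φ T T₁) : 1 ≤ T := h.one_le.trans h.le
theorem Adm.norm_le_one (h : Adm v Φ T T₁) {y : ℝ} (hy : 0 < y) : ‖v y‖ ≤ 1 := by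
  refine (h.sp y hy).trans (Real.exp_le_one_iff.2 ?_)
  have := h.one_le
  have := abs_nonneg (Real.log y)
  nlinarith
theorem Adm.mono (h : Adm v Φ T T₁) {T₁' : ℝ} (h1 : 1 ≤ T₁') (h2 : T₁' ≤ T₁) : Adm v Φ T T₁' := by
  refine ⟨h1, h2.trans h.le, h.strip, h.rep, h.mel, fun s hs => ?_, fun y hy => ?_, h.tail⟩
  · exact (h.mel₁ s hs).trans (inv_anti₀ (by linarith) h2)
  · refine (h.sp y hy).trans (Real.exp_le_exp.2 ?_)
    have := abs_nonneg (Real.log y)
    nlinarith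
theorem AdmS.adm (h : AdmS v Φ T T₁) : Adm v Φ T T₁ := by
  simpa using h 0 (by simp)

theorem WtA0_mul_cpow (h : StripDecay Φ) {Y : ℝ} (hY : 0 < Y) :
    StripDecay fun s => Φ s * (Y : ℂ) ^ s := by
  refine ⟨h.1.mul (differentiable_id.const_cpow (Or.inl (Complex.ofReal_ne_zero.2 hY.ne'))),
    fun a b => ?_⟩
  obtain ⟨C, hC⟩ := h.2 a b
  refine ⟨|C| * (Y ^ a + Y ^ b), fun s h0 h1 => ?_⟩
  have h2 := (hC s h0 h1).trans (mul_le_mul_of_nonneg_right (le_abs_self C) (Real.exp_pos _).le)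
  have h4 : Y ^ s.re ≤ Y ^ a + Y ^ b := thMel_rpow_le hY h0 h1
  rw [norm_mul, Complex.norm_cpow_eq_rpow_re_of_pos hY]
  refine (mul_le_mul h2 h4 (by positivity) (by positivity)).trans (le_of_eq ?_)
  ring

theorem WtA0_shift_le (h : StripDecay Φ) {a b : ℝ} (hab : a ≤ b) : lineI a Φ = lineI b Φ := by
  obtain ⟨C, hC⟩ := h.2 a b
  unfold lineI
  exact congrArg _ (integral_vertical_shift (F := Φ) hab h.1.differentiableOn (C := C)
    (by norm_num : (0 : ℝ) < 10) fun t h0 h1 => hC t h0 h1)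

theorem WtA0_shift (h : StripDecay Φ) (a b : ℝ) : lineI a Φ = lineI b Φ := by
  rcases le_total a b with hab | hab
  · exact WtA0_shift_le h hab
  · exact (WtA0_shift_le h hab).symm

theorem WtA0_inv_cpow {y : ℝ} (hy : 0 < y) (s : ℂ) : ((y⁻¹ : ℝ) : ℂ) ^ s = (y : ℂ) ^ (-s) := by
  rw [Complex.ofReal_inv, Complex.inv_cpow _ _ (by
    rw [Complex.arg_ofReal_of_nonneg hy.le]; exact Real.pi_pos.ne), Complex.cpow_neg]

/-- `integral_vertical_shift`. -/
theorem Adm.rep' (h : Adm v Φ T T₁) (σ : ℝ) {y : ℝ} (hy : 0 < y) :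
    v y = lineI σ fun s => Φ s * (y : ℂ) ^ (-s) := by
  have h1 := WtA0_mul_cpow h.strip (inv_pos.2 hy)
  simp only [WtA0_inv_cpow hy] at h1
  rw [h.rep y hy, WtA0_shift h1 0 σ]
theorem Adm.twist (h : Adm v Φ T T₁) (τ : ℝ) :
    Adm (fun y => ((((1 + |τ|) * Real.exp |τ|)⁻¹ : ℝ) : ℂ) * (v y * (y : ℂ) ^ (τ * Complex.I)))
      (fun s => ((((1 + |τ|) * Real.exp |τ|)⁻¹ : ℝ) : ℂ) * Φ (s + τ * Complex.I)) T T₁ := by
  have hτ := abs_nonneg τ
  have he := Real.exp_pos |τ|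
  have he1 : 1 ≤ Real.exp |τ| := Real.one_le_exp hτ
  have hT := h.one_le_T
  set c : ℝ := ((1 + |τ|) * Real.exp |τ|)⁻¹ with hc
  have hc0 : 0 < c := by positivity
  have hc1 : c ≤ 1 := inv_le_one_of_one_le₀ (by nlinarith)
  have hre : ∀ s : ℂ, (s + τ * Complex.I).re = s.re := fun s => by simp
  have him : ∀ s : ℂ, (s + τ * Complex.I).im = s.im + τ := fun s => by simp
  have hn : ∀ z : ℂ, ‖(c : ℂ) * z‖ = c * ‖z‖ := fun z => by
    rw [norm_mul, Complex.norm_real, Real.norm_of_nonneg hc0.le]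
  have hn1 : ∀ z : ℂ, ‖(c : ℂ) * z‖ ≤ ‖z‖ := fun z => by
    rw [hn]; exact mul_le_of_le_one_left (norm_nonneg _) hc1
  have hv : ∀ y : ℝ, 0 < y → ‖(c : ℂ) * (v y * (y : ℂ) ^ (τ * Complex.I))‖ ≤ ‖v y‖ := fun y hy => by
    refine (hn1 _).trans (le_of_eq ?_)
    rw [norm_mul, Complex.norm_cpow_eq_rpow_re_of_pos hy]
    simp
  have htri : ∀ u : ℝ, |u| ≤ |u + τ| + |τ| := fun u => by
    simpa using abs_sub (u + τ) τ
  refine ⟨h.one_le, h.le, ⟨(h.strip.1.comp (by fun_prop)).const_mul _, fun a b => ?_⟩,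
    fun y hy => ?_, fun s hs => ?_, fun s hs => ?_, fun y hy => (hv y hy).trans (h.sp y hy),
    fun y hy hy' => (hv y hy).trans (h.tail y hy hy')⟩
  · obtain ⟨C, hC⟩ := h.strip.2 a b
    refine ⟨|C| * Real.exp (10 * |τ|), fun s h0 h1 => (hn1 _).trans ?_⟩
    have h2 := (hC (s + τ * Complex.I) (by rwa [hre]) (by rwa [hre])).trans
      (mul_le_mul_of_nonneg_right (le_abs_self C) (Real.exp_pos _).le)
    refine h2.trans ?_
    rw [him, mul_assoc, ← Real.exp_add]
    refine mul_le_mul_of_nonneg_left (Real.exp_le_exp.2 ?_) (abs_nonneg _)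
    linarith [htri s.im]
  · have hy' : (y : ℂ) ≠ 0 := Complex.ofReal_ne_zero.2 hy.ne'
    rw [h.rep y hy]
    unfold lineI
    rw [← integral_add_right_eq_self _ τ, mul_assoc, mul_left_comm, ← integral_mul_const,
      ← integral_const_mul]
    congr 1
    refine integral_congr_ae (Eventually.of_forall fun u => ?_)
    have e : ((0 : ℝ) : ℂ) + ((u + τ : ℝ) : ℂ) * Complex.I =
        ((0 : ℝ) : ℂ) + u * Complex.I + τ * Complex.I := by push_cast; ring
    simp only [e]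
    rw [mul_assoc, mul_assoc, ← Complex.cpow_add _ _ hy']
    congr 3
    ring
  · rw [hn]
    have h2 := h.mel (s + τ * Complex.I) (by rwa [hre])
    rw [him] at h2
    refine (mul_le_mul_of_nonneg_left h2 hc0.le).trans ?_
    have hu := abs_nonneg s.im
    have hw := abs_nonneg (s.im + τ)
    have a1 : (1 + |τ|)⁻¹ * (1 + |s.im + τ|)⁻¹ ≤ (1 + |s.im|)⁻¹ := by
      rw [← mul_inv]
      exact inv_anti₀ (by linarith) (by nlinarith [htri s.im])
    have a2 : (Real.exp |τ|)⁻¹ * Real.exp (-|s.im + τ| / T) ≤ Real.exp (-|s.im| / T) := by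
      rw [← Real.exp_neg, ← Real.exp_add]
      refine Real.exp_le_exp.2 ?_
      have hT0 : 0 < T := by linarith
      have b1 : |τ| / T ≤ |τ| := div_le_self hτ hT
      have b2 : (-|s.im + τ| - |τ|) / T ≤ -|s.im| / T :=
        div_le_div_of_nonneg_right (by linarith [htri s.im]) hT0.le
      rw [sub_div] at b2
      linarith
    calc c * ((1 + |s.im + τ|)⁻¹ * Real.exp (-|s.im + τ| / T))
        = ((1 + |τ|)⁻¹ * (1 + |s.im + τ|)⁻¹) *
          ((Real.exp |τ|)⁻¹ * Real.exp (-|s.im + τ| / T)) := by rw [hc, mul_inv]; ring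
      _ ≤ _ := mul_le_mul a1 a2 (by positivity) (by positivity)
  · exact (hn1 _).trans (h.mel₁ _ (by rwa [hre]))
theorem StripDecay.mul_cpow (h : StripDecay Φ) {Y : ℝ} (hY : 0 < Y) :
    StripDecay fun s => Φ s * (Y : ℂ) ^ s := WtA0_mul_cpow h hY
theorem Mom_mul_cpow (Φ : ℂ → ℂ) {Y : ℝ} (hY : 0 < Y) (σ : ℝ) (k : ℕ) :
    Mom (fun s => Φ s * (Y : ℂ) ^ s) σ k = Y ^ σ * Mom Φ σ k := by
  unfold Mom
  rw [← integral_const_mul]
  refine integral_congr_ae (Eventually.of_forall fun u => ?_)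
  have e : ((σ : ℂ) + u * Complex.I).re = σ := by simp
  simp only [norm_mul, Complex.norm_cpow_eq_rpow_re_of_pos hY, e]
  ring
/-- The smooth sum as a contour integral (`lineI_Dser`, `Adm.rep'`). -/
theorem Adm.tsum_eq (h : Adm v Φ T T₁) {a : O → ℂ} {H Y : ℝ} (ha : PolyB a H (1 / 6))
    (hY : 0 < Y) : (Summable fun n : O => ‖a n * v (nr n / Y)‖) ∧
      ∑' n : O, a n * v (nr n / Y) = lineI 2 fun s => Φ s * (Y : ℂ) ^ s * Dser a s := by
  have hH := WeightB.H_nonneg ha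
  constructor
  · refine Summable.of_nonneg_of_le (fun _ => norm_nonneg _) (fun n => ?_)
      ((summable_nr_rpow (σ := 11 / 6) (by norm_num)).mul_left (H * Y ^ (2 : ℝ)))
    by_cases hn : n = 0
    · subst hn
      rw [ha.1, zero_mul, norm_zero]
      positivity
    have h0 := nr_pos hn
    have hy : 0 < nr n / Y := div_pos h0 hY
    have h1 : ‖v (nr n / Y)‖ ≤ (nr n / Y) ^ (-2 : ℝ) := by
      refine (h.sp _ hy).trans ?_
      rw [Real.rpow_def_of_pos hy]
      refine Real.exp_le_exp.2 ?_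
      have := h.one_le
      have := abs_nonneg (Real.log (nr n / Y))
      have := le_abs_self (Real.log (nr n / Y))
      nlinarith
    rw [norm_mul]
    refine (mul_le_mul (ha.2 n) h1 (norm_nonneg _) (by positivity)).trans (le_of_eq ?_)
    rw [Real.div_rpow h0.le hY.le, Real.rpow_neg hY.le, div_inv_eq_mul,
      show (-(11 / 6) : ℝ) = 1 / 6 + -2 by norm_num, Real.rpow_add h0]
    ring
  · rw [lineI_Dser (h.strip.mul_cpow hY) ha (by norm_num : (7 / 6 : ℝ) < 2)]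
    refine tsum_congr fun n => ?_
    by_cases hn : n = 0
    · subst hn
      rw [ha.1, zero_mul, zero_mul]
    have h0 := nr_pos hn
    rw [h.rep' 2 (div_pos h0 hY)]
    congr 2
    funext s
    rw [div_eq_mul_inv, Complex.ofReal_mul,
      Complex.mul_cpow_ofReal_nonneg h0.le (inv_nonneg.2 hY.le), WtA0_inv_cpow hY, neg_neg]
    push_cast
    ring

end

end Crest.Agent.R12
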