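import Crest.Agent.R12.WtA0

/-!
# Row 12, analytic half: admissible weights
-/

set_option autoImplicit false

noncomputable section

namespace Crest.Agent.R12

open Crest.Agent.R17
open scoped ComplexConjugate Topology
open Filter MeasureTheory

theorem WtA1_integrable {T : ℝ} (hT : 0 < T) :
    Integrable fun u : ℝ => (1 + |u|)⁻¹ * Real.exp (-T⁻¹ * |u|) := by
  have hc : Continuous fun u : ℝ => (1 + |u|)⁻¹ * Real.exp (-T⁻¹ * |u|) :=
    (Continuous.inv₀ (by fun_prop) fun u => by positivity).mul (by fun_prop)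
  refine (RMA.integrable_exp_abs (inv_pos.2 hT)).mono' hc.aestronglyMeasurable
    (Eventually.of_forall fun u => ?_)
  rw [Real.norm_of_nonneg (by positivity)]
  exact mul_le_of_le_one_left (Real.exp_pos _).le
    (inv_le_one_of_one_le₀ (by linarith [abs_nonneg u]))

theorem WtA1_log {T : ℝ} (hT : 1 ≤ T) :
    ∫ u : ℝ, (1 + |u|)⁻¹ * Real.exp (-T⁻¹ * |u|) ≤ 4 * Real.log (1 + T) := by
  have hT0 : 0 < T := by linarith
  have hd : ∀ x ∈ Set.Ici (0 : ℝ), HasDerivAt
      (fun x => 2 * (Real.log (x + 1) - Real.log (x + (1 + T))))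
      (2 * ((x + 1)⁻¹ - (x + (1 + T))⁻¹)) x := fun x hx => by
    have hx : (0 : ℝ) ≤ x := hx
    have h1 := ((hasDerivAt_id x).add_const 1).log (show x + 1 ≠ 0 by positivity)
    have h2 := ((hasDerivAt_id x).add_const (1 + T)).log (show x + (1 + T) ≠ 0 by positivity)
    exact ((h1.fun_sub h2).const_mul 2).congr_deriv (by simp)
  have hp : ∀ x ∈ Set.Ioi (0 : ℝ), 0 ≤ 2 * ((x + 1)⁻¹ - (x + (1 + T))⁻¹) := fun x hx => by
    have hx : (0 : ℝ) < x := hx
    have := inv_anti₀ (show 0 < x + 1 by positivity) (show x + 1 ≤ x + (1 + T) by linarith)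
    linarith
  have hl : Tendsto (fun x => 2 * (Real.log (x + 1) - Real.log (x + (1 + T)))) atTop (𝓝 0) := by
    have := ((Real.tendsto_log_comp_add_sub_log 1).sub
      (Real.tendsto_log_comp_add_sub_log (1 + T))).const_mul 2
    simpa using this
  rw [integral_comp_abs (f := fun x => (1 + x)⁻¹ * Real.exp (-T⁻¹ * x))]
  have h1 : ∫ x in Set.Ioi (0 : ℝ), (1 + x)⁻¹ * Real.exp (-T⁻¹ * x) ≤
      ∫ x in Set.Ioi (0 : ℝ), 2 * ((x + 1)⁻¹ - (x + (1 + T))⁻¹) := by
    refine setIntegral_mono_on ((WtA1_integrable hT0).integrableOn.congr_fun (fun x hx => ?_)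
      measurableSet_Ioi) (integrableOn_Ioi_deriv_of_nonneg' hd hp hl) measurableSet_Ioi
      fun x hx => ?_
    · simp only [abs_of_pos (show (0 : ℝ) < x from hx)]
    · have hx : (0 : ℝ) < x := hx
      have e1 : Real.exp (-T⁻¹ * x) ≤ (T⁻¹ * x + 1)⁻¹ := by
        rw [neg_mul, Real.exp_neg]
        exact inv_anti₀ (by positivity) (Real.add_one_le_exp _)
      refine (mul_le_mul_of_nonneg_left e1 (by positivity)).trans ?_
      have e2 : 2 * ((x + 1)⁻¹ - (x + (1 + T))⁻¹) = (1 + x)⁻¹ * (2 * T / (x + (1 + T))) := by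
        field_simp
        ring
      have e3 : (T⁻¹ * x + 1)⁻¹ = T / (x + T) := by field_simp
      rw [e2, e3]
      refine mul_le_mul_of_nonneg_left ?_ (by positivity)
      rw [div_le_div_iff₀ (by positivity) (by positivity)]
      nlinarith [mul_pos hT0 hx]
  rw [integral_Ioi_of_hasDerivAt_of_nonneg' hd hp hl] at h1
  simp only [zero_add, Real.log_one] at h1
  linarith

theorem WtA1_pow (k : ℕ) {T x : ℝ} (hT : 1 ≤ T) (hx : 0 ≤ x) :
    Real.exp (-x / T) * (1 + x) ^ k ≤
      k.factorial * Real.exp 1 * 2 ^ k * T ^ k * Real.exp (-(2 * T)⁻¹ * x) := by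
  have hT0 : 0 < T := by linarith
  have h1 := Real.pow_div_factorial_le_exp ((1 + x) / (2 * T)) (by positivity) k
  rw [div_le_iff₀' (by positivity), div_pow, div_le_iff₀ (by positivity)] at h1
  refine (mul_le_mul_of_nonneg_left h1 (Real.exp_pos _).le).trans ?_
  have h2 : Real.exp (-x / T) * Real.exp ((1 + x) / (2 * T)) ≤
      Real.exp 1 * Real.exp (-(2 * T)⁻¹ * x) := by
    rw [← Real.exp_add, ← Real.exp_add]
    refine Real.exp_le_exp.2 ?_
    have e : -x / T + (1 + x) / (2 * T) = (2 * T)⁻¹ + -(2 * T)⁻¹ * x := by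
      field_simp
      ring
    have := inv_le_one_of_one_le₀ (show 1 ≤ 2 * T by linarith)
    linarith
  calc _ = k.factorial * (2 * T) ^ k * (Real.exp (-x / T) * Real.exp ((1 + x) / (2 * T))) := by ring
    _ ≤ k.factorial * (2 * T) ^ k * (Real.exp 1 * Real.exp (-(2 * T)⁻¹ * x)) := by gcongr
    _ = _ := by rw [mul_pow]; ring

open Classical in
theorem WtA1_tail {T U : ℝ} (hT : 0 < T) :
    Integrable (fun t : ℝ => if U ≤ |t| then Real.exp (-T⁻¹ * |t|) else 0) ∧
    ∫ t : ℝ, (if U ≤ |t| then Real.exp (-T⁻¹ * |t|) else 0) ≤ 2 * (T * Real.exp (-U / T)) := by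
  have ha : -T⁻¹ < 0 := neg_lt_zero.2 (inv_pos.2 hT)
  constructor
  · exact (RMA.integrable_exp_abs (inv_pos.2 hT)).indicator
      (s := {t : ℝ | U ≤ |t|}) (measurableSet_le measurable_const measurable_abs)
  · rw [integral_comp_abs (f := fun x => if U ≤ x then Real.exp (-T⁻¹ * x) else 0)]
    have hi : Integrable ((Set.Ici U).indicator fun x => Real.exp (-T⁻¹ * x)) :=
      (integrable_indicator_iff measurableSet_Ici).2
        ((integrableOn_Ici_iff_integrableOn_Ioi (by simp)).2 (integrableOn_exp_mul_Ioi ha U))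
    have h1 := setIntegral_le_integral (s := Set.Ioi (0 : ℝ)) hi (Eventually.of_forall fun x =>
      Set.indicator_nonneg (fun _ _ => (Real.exp_pos _).le) x)
    refine mul_le_mul_of_nonneg_left (h1.trans_eq ?_) zero_le_two
    rw [integral_indicator measurableSet_Ici, integral_Ici_eq_integral_Ioi,
      integral_exp_mul_Ioi ha, show -T⁻¹ * U = -U / T by ring]
    field_simp

theorem Adm.mom_le (k : ℕ) : ∃ C : ℝ, 0 < C ∧ ∀ (v : ℝ → ℂ) (Φ : ℂ → ℂ) (T T₁ σ : ℝ),
    Adm v Φ T T₁ → |σ| ≤ 2 → Mom Φ σ k ≤ C * Real.log (2 + T) * T ^ k := by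
  refine ⟨k.factorial * Real.exp 1 * 2 ^ k * 8, by positivity, fun v Φ T T₁ σ h hσ => ?_⟩
  have hT := h.one_le_T
  have hT0 : 0 < T := by linarith
  have h1 : Mom Φ σ k ≤ ∫ u : ℝ, k.factorial * Real.exp 1 * 2 ^ k * T ^ k *
      ((1 + |u|)⁻¹ * Real.exp (-(2 * T)⁻¹ * |u|)) := by
    refine integral_mono (h.strip.integrable σ k)
      ((WtA1_integrable (by positivity)).const_mul _) fun u => ?_
    have h2 := h.mel (σ + u * Complex.I) (by simpa using hσ)
    rw [show ((σ : ℂ) + u * Complex.I).im = u by simp] at h2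
    refine (mul_le_mul_of_nonneg_right h2 (by positivity)).trans ?_
    rw [mul_assoc, mul_left_comm _ (1 + |u|)⁻¹]
    exact mul_le_mul_of_nonneg_left (WtA1_pow k hT (abs_nonneg u)) (by positivity)
  rw [integral_const_mul] at h1
  have h2 : Real.log (1 + 2 * T) ≤ 2 * Real.log (2 + T) := by
    have := Real.log_le_log (show 0 < 1 + 2 * T by positivity)
      (show 1 + 2 * T ≤ (2 + T) ^ 2 by nlinarith)
    rwa [Real.log_pow] at this
  have h3 := WtA1_log (show 1 ≤ 2 * T by linarith)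
  refine h1.trans ((mul_le_mul_of_nonneg_left (h3.trans (show _ ≤ 8 * Real.log (2 + T) by
    linarith)) (by positivity)).trans_eq ?_)
  ring

open Classical in
/-- **Mellin separation** of an admissible weight. -/
theorem Adm.sum_le (J : ℕ) : ∃ C : ℝ, 0 < C ∧ ∀ (v : ℝ → ℂ) (Φ : ℂ → ℂ) (T T₁ : ℝ) (ι : Type)
    (S : Finset ι) (c : ι → ℂ) (y : ι → ℝ) (E₁ E₃ U : ℝ), Adm v Φ T T₁ → (∀ i ∈ S, 0 < y i) →
    0 ≤ E₁ → 0 ≤ E₃ → 0 ≤ U →
    (∀ t : ℝ, ‖∑ i ∈ S, c i * (y i : ℂ) ^ (-(t * Complex.I))‖ ≤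
      E₁ * (1 + |t|) ^ J + if U ≤ |t| then E₃ else 0) →
    ‖∑ i ∈ S, c i * v (y i)‖ ≤
      C * (E₁ * Real.log (2 + T) * T ^ J + E₃ * T * Real.exp (-U / T)) := by
  obtain ⟨C, hC, H⟩ := Adm.mom_le J
  refine ⟨C + 2, by positivity, fun v Φ T T₁ ι S c y E₁ E₃ U h hy h1 h3 _ hb => ?_⟩
  have hT := h.one_le_T
  have hT0 : 0 < T := by linarith
  have hm := H v Φ T T₁ 0 h (by norm_num)
  have i0 := h.strip.integrable 0 0
  have iJ := h.strip.integrable 0 J
  unfold Mom at hm
  simp only [Complex.ofReal_zero, zero_add, pow_zero, mul_one] at hm i0 iJ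
  have hi : ∀ i ∈ S, Integrable fun t : ℝ =>
      c i * (Φ (t * Complex.I) * (y i : ℂ) ^ (-(t * Complex.I))) := fun i hi => by
    refine Integrable.const_mul (i0.mono' (Continuous.aestronglyMeasurable ?_)
      (Eventually.of_forall fun t => ?_)) _
    · exact (h.strip.1.continuous.comp (by fun_prop)).mul (Continuous.const_cpow (by fun_prop)
        (Or.inl (Complex.ofReal_ne_zero.2 (hy i hi).ne')))
    · rw [norm_mul, Complex.norm_cpow_eq_rpow_re_of_pos (hy i hi)]
      simp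
  have e1 : ∑ i ∈ S, c i * v (y i) = (1 / (2 * Real.pi) : ℂ) *
      ∫ t : ℝ, Φ (t * Complex.I) * ∑ i ∈ S, c i * (y i : ℂ) ^ (-(t * Complex.I)) := by
    have : ∀ t : ℝ, Φ (t * Complex.I) * ∑ i ∈ S, c i * (y i : ℂ) ^ (-(t * Complex.I)) =
        ∑ i ∈ S, c i * (Φ (t * Complex.I) * (y i : ℂ) ^ (-(t * Complex.I))) := fun t => by
      rw [Finset.mul_sum]
      exact Finset.sum_congr rfl fun i _ => by ring
    simp only [this]
    rw [integral_finsetSum _ hi, Finset.mul_sum]
    refine Finset.sum_congr rfl fun i hi => ?_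
    rw [h.rep _ (hy i hi), lineI, integral_const_mul]
    simp only [Complex.ofReal_zero, zero_add]
    ring
  obtain ⟨t1, t2⟩ := WtA1_tail (U := U) hT0
  have b1 : ‖∫ t : ℝ, Φ (t * Complex.I) * ∑ i ∈ S, c i * (y i : ℂ) ^ (-(t * Complex.I))‖ ≤
      ∫ t : ℝ, (E₁ * (‖Φ (t * Complex.I)‖ * (1 + |t|) ^ J) +
        E₃ * if U ≤ |t| then Real.exp (-T⁻¹ * |t|) else 0) := by
    refine norm_integral_le_of_norm_le ((iJ.const_mul _).add (t1.const_mul _))
      (Eventually.of_forall fun t => ?_)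
    rw [norm_mul]
    refine (mul_le_mul_of_nonneg_left (hb t) (norm_nonneg _)).trans ?_
    rw [mul_add]
    refine add_le_add (le_of_eq (by ring)) ?_
    split_ifs
    · rw [mul_comm]
      refine mul_le_mul_of_nonneg_left ((h.mel (t * Complex.I) (by simp)).trans ?_) h3
      rw [show ((t : ℂ) * Complex.I).im = t by simp, show -|t| / T = -T⁻¹ * |t| by ring]
      exact mul_le_of_le_one_left (Real.exp_pos _).le
        (inv_le_one_of_one_le₀ (by linarith [abs_nonneg t]))
    · simp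
  rw [integral_add (iJ.const_mul _) (t1.const_mul _), integral_const_mul, integral_const_mul] at b1
  have b2 : ‖(1 / (2 * Real.pi) : ℂ)‖ ≤ 1 := by
    rw [norm_div, norm_one, norm_mul, Complex.norm_real, Real.norm_of_nonneg Real.pi_pos.le,
      Complex.norm_two]
    exact (div_le_one (by positivity)).2 (by linarith [Real.pi_gt_three])
  rw [e1, norm_mul]
  refine (mul_le_of_le_one_left (norm_nonneg _) b2).trans (b1.trans ?_)
  have a1 := mul_le_mul_of_nonneg_left hm h1
  have a2 := mul_le_mul_of_nonneg_left t2 h3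
  have a3 : 0 ≤ E₁ * Real.log (2 + T) * T ^ J :=
    mul_nonneg (mul_nonneg h1 (Real.log_nonneg (by linarith))) (by positivity)
  have a4 : 0 ≤ C * (E₃ * T * Real.exp (-U / T)) := by positivity
  nlinarith

end Crest.Agent.R12
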