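import Crest.Agent.R12.WtA
import Crest.Agent.R12.WtB

/-!
# Row 12, analytic half: the smooth steps are admissible
-/

set_option autoImplicit false

noncomputable section

namespace Crest.Agent.R12

open Crest.Agent.R17
open scoped ComplexConjugate Topology
open Filter MeasureTheory

theorem VT_two_mul (T y : ℝ) : VT (2 * T) y = VT T y + DT T y - DT T (2 * y) := by
  unfold VT DT; ring

open Classical in
theorem WtC0_step {T z : ℝ} (hT : 1 ≤ T) (hz : 0 < z) :
    |(if z ≤ 1 then 1 else 0) - Ec (T * Real.log z)| ≤ 2 * Real.exp (-(T + 1) * |Real.log z|) := by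
  have hT0 : 0 < T := by linarith
  have h1 : |(if z ≤ 1 then 1 else 0) - Ec (T * Real.log z)| ≤
      Real.exp (-(T * Real.log z) ^ 2) / 2 := by
    split_ifs with h
    · have h2 : 0 ≤ -(T * Real.log z) :=
        neg_nonneg.2 (mul_nonpos_of_nonneg_of_nonpos hT0.le (Real.log_nonpos hz.le h))
      have h3 := Ec_le_exp h2
      rw [neg_sq] at h3
      rwa [← Ec_add_neg (T * Real.log z), add_sub_cancel_left, abs_of_nonneg (Ec_nonneg _)]
    · rw [zero_sub, abs_neg, abs_of_nonneg (Ec_nonneg _)]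
      exact Ec_le_exp (mul_nonneg hT0.le (Real.log_nonneg (not_le.1 h).le))
  refine h1.trans ?_
  have h2 : -(T * Real.log z) ^ 2 ≤ 1 + -(T + 1) * |Real.log z| := by
    rw [mul_pow, ← sq_abs (Real.log z), ← mul_pow]
    nlinarith [sq_nonneg (T * |Real.log z| - 1), mul_nonneg (sub_nonneg.2 hT)
      (abs_nonneg (Real.log z))]
  have h3 := Real.exp_le_exp.2 h2
  rw [Real.exp_add] at h3
  have h4 := Real.exp_pos (-(T + 1) * |Real.log z|)
  nlinarith [Real.exp_one_lt_d9]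

open Classical in
theorem abs_ind_sub_VT_le {T y : ℝ} (hT : 1 ≤ T) (hy : 0 < y) :
    |(if 1 / 2 < y ∧ y ≤ 1 then 1 else 0) - VT T y| ≤
      2 * Real.exp (-(T + 1) * |Real.log y|) + 2 * Real.exp (-(T + 1) * |Real.log (2 * y)|) := by
  have e : (if 1 / 2 < y ∧ y ≤ 1 then (1 : ℝ) else 0) - VT T y =
      ((if y ≤ 1 then 1 else 0) - Ec (T * Real.log y)) -
        ((if 2 * y ≤ 1 then 1 else 0) - Ec (T * Real.log (2 * y))) := by
    unfold VT
    by_cases h1 : 2 * y ≤ 1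
    · rw [if_neg fun h => by linarith [h.1], if_pos (by linarith), if_pos h1]; ring
    · by_cases h2 : y ≤ 1
      · rw [if_pos ⟨by linarith, h2⟩, if_pos h2, if_neg h1]; ring
      · rw [if_neg fun h => h2 h.2, if_neg h2, if_neg h1]; ring
  rw [e]
  exact (abs_sub _ _).trans (add_le_add (WtC0_step hT hy) (WtC0_step hT (by positivity)))

/-- The Gaussian `(T/√π) exp (-T² log² y)` has Mellin transform `exp (s²/4T²)`. -/
theorem gauss_eq_lineI {T y : ℝ} (hT : 0 < T) (hy : 0 < y) (s₀ : ℂ) :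
    ((T / Real.sqrt Real.pi * Real.exp (-(T * Real.log y) ^ 2) : ℝ) : ℂ) * (y : ℂ) ^ s₀ =
      lineI 0 fun s => Complex.exp ((s + s₀) ^ 2 / (4 * T ^ 2)) * (y : ℂ) ^ (-s) := by
  have hT' : (T : ℂ) ≠ 0 := by exact_mod_cast hT.ne'
  have h : ∀ u : ℝ, Complex.exp ((((0 : ℝ) : ℂ) + u * Complex.I + s₀) ^ 2 / (4 * T ^ 2)) *
      (y : ℂ) ^ (-(((0 : ℝ) : ℂ) + u * Complex.I)) =
      Complex.exp (((-(4 * T ^ 2)⁻¹ : ℝ) : ℂ) * (u : ℂ) ^ 2 +
        (Complex.I * (s₀ / (2 * T ^ 2) - Real.log y)) * u + s₀ ^ 2 / (4 * T ^ 2)) := by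
    intro u
    rw [WA.cpow_eq hy, ← Complex.exp_add]
    congr 1
    push_cast
    field_simp
    linear_combination 2 * (u : ℂ) ^ 2 * Complex.I_sq
  unfold lineI
  simp_rw [h]
  rw [integral_cexp_quadratic (by rw [Complex.ofReal_re]; exact neg_neg_of_pos (by positivity))]
  have h1 : ((Real.pi : ℂ) / -((-(4 * T ^ 2)⁻¹ : ℝ) : ℂ)) = (((2 * T) ^ 2 * Real.pi : ℝ) : ℂ) := by
    push_cast; field_simp; ring
  have h2 : Real.sqrt ((2 * T) ^ 2 * Real.pi) = 2 * T * Real.sqrt Real.pi := by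
    rw [Real.sqrt_mul (by positivity), Real.sqrt_sq (by positivity)]
  have h3 : (Real.sqrt Real.pi : ℂ) * Real.sqrt Real.pi = Real.pi := by
    exact_mod_cast Real.mul_self_sqrt Real.pi_pos.le
  have h4 : (Real.pi : ℂ) ≠ 0 := by exact_mod_cast Real.pi_ne_zero
  have h6 : (Real.sqrt Real.pi : ℂ) ≠ 0 := by exact_mod_cast (Real.sqrt_pos.2 Real.pi_pos).ne'
  have h5 : s₀ ^ 2 / (4 * T ^ 2) - (Complex.I * (s₀ / (2 * T ^ 2) - Real.log y)) ^ 2 /
      (4 * ((-(4 * T ^ 2)⁻¹ : ℝ) : ℂ)) = -((T : ℂ) * Real.log y) ^ 2 + s₀ * (Real.log y : ℂ) := by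
    rw [mul_pow, Complex.I_sq]
    push_cast
    field_simp
    ring
  rw [h1, WA.cpow_half (by positivity), h2, h5, WA.cpow_eq hy, Complex.exp_add]
  push_cast
  field_simp
  linear_combination -h3

end Crest.Agent.R12
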