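import Crest.Agent.R12.WtC0

/-!
# Row 12, analytic half: the smooth steps are admissible
-/

set_option autoImplicit false

noncomputable section

namespace Crest.Agent.R12

open Crest.Agent.R17
open scoped ComplexConjugate Topology
open Filter MeasureTheory

/-- The entire function `(1 - 2^{-s}) / s`. -/
def WtC1_I (s : ℂ) : ℂ := ∫ u in (0 : ℝ)..Real.log 2, Complex.exp (-s * u)

theorem WtC1_I_ne {s : ℂ} (hs : s ≠ 0) :
    WtC1_I s = (Complex.exp (-s * (Real.log 2 : ℝ)) - 1) / (-s) := by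
  rw [WtC1_I, integral_exp_mul_complex (neg_ne_zero.2 hs)]
  simp

theorem WtC1_I_diff : Differentiable ℂ WtC1_I := by
  have e : WtC1_I = fun s => -dslope (fun s : ℂ => Complex.exp (-s * (Real.log 2 : ℝ))) 0 s := by
    funext s
    by_cases hs : s = 0
    · have h : HasDerivAt (fun s : ℂ => Complex.exp (-s * (Real.log 2 : ℝ))) _ 0 :=
        ((hasDerivAt_neg (0 : ℂ)).mul_const _).cexp
      rw [hs, dslope_same, h.deriv]
      simp [WtC1_I]
    · rw [WtC1_I_ne hs, dslope_of_ne _ hs, slope_def_field]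
      simp [div_neg]
  rw [e]
  refine Differentiable.neg (differentiableOn_univ.1
    ((Complex.differentiableOn_dslope univ_mem).2 ?_))
  fun_prop

theorem WtC1_exp_le {s : ℂ} {R u : ℝ} (hs : |s.re| ≤ R) (h0 : 0 ≤ u) (h1 : u ≤ Real.log 2) :
    ‖Complex.exp (-s * u)‖ ≤ Real.exp (R * Real.log 2) := by
  rw [Complex.norm_exp]
  refine Real.exp_le_exp.2 ?_
  have h2 : (-s * u).re = -s.re * u := by simp
  rw [h2]
  exact mul_le_mul (by linarith [neg_abs_le s.re]) h1 h0 ((abs_nonneg _).trans hs)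

theorem WtC1_I_le {s : ℂ} {R : ℝ} (hs : |s.re| ≤ R) : ‖WtC1_I s‖ ≤ Real.exp (R * Real.log 2) := by
  have h0 : 0 < Real.log 2 := Real.log_pos one_lt_two
  refine (intervalIntegral.norm_integral_le_of_norm_le_const
    (C := Real.exp (R * Real.log 2)) fun u hu => ?_).trans ?_
  · rw [Set.uIoc_of_le h0.le] at hu
    exact WtC1_exp_le hs hu.1.le hu.2
  · rw [sub_zero, abs_of_pos h0]
    exact mul_le_of_le_one_right (Real.exp_pos _).le (by linarith [Real.log_two_lt_d9])

theorem WtC1_I_le' {s : ℂ} (hs : |s.re| ≤ 3) : ‖WtC1_I s‖ * (2 + |s.im|) ≤ 25 := by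
  have h8 : Real.exp (3 * Real.log 2) = 8 := by
    rw [show (3 : ℝ) = (3 : ℕ) by norm_num, Real.exp_nat_mul, Real.exp_log two_pos]
    norm_num
  have h1 := WtC1_I_le hs
  rw [h8] at h1
  have h2 : ‖WtC1_I s‖ * |s.im| ≤ 9 := by
    by_cases h0 : s = 0
    · simp [h0]
    · have h3 := WtC1_exp_le hs (Real.log_pos one_lt_two).le le_rfl
      have h4 := norm_sub_le (Complex.exp (-s * (Real.log 2 : ℝ))) 1
      rw [h8] at h3
      rw [norm_one] at h4
      refine (mul_le_mul_of_nonneg_left (Complex.abs_im_le_norm s) (norm_nonneg _)).trans ?_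
      rw [WtC1_I_ne h0, norm_div, norm_neg, div_mul_cancel₀ _ (norm_ne_zero_iff.2 h0)]
      linarith
  linarith

theorem WtC1_E_le {T R : ℝ} (hT : 1 ≤ T) (k : ℝ) {s : ℂ} (hs : |s.re| ≤ R) :
    ‖Complex.exp (s ^ 2 / (4 * T ^ 2))‖ ≤ Real.exp (R ^ 2 / 4 + (k * T) ^ 2 - k * |s.im|) := by
  rw [Complex.norm_exp]
  refine Real.exp_le_exp.2 ?_
  have h2 : (s ^ 2 / (4 * T ^ 2)).re = s.re ^ 2 / (4 * T ^ 2) - (|s.im| / (2 * T)) ^ 2 := by
    rw [show (4 * (T : ℂ) ^ 2) = ((4 * T ^ 2 : ℝ) : ℂ) by push_cast; rfl, Complex.div_ofReal_re,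
      div_pow, sq_abs, sq s, Complex.mul_re]
    ring
  have h3 : s.re ^ 2 / (4 * T ^ 2) ≤ R ^ 2 / 4 := by
    rw [← sq_abs s.re]
    gcongr
    nlinarith
  have h4 : k * |s.im| = 2 * (|s.im| / (2 * T)) * (k * T) := by field_simp
  rw [h2, h4]
  nlinarith [sq_nonneg (|s.im| / (2 * T) - k * T)]

theorem WtC1_VT_nonneg {T y : ℝ} (hT : 0 ≤ T) (hy : 0 < y) : 0 ≤ VT T y :=
  sub_nonneg.2 (antitone_Ec (mul_le_mul_of_nonneg_left (Real.log_le_log hy (by linarith)) hT))

theorem WtC1_VT_le {T y d : ℝ} (hT : 0 ≤ T) (hy : 0 < y) (hd : 0 ≤ d)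
    (h : d = 0 ∨ d = Real.log y ∨ d = -Real.log y - Real.log 2) :
    VT T y ≤ Real.exp (-(T * d) ^ 2) := by
  have h1 := Ec_le_exp (mul_nonneg hT hd)
  have h2 := Real.exp_pos (-(T * d) ^ 2)
  have h3 := Ec_nonneg (T * Real.log (2 * y))
  have h4 := Ec_le_one (T * Real.log y)
  have h5 := Ec_add_neg (T * Real.log (2 * y))
  unfold VT
  rcases h with h | h | h
  · rw [h]
    simp only [mul_zero, ne_eq, OfNat.ofNat_ne_zero, not_false_eq_true, zero_pow, neg_zero,
      Real.exp_zero]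
    linarith
  · rw [← h]
    linarith
  · rw [show -(T * Real.log (2 * y)) = T * d by rw [h, Real.log_mul two_ne_zero hy.ne']; ring] at h5
    linarith

theorem WtC1_norm_le {c T y d B : ℝ} {s₀ : ℂ} (hT : 0 ≤ T) (hy : 0 < y) (hd : 0 ≤ d)
    (hs : ‖s₀‖ ≤ 1) (h : d = 0 ∨ d = Real.log y ∨ d = -Real.log y - Real.log 2)
    (hB : c - (T * d) ^ 2 + |Real.log y| ≤ B) :
    ‖((Real.exp c * VT T y : ℝ) : ℂ) * (y : ℂ) ^ s₀‖ ≤ Real.exp B := by
  have h0 := WtC1_VT_nonneg hT hy
  rw [norm_mul, Complex.norm_real, Real.norm_of_nonneg (by positivity),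
    Complex.norm_cpow_eq_rpow_re_of_pos hy, Real.rpow_def_of_pos hy]
  have h1 : Real.log y * s₀.re ≤ |Real.log y| := by
    refine (le_abs_self _).trans ?_
    rw [abs_mul]
    exact mul_le_of_le_one_right (abs_nonneg _) ((Complex.abs_re_le_norm _).trans hs)
  calc _ ≤ Real.exp c * Real.exp (-(T * d) ^ 2) * Real.exp |Real.log y| := by
        gcongr
        exact WtC1_VT_le hT hy hd h
    _ ≤ _ := by
        rw [← Real.exp_add, ← Real.exp_add]
        exact Real.exp_le_exp.2 (by linarith)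

theorem WtC1_VT_eq (T : ℝ) {y : ℝ} (hy : 0 < y) : VT T y = ∫ u in (0 : ℝ)..Real.log 2,
    T / Real.sqrt Real.pi * Real.exp (-(T * Real.log (y * Real.exp u)) ^ 2) := by
  have h := intervalIntegral.mul_integral_comp_mul_add (a := 0) (b := Real.log 2)
    (f := fun u => Real.exp (-u ^ 2)) T (T * Real.log y)
  rw [VT, Ec_sub, Real.log_mul two_ne_zero hy.ne', mul_add, intervalIntegral.integral_const_mul]
  simp only [Real.log_mul hy.ne' (Real.exp_pos _).ne', Real.log_exp, mul_add,
    add_comm (T * Real.log y)]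
  rw [mul_zero, zero_add] at h
  rw [← h]
  ring

theorem WtC1_rep {T y : ℝ} (hT : 1 ≤ T) (hy : 0 < y) {s₀ : ℂ} (hs : ‖s₀‖ ≤ 1) :
    (VT T y : ℂ) * (y : ℂ) ^ s₀ = lineI 0 fun s =>
      Complex.exp ((s + s₀) ^ 2 / (4 * T ^ 2)) * WtC1_I (s + s₀) * (y : ℂ) ^ (-s) := by
  have hy' : (y : ℂ) ≠ 0 := Complex.ofReal_ne_zero.2 hy.ne'
  have hp : ∀ (u : ℝ) (s : ℂ),
      ((y * Real.exp u : ℝ) : ℂ) ^ s = (y : ℂ) ^ s * Complex.exp (s * u) := fun u s => by
    rw [Complex.ofReal_mul, Complex.mul_cpow_ofReal_nonneg hy.le (Real.exp_pos u).le,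
      Complex.cpow_def_of_ne_zero (Complex.ofReal_ne_zero.2 (Real.exp_pos u).ne'),
      ← Complex.ofReal_log (Real.exp_pos u).le, Real.log_exp, mul_comm (u : ℂ)]
  set F : ℝ → ℝ → ℂ := fun u t => Complex.exp (((0 : ℝ) + t * Complex.I + s₀) ^ 2 / (4 * T ^ 2)) *
    Complex.exp (-((0 : ℝ) + t * Complex.I + s₀) * u) * (y : ℂ) ^ (-((0 : ℝ) + t * Complex.I))
    with hF
  have hre : ∀ t : ℝ, |(((0 : ℝ) : ℂ) + t * Complex.I + s₀).re| ≤ 1 := fun t => by
    simpa using (Complex.abs_re_le_norm _).trans hs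
  have hi : Integrable (Function.uncurry F)
      ((volume.restrict (Set.uIoc 0 (Real.log 2))).prod volume) := by
    have h1 : Integrable (fun _ : ℝ => Real.exp (2 + T ^ 2) * Real.exp (1 * Real.log 2))
        (volume.restrict (Set.uIoc 0 (Real.log 2))) :=
      integrableOn_const (by simp [Set.uIoc])
    refine (h1.mul_prod (RMA.integrable_exp_abs one_pos)).mono' ?_ ?_
    · refine Continuous.aestronglyMeasurable ?_
      refine Continuous.mul (by fun_prop) (Continuous.const_cpow (by fun_prop) (Or.inl hy'))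
    · rw [← Measure.restrict_univ (μ := (volume : Measure ℝ)), Measure.restrict_restrict
        measurableSet_uIoc, Set.inter_univ, Measure.prod_restrict]
      refine ae_restrict_of_forall_mem (measurableSet_uIoc.prod MeasurableSet.univ)
        fun ⟨u, t⟩ hz => ?_
      have hu := hz.1
      rw [Set.uIoc_of_le (Real.log_pos one_lt_two).le] at hu
      have h2 := WtC1_E_le hT 1 (hre t)
      have h3 := WtC1_exp_le (hre t) hu.1.le hu.2
      have h4 : |t| - 1 ≤ |(((0 : ℝ) : ℂ) + t * Complex.I + s₀).im| := by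
        have := abs_sub_abs_le_abs_add t s₀.im
        have := (Complex.abs_im_le_norm _).trans hs
        simp only [Complex.add_im, Complex.ofReal_im, Complex.mul_im, Complex.ofReal_re,
          Complex.I_im, Complex.I_re, mul_one, mul_zero, add_zero, zero_add]
        linarith
      simp only [hF, Function.uncurry_apply_pair, norm_mul, Complex.norm_cpow_eq_rpow_re_of_pos hy]
      rw [show (-(((0 : ℝ) : ℂ) + t * Complex.I)).re = 0 by simp, Real.rpow_zero, mul_one,
        mul_right_comm, ← Real.exp_add (2 + T ^ 2)]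
      exact mul_le_mul (h2.trans (Real.exp_le_exp.2 (by linarith))) h3 (norm_nonneg _)
        (Real.exp_pos _).le
  calc _ = ∫ u in (0 : ℝ)..Real.log 2, (1 / (2 * Real.pi) : ℂ) * ∫ t : ℝ, F u t := by
        rw [WtC1_VT_eq T hy, ← intervalIntegral.integral_ofReal,
          ← intervalIntegral.integral_mul_const]
        refine intervalIntegral.integral_congr fun u _ => ?_
        have h := gauss_eq_lineI (by linarith : 0 < T) (mul_pos hy (Real.exp_pos u)) s₀
        have e : Complex.exp (s₀ * u) * Complex.exp (-s₀ * u) = 1 := by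
          rw [← Complex.exp_add]; simp
        simp only [hp, lineI] at h
        rw [show (y : ℂ) ^ s₀ = (y : ℂ) ^ s₀ * Complex.exp (s₀ * u) * Complex.exp (-s₀ * u) by
          rw [mul_assoc, e, mul_one], ← mul_assoc, h, mul_assoc, ← integral_mul_const]
        congr 2
        funext t
        rw [hF]
        simp only
        rw [show -(((0 : ℝ) : ℂ) + t * Complex.I + s₀) * u =
          -(((0 : ℝ) : ℂ) + t * Complex.I) * u + -s₀ * u by ring, Complex.exp_add]
        ring
    _ = _ := by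
        rw [intervalIntegral.integral_const_mul, intervalIntegral_integral_swap hi, lineI]
        congr 2
        funext t
        rw [hF, WtC1_I]
        simp only
        rw [intervalIntegral.integral_mul_const, intervalIntegral.integral_const_mul]

/-- `VT T y = ∫_0^{log 2} (T/√π) exp (-T² log² (y e^u)) du`, so
`Φ(s) = exp (s²/4T²) ∫_0^{log 2} e^{-su} du`. -/
theorem admS_VT : ∃ c : ℝ, 0 < c ∧ ∀ T : ℝ, 4 ≤ T →
    ∃ Φ : ℂ → ℂ, AdmS (fun y => ((c * VT T y : ℝ) : ℂ)) Φ T 1 := by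
  refine ⟨Real.exp (-8), Real.exp_pos _, fun T hT => ⟨fun s => (Real.exp (-8) : ℝ) *
    (Complex.exp (s ^ 2 / (4 * T ^ 2)) * WtC1_I s), fun s₀ hs => ?_⟩⟩
  have hT1 : 1 ≤ T := by linarith
  have hl := Real.log_two_gt_d9
  have hl' := Real.log_two_lt_d9
  have hre := (Complex.abs_re_le_norm _).trans hs
  have him : ∀ s : ℂ, |s.im| - 1 ≤ |(s + s₀).im| := fun s => by
    have := abs_sub_abs_le_abs_add s.im s₀.im
    have := (Complex.abs_im_le_norm _).trans hs
    rw [Complex.add_im]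
    linarith
  have hre' : ∀ (s : ℂ) (R : ℝ), |s.re| ≤ R → |(s + s₀).re| ≤ R + 1 := fun s R h => by
    rw [Complex.add_re]
    linarith [abs_add_le s.re s₀.re]
  have hmel : ∀ s : ℂ, |s.re| ≤ 2 → ‖((Real.exp (-8) : ℝ) : ℂ) *
      (Complex.exp ((s + s₀) ^ 2 / (4 * T ^ 2)) * WtC1_I (s + s₀))‖ ≤
      (1 + |s.im|)⁻¹ * Real.exp (-|s.im| / T) := fun s h => by
    have h1 := WtC1_E_le hT1 T⁻¹ (hre' s 2 h)
    have h2 := WtC1_I_le' ((hre' s 2 h).trans (by norm_num))
    have h3 : ‖WtC1_I (s + s₀)‖ ≤ (1 + |s.im|)⁻¹ * Real.exp 4 := by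
      rw [inv_mul_eq_div, le_div_iff₀ (by positivity)]
      have h4 : (25 : ℝ) ≤ Real.exp 4 := by
        have := Real.add_one_le_exp 2
        have := Real.quadratic_le_exp_of_nonneg (show (0 : ℝ) ≤ 2 by norm_num)
        rw [show (4 : ℝ) = 2 + 2 by norm_num, Real.exp_add]
        nlinarith
      exact (mul_le_mul_of_nonneg_left (by linarith [him s]) (norm_nonneg _)).trans (h2.trans h4)
    have h5 : T⁻¹ * (|s.im| - 1) ≤ T⁻¹ * |(s + s₀).im| :=
      mul_le_mul_of_nonneg_left (him s) (by positivity)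
    have h6 : T⁻¹ ≤ 1 / 4 := by rw [← one_div]; gcongr
    rw [inv_mul_cancel₀ (by positivity)] at h1
    rw [norm_mul, norm_mul, Complex.norm_real, Real.norm_of_nonneg (Real.exp_pos _).le]
    calc _ ≤ Real.exp (-8) * (Real.exp (4 + -|s.im| / T) * ((1 + |s.im|)⁻¹ * Real.exp 4)) := by
          gcongr
          refine h1.trans (Real.exp_le_exp.2 ?_)
          rw [neg_div, div_eq_inv_mul |s.im|]
          linarith
      _ = (1 + |s.im|)⁻¹ * Real.exp (-8 + (4 + -|s.im| / T) + 4) := by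
          simp only [Real.exp_add]; ring
      _ = _ := by congr 2; ring
  refine ⟨le_rfl, hT1, ⟨?_, fun a b => ?_⟩, fun y hy => ?_, hmel, fun s h => ?_, fun y hy => ?_,
    fun y hy h => ?_⟩
  · have := WtC1_I_diff
    fun_prop
  · refine ⟨Real.exp (-8) * (Real.exp ((|a| + |b| + 1) ^ 2 / 4 + (10 * T) ^ 2 + 10) *
      Real.exp ((|a| + |b| + 1) * Real.log 2)), fun s ha hb => ?_⟩
    have h0 := hre' s (|a| + |b|) (abs_le.2 ⟨by linarith [neg_abs_le a, abs_nonneg b],
      by linarith [le_abs_self b, abs_nonneg a]⟩)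
    have h1 := WtC1_E_le hT1 10 h0
    rw [norm_mul, norm_mul, Complex.norm_real, Real.norm_of_nonneg (Real.exp_pos _).le, mul_assoc,
      mul_right_comm, ← Real.exp_add]
    exact mul_le_mul_of_nonneg_left (mul_le_mul (h1.trans (Real.exp_le_exp.2
      (by linarith [him s]))) (WtC1_I_le h0) (norm_nonneg _) (Real.exp_pos _).le)
      (Real.exp_pos _).le
  · simp only
    rw [Complex.ofReal_mul, mul_assoc, WtC1_rep hT1 hy hs, lineI, lineI, mul_left_comm,
      ← integral_const_mul]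
    simp only [mul_assoc]
  · refine (hmel s h).trans ?_
    rw [inv_one]
    exact mul_le_one₀ (inv_le_one_of_one_le₀ (by linarith [abs_nonneg s.im])) (Real.exp_pos _).le
      (Real.exp_le_one_iff.2 (div_nonpos_of_nonpos_of_nonneg (neg_nonpos.2 (abs_nonneg _))
        (by linarith)))
  · have key : ∀ d : ℝ, 0 ≤ d → 3 * d - 1 ≤ (T * d) ^ 2 := fun d hd => by
      have : 4 * d ≤ T * d := by gcongr
      nlinarith [sq_nonneg (T * d - 1)]
    rcases le_total 0 (Real.log y) with h | h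
    · refine WtC1_norm_le (by linarith) hy h hs (Or.inr (Or.inl rfl)) ?_
      rw [abs_of_nonneg h]
      linarith [key _ h]
    · rcases le_total 0 (-Real.log y - Real.log 2) with h' | h'
      · refine WtC1_norm_le (by linarith) hy h' hs (Or.inr (Or.inr rfl)) ?_
        rw [abs_of_nonpos h]
        linarith [key _ h']
      · refine WtC1_norm_le (by linarith) hy le_rfl hs (Or.inl rfl) ?_
        rw [abs_of_nonpos h]
        nlinarith
  · rcases h with h | h
    · have h1 : Real.log y ≤ -(2 * Real.log 2) := by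
        refine (Real.log_le_log hy h.le).trans_eq ?_
        rw [show (1 / 4 : ℝ) = (2 ^ 2)⁻¹ by norm_num, Real.log_inv, Real.log_pow]
        norm_num
      refine WtC1_norm_le (d := -Real.log y - Real.log 2) (by linarith) hy (by linarith) hs
        (Or.inr (Or.inr rfl)) ?_
      rw [abs_of_nonpos (by linarith)]
      have h2 : 4 * -Real.log y ≤ T * -Real.log y := by gcongr; linarith
      have h3 : (T * (-Real.log y / 2)) ^ 2 ≤ (T * (-Real.log y - Real.log 2)) ^ 2 := by
        gcongr <;> linarith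
      nlinarith
    · have h1 : Real.log 2 ≤ Real.log y := Real.log_le_log two_pos h.le
      refine WtC1_norm_le (d := Real.log y) (by linarith) hy (by linarith) hs
        (Or.inr (Or.inl rfl)) ?_
      rw [abs_of_nonneg (by linarith)]
      have h2 : 4 * Real.log y ≤ T * Real.log y := by gcongr; linarith
      nlinarith

end Crest.Agent.R12
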